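import Vale.Agent.P177.Chi

/-! P177 module Bridge: comparison with the `Tor` functor of Mathlib. -/

namespace Vale.Agent.P177

open Vale.Agent.P202 CategoryTheory

universe u

namespace BridgeAux

open TensorProduct

section Lin
variable {R : Type u} [CommRing R] {ι : Type} [Fintype ι] [DecidableEq ι]

/-- Extension by zero from the degree `n` part. -/
def emb (R : Type u) [CommRing R] (dg : ι → ℕ) (V : Type u) [AddCommGroup V] [Module R V]
    (n : ℕ) : ({a // dg a = n} → V) →ₗ[R] (ι → V) where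
  toFun v a := if h : dg a = n then v ⟨a, h⟩ else 0
  map_add' v w := by
    funext a
    by_cases h : dg a = n <;> simp [h]
  map_smul' r v := by
    funext a
    by_cases h : dg a = n <;> simp [h]

/-- Restriction to the degree `n` part. -/
def res (R : Type u) [CommRing R] (dg : ι → ℕ) (V : Type u) [AddCommGroup V] [Module R V]
    (n : ℕ) : (ι → V) →ₗ[R] ({a // dg a = n} → V) := LinearMap.funLeft R V Subtype.val

/-- The block of the differential from degree `i` to degree `j`. -/
def blk (D : Matrix ι ι R) (dg : ι → ℕ) (V : Type u) [AddCommGroup V] [Module R V] (i j : ℕ) :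
    ({a // dg a = i} → V) →ₗ[R] ({a // dg a = j} → V) :=
  res R dg V j ∘ₗ cx D dg V ∘ₗ emb R dg V i

variable {D : Matrix ι ι R} {dg : ι → ℕ} {V : Type u} [AddCommGroup V] [Module R V]

omit [Fintype ι] [DecidableEq ι] in
theorem emb_apply (n : ℕ) (v : {a // dg a = n} → V) (a : ι) :
    emb R dg V n v a = if h : dg a = n then v ⟨a, h⟩ else 0 := rfl

omit [Fintype ι] [DecidableEq ι] in
theorem res_apply (n : ℕ) (v : ι → V) (a : {a // dg a = n}) : res R dg V n v a = v a.1 := rfl

omit [DecidableEq ι] in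
theorem blk_apply (i j : ℕ) (v : {a // dg a = i} → V) :
    blk D dg V i j v = res R dg V j (cx D dg V (emb R dg V i v)) := rfl

omit [Fintype ι] [DecidableEq ι] in
theorem res_emb (n : ℕ) (v : {a // dg a = n} → V) : res R dg V n (emb R dg V n v) = v := by
  funext a
  rw [res_apply, emb_apply, dif_pos a.2]

omit [Fintype ι] [DecidableEq ι] in
theorem emb_res (n : ℕ) (v : ι → V) (h : ∀ a, (dg a : ℤ) ≠ n → v a = 0) :
    emb R dg V n (res R dg V n v) = v := by
  funext a
  rw [emb_apply]
  split_ifs with e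
  · rfl
  · exact (h a (by exact_mod_cast e)).symm

omit [Fintype ι] [DecidableEq ι] in
theorem emb_sp (n : ℕ) (v : {a // dg a = n} → V) (a : ι) (h : (dg a : ℤ) ≠ n) :
    emb R dg V n v a = 0 := by
  rw [emb_apply, dif_neg (by exact_mod_cast h)]

omit [DecidableEq ι] in
theorem cx_sp (hD : IsMC D (zd dg)) {i : ℤ} {v : ι → V} (h : ∀ a, (dg a : ℤ) ≠ i → v a = 0)
    (a : ι) (ha : (dg a : ℤ) + 1 ≠ i) : cx D dg V v a = 0 := by
  rw [cx_apply]
  refine Finset.sum_eq_zero fun b _ => ?_
  by_cases e : D a b = 0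
  · rw [e, zero_smul]
  · have := hD.homog a b e
    simp only [zd] at this
    rw [h b (by omega), smul_zero]

omit [DecidableEq ι] in
theorem cx_cx (hD : IsMC D (zd dg)) (v : ι → V) : cx D dg V (cx D dg V v) = 0 := by
  funext a
  simp only [cx_apply, Finset.smul_sum, smul_smul]
  rw [Finset.sum_comm]
  refine Finset.sum_eq_zero fun c _ => ?_
  rw [← Finset.sum_smul, ← Matrix.mul_apply, hD.sq, Matrix.zero_apply, zero_smul]

omit [DecidableEq ι] in
theorem blk_shape (hD : IsMC D (zd dg)) {i j : ℕ} (h : j + 1 ≠ i) : blk D dg V i j = 0 := by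
  refine LinearMap.ext fun v => funext fun a => ?_
  rw [blk_apply, res_apply]
  refine cx_sp hD (emb_sp i v) _ ?_
  have := a.2
  omega

omit [DecidableEq ι] in
theorem emb_blk (hD : IsMC D (zd dg)) (j : ℕ) (v : {a // dg a = j + 1} → V) :
    emb R dg V j (blk D dg V (j + 1) j v) = cx D dg V (emb R dg V (j + 1) v) := by
  rw [blk_apply]
  refine emb_res j _ fun a ha => cx_sp hD (emb_sp (j + 1) v) _ ?_
  push_cast
  omega

omit [DecidableEq ι] in
theorem blk_blk (hD : IsMC D (zd dg)) (i j k : ℕ) : blk D dg V j k ∘ₗ blk D dg V i j = 0 := by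
  by_cases h : j + 1 = i
  · subst h
    refine LinearMap.ext fun v => ?_
    rw [LinearMap.comp_apply, blk_apply j k, emb_blk hD, cx_cx hD, map_zero, LinearMap.zero_apply]
  · rw [blk_shape hD h, LinearMap.comp_zero]

omit [DecidableEq ι] in
theorem blk_next (hD : IsMC D (zd dg)) (i : ℕ) (v : {a // dg a = i} → V) :
    blk D dg V i ((ComplexShape.down ℕ).next i) v = 0 ↔ cx D dg V (emb R dg V i v) = 0 := by
  refine ⟨fun h => ?_, fun h => by rw [blk_apply, h, map_zero]⟩
  cases i with
  | zero => exact funext fun a => cx_sp hD (emb_sp 0 v) a (by push_cast; omega)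
  | succ j =>
    rw [ChainComplex.next_nat_succ] at h
    rw [← emb_blk hD, h, map_zero]

theorem blk_tensor (i j : ℕ) (x : V ⊗[R] ({a // dg a = i} → R)) :
    piScalarRight R R V _ ((blk D dg R i j).lTensor V x) =
      blk D dg V i j (piScalarRight R R V _ x) := by
  induction x using TensorProduct.induction_on with
  | zero => simp
  | add x y hx hy => simp only [map_add, hx, hy]
  | tmul m f =>
    funext a
    simp only [LinearMap.lTensor_tmul, piScalarRight_apply, piScalarRightHom_tmul, blk_apply,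
      res_apply, cx_apply, Finset.sum_smul, emb_apply]
    refine Finset.sum_congr rfl fun b _ => ?_
    split_ifs with h
    · rw [smul_eq_mul, mul_smul]
    · simp

omit [DecidableEq ι] in
/-- The homology of a three term complex isomorphic to a piece of the matrix complex. -/
theorem length_piece (hD : IsMC D (zd dg)) (i p : ℕ) (hp : p = i + 1) {X₁ X₂ X₃ : Type u}
    [AddCommGroup X₁] [Module R X₁] [AddCommGroup X₂] [Module R X₂] [AddCommGroup X₃]
    [Module R X₃] (f : X₁ →ₗ[R] X₂) (g : X₂ →ₗ[R] X₃) (f' : X₁ →ₗ[R] LinearMap.ker g)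
    (hf' : ∀ x, (f' x : X₂) = f x) (e₁ : X₁ ≃ₗ[R] ({a // dg a = p} → V))
    (e₂ : X₂ ≃ₗ[R] ({a // dg a = i} → V))
    (e₃ : X₃ ≃ₗ[R] ({a // dg a = (ComplexShape.down ℕ).next i} → V))
    (hf : ∀ x, e₂ (f x) = blk D dg V p i (e₁ x)) (hg : ∀ x, e₃ (g x) = blk D dg V i _ (e₂ x)) :
    Module.length R (LinearMap.ker g ⧸ LinearMap.range f') = mlen R D dg V i := by
  subst hp
  have hc : ∀ w : ι → V, w ∈ cyc (cx D dg V) (fam dg (⊤ : Submodule R V))
      (fam dg (⊥ : Submodule R V)) i ↔ (∀ a, (dg a : ℤ) ≠ i → w a = 0) ∧ cx D dg V w = 0 := by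
    intro w
    simp [cyc, fam_bot, mem_fam]
  have hk : ∀ w : cyc (cx D dg V) (fam dg (⊤ : Submodule R V)) (fam dg (⊥ : Submodule R V)) i,
      (e₂.symm.toLinearMap ∘ₗ res R dg V i ∘ₗ Submodule.subtype _) w ∈ LinearMap.ker g := by
    intro w
    obtain ⟨h1, h2⟩ := (hc w).1 w.2
    rw [LinearMap.mem_ker, ← e₃.map_eq_zero_iff, hg, blk_next hD]
    simp only [LinearMap.comp_apply, LinearEquiv.coe_coe, LinearEquiv.apply_symm_apply,
      Submodule.subtype_apply]
    rw [emb_res i _ h1, h2]
  rw [mlen, hl]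
  symm
  refine rl_eq_of_surj ((LinearMap.range f').mkQ ∘ₗ LinearMap.codRestrict _ _ hk) ?_ ?_
  · refine (Submodule.mkQ_surjective _).comp fun x => ?_
    refine ⟨⟨emb R dg V i (e₂ x), (hc _).2 ⟨emb_sp i _, ?_⟩⟩, Subtype.ext ?_⟩
    · rw [← blk_next hD, ← hg, x.2, map_zero]
    · simp [res_emb]
  · intro w
    obtain ⟨h1, h2⟩ := (hc w).1 w.2
    rw [LinearMap.comp_apply, Submodule.mkQ_apply, Submodule.Quotient.mk_eq_zero, bdy, fam_bot,
      sup_bot_eq]
    constructor
    · rintro ⟨y, hy⟩
      have h3 := congrArg (fun z : LinearMap.ker g => e₂ z) hy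
      simp only [hf', hf, LinearMap.codRestrict_apply, LinearMap.comp_apply, LinearEquiv.coe_coe,
        LinearEquiv.apply_symm_apply, Submodule.subtype_apply] at h3
      refine ⟨emb R dg V (i + 1) (e₁ y), mem_fam.2 fun a => ⟨fun _ => trivial, fun ha =>
        emb_sp _ _ a (by exact_mod_cast ha)⟩, ?_⟩
      rw [LinearMap.restrictScalars_apply, ← emb_blk hD, h3, emb_res i _ h1]
    · rintro ⟨y, hy, hw⟩
      refine ⟨e₁.symm (res R dg V (i + 1) y), Subtype.ext (e₂.injective ?_)⟩
      rw [LinearMap.restrictScalars_apply] at hw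
      simp only [hf', hf, LinearMap.codRestrict_apply, LinearMap.comp_apply, LinearEquiv.coe_coe,
        LinearEquiv.apply_symm_apply, Submodule.subtype_apply]
      rw [blk_apply, emb_res (i + 1) y fun a ha => (mem_fam.1 hy a).2 (by exact_mod_cast ha), hw]

/-- The matrix complex as a chain complex of modules. -/
noncomputable def cplx (hD : IsMC D (zd dg)) : ChainComplex (ModuleCat.{u} R) ℕ where
  X n := ModuleCat.of R ({a // dg a = n} → R)
  d i j := ModuleCat.ofHom (blk D dg R i j)
  shape i j h := by rw [blk_shape hD h]; rfl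
  d_comp_d' i j k _ _ := by
    rw [← ModuleCat.ofHom_comp, blk_blk hD]; rfl

end Lin

variable {R : Type u} [CommRing R] {N : ModuleCat.{u} R} (F : Resol R N)

theorem eps_zero (w : {a // F.dg a = 1} → R) :
    F.ε (emb R F.dg R 0 (blk F.D F.dg R 1 0 w)) = 0 := by
  rw [F.ker]
  refine ⟨emb R F.dg R 1 w, emb_sp 1 w, fun a _ => ?_⟩
  rw [emb_blk F.mc 0 w, cx_eq_mulVec]

theorem eps_ker (v : {a // F.dg a = 0} → R) (h : F.ε (emb R F.dg R 0 v) = 0) :
    ∃ w, blk F.D F.dg R 1 0 w = v := by
  obtain ⟨w, h1, h2⟩ := (F.ker _).1 h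
  refine ⟨res R F.dg R 1 w, funext fun a => ?_⟩
  rw [blk_apply, emb_res 1 w h1, res_apply, cx_eq_mulVec, ← h2 a a.2, emb_apply, dif_pos a.2]

theorem eps_surj (x : N) : ∃ v, F.ε (emb R F.dg R 0 v) = x := by
  obtain ⟨v, rfl⟩ := F.surj x
  refine ⟨res R F.dg R 0 v, ?_⟩
  rw [← sub_eq_zero, ← map_sub, F.ker]
  refine ⟨0, fun _ _ => rfl, fun a ha => ?_⟩
  rw [Matrix.mulVec_zero, Pi.sub_apply, emb_apply, dif_pos ha, res_apply, sub_self, Pi.zero_apply]

theorem ex_succ (n : ℕ) (v : {a // F.dg a = n + 1} → R) (h : blk F.D F.dg R (n + 1) n v = 0) :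
    ∃ w, blk F.D F.dg R (n + 2) (n + 1) w = v := by
  have h0 : F.D.mulVec (emb R F.dg R (n + 1) v) = 0 := by
    rw [← cx_eq_mulVec F.D F.dg, ← emb_blk F.mc, h, map_zero]
  obtain ⟨w, h1, h2⟩ := F.ex (n + 1) (Nat.succ_pos n) (ENat.natCast_lt_top _) _ (emb_sp (n + 1) v) h0
  refine ⟨res R F.dg R (n + 2) w, ?_⟩
  rw [blk_apply, emb_res (n + 2) w fun a ha => h1 a (by simp only [zd]; push_cast at ha ⊢; omega),
    cx_eq_mulVec, ← h2, res_emb]

/-- The augmentation. -/
noncomputable def aug : (cplx F.mc).X 0 ⟶ N := ModuleCat.ofHom (F.ε ∘ₗ emb R F.dg R 0)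

theorem d_aug : (cplx F.mc).d 1 0 ≫ aug F = 0 :=
  ModuleCat.hom_ext (LinearMap.ext fun w => eps_zero F w)

/-- The projective resolution attached to `F`. -/
noncomputable def pres : ProjectiveResolution N where
  complex := cplx F.mc
  projective n := ModuleCat.projective_of_free (Pi.basisFun R {a // F.dg a = n})
  π := (ChainComplex.toSingle₀Equiv _ _).symm ⟨aug F, d_aug F⟩
  quasiIso := ⟨fun n => by
    cases n with
    | zero =>
      rw [ChainComplex.quasiIsoAt₀_iff, ShortComplex.quasiIso_iff_of_zeros']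
      · refine (ShortComplex.exact_and_epi_g_iff_of_iso
          (S₂ := ShortComplex.mk _ _ (d_aug F)) ?_).2 ⟨?_, ?_⟩
        · refine ShortComplex.isoMk (Iso.refl _) (Iso.refl _) (Iso.refl _) rfl ?_
          exact (Category.id_comp (aug F)).trans
            ((ChainComplex.toSingle₀Equiv_symm_apply_f_zero _ (d_aug F)).symm.trans
              (Category.comp_id _).symm)
        · rw [ShortComplex.moduleCat_exact_iff]
          exact eps_ker F
        · exact (ModuleCat.epi_iff_surjective _).2 (eps_surj F)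
      · exact (cplx F.mc).shape 0 0 (by simp)
      all_goals rfl
    | succ n =>
      rw [quasiIsoAt_iff_exactAt' _ _ (ChainComplex.exactAt_succ_single_obj _ _),
        HomologicalComplex.exactAt_iff' _ (n + 2) (n + 1) n (by simp) (by simp),
        ShortComplex.moduleCat_exact_iff]
      exact ex_succ F n⟩

end BridgeAux

open BridgeAux MonoidalCategory in
/-- Turn `F` into a `ProjectiveResolution` (objects `{a // dg a = n} → R` or the submodules
`fam dg ⊤ n`), use `ProjectiveResolution.isoLeftDerivedObj` and compute the homology of the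
resulting complex of modules (`ShortComplex.moduleCatHomologyIso`). -/
theorem length_tor {R : Type u} [CommRing R] (M N : ModuleCat.{u} R) (F : Resol R N) (i : ℕ) :
    Module.length R (((Tor (ModuleCat.{u} R) i).obj M).obj N) = mlen R F.D F.dg M i := by
  have e1 := (pres F).isoLeftDerivedObj ((tensoringLeft (ModuleCat.{u} R)).obj M) i
  have e2 := (((((tensoringLeft (ModuleCat.{u} R)).obj M).mapHomologicalComplex _).obj
    (pres F).complex).sc i).moduleCatHomologyIso
  refine (e1 ≪≫ e2).toLinearEquiv.length_eq.trans ?_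
  exact length_piece F.mc i ((ComplexShape.down ℕ).prev i) (ChainComplex.prev ℕ i)
    ((blk F.D F.dg R _ i).lTensor M) ((blk F.D F.dg R i _).lTensor M) _ (fun _ => rfl)
    (TensorProduct.piScalarRight R R M _) (TensorProduct.piScalarRight R R M _)
    (TensorProduct.piScalarRight R R M _) (blk_tensor _ _) (blk_tensor _ _)

end Vale.Agent.P177
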