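import Vale.Agent.P177.Defs

/-! P177: linear algebra of matrix complexes over a field, and matchings of graded sets. -/

namespace Vale.Agent.P177.BL

open Vale.Agent.P202 Module Matrix

variable {ι : Type} [Fintype ι] [DecidableEq ι] {dg : ι → ℕ}

theorem card_deg (dg : ι → ℕ) (j : ℕ) :
    (Fintype.card {b // dg b = j} : ℤ) = sAlt dg j + sAlt dg (j + 1) := by
  rw [Fintype.card_subtype, Finset.card_filter, sAlt, sAlt, ← Finset.sum_add_distrib]
  push_cast
  refine Finset.sum_congr rfl fun b _ => ?_
  rcases lt_trichotomy (dg b) j with h | h | h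
  · rw [if_neg h.ne, if_neg (by omega), if_neg (by omega), add_zero]
  · rw [if_pos h, if_pos h.ge, if_neg (by omega), h, Nat.sub_self, pow_zero, add_zero]
  · rw [if_neg h.ne', if_pos h.le, if_pos (by omega),
      show dg b - j = dg b - (j + 1) + 1 by omega, pow_succ]
    ring

theorem sAlt_eq_zero {j : ℕ} (h : ∀ b, dg b < j) : sAlt dg j = 0 :=
  Finset.sum_eq_zero fun b _ => if_neg (h b).not_ge

section Field
variable {K : Type*} [Field K] {M : Matrix ι ι K}

/-- Vectors supported in degree `i`. -/
def S (K : Type*) [Field K] (dg : ι → ℕ) (i : ℤ) : Submodule K (ι → K) :=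
  Submodule.pi {b | (dg b : ℤ) ≠ i} fun _ => ⊥

theorem mem_S {i : ℤ} {v : ι → K} : v ∈ S K dg i ↔ ∀ b, (dg b : ℤ) ≠ i → v b = 0 := Iff.rfl

/-- The rank of the differential with source in degree `i`. -/
noncomputable def rk (M : Matrix ι ι K) (dg : ι → ℕ) (i : ℤ) : ℕ :=
  finrank K ((S K dg i).map M.mulVecLin)

theorem rank_nullity {V W : Type*} [AddCommGroup V] [Module K V] [AddCommGroup W] [Module K W]
    [Module.Finite K V] (f : V →ₗ[K] W) (P : Submodule K V) :
    finrank K (P.map f) + finrank K (P ⊓ LinearMap.ker f : Submodule K V) = finrank K P := by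
  rw [← (f.domRestrict P).finrank_range_add_finrank_ker, LinearMap.range_domRestrict,
    LinearMap.ker_domRestrict, ← Submodule.map_comap_subtype, Submodule.finrank_map_subtype_eq]

theorem finrank_S (j : ℕ) : finrank K (S K dg j) = Fintype.card {b // dg b = j} := by
  rw [← finrank_fintype_fun_eq_card K]
  refine LinearEquiv.finrank_eq (LinearEquiv.ofBijective
    ((LinearMap.funLeft K K (Subtype.val : {b // dg b = j} → ι)).domRestrict _) ⟨?_, ?_⟩)
  · rw [injective_iff_map_eq_zero]
    intro v hv
    refine Subtype.ext (funext fun b => ?_)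
    by_cases hb : dg b = j
    · exact congrFun hv ⟨b, hb⟩
    · exact mem_S.1 v.2 b (by exact_mod_cast hb)
  · intro w
    refine ⟨⟨fun b => if h : dg b = j then w ⟨b, h⟩ else 0, mem_S.2 fun b hb => ?_⟩,
      funext fun b => dif_pos b.2⟩
    exact dif_neg (by exact_mod_cast hb)

theorem fam_top (i : ℤ) : fam dg (⊤ : Submodule K K) i = S K dg i := by
  ext v
  rw [mem_totFam, mem_S]
  refine forall_congr' fun b => ?_
  unfold conc zd
  by_cases h : (dg b : ℤ) = i
  · rw [if_pos (by omega)]
    exact ⟨fun _ h' => absurd h h', fun _ => trivial⟩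
  · rw [if_neg (by omega)]
    exact ⟨fun h' _ => h', fun h' => h' h⟩

theorem fam_bot (i : ℤ) : fam dg (⊥ : Submodule K K) i = ⊥ := by
  ext v
  rw [mem_totFam, Submodule.mem_bot, funext_iff]
  refine forall_congr' fun b => ?_
  unfold conc
  rw [ite_self]
  rfl

theorem cx_eq : cx M dg K = M.mulVecLin := by
  refine LinearMap.ext fun v => funext fun a => ?_
  rw [tot_apply, LinearMap.zero_apply, smul_zero, add_zero]
  rfl

theorem map_S_le (hM : IsHomog M (zd dg) 1) (i : ℤ) :
    (S K dg (i + 1)).map M.mulVecLin ≤ S K dg i := by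
  rintro _ ⟨v, hv, rfl⟩
  refine mem_S.2 fun a ha => Finset.sum_eq_zero fun b _ => ?_
  change M a b * v b = 0
  by_cases h : M a b = 0
  · rw [h, zero_mul]
  · have := hM a b h
    unfold zd at this
    rw [mem_S.1 hv b (by omega), mul_zero]

theorem mlen_spec (hM : IsMC M (zd dg)) (i : ℤ) : ∃ h : ℕ, mlen K M dg K i = h ∧
    h + rk M dg i + rk M dg (i + 1) = finrank K (S K dg i) := by
  have e1 : cyc (cx M dg K) (fam dg (⊤ : Submodule K K)) (fam dg ⊥) i
      = S K dg i ⊓ LinearMap.ker M.mulVecLin := by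
    rw [cyc, fam_top, fam_bot, cx_eq]
    rfl
  have e2 : bdy (cx M dg K) (fam dg (⊤ : Submodule K K)) (fam dg ⊥) i
      = (S K dg (i + 1)).map M.mulVecLin := by
    rw [bdy, fam_top, fam_bot, cx_eq, sup_bot_eq]
    rfl
  have h1 : (S K dg (i + 1)).map M.mulVecLin ≤ S K dg i ⊓ LinearMap.ker M.mulVecLin := by
    refine le_inf (map_S_le hM.homog i) ?_
    rintro _ ⟨v, -, rfl⟩
    rw [LinearMap.mem_ker, mulVecLin_apply, mulVecLin_apply, mulVec_mulVec, hM.sq, zero_mulVec]
  have h2 := rl_add bot_le h1
  rw [rl_bot, rl_bot, Module.length_eq_finrank, Module.length_eq_finrank] at h2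
  have h3 := rank_nullity M.mulVecLin (S K dg i)
  unfold mlen hl rk
  rw [e1, e2]
  generalize rl (S K dg i ⊓ LinearMap.ker M.mulVecLin) ((S K dg (i + 1)).map M.mulVecLin) = t
    at h2 ⊢
  induction t with
  | top => exact absurd h2 (by simp)
  | coe t =>
    have h4 : finrank K (S K dg i ⊓ LinearMap.ker M.mulVecLin : Submodule K (ι → K))
        = t + finrank K ((S K dg (i + 1)).map M.mulVecLin) := by exact_mod_cast h2
    exact ⟨t, rfl, by omega⟩

theorem rk_congr {M' : Matrix ι ι K} {i : ℤ} (h : ∀ a b, (dg b : ℤ) = i → M a b = M' a b) :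
    rk M dg i = rk M' dg i := by
  have key : ∀ v ∈ S K dg i, M.mulVecLin v = M'.mulVecLin v := by
    intro v hv
    refine funext fun a => Finset.sum_congr rfl fun b _ => ?_
    change M a b * v b = M' a b * v b
    by_cases hb : (dg b : ℤ) = i
    · rw [h a b hb]
    · rw [mem_S.1 hv b hb, mul_zero, mul_zero]
  have e : (S K dg i).map M.mulVecLin = (S K dg i).map M'.mulVecLin := by
    ext w
    exact ⟨fun ⟨v, hv, e⟩ => ⟨v, hv, (key v hv).symm.trans e⟩,
      fun ⟨v, hv, e⟩ => ⟨v, hv, (key v hv).trans e⟩⟩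
  rw [rk, rk, e]

theorem rk_eq_sAlt (hM : IsMC M (zd dg)) {j : ℕ} (h : ∀ i : ℤ, (j : ℤ) ≤ i → mlen K M dg K i = 0) :
    (rk M dg j : ℤ) = sAlt dg j := by
  have key : ∀ k i : ℕ, j ≤ i → (∀ b, dg b < i + k) → (rk M dg i : ℤ) = sAlt dg i := by
    intro k
    induction k with
    | zero =>
      intro i _ hb
      have e : S K dg i = ⊥ := eq_bot_iff.2 fun v hv =>
        funext fun b => mem_S.1 hv b (by have := hb b; omega)
      rw [sAlt_eq_zero (j := i) hb, rk, e, Submodule.map_bot, finrank_bot, Nat.cast_zero]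
    | succ k ih =>
      intro i hi hb
      have h1 := ih (i + 1) (by omega) fun b => by have := hb b; omega
      obtain ⟨t, h2, h3⟩ := mlen_spec hM i
      rw [h i (by omega)] at h2
      have h4 : t = 0 := by exact_mod_cast h2.symm
      have h5 := card_deg dg i
      rw [finrank_S] at h3
      push_cast at h1
      omega
  exact key (Finset.univ.sup dg + 1) j le_rfl fun b => by
    have : dg b ≤ Finset.univ.sup dg := Finset.le_sup (Finset.mem_univ b)
    omega

/-- The projection to degree `i`. -/
def pj (K : Type*) [Field K] (dg : ι → ℕ) (i : ℤ) : Matrix ι ι K :=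
  diagonal fun b => if (dg b : ℤ) = i then 1 else 0

theorem range_pj (i : ℤ) : LinearMap.range (pj K dg i).mulVecLin = S K dg i := by
  ext v
  constructor
  · rintro ⟨w, rfl⟩
    refine mem_S.2 fun b hb => ?_
    rw [mulVecLin_apply, pj, mulVec_diagonal, if_neg hb, zero_mul]
  · intro hv
    refine ⟨v, funext fun b => ?_⟩
    rw [mulVecLin_apply, pj, mulVec_diagonal]
    split_ifs with hb
    · rw [one_mul]
    · rw [zero_mul, mem_S.1 hv b hb]

theorem row_rank (hM : IsHomog M (zd dg) 1) (i : ℤ) :
    finrank K ((S K dg i).map M.vecMulLinear) = rk M dg (i + 1) := by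
  have e : pj K dg i * M = M * pj K dg (i + 1) := by
    ext a b
    rw [pj, pj, diagonal_mul, mul_diagonal]
    by_cases h : M a b = 0
    · rw [h, mul_zero, zero_mul]
    · have := hM a b h
      unfold zd at this
      rw [mul_comm]
      exact congrArg _ (if_congr (by omega) rfl rfl)
  have e1 : (M * pj K dg (i + 1)).rank = rk M dg (i + 1) := by
    rw [Matrix.rank, mulVecLin_mul, LinearMap.range_comp, range_pj, rk]
  have e2 : (pj K dg i * M)ᵀ.rank = finrank K ((S K dg i).map M.vecMulLinear) := by
    rw [Matrix.rank, transpose_mul, mulVecLin_mul, LinearMap.range_comp, pj, diagonal_transpose,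
      ← pj, range_pj, mulVecLin_transpose]
  rw [← e2, rank_transpose, e, e1]

theorem span_rows (M : Matrix ι ι K) (j : ℕ) :
    Submodule.span K (Set.range fun a : {a // dg a = j} => M a.1)
      = (S K dg j).map M.vecMulLinear := by
  apply le_antisymm
  · rw [Submodule.span_le]
    rintro _ ⟨a, rfl⟩
    refine ⟨Pi.single a.1 1, mem_S.2 fun b hb => Pi.single_eq_of_ne ?_ _, ?_⟩
    · rintro rfl
      exact hb (by rw [a.2])
    · rw [vecMulLinear_apply, single_one_vecMul]
      rfl
  · rintro _ ⟨v, hv, rfl⟩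
    rw [vecMulLinear_apply, vecMul_eq_sum]
    refine Submodule.sum_mem _ fun a _ => ?_
    by_cases ha : dg a = j
    · exact Submodule.smul_mem _ _ (Submodule.subset_span ⟨⟨a, ha⟩, rfl⟩)
    · rw [mem_S.1 hv a (by exact_mod_cast ha), zero_smul]
      exact Submodule.zero_mem _

theorem pi_eq_S (j : ℕ) : Submodule.pi {b | dg b ≠ j} (fun _ => (⊥ : Submodule K K)) = S K dg j := by
  unfold S
  simp only [ne_eq, Nat.cast_inj]

end Field

theorem exists_match (dg : ι → ℕ) (s : Finset ι)
    (hs : ∀ j, 0 ≤ ∑ b ∈ s, if j ≤ dg b then (-1 : ℤ) ^ (dg b - j) else 0) :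
    ∃ f : ι → ι, (∀ b, f (f b) = b) ∧ (∀ b ∉ s, f b = b) ∧
      ∀ b ∈ s, (f b = b ∧ dg b = 0) ∨ dg (f b) + 1 = dg b ∨ dg b + 1 = dg (f b) := by
  induction s using Finset.strongInduction with
  | H s ih =>
    by_cases h0 : ∀ b ∈ s, dg b = 0
    · exact ⟨id, fun _ => rfl, fun _ _ => rfl, fun b hb => Or.inl ⟨rfl, h0 b hb⟩⟩
    push Not at h0
    obtain ⟨b0, hb0, hd0⟩ := h0
    obtain ⟨b, hb, hmax⟩ := s.exists_max_image dg ⟨b0, hb0⟩
    have hb1 := hmax b0 hb0
    obtain ⟨c, hc, hcb⟩ : ∃ c ∈ s, dg c + 1 = dg b := by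
      by_contra hne
      push Not at hne
      refine absurd (hs (dg b - 1)) (not_le.2 (Finset.sum_neg' (fun x hx => ?_) ⟨b, hb, ?_⟩))
      · have := hne x hx
        have := hmax x hx
        split_ifs
        · rw [show dg x - (dg b - 1) = 1 by omega]
          norm_num
        · exact le_rfl
      · rw [if_pos (by omega), show dg b - (dg b - 1) = 1 by omega]
        norm_num
    have hbc : c ≠ b := by
      rintro rfl
      omega
    have hc' : c ∈ s.erase b := Finset.mem_erase.2 ⟨hbc, hc⟩
    obtain ⟨f, f1, f2, f3⟩ := ih ((s.erase b).erase c)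
      ((Finset.erase_subset _ _).trans_ssubset (Finset.erase_ssubset hb)) fun j => by
        by_cases hj : j ≤ dg c
        · have := hs j
          rw [← Finset.add_sum_erase _ _ hb, ← Finset.add_sum_erase _ _ hc', if_pos hj,
            if_pos (by omega), show dg b - j = dg c - j + 1 by omega, pow_succ] at this
          linarith
        · refine Finset.sum_nonneg fun x hx => ?_
          have := hmax x (Finset.mem_of_mem_erase (Finset.mem_of_mem_erase hx))
          split_ifs
          · rw [show dg x - j = 0 by omega]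
            norm_num
          · exact le_rfl
    have fb : f b = b := f2 b fun h => Finset.notMem_erase b s (Finset.mem_of_mem_erase h)
    have fc : f c = c := f2 c (Finset.notMem_erase c _)
    refine ⟨fun x => if x = b then c else if x = c then b else f x, fun x => ?_, fun x hx => ?_,
      fun x hx => ?_⟩
    · by_cases h1 : x = b
      · simp [h1, hbc]
      by_cases h2 : x = c
      · simp [h2, hbc]
      have h3 : f x ≠ b := fun h => h1 (by rw [← f1 x, h, fb])
      have h4 : f x ≠ c := fun h => h2 (by rw [← f1 x, h, fc])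
      simp [h1, h2, h3, h4, f1]
    · have h1 : x ≠ b := fun h => hx (h ▸ hb)
      have h2 : x ≠ c := fun h => hx (h ▸ hc)
      simp only [if_neg h1, if_neg h2]
      exact f2 x fun h => hx (Finset.mem_of_mem_erase (Finset.mem_of_mem_erase h))
    · by_cases h1 : x = b
      · simp [h1, hcb]
      by_cases h2 : x = c
      · simp [h2, hbc, hcb]
      simp only [if_neg h1, if_neg h2]
      exact f3 x (Finset.mem_erase.2 ⟨h2, Finset.mem_erase.2 ⟨h1, hx⟩⟩)

theorem exists_split_aux (R : Type*) [CommRing R] (h : ∀ j, 0 ≤ sAlt dg j) :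
    ∃ D H P : Matrix ι ι R, IsMC D (zd dg) ∧ IsHomR H dg dg (-1) ∧
      (∀ a b, P a b ≠ 0 → dg a < 1 ∧ dg b = dg a) ∧ D * H + H * D = (1 : R) • 1 - P := by
  obtain ⟨f, f1, -, f3⟩ := exists_match dg Finset.univ h
  have f4 := fun b => f3 b (Finset.mem_univ b)
  have hD : ∀ a b, (if a = f b ∧ dg a + 1 = dg b then (1 : R) else 0) ≠ 0 →
      a = f b ∧ dg a + 1 = dg b := fun a b hab => of_not_not fun hn => hab (if_neg hn)
  refine ⟨Matrix.of fun a b => if a = f b ∧ dg a + 1 = dg b then 1 else 0,
    Matrix.of fun b a => if a = f b ∧ dg a + 1 = dg b then 1 else 0,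
    diagonal fun a => if f a = a then 1 else 0, ⟨?_, fun a b hab => ?_⟩, fun a b hab => ?_,
    fun a b hab => ?_, ?_⟩
  · ext a b
    rw [Matrix.mul_apply]
    refine Finset.sum_eq_zero fun c _ => ?_
    rw [of_apply, of_apply]
    by_cases h1 : c = f b ∧ dg c + 1 = dg b
    · rw [if_neg, zero_mul]
      rintro ⟨h2, h3⟩
      rw [h2, h1.1, f1] at h3
      rw [h1.1] at h1
      omega
    · rw [if_neg h1, mul_zero]
  · have := (hD a b hab).2
    unfold zd
    omega
  · have := (hD b a hab).2
    omega
  · have h1 : a = b := of_not_not fun hn => hab (diagonal_apply_ne _ hn)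
    subst h1
    rw [diagonal_apply_eq] at hab
    have h2 : f a = a := of_not_not fun hn => hab (if_neg hn)
    have := f4 a
    rw [h2] at this
    omega
  · ext a b
    rw [Matrix.add_apply, Matrix.mul_apply, Matrix.mul_apply, Finset.sum_eq_single (f a),
      Finset.sum_eq_single (f a), one_smul, Matrix.sub_apply]
    · simp only [of_apply, f1, true_and]
      by_cases hab : a = b
      · subst hab
        rw [one_apply_eq, diagonal_apply_eq]
        rcases f4 a with ⟨h1, h2⟩ | h1 | h1
        · simp [h1]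
        · have h2 : f a ≠ a := fun h => by rw [h] at h1; omega
          have h3 : dg a + 1 ≠ dg (f a) := by omega
          simp [h1, h2, h3]
        · have h2 : f a ≠ a := fun h => by rw [h] at h1; omega
          have h3 : dg (f a) + 1 ≠ dg a := by omega
          simp [h1, h2, h3]
      · have h1 : f a ≠ f b := fun h => hab (by rw [← f1 a, h, f1])
        rw [one_apply_ne hab, diagonal_apply_ne _ hab, if_neg (c := b = a ∧ _)
          fun h => hab h.1.symm, if_neg (c := f a = f b ∧ _) fun h => h1 h.1]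
        ring
    · intro c _ hc
      rw [of_apply, if_neg fun h => hc h.1, zero_mul]
    · exact fun h => absurd (Finset.mem_univ _) h
    · intro c _ hc
      rw [of_apply, if_neg fun h => hc (by rw [h.1, f1]), zero_mul]
    · exact fun h => absurd (Finset.mem_univ _) h

end Vale.Agent.P177.BL
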