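import Vale.Agent.P177.TMain

/-! P177 module Hev: homogeneous evaluation of weighted polynomial matrices; compatibility with
the derived exterior power. -/

namespace Vale.Agent.P177

open Vale.Agent.P202 Polynomial

universe u

variable {R : Type u} [CommRing R] {R' : Type*} [CommRing R'] (φ : R →+* R') (x s : R')

theorem hev_zero (n : ℕ) : hev φ x s n 0 = 0 := by simp [hev]
theorem hev_add (n : ℕ) (f g : R[X]) : hev φ x s n (f + g) = hev φ x s n f + hev φ x s n g := by
  simp only [hev, coeff_add, map_add, add_mul, Finset.sum_add_distrib]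
theorem hev_neg (n : ℕ) (f : R[X]) : hev φ x s n (-f) = -hev φ x s n f := by
  simp only [hev, coeff_neg, map_neg, neg_mul, Finset.sum_neg_distrib]
theorem hev_sum {κ : Type*} (t : Finset κ) (n : ℕ) (f : κ → R[X]) :
    hev φ x s n (∑ k ∈ t, f k) = ∑ k ∈ t, hev φ x s n (f k) := by
  classical
  induction t using Finset.induction_on with
  | empty => simp [hev_zero]
  | insert a t ha ih => rw [Finset.sum_insert ha, Finset.sum_insert ha, hev_add, ih]
theorem hev_C_mul (n : ℕ) (r : R) (f : R[X]) : hev φ x s n (C r * f) = φ r * hev φ x s n f := by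
  simp only [hev, coeff_C_mul, map_mul, Finset.mul_sum, mul_assoc]

theorem hev_monomial {n k : ℕ} (hk : k ≤ n) (r : R) :
    hev φ x s n (monomial k r) = φ r * x ^ k * s ^ (n - k) := by
  unfold hev
  rw [Finset.sum_eq_single k]
  · rw [coeff_monomial_same]
  · intro b _ hb
    rw [coeff_monomial_of_ne _ hb, map_zero, zero_mul, zero_mul]
  · intro h
    exact absurd (Finset.mem_range.2 (Nat.lt_succ_of_le hk)) h

theorem hev_C (n : ℕ) (r : R) : hev φ x s n (C r) = φ r * s ^ n := by
  rw [← monomial_zero_left, hev_monomial φ x s (Nat.zero_le n), pow_zero, mul_one, Nat.sub_zero]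
theorem hev_X_mul (n : ℕ) (f : R[X]) : hev φ x s (n + 1) (X * f) = x * hev φ x s n f := by
  unfold hev
  rw [Finset.sum_range_succ', Finset.mul_sum]
  simp only [coeff_X_mul, mul_coeff_zero, coeff_X_zero, zero_mul, map_zero, add_zero,
    Nat.add_sub_add_right]
  exact Finset.sum_congr rfl fun i _ => by ring
theorem hev_mul {n k : ℕ} {f g : R[X]} (hf : f.natDegree ≤ n) (hg : g.natDegree ≤ k) :
    hev φ x s (n + k) (f * g) = hev φ x s n f * hev φ x s k g := by
  have h1 := f.as_sum_range' (n + 1) (Nat.lt_succ_of_le hf)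
  have h2 := g.as_sum_range' (k + 1) (Nat.lt_succ_of_le hg)
  have h3 : f * g = ∑ i ∈ Finset.range (n + 1), ∑ j ∈ Finset.range (k + 1),
      monomial (i + j) (f.coeff i * g.coeff j) := by
    conv_lhs => rw [h1, h2, Finset.sum_mul_sum]
    simp only [monomial_mul_monomial]
  rw [h3, hev_sum]
  conv_rhs => rw [hev, hev, Finset.sum_mul_sum]
  refine Finset.sum_congr rfl fun i hi => ?_
  rw [hev_sum]
  refine Finset.sum_congr rfl fun j hj => ?_
  have hi' := Nat.le_of_lt_succ (Finset.mem_range.1 hi)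
  have hj' := Nat.le_of_lt_succ (Finset.mem_range.1 hj)
  have e : n + k - (i + j) = (n - i) + (k - j) := by omega
  rw [hev_monomial φ x s (add_le_add hi' hj'), e, map_mul, pow_add, pow_add]
  ring
theorem hev_succ {n : ℕ} {f : R[X]} (hf : f.natDegree ≤ n) (k : ℕ) :
    hev φ x s (n + k) f = hev φ x s n f * s ^ k := by
  have h := hev_mul φ x s hf (g := C 1) (k := k) (by simp)
  rwa [hev_C, map_one, map_one, mul_one, one_mul] at h
theorem map_hev {R'' : Type*} [CommRing R''] (ψ : R' →+* R'') (n : ℕ) (f : R[X]) :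
    ψ (hev φ x s n f) = hev (ψ.comp φ) (ψ x) (ψ s) n f := by
  simp only [hev, map_sum, map_mul, map_pow, RingHom.comp_apply]
theorem hev_lead (n : ℕ) (f : R[X]) : hev φ 1 0 n f = φ (f.coeff n) := by
  unfold hev
  rw [Finset.sum_range_succ, Finset.sum_eq_zero]
  · simp
  · intro i hi
    have hi' : n - i ≠ 0 := by have := Finset.mem_range.1 hi; omega
    rw [zero_pow hi', mul_zero]
theorem hev_one {n : ℕ} {f : R[X]} (hf : f.natDegree ≤ n) : hev φ x 1 n f = f.eval₂ φ x := by
  rw [eval₂_eq_sum_range' φ (Nat.lt_succ_of_le hf)]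
  simp only [hev, one_pow, mul_one]
theorem hev_of_mul {n : ℕ} {f : R[X]} (hf : f.natDegree ≤ n) (t : R') :
    hev φ (t * s) s n f = f.eval₂ φ t * s ^ n := by
  rw [eval₂_eq_sum_range' φ (Nat.lt_succ_of_le hf), Finset.sum_mul]
  refine Finset.sum_congr rfl fun i hi => ?_
  have hi' := Nat.le_of_lt_succ (Finset.mem_range.1 hi)
  obtain ⟨j, rfl⟩ := Nat.exists_eq_add_of_le hi'
  rw [Nat.add_sub_cancel_left, mul_pow, pow_add]
  ring

theorem hev_reflect_eq (n : ℕ) (f : R[X]) :
    hev C 1 X n f = ∑ i ∈ Finset.range (n + 1), monomial (n - i) (f.coeff i) := by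
  simp only [hev, one_pow, mul_one, C_mul_X_pow_eq_monomial]

/-- Reflection is an involution. -/
theorem natDegree_hev_reflect (n : ℕ) (f : R[X]) : (hev C 1 X n f).natDegree ≤ n := by
  rw [hev_reflect_eq]
  exact natDegree_sum_le_of_forall_le _ _ fun i _ =>
    (natDegree_monomial_le _).trans (Nat.sub_le _ _)
theorem hev_hev_reflect (n : ℕ) (f : R[X]) : hev φ x s n (hev C 1 X n f) = hev φ s x n f := by
  rw [hev_reflect_eq, hev_sum]
  refine Finset.sum_congr rfl fun i hi => ?_
  have hi' := Nat.le_of_lt_succ (Finset.mem_range.1 hi)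
  rw [hev_monomial φ x s (Nat.sub_le _ _), Nat.sub_sub_self hi']
  ring

/-- `f` has degree at most `a - b` (and vanishes if `a < b`), and `g` is the value of its
homogenisation. -/
def HevR (a b : ℕ) (f : R[X]) (g : R') : Prop :=
  (f ≠ 0 → f.natDegree + b ≤ a) ∧ (if b ≤ a then hev φ x s (a - b) f else 0) = g

namespace HevR
variable {φ x s} {a b a' b' : ℕ} {f f' : R[X]} {g g' : R'}

theorem zero : HevR φ x s a b 0 0 := ⟨fun h => absurd rfl h, by simp [hev_zero]⟩

theorem eq_zero (h : HevR φ x s a b f g) (hf : f = 0) : g = 0 := by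
  rw [← h.2, hf]; simp [hev_zero]

theorem add (h : HevR φ x s a b f g) (h' : HevR φ x s a b f' g') :
    HevR φ x s a b (f + f') (g + g') := by
  refine ⟨fun hne => ?_, ?_⟩
  · by_cases hf : f = 0
    · rw [hf, zero_add] at hne ⊢; exact h'.1 hne
    by_cases hf' : f' = 0
    · rw [hf', add_zero]; exact h.1 hf
    have h1 := h.1 hf
    have h2 := h'.1 hf'
    have h3 := natDegree_add_le f f'
    omega
  · rw [← h.2, ← h'.2]
    split_ifs
    · exact hev_add φ x s _ _ _
    · exact (add_zero _).symm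

theorem sum {κ : Type*} (t : Finset κ) {F : κ → R[X]} {G : κ → R'}
    (h : ∀ k ∈ t, HevR φ x s a b (F k) (G k)) : HevR φ x s a b (∑ k ∈ t, F k) (∑ k ∈ t, G k) := by
  classical
  induction t using Finset.induction_on with
  | empty => simpa using zero
  | insert k t hk ih =>
    rw [Finset.sum_insert hk, Finset.sum_insert hk]
    exact (h k (Finset.mem_insert_self _ _)).add
      (ih fun j hj => h j (Finset.mem_insert_of_mem hj))

theorem shift (h : HevR φ x s a b f g) (e : a + b' = a' + b) : HevR φ x s a' b' f g := by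
  refine ⟨fun hne => by have := h.1 hne; omega, ?_⟩
  rw [← h.2]
  by_cases hab : b ≤ a
  · rw [if_pos hab, if_pos (by omega), show a' - b' = a - b by omega]
  · rw [if_neg hab, if_neg (by omega)]

theorem mul (h : HevR φ x s a b f g) (h' : HevR φ x s a' b' f' g') :
    HevR φ x s (a + a') (b + b') (f * f') (g * g') := by
  by_cases hf : f = 0
  · rw [h.eq_zero hf, hf, zero_mul, zero_mul]; exact zero
  by_cases hf' : f' = 0
  · rw [h'.eq_zero hf', hf', mul_zero, mul_zero]; exact zero
  have h1 := h.1 hf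
  have h2 := h'.1 hf'
  have h3 : (f * f').natDegree ≤ f.natDegree + f'.natDegree := natDegree_mul_le
  refine ⟨fun _ => by omega, ?_⟩
  rw [← h.2, ← h'.2, if_pos (by omega), if_pos (by omega), if_pos (by omega),
    show a + a' - (b + b') = (a - b) + (a' - b') by omega]
  exact hev_mul φ x s (by omega) (by omega)

theorem const (r : R) : HevR φ x s a a (C r) (φ r) :=
  ⟨fun _ => by rw [natDegree_C, zero_add], by rw [if_pos le_rfl, hev_C, Nat.sub_self]; simp⟩

theorem one : HevR φ x s a a 1 1 := by simpa using const (φ := φ) (x := x) (s := s) (a := a) 1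

theorem intCast (z : ℤ) : HevR φ x s a a (z : R[X]) (z : R') := by
  simpa using const (φ := φ) (x := x) (s := s) (a := a) (z : R)

theorem sgn (i : ℕ) : HevR φ x s a a ((-1) ^ i) ((-1) ^ i) := by
  simpa using const (φ := φ) (x := x) (s := s) (a := a) ((-1) ^ i)

theorem prod {κ : Type*} (t : Finset κ) {A B : κ → ℕ} {F : κ → R[X]} {G : κ → R'}
    (h : ∀ k ∈ t, HevR φ x s (A k) (B k) (F k) (G k)) :
    HevR φ x s (∑ k ∈ t, A k) (∑ k ∈ t, B k) (∏ k ∈ t, F k) (∏ k ∈ t, G k) := by
  classical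
  induction t using Finset.induction_on with
  | empty => simpa using one
  | insert k t hk ih =>
    rw [Finset.sum_insert hk, Finset.sum_insert hk, Finset.prod_insert hk, Finset.prod_insert hk]
    exact (h k (Finset.mem_insert_self _ _)).mul
      (ih fun j hj => h j (Finset.mem_insert_of_mem hj))

theorem det {κ : Type*} [Fintype κ] [DecidableEq κ] {A B : κ → ℕ} {M : Matrix κ κ R[X]}
    {N : Matrix κ κ R'} (h : ∀ i j, HevR φ x s (A i) (B j) (M i j) (N i j)) :
    HevR φ x s (∑ k, A k) (∑ k, B k) M.det N.det := by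
  rw [Matrix.det_apply', Matrix.det_apply']
  refine sum _ fun σ _ => ?_
  refine ((intCast (a := 0) _).mul (prod Finset.univ fun i _ => h (σ i) i)).shift ?_
  rw [Equiv.sum_comp σ A]
  omega

theorem ite {P : Prop} [Decidable P] (h : HevR φ x s a b f g) :
    HevR φ x s a b (if P then f else 0) (if P then g else 0) := by
  split_ifs
  · exact h
  · exact zero
end HevR

variable {ι ι' ι'' : Type} [Fintype ι] [Fintype ι'] [Fintype ι'']
  {w : ι → ℕ} {w' : ι' → ℕ} {w'' : ι'' → ℕ}

omit [Fintype ι] [Fintype ι'] in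
theorem Wt.hevR {D : Matrix ι' ι R[X]} (hD : Wt w' w D) (a : ι') (b : ι) :
    HevR φ x s (w' a) (w b) (D a b) (grM φ x s w' w D a b) := ⟨hD a b, rfl⟩

omit [Fintype ι] [Fintype ι''] in
theorem hevR_mul {E : Matrix ι'' ι' R[X]} {D : Matrix ι' ι R[X]} (hE : Wt w'' w' E)
    (hD : Wt w' w D) (a : ι'') (b : ι) : HevR φ x s (w'' a) (w b) ((E * D) a b)
      ((grM φ x s w'' w' E * grM φ x s w' w D) a b) := by
  rw [Matrix.mul_apply, Matrix.mul_apply]
  exact HevR.sum _ fun k _ => ((hE.hevR φ x s a k).mul (hD.hevR φ x s k b)).shift (by omega)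

theorem Wt.mul {E : Matrix ι'' ι' R[X]} {D : Matrix ι' ι R[X]} (hE : Wt w'' w' E)
    (hD : Wt w' w D) : Wt w'' w (E * D) :=
  fun a b => (hevR_mul (RingHom.id R) 0 0 hE hD a b).1
theorem grM_mul {E : Matrix ι'' ι' R[X]} {D : Matrix ι' ι R[X]} (hE : Wt w'' w' E)
    (hD : Wt w' w D) : grM φ x s w'' w (E * D) = grM φ x s w'' w' E * grM φ x s w' w D :=
  Matrix.ext fun a b => (hevR_mul φ x s hE hD a b).2
theorem grM_add (E D : Matrix ι' ι R[X]) :
    grM φ x s w' w (E + D) = grM φ x s w' w E + grM φ x s w' w D := by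
  ext a b
  simp only [grM, Matrix.add_apply]
  split_ifs
  · exact hev_add φ x s _ _ _
  · exact (add_zero _).symm
theorem grM_map {R'' : Type*} [CommRing R''] (ψ : R' →+* R'') (D : Matrix ι' ι R[X]) :
    (grM φ x s w' w D).map ψ = grM (ψ.comp φ) (ψ x) (ψ s) w' w D := by
  ext a b
  simp only [grM, Matrix.map_apply]
  split_ifs
  · exact map_hev φ x s ψ _ _
  · exact map_zero ψ
theorem isMC_grM {dg : ι → ℕ} {D : Matrix ι ι R[X]} (hD : IsMC D (zd dg)) (hw : Wt w w D) :
    IsMC (grM φ x s w w D) (zd dg) := by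
  refine ⟨?_, fun a b hab => hD.homog a b fun h0 => hab ((hw.hevR φ x s a b).eq_zero h0)⟩
  rw [← grM_mul φ x s hw hw, hD.sq]
  exact Matrix.ext fun a b => (HevR.zero (φ := φ) (x := x) (s := s) (a := w a) (b := w b)).2
theorem grM_one {D : Matrix ι' ι R[X]} (hw : Wt w' w D) :
    grM φ x 1 w' w D = D.map (eval₂RingHom φ x) := by
  ext a b
  rw [Matrix.map_apply, coe_eval₂RingHom]
  by_cases h0 : D a b = 0
  · rw [(hw.hevR φ x 1 a b).eq_zero h0, h0, eval₂_zero]
  · have h1 := hw a b h0
    simp only [grM]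
    rw [if_pos (by omega), hev_one φ x (by omega)]
theorem wt_grM_reflect (D : Matrix ι' ι R[X]) : Wt w' w (grM C 1 X w' w D) := by
  intro a b hab
  simp only [grM] at hab ⊢
  by_cases h : w b ≤ w' a
  · rw [if_pos h]
    have := natDegree_hev_reflect (w' a - w b) (D a b)
    omega
  · exact absurd (if_neg h) hab
theorem grM_grM_reflect (D : Matrix ι' ι R[X]) :
    grM φ x s w' w (grM C 1 X w' w D) = grM φ s x w' w D := by
  ext a b
  simp only [grM]
  split_ifs
  · exact hev_hev_reflect φ x s _ _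
  · rfl

theorem hev_sum_enum {c : ℕ} {J : Type} (S : PS c J) (F : J → ℕ) :
    ∑ i, F (enum S i) = ∑ j ∈ S.1, F j := by
  rw [← Finset.sum_coe_sort S.1 F]
  exact Equiv.sum_comp (S.1.equivFinOfCardEq S.2).symm fun j => F j

theorem hevR_pull [DecidableEq ι] {m : ℕ} {dg : ι → ℕ} {D : Matrix ι ι R[X]} (hw : Wt w w D)
    (θ : Fin (m + 1) → Fin (m + 1)) (y' y : SJ m dg) :
    HevR φ x s (w y'.b) (w y.b) (pull m dg dg D θ 1 y' y)
      (pull m dg dg (grM φ x s w w D) θ 1 y' y) := by
  simp only [pull, brM, Matrix.mul_one]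
  refine HevR.add (HevR.ite ?_) (HevR.ite (hw.hevR φ x s _ _))
  by_cases h : y'.b = y.b
  · rw [h, Matrix.one_apply_eq, Matrix.one_apply_eq]; exact HevR.one
  · rw [Matrix.one_apply_ne h, Matrix.one_apply_ne h]; exact HevR.zero

theorem hevR_tmat [DecidableEq ι] {c m : ℕ} {dg : ι → ℕ} {D : Matrix ι ι R[X]} (hw : Wt w w D)
    (y' y : TI c m dg) : HevR φ x s (twt c m dg w y') (twt c m dg w y) (tmat c m dg D y' y)
      (tmat c m dg (grM φ x s w w D) y' y) := by
  simp only [tmat]
  refine HevR.ite (HevR.sum _ fun i _ => ?_)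
  refine ((HevR.sgn (a := 0) i).mul (HevR.det (A := fun k => w (enum y'.S k).b)
    (B := fun k => w (enum y.S k).b) fun k l => hevR_pull φ x s hw _ _ _)).shift ?_
  rw [hev_sum_enum y'.S fun z => w z.b, hev_sum_enum y.S fun z => w z.b]
  simp only [twt, zero_add]

/-- The derived exterior power of a weighted complex is weighted. -/
theorem wt_tmat [DecidableEq ι] {c m : ℕ} {dg : ι → ℕ} {D : Matrix ι ι R[X]} (hw : Wt w w D) :
    Wt (twt c m dg w) (twt c m dg w) (tmat c m dg D) :=
  fun y' y => (hevR_tmat (RingHom.id R) 0 0 hw y' y).1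
theorem grM_tmat [DecidableEq ι] {c m : ℕ} {dg : ι → ℕ} {D : Matrix ι ι R[X]} (hw : Wt w w D) :
    grM φ x s (twt c m dg w) (twt c m dg w) (tmat c m dg D) = tmat c m dg (grM φ x s w w D) :=
  Matrix.ext fun y' y => (hevR_tmat φ x s hw y' y).2

end Vale.Agent.P177
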