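import Vale.Agent.P177.MinAux

/-! P177 module Min: minimal complexes over local rings, comparison of resolutions. -/

namespace Vale.Agent.P177

open Vale.Agent.P202 IsLocalRing MinAux

universe u

variable {A : Type u} [CommRing A] {ι ι' : Type} [Fintype ι] [Fintype ι']
  [DecidableEq ι] [DecidableEq ι'] {D : Matrix ι ι A} {dg : ι → ℕ}
  {D' : Matrix ι' ι' A} {dg' : ι' → ℕ}

/-- Gaussian elimination of a unit entry. -/
theorem mheq_cancel (hD : IsMC D (zd dg)) {a₀ b₀ : ι} (hu : IsUnit (D a₀ b₀)) :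
    ∃ E : Matrix {a // a ≠ a₀ ∧ a ≠ b₀} {a // a ≠ a₀ ∧ a ≠ b₀} A,
      IsMC E (zd fun a => dg a.1) ∧ MHEq D dg E fun a => dg a.1 := cancel hD hu

theorem MHEq.hk_eq (h : MHEq D dg D' dg') (x : PrimeSpectrum A) (i : ℤ) :
    hk D dg x i = hk D' dg' x i := (h.map _).mlen_eq i

/-- Every complex over a local ring is homotopy equivalent to a minimal one, whose ranks are the
dimensions of the homology of the closed fibre. -/
theorem exists_min [IsLocalRing A] (hD : IsMC D (zd dg)) :
    ∃ (κ : Type) (_ : Fintype κ) (_ : DecidableEq κ) (e : κ → ι) (E : Matrix κ κ A),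
      IsMC E (zd (dg ∘ e)) ∧ (∀ a b, E a b ∈ maximalIdeal A) ∧ MHEq D dg E (dg ∘ e) ∧
      ∀ i : ℕ, hk D dg (closedPoint A) i =
        ((Finset.univ.filter fun a => dg (e a) = i).card : ℕ) := by
  generalize hn : Fintype.card ι = n
  induction n using Nat.strong_induction_on generalizing ι with
  | _ n ih =>
    by_cases h : ∀ a b, D a b ∈ maximalIdeal A
    · refine ⟨ι, inferInstance, inferInstance, id, D, hD, h, MHEq.refl, fun i => ?_⟩
      have h0 : D.map (algebraMap A (closedPoint A).asIdeal.ResidueField) = 0 := by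
        ext a b
        exact Ideal.algebraMap_residueField_eq_zero.2 (h a b)
      rw [hk, h0, mlen_zero_matrix]
      rfl
    · push Not at h
      obtain ⟨a₀, b₀, h⟩ := h
      obtain ⟨E, hE, hDE⟩ := mheq_cancel hD (notMem_maximalIdeal.1 h)
      obtain ⟨κ, _, _, e, E', h1, h2, h3, h4⟩ := ih _ (hn ▸ Fintype.card_subtype_lt (x := a₀)
        (p := fun a => a ≠ a₀ ∧ a ≠ b₀) (by simp)) hE rfl
      exact ⟨κ, inferInstance, inferInstance, Subtype.val ∘ e, E', h1, h2, hDE.trans h3,
        fun i => (hDE.hk_eq _ _).trans (h4 i)⟩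

theorem mlen_map_field {k K : Type u} [Field k] [Field K] {D : Matrix ι ι k}
    (hD : IsMC D (zd dg)) (f : k →+* K) (i : ℤ) : mlen K (D.map f) dg K i = mlen k D dg k i := by
  obtain ⟨κ, _, _, e, E, -, h2, h3, -⟩ := exists_min hD
  have hE : E = 0 := by
    ext a b
    simpa [maximalIdeal_eq_bot] using h2 a b
  subst hE
  rw [h3.mlen_eq, (h3.map f).mlen_eq, Matrix.map_zero _ (map_zero f)]
  rcases lt_or_ge i 0 with hi | hi
  · rw [mlen_eq_zero_of_forall_ne (fun a => by omega), mlen_eq_zero_of_forall_ne (fun a => by omega)]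
  · lift i to ℕ using hi
    rw [mlen_zero_matrix, mlen_zero_matrix]

/-- The fibre homology can be computed after any field extension. -/
theorem mlen_eq_hk (hD : IsMC D (zd dg)) {K : Type u} [Field K] (f : A →+* K)
    (x : PrimeSpectrum A) (hx : x.asIdeal = RingHom.ker f) (i : ℤ) :
    mlen K (D.map f) dg K i = hk D dg x i := by
  have h1 : x.asIdeal.primeCompl ≤ (IsUnit.submonoid K).comap f := fun a ha =>
    IsUnit.mk0 _ fun h => ha (by rw [hx]; exact h)
  rw [hk, ← mlen_map_field (isMC_map hD _) (Ideal.ResidueField.lift x.asIdeal f hx.le h1),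
    Matrix.map_map]
  congr 2
  funext a
  simp

theorem hk_comap (hD : IsMC D (zd dg)) {A' : Type u} [CommRing A'] (f : A →+* A')
    (x : PrimeSpectrum A') (i : ℤ) :
    hk (D.map f) dg x i = hk D dg (PrimeSpectrum.comap f x) i := by
  rw [← mlen_eq_hk hD ((algebraMap A' x.asIdeal.ResidueField).comp f) _
    (by rw [← RingHom.comap_ker, Ideal.ker_algebraMap_residueField]; rfl), hk, Matrix.map_map]
  rfl

/-- The fibre at `x` is the closed fibre of the localisation. -/
theorem hk_localization (hD : IsMC D (zd dg)) (x : PrimeSpectrum A) (i : ℤ) :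
    hk (D.map (algebraMap A (Localization.AtPrime x.asIdeal))) dg (closedPoint _) i =
      hk D dg x i := by
  rw [hk_comap hD]
  congr 1
  exact PrimeSpectrum.ext Localization.AtPrime.under_maximalIdeal

theorem hk_eq_zero_of_witness {g : A} {H P : Matrix ι ι A} (hH : IsHomR H dg dg (-1)) {i : ℤ}
    (hP : ∀ a b, P a b ≠ 0 → (dg b : ℤ) ≠ i) (h : D * H + H * D = g • 1 - P)
    {x : PrimeSpectrum A} (hx : g ∉ x.asIdeal) : hk D dg x i = 0 := by
  rw [hk, mlen_eq_zero_iff]
  set f := algebraMap A x.asIdeal.ResidueField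
  have hg : f g ≠ 0 := fun h => hx (Ideal.algebraMap_residueField_eq_zero.1 h)
  intro v hv h0
  have hv' : Res.Sp (zd dg) i v := fun a ha => (mem_fam.1 hv a).2 ha
  have hH' : IsHomR (H.map f) dg dg (-1) := fun a b h => hH a b fun h' => h (by simp [h'])
  rw [cx_eq_mulVec] at h0
  refine ⟨(f g)⁻¹ • (H.map f).mulVec v, Submodule.smul_mem _ _ (mem_fam.2 fun a =>
    ⟨fun _ => trivial, hr_sp (j := i + 1) hH' hv' (by omega) a⟩), ?_⟩
  have h1 : D.map f * H.map f + H.map f * D.map f = f g • 1 - P.map f := by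
    rw [← Matrix.map_mul, ← Matrix.map_mul, ← Matrix.map_add _ (map_add f), h]
    ext a b
    by_cases hab : a = b <;> simp [hab]
  have h2 : (P.map f).mulVec v = 0 := funext fun a => Finset.sum_eq_zero fun b _ => by
    change f (P a b) * v b = 0
    by_cases h' : P a b = 0
    · rw [h', map_zero, zero_mul]
    · rw [hv' b (hP a b h'), mul_zero]
  have h3 := congrArg (fun M => M.mulVec v) h1
  simp only [Matrix.add_mulVec, Matrix.sub_mulVec, ← Matrix.mulVec_mulVec, h0, h2,
    Matrix.mulVec_zero, add_zero, sub_zero, Matrix.smul_mulVec, Matrix.one_mulVec] at h3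
  rw [cx_eq_mulVec, Matrix.mulVec_smul, h3, smul_smul, inv_mul_cancel₀ hg, one_smul]

theorem NullAt.hk_eq_zero {x : PrimeSpectrum A} (h : NullAt D dg x) (i : ℤ) :
    hk D dg x i = 0 := by
  obtain ⟨g, hg, H, hH, h⟩ := h
  exact hk_eq_zero_of_witness (P := 0) hH (fun _ _ h => absurd rfl h) (by rw [h, sub_zero]) hg

/-- The minimal model of the localisation. -/
theorem exists_min_loc (hD : IsMC D (zd dg)) (x : PrimeSpectrum A) :
    ∃ (κ : Type) (_ : Fintype κ) (_ : DecidableEq κ) (eg : κ → ℕ)
      (E : Matrix κ κ (Localization.AtPrime x.asIdeal)),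
      IsMC E (zd eg) ∧ (∀ a b, E a b ∈ maximalIdeal _) ∧
      MHEq (D.map (algebraMap A (Localization.AtPrime x.asIdeal))) dg E eg ∧
      sAlt dg 0 = sAlt eg 0 ∧ (∀ j, GoodAt D dg x j → ∀ a, eg a < j) ∧
      hk D dg x 1 = ((Finset.univ.filter fun a => eg a = 1).card : ℕ) := by
  obtain ⟨κ, _, _, e, E, h1, h2, h3, h4⟩ :=
    exists_min (isMC_map hD (algebraMap A (Localization.AtPrime x.asIdeal)))
  refine ⟨κ, inferInstance, inferInstance, dg ∘ e, E, h1, h2, h3,
    MHEq.sAlt_zero (isMC_map hD _) h1 h3, fun j hj a => ?_, ?_⟩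
  · by_contra ha
    have h5 := h4 (dg (e a))
    rw [hk_localization hD, hj _ (by simpa using ha), eq_comm, Nat.cast_eq_zero,
      Finset.card_eq_zero, Finset.filter_eq_empty_iff] at h5
    exact h5 (Finset.mem_univ a) rfl
  · rw [← hk_localization hD]
    exact h4 1

/-- A complex that is good at `x` is locally a free module in degree zero. -/
theorem mheq_zero_of_good (hD : IsMC D (zd dg)) {x : PrimeSpectrum A} (h : GoodAt D dg x 1)
    {r : ℕ} (hr : sAlt dg 0 = r) :
    MHEq (D.map (algebraMap A (Localization.AtPrime x.asIdeal))) dg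
      (0 : Matrix (Fin r) (Fin r) _) fun _ => 0 := by
  obtain ⟨κ, _, _, eg, E, h1, -, h3, h4, h5, -⟩ := exists_min_loc hD x
  have h6 : eg = fun _ => 0 := funext fun a => Nat.lt_one_iff.1 (h5 1 h a)
  subst h6
  have hE : E = 0 := by
    ext a b
    by_contra h'
    have := h1.homog a b h'
    simp [zd] at this
  subst hE
  have h7 : Fintype.card κ = r := by
    rw [hr] at h4
    simpa [sAlt] using h4.symm
  exact h3.trans (mheq_reindex (Fintype.equivFinOfCardEq h7).symm)

/-- A matrix acting on the degree zero part of a two term complex. -/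
def optM {c : ℕ} (U : Matrix (Fin c) (Fin c) A) : Matrix (Option (Fin c)) (Option (Fin c)) A
  | some i, some j => U i j
  | none, none => 1
  | _, _ => 0

theorem optM_mul {c : ℕ} (U V : Matrix (Fin c) (Fin c) A) (h : U * V = 1) :
    optM U * optM V = 1 := by
  ext a b
  rw [Matrix.mul_apply, Fintype.sum_option]
  rcases a with _ | a <;> rcases b with _ | b
  · simp [optM]
  · simp [optM]
  · simp [optM]
  · have := congrFun (congrFun h a) b
    rw [Matrix.mul_apply] at this
    simp [optM, this, Matrix.one_apply]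

theorem isHomR_optM {c : ℕ} (U : Matrix (Fin c) (Fin c) A) :
    IsHomR (optM U) (twoDg c) (twoDg c) 0 := by
  rintro (_ | a) (_ | b) h
  · rfl
  · exact absurd rfl h
  · exact absurd rfl h
  · rfl

/-- Two term complexes on vectors that differ by an invertible matrix. -/
theorem mheq_twoM {c : ℕ} {y y' : Fin c → A} (U : Matrix (Fin c) (Fin c) A) (hU : IsUnit U.det)
    (h : y' = U.mulVec y) : MHEq (twoM y) (twoDg c) (twoM y') (twoDg c) := by
  refine mheq_of_iso (optM U) (optM U⁻¹) (isHomR_optM _) (isHomR_optM _) ?_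
    (optM_mul _ _ (Matrix.nonsing_inv_mul U hU)) (optM_mul _ _ (Matrix.mul_nonsing_inv U hU))
  ext a b
  rw [Matrix.mul_apply, Matrix.mul_apply, Fintype.sum_option, Fintype.sum_option]
  rcases a with _ | a <;> rcases b with _ | b <;>
    simp [optM, twoM, h, Matrix.mulVec, dotProduct]

/-- A complex with one dimensional first fibre homology is locally a two term complex. -/
theorem mheq_two_of_almost (hD : IsMC D (zd dg)) {x : PrimeSpectrum A} (h : GoodAt D dg x 2)
    (h1 : hk D dg x 1 = 1) {c : ℕ} (hc : sAlt dg 0 + 1 = c) :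
    ∃ y : Fin c → A, (∀ j, y j ∈ x.asIdeal) ∧
      MHEq (D.map (algebraMap A (Localization.AtPrime x.asIdeal))) dg
        (twoM fun j => algebraMap A (Localization.AtPrime x.asIdeal) (y j)) (twoDg c) := by
  obtain ⟨κ, _, _, eg, E, g1, g2, g3, g4, g5, g6⟩ := exists_min_loc hD x
  rw [h1, eq_comm, Nat.cast_eq_one, Finset.card_eq_one] at g6
  obtain ⟨b₀, hb₀⟩ := g6
  have a1 : ∀ a, eg a = if a = b₀ then 1 else 0 := by
    intro a
    have a2 := g5 2 h a
    have a3 : eg a = 1 ↔ a = b₀ := by simpa using Finset.ext_iff.1 hb₀ a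
    split_ifs with h' <;> [exact a3.2 h'; (have := mt a3.1 h'; omega)]
  have a2 : Fintype.card {a // a ≠ b₀} = c := by
    have a3 : sAlt eg 0 = ∑ a, ((1 : ℤ) - if a = b₀ then 2 else 0) := by
      refine Finset.sum_congr rfl fun a _ => ?_
      rw [a1 a]
      split_ifs <;> simp_all
    have a4 : 0 < Fintype.card κ := Fintype.card_pos_iff.2 ⟨b₀⟩
    rw [Finset.sum_sub_distrib] at a3
    simp only [Finset.sum_const, Finset.card_univ, nsmul_eq_mul, mul_one, Finset.sum_ite_eq',
      Finset.mem_univ, if_true] at a3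
    rw [Fintype.card_subtype_compl, Fintype.card_subtype_eq]
    omega
  let σ : Option (Fin c) ≃ κ :=
    (Equiv.optionCongr (Fintype.equivFinOfCardEq a2).symm).trans (Equiv.optionSubtypeNe b₀)
  have a3 : eg ∘ σ = twoDg c := by
    funext a
    rcases a with _ | a
    · exact (a1 _).trans (if_pos rfl)
    · exact (a1 _).trans (if_neg ((Fintype.equivFinOfCardEq a2).symm a).2)
  have a4 : E.submatrix σ σ = twoM fun j => E (σ (some j)) (σ none) := by
    ext a b
    have a5 : E (σ a) (σ b) ≠ 0 → (twoDg c b : ℤ) = twoDg c a + 1 := by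
      rw [← a3]; exact g1.homog _ _
    rcases a with _ | a <;> rcases b with _ | b
    · by_contra h'; simpa [twoDg] using a5 h'
    · by_contra h'; have := a5 h'; simp only [twoDg] at this; omega
    · rfl
    · by_contra h'; simpa [twoDg] using a5 h'
  have a5 := g3.trans (mheq_reindex σ)
  rw [a3, a4] at a5
  obtain ⟨s, hs⟩ := IsLocalization.exist_integer_multiples_of_finite x.asIdeal.primeCompl
    fun j => E (σ (some j)) (σ none)
  choose y hy using hs
  refine ⟨y, fun j => ?_, a5.trans
    (mheq_twoM (algebraMap A (Localization.AtPrime x.asIdeal) s • 1) ?_ ?_)⟩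
  · rw [← IsLocalization.AtPrime.to_map_mem_maximal_iff (Localization.AtPrime x.asIdeal)
      x.asIdeal, hy, Algebra.smul_def]
    exact Ideal.mul_mem_left _ _ (g2 _ _)
  · rw [Matrix.det_smul, Matrix.det_one, mul_one]
    exact (IsLocalization.map_units _ s).pow _
  · funext j
    rw [hy, Matrix.smul_mulVec, Matrix.one_mulVec, Algebra.smul_def]
    rfl

/-- Goodness is an open condition, with a witness. -/
theorem exists_witness (hD : IsMC D (zd dg)) {x : PrimeSpectrum A} {j : ℕ} (h : GoodAt D dg x j) :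
    ∃ g, g ∉ x.asIdeal ∧ ∃ H P : Matrix ι ι A, IsHomR H dg dg (-1) ∧
      (∀ a b, P a b ≠ 0 → dg a < j ∧ dg b = dg a) ∧ D * H + H * D = g • 1 - P := by
  obtain ⟨κ, _, _, eg, E, -, -, ⟨F, G, H, -, hF, hG, hH, -, -, -, h3, -⟩, -, h5, -⟩ :=
    exists_min_loc hD x
  obtain ⟨s, hs, H₀, a1, a2⟩ := MinAux.exists_clear x.asIdeal.primeCompl _ H
  obtain ⟨s', hs', P₀, b1, b2⟩ := MinAux.exists_clear x.asIdeal.primeCompl _ (G * F)
  set f := algebraMap A (Localization.AtPrime x.asIdeal)
  obtain ⟨t, ht, c1⟩ := MinAux.exists_kill x.asIdeal.primeCompl (Localization.AtPrime x.asIdeal)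
    (D * (s' • H₀) + (s' • H₀) * D - (s • P₀ - (s * s') • 1)) (by
      have e1 : ∀ (r : A) (M : Matrix ι ι A), (r • M).map f = f r • M.map f := fun r M => by
        ext a b; simp
      rw [Matrix.map_sub _ (map_sub f), Matrix.map_sub _ (map_sub f), Matrix.map_add _ (map_add f),
        Matrix.map_mul, Matrix.map_mul, e1, e1, e1, a1, b1, Matrix.map_one _ (map_zero f) (map_one f),
        smul_smul, smul_smul, map_mul, mul_comm (f s'), Matrix.mul_smul, Matrix.smul_mul, ← smul_add,
        ← h3, smul_sub, sub_self])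
  refine ⟨t * (s * s'), x.asIdeal.primeCompl.mul_mem ht (x.asIdeal.primeCompl.mul_mem hs hs'),
    -(t • s' • H₀), t • s • P₀, hr_neg (hr_smul (hr_smul
      (fun a b h => hH a b fun h' => h (a2 a b h')) _) _), fun a b hab => ?_, ?_⟩
  · have d1 : (G * F) a b ≠ 0 := fun h' => hab (by simp [b2 a b h'])
    obtain ⟨c, -, hc⟩ := Finset.exists_ne_zero_of_sum_ne_zero d1
    have d2 := hG a c (left_ne_zero_of_mul hc)
    have d3 := hF c b (right_ne_zero_of_mul hc)
    have d4 := h5 j h c
    omega
  · rw [smul_sub, sub_eq_zero, smul_sub, smul_add, smul_smul t (s * s')] at c1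
    rw [Matrix.mul_neg, Matrix.neg_mul, ← neg_add, Matrix.mul_smul, Matrix.smul_mul, c1, neg_sub]

theorem goodAt_of_witness {g : A} {j : ℕ} {H P : Matrix ι ι A} (hH : IsHomR H dg dg (-1))
    (hP : ∀ a b, P a b ≠ 0 → dg a < j ∧ dg b = dg a) (h : D * H + H * D = g • 1 - P)
    {x : PrimeSpectrum A} (hx : g ∉ x.asIdeal) : GoodAt D dg x j :=
  fun i hi => hk_eq_zero_of_witness hH (fun a b h => by have := hP a b h; omega) h hx

theorem goodAt_twoM_iff {c : ℕ} (y : Fin c → A) (x : PrimeSpectrum A) :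
    GoodAt (twoM y) (twoDg c) x 1 ↔ ∃ j, y j ∉ x.asIdeal := by
  constructor
  · intro h
    by_contra h'
    push Not at h'
    have h0 : (twoM y).map (algebraMap A x.asIdeal.ResidueField) = 0 := by
      ext a b
      rcases a with _ | a <;> rcases b with _ | b
      · exact map_zero (algebraMap A x.asIdeal.ResidueField)
      · exact map_zero (algebraMap A x.asIdeal.ResidueField)
      · exact Ideal.algebraMap_residueField_eq_zero.2 (h' a)
      · exact map_zero (algebraMap A x.asIdeal.ResidueField)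
    have h1 := h (1 : ℕ) le_rfl
    rw [hk, h0, mlen_zero_matrix, Nat.cast_eq_zero, Finset.card_eq_zero,
      Finset.filter_eq_empty_iff] at h1
    exact h1 (Finset.mem_univ none) rfl
  · rintro ⟨j, hj⟩
    let H : Matrix (Option (Fin c)) (Option (Fin c)) A := Matrix.single none (some j) 1
    have hH : IsHomR H (twoDg c) (twoDg c) (-1) := by
      intro a b h
      by_cases h' : none = a ∧ some j = b
      · obtain ⟨rfl, rfl⟩ := h'; rfl
      · exact absurd (Matrix.single_apply_of_ne _ _ _ _ _ h') h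
    refine goodAt_of_witness (P := y j • 1 - (twoM y * H + H * twoM y)) hH ?_
      (sub_sub_cancel _ _).symm hj
    intro a b h
    have h1 := hr_sub (hr_smul hr_one (y j)) (hr_add (hr_mul (isMC_twoM y).homog hH rfl)
      (hr_mul hH (isMC_twoM y).homog rfl)) a b h
    refine ⟨?_, by omega⟩
    rcases a with _ | a
    · rcases b with _ | b
      · refine absurd ?_ h
        rw [Matrix.sub_apply, Matrix.add_apply, Matrix.single_mul_apply_same,
          Matrix.mul_single_apply_of_ne _ _ _ _ _ (by simp)]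
        simp [twoM]
      · simp [twoDg] at h1
    · exact Nat.zero_lt_one

/-- Comparison theorem: two finite free resolutions of the same module. -/
theorem mheq_of_resol {X : Type u} [AddCommGroup X] [Module A X] (F G : Resol A X) :
    MHEq F.D F.dg G.D G.dg := by
  obtain ⟨Φ, a1, a2, a3⟩ := exists_chain F G
  obtain ⟨Ψ, b1, b2, b3⟩ := exists_chain G F
  obtain ⟨H, c1, c2⟩ := exists_htp F (hr_sub (hr_mul b1 a1 rfl) hr_one)
    (by rw [Matrix.sub_mul, Matrix.mul_sub, Matrix.mul_assoc, a2, ← Matrix.mul_assoc, b2,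
      Matrix.mul_assoc, Matrix.one_mul, Matrix.mul_one])
    (fun v => by rw [Matrix.sub_mulVec, map_sub, ← Matrix.mulVec_mulVec, b3, a3,
      Matrix.one_mulVec, sub_self])
  obtain ⟨H', d1, d2⟩ := exists_htp G (hr_sub (hr_mul a1 b1 rfl) hr_one)
    (by rw [Matrix.sub_mul, Matrix.mul_sub, Matrix.mul_assoc, b2, ← Matrix.mul_assoc, a2,
      Matrix.mul_assoc, Matrix.one_mul, Matrix.mul_one])
    (fun v => by rw [Matrix.sub_mulVec, map_sub, ← Matrix.mulVec_mulVec, a3, b3,
      Matrix.one_mulVec, sub_self])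
  exact ⟨Φ, Ψ, H, H', a1, b1, c1, d1, a2, b2, c2, d2⟩

/-- Annihilators are null-homotopic on a resolution. -/
theorem nullHtp_of_resol {X : Type u} [AddCommGroup X] [Module A X] (F : Resol A X) {g : A}
    (hg : g ∈ Module.annihilator A X) : NullHtp F.D F.dg g := by
  obtain ⟨H, c1, c2⟩ := exists_htp F (hr_smul hr_one g) (by simp)
    (fun v => by rw [Matrix.smul_mulVec, map_smul, Module.mem_annihilator.1 hg])
  exact ⟨H, c1, c2.symm⟩

end Vale.Agent.P177
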