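import Vale.Agent.P177.GenPos
import Vale.Agent.P177.Min
import Vale.Agent.P177.Hev
import Vale.Agent.P177.BuildAuxLin

/-! P177 module Build: constructing complexes and families of complexes in general position. -/

namespace Vale.Agent.P177

open Vale.Agent.P202 IsLocalRing Polynomial

universe u

/-- Only the columns of degree `≥ j` are nonzero. -/
def ColsGe {A : Type*} [CommRing A] {ι : Type} (dg : ι → ℕ) (j : ℕ) (D : Matrix ι ι A) : Prop :=
  ∀ a b, D a b ≠ 0 → j ≤ dg b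

/-- The two matrices have the same columns in degrees `≥ j`. -/
def AgreeGe {A : Type*} {ι : Type} (dg : ι → ℕ) (j : ℕ) (D D' : Matrix ι ι A) : Prop :=
  ∀ a b, j ≤ dg b → D a b = D' a b

section Lin
variable {A : Type u} [CommRing A] {ι : Type} [Fintype ι] [DecidableEq ι] {dg : ι → ℕ}
  {D : Matrix ι ι A}

/-- The left kernel in degree `j` of the fibre at `x`. -/
noncomputable def lker (D : Matrix ι ι A) (dg : ι → ℕ) (j : ℕ) (x : PrimeSpectrum A) :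
    Submodule x.asIdeal.ResidueField (ι → x.asIdeal.ResidueField) :=
  Submodule.pi {b | dg b ≠ j} (fun _ => ⊥) ⊓
    LinearMap.ker (Matrix.vecMulLinear (D.map (algebraMap A x.asIdeal.ResidueField)))

theorem goodAt_congr {D' : Matrix ι ι A} (hD : IsMC D (zd dg)) (hD' : IsMC D' (zd dg)) {j : ℕ}
    (h : AgreeGe dg j D D') {x : PrimeSpectrum A} : GoodAt D dg x j ↔ GoodAt D' dg x j := by
  refine forall₂_congr fun i hi => ?_
  obtain ⟨t, h1, h2⟩ := BL.mlen_spec (isMC_map hD (algebraMap A x.asIdeal.ResidueField)) i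
  obtain ⟨t', h1', h2'⟩ := BL.mlen_spec (isMC_map hD' (algebraMap A x.asIdeal.ResidueField)) i
  have e : ∀ i' : ℤ, (j : ℤ) ≤ i' → BL.rk (D.map (algebraMap A x.asIdeal.ResidueField)) dg i'
      = BL.rk (D'.map (algebraMap A x.asIdeal.ResidueField)) dg i' := fun i' hi' =>
    BL.rk_congr fun a b hb => congrArg (algebraMap A x.asIdeal.ResidueField) (h a b (by omega))
  rw [e i hi, e (i + 1) (by omega)] at h2
  unfold hk
  rw [h1, h1', show t = t' by omega]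
theorem finrank_lker (hD : IsMC D (zd dg)) {j : ℕ} {x : PrimeSpectrum A}
    (h : GoodAt D dg x (j + 1)) : (Module.finrank x.asIdeal.ResidueField (lker D dg j x) : ℤ) = sAlt dg j := by
  have hM := isMC_map hD (algebraMap A x.asIdeal.ResidueField)
  have h1 := BL.rank_nullity (D.map (algebraMap A x.asIdeal.ResidueField)).vecMulLinear
    (BL.S _ dg j)
  have h2 := BL.rk_eq_sAlt hM h
  have h3 := BL.card_deg dg j
  rw [BL.row_rank hM.homog, BL.finrank_S] at h1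
  unfold lker
  rw [BL.pi_eq_S]
  push_cast at h2
  omega
theorem card_deg_eq (j : ℕ) : (Fintype.card {b // dg b = j} : ℤ) = sAlt dg j + sAlt dg (j + 1) :=
  BL.card_deg dg j
/-- The left kernel of the fibre is spanned by global sections. -/
theorem lker_le_span (hD : IsMC D (zd dg)) {j : ℕ} (hc : ColsGe dg (j + 1) D)
    {x : PrimeSpectrum A} (h : GoodAt D dg x (j + 1)) :
    lker D dg j x ≤ Submodule.span x.asIdeal.ResidueField
      {v | ∃ σ : ι → A, (∀ b, dg b ≠ j → σ b = 0) ∧ Matrix.vecMul σ D = 0 ∧ v = evAt x σ} := by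
  obtain ⟨g, hg, H, P, hH, hP, e⟩ := exists_witness hD h
  have hDP : D * P = 0 := by
    ext a b
    rw [Matrix.mul_apply]
    refine Finset.sum_eq_zero fun c _ => ?_
    by_cases h1 : D a c = 0
    · rw [h1, zero_mul]
    · rw [of_not_not fun h2 => absurd (hc a c h1) (hP c b h2).1.not_ge, mul_zero]
  have hN : (g • 1 - D * H) * D = 0 := by
    have e1 : H * D = g • 1 - P - D * H := eq_sub_of_add_eq' e
    rw [sub_mul, Matrix.mul_assoc, e1, mul_sub, mul_sub, hDP, ← Matrix.mul_assoc, hD.sq,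
      Matrix.zero_mul, sub_zero, sub_zero, Matrix.smul_mul, Matrix.mul_smul, Matrix.one_mul,
      Matrix.mul_one, sub_self]
  have hS : ∀ a b, dg b ≠ dg a → (g • 1 - D * H) a b = 0 := by
    intro a b hab
    rw [Matrix.sub_apply, Matrix.smul_apply, Matrix.one_apply_ne fun h => hab (by rw [h]),
      smul_zero, Matrix.mul_apply, Finset.sum_eq_zero, sub_zero]
    intro c _
    by_contra h0
    have h1 := hD.homog a c (left_ne_zero_of_mul h0)
    have h2 := hH c b (right_ne_zero_of_mul h0)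
    unfold zd at h1
    omega
  rintro τ ⟨h1, h2⟩
  have hg' : algebraMap A x.asIdeal.ResidueField g ≠ 0 := fun h0 =>
    hg (Ideal.algebraMap_residueField_eq_zero.1 h0)
  have e2 : Matrix.vecMul τ ((g • 1 - D * H).map (algebraMap A x.asIdeal.ResidueField))
      = algebraMap A x.asIdeal.ResidueField g • τ := by
    have h3 : Matrix.vecMul τ (D.map (algebraMap A x.asIdeal.ResidueField)) = 0 := h2
    rw [Matrix.map_sub _ (map_sub _), Matrix.map_mul, Matrix.vecMul_sub, ← Matrix.vecMul_vecMul,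
      h3, Matrix.zero_vecMul, sub_zero, Matrix.map_smul' _ _ _ (map_mul _),
      Matrix.map_one _ (map_zero _) (map_one _), Matrix.vecMul_smul, Matrix.vecMul_one]
  rw [← Submodule.smul_mem_iff _ hg', ← e2, Matrix.vecMul_eq_sum]
  refine Submodule.sum_mem _ fun a _ => ?_
  by_cases ha : dg a = j
  · refine Submodule.smul_mem _ _ (Submodule.subset_span ⟨(g • 1 - D * H) a,
      fun b hb => hS a b (ha ▸ hb), funext fun b => ?_, rfl⟩)
    exact congrFun (congrFun hN a) b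
  · rw [show τ a = 0 from h1 a ha, zero_smul]
    exact Submodule.zero_mem _
/-- The homology in degree `j + 1` in terms of the rank of the rows of degree `j`. -/
theorem hk_eq_of_rank (hD : IsMC D (zd dg)) {j : ℕ} {x : PrimeSpectrum A}
    (h : GoodAt D dg x (j + 2)) {k : ℕ}
    (hr : (rkAt x (fun a : {a // dg a = j} => D a.1) + k : ℤ) = sAlt dg (j + 1)) :
    hk D dg x (j + 1 : ℕ) = k := by
  have hM := isMC_map hD (algebraMap A x.asIdeal.ResidueField)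
  obtain ⟨t, h1, h2⟩ := BL.mlen_spec hM (j + 1 : ℕ)
  have h3 := BL.rk_eq_sAlt hM h
  have h4 : _ = _ + sAlt dg (j + 2) := BL.card_deg dg (j + 1)
  have h5 : rkAt x (fun a : {a // dg a = j} => D a.1)
      = BL.rk (D.map (algebraMap A x.asIdeal.ResidueField)) dg (j + 1) := by
    rw [← BL.row_rank hM.homog, ← BL.span_rows]
    rfl
  rw [BL.finrank_S] at h2
  rw [h5] at hr
  have e : ((j + 1 : ℕ) : ℤ) + 1 = (j + 2 : ℕ) := by push_cast; ring
  rw [e, Nat.cast_add_one] at h2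
  unfold hk
  rw [h1, show t = k by omega]
end Lin

variable {R : Type u} [CommRing R] [IsLocalRing R] [IsNoetherianRing R]
  [Infinite (ResidueField R)] {I : Ideal R} {a : ℕ} {ι : Type} [Fintype ι] [DecidableEq ι]
  {dg : ι → ℕ}

/-- Good on the punctured spectrum of `R / I`. -/
def GoodU (I : Ideal R) (D : Matrix ι ι R) (dg : ι → ℕ) (j : ℕ) : Prop :=
  ∀ x, UPt I x → GoodAt D dg x j

/-- A family over the projective line that is good in degrees `≥ j`. -/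
structure FamGe (I : Ideal R) (dg w : ι → ℕ) (j : ℕ) (D : Matrix ι ι R[X]) : Prop where
  mc : IsMC D (zd dg)
  wt : Wt w w D
  cols : ColsGe dg j D
  inf : GoodU I (leadM w D) dg j
  good : ∀ x, XPt I x → GoodAt D dg x j

/-- An almost good family: it degenerates in the simplest way at finitely many closed points. -/
structure AlmostGood (I : Ideal R) (dg w : ι → ℕ) (D : Matrix ι ι R[X])
    (Z : Set (PrimeSpectrum R[X])) : Prop where
  mc : IsMC D (zd dg)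
  wt : Wt w w D
  inf : GoodU I (leadM w D) dg 1
  zero : GoodU I (ev0M D) dg 1
  fin : Z.Finite
  pt : ∀ x ∈ Z, XPt I x
  max : ∀ x ∈ Z, ∀ x', XPt I x' → x ≤ x' → x' = x
  good : ∀ x, XPt I x → x ∉ Z → GoodAt D dg x 1
  bad : ∀ x ∈ Z, GoodAt D dg x 2 ∧ hk D dg x 1 = 1

/-- The rank conditions: all inner expected ranks are at least `a`, the virtual rank is at least
`a - 1`. -/
structure Stab (dg : ι → ℕ) (a n : ℕ) : Prop where
  le : ∀ b, dg b ≤ n
  inner : ∀ j, 1 ≤ j → j < n → (a : ℤ) ≤ sAlt dg j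
  top : 0 ≤ sAlt dg n
  zero : (a : ℤ) ≤ sAlt dg 0 + 1

/-- A split complex with the given ranks. -/
theorem exists_split (hd : ringKrullDim (R ⧸ I) ≤ a) (ha : 1 ≤ a) {n : ℕ} (hs : Stab dg a n) :
    ∃ D : Matrix ι ι R, IsMC D (zd dg) ∧ GoodU I D dg 1 ∧ GoodAt D dg (closedPoint R) 1 := by
  obtain ⟨D, H, P, hD, hH, hP, e⟩ := BL.exists_split_aux (dg := dg) R fun j => by
    rcases lt_trichotomy j n with h | h | h
    · rcases Nat.eq_zero_or_pos j with rfl | h0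
      · have := hs.zero
        omega
      · exact (Int.natCast_nonneg a).trans (hs.inner j h0 h)
    · exact h ▸ hs.top
    · exact (BL.sAlt_eq_zero fun b => (hs.le b).trans_lt h).ge
  have key : ∀ x : PrimeSpectrum R, GoodAt D dg x 1 := fun x =>
    goodAt_of_witness hH hP e ((Ideal.ne_top_iff_one _).1 x.isPrime.ne_top)
  exact ⟨D, hD, fun x _ => key x, key _⟩

set_option linter.unusedSectionVars false

section Rows
variable {A : Type u} [CommRing A] {D : Matrix ι ι A} {j : ℕ}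

/-- Global sections of the left kernel in degree `j`. -/
noncomputable def bdGam (D : Matrix ι ι A) (dg : ι → ℕ) (j : ℕ) : Submodule A (ι → A) :=
  Submodule.pi {b | dg b ≠ j} (fun _ => ⊥) ⊓ LinearMap.ker (Matrix.vecMulLinear D)

theorem bd_mem {σ : ι → A} :
    σ ∈ bdGam D dg j ↔ (∀ b, dg b ≠ j → σ b = 0) ∧ Matrix.vecMul σ D = 0 := by
  simp [bdGam, Submodule.mem_pi]

/-- Replace the rows of degree `j`. -/
def bdRows (dg : ι → ℕ) (j : ℕ) (D : Matrix ι ι A) (σ : {a // dg a = j} → ι → A) :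
    Matrix ι ι A := fun a b => if h : dg a = j then σ ⟨a, h⟩ b else D a b

theorem bd_deg (hD : IsMC D (zd dg)) {a b : ι} (h : D a b ≠ 0) : dg b = dg a + 1 := by
  have := hD.homog a b h
  simp only [zd] at this
  omega

theorem bd_rows_of_ne (σ : {a // dg a = j} → ι → A) {a : ι} (h : dg a ≠ j) (b : ι) :
    bdRows dg j D σ a b = D a b := dif_neg h
theorem bd_rows_of_eq (σ : {a // dg a = j} → ι → A) {a : ι} (h : dg a = j) (b : ι) :
    bdRows dg j D σ a b = σ ⟨a, h⟩ b := dif_pos h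

theorem bd_mc (hD : IsMC D (zd dg)) (hc : ColsGe dg (j + 2) D) {σ : {a // dg a = j} → ι → A}
    (hσ : ∀ r, σ r ∈ bdGam D dg (j + 1)) : IsMC (bdRows dg j D σ) (zd dg) := by
  constructor
  · ext a c
    rw [Matrix.mul_apply, Matrix.zero_apply]
    by_cases h : dg a = j
    · refine Eq.trans (Finset.sum_congr rfl fun b _ => ?_) (congrFun (bd_mem.mp (hσ ⟨a, h⟩)).2 c)
      rw [bd_rows_of_eq σ h]
      by_cases hb : dg b = j + 1
      · rw [bd_rows_of_ne σ (by omega)]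
      · rw [(bd_mem.mp (hσ ⟨a, h⟩)).1 b hb, zero_mul, zero_mul]
    · refine Eq.trans (Finset.sum_congr rfl fun b _ => ?_) (congrFun (congrFun hD.sq a) c)
      rw [bd_rows_of_ne σ h]
      by_cases hb : D a b = 0
      · simp only [hb, zero_mul]
      · rw [bd_rows_of_ne σ (by have := hc a b hb; omega)]
  · intro a b hab
    by_cases h : dg a = j
    · rw [bd_rows_of_eq σ h] at hab
      have : dg b = j + 1 := by
        by_contra hb
        exact hab ((bd_mem.mp (hσ ⟨a, h⟩)).1 b hb)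
      simp only [zd]
      omega
    · rw [bd_rows_of_ne σ h] at hab
      exact hD.homog a b hab

theorem bd_cols (hc : ColsGe dg (j + 2) D) {σ : {a // dg a = j} → ι → A}
    (hσ : ∀ r, σ r ∈ bdGam D dg (j + 1)) : ColsGe dg (j + 1) (bdRows dg j D σ) := by
  intro a b hab
  by_cases h : dg a = j
  · rw [bd_rows_of_eq σ h] at hab
    by_contra hb
    exact hab ((bd_mem.mp (hσ ⟨a, h⟩)).1 b (by omega))
  · rw [bd_rows_of_ne σ h] at hab
    have := hc a b hab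
    omega

theorem bd_agree (hD : IsMC D (zd dg)) {σ : {a // dg a = j} → ι → A}
    (hσ : ∀ r, σ r ∈ bdGam D dg (j + 1)) : AgreeGe dg (j + 2) D (bdRows dg j D σ) := by
  intro a b hb
  by_cases h : dg a = j
  · rw [bd_rows_of_eq σ h, (bd_mem.mp (hσ ⟨a, h⟩)).1 b (by omega)]
    by_contra hab
    have := bd_deg hD hab
    omega
  · rw [bd_rows_of_ne σ h]

theorem bd_read (hD : IsMC D (zd dg)) (hc : ColsGe dg (j + 2) D) {σ : {a // dg a = j} → ι → A}
    (hσ : ∀ r, σ r ∈ bdGam D dg (j + 1)) {x : PrimeSpectrum A} (hx : GoodAt D dg x (j + 2))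
    {k : ℕ} (hr : (rkAt x σ + k : ℤ) = sAlt dg (j + 1)) :
    GoodAt (bdRows dg j D σ) dg x (j + 2) ∧ hk (bdRows dg j D σ) dg x (j + 1 : ℕ) = k := by
  have h1 := (goodAt_congr hD (bd_mc hD hc hσ) (bd_agree hD hσ)).mp hx
  refine ⟨h1, hk_eq_of_rank (bd_mc hD hc hσ) h1 ?_⟩
  have : (fun a : {a // dg a = j} => bdRows dg j D σ a.1) = σ :=
    funext fun a => funext fun b => bd_rows_of_eq σ a.2 b
  rw [this, hr]

theorem bd_good {x : PrimeSpectrum A} (h : GoodAt D dg x (j + 1))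
    (h0 : hk D dg x (j : ℕ) = (0 : ℕ)) : GoodAt D dg x j := by
  intro i hi
  rcases hi.eq_or_lt with rfl | hlt
  · exact h0
  · exact h i (by push_cast; omega)

theorem bd_mono {x : PrimeSpectrum A} {k : ℕ} (h : GoodAt D dg x j) (hk : j ≤ k) :
    GoodAt D dg x k := fun i hi => h i (by omega)

theorem bd_ev_mem {σ : ι → A} (hσ : σ ∈ bdGam D dg j) (x : PrimeSpectrum A) :
    evAt x σ ∈ lker D dg j x := by
  refine bd_mem.mpr ⟨fun b hb => ?_, funext fun b => ?_⟩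
  · simp only [evAt, (bd_mem.mp hσ).1 b hb, map_zero]
  · have := RingHom.map_vecMul (algebraMap A x.asIdeal.ResidueField) D σ b
    rw [(bd_mem.mp hσ).2, Pi.zero_apply, map_zero] at this
    exact this.symm

theorem bd_ev_add (x : PrimeSpectrum A) (v v' : ι → A) : evAt x (v + v') = evAt x v + evAt x v' :=
  funext fun _ => map_add _ _ _
theorem bd_ev_zero (x : PrimeSpectrum A) : evAt x (0 : ι → A) = 0 :=
  funext fun _ => map_zero _
theorem bd_ev_smul (x : PrimeSpectrum A) (r : A) (v : ι → A) :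
    evAt x (r • v) = algebraMap A x.asIdeal.ResidueField r • evAt x v :=
  funext fun _ => map_mul _ _ _

theorem bd_ev_span (x : PrimeSpectrum A) {S : Set (ι → A)} {σ : ι → A}
    (h : σ ∈ Submodule.span A S) :
    evAt x σ ∈ Submodule.span x.asIdeal.ResidueField (evAt x '' S) := by
  induction h using Submodule.span_induction with
  | mem v hv => exact Submodule.subset_span ⟨v, hv, rfl⟩
  | zero => rw [bd_ev_zero]; exact Submodule.zero_mem _
  | add v v' _ _ h1 h2 => rw [bd_ev_add]; exact Submodule.add_mem _ h1 h2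
  | smul r v _ h1 => rw [bd_ev_smul]; exact Submodule.smul_mem _ _ h1

theorem bd_span (hD : IsMC D (zd dg)) (hc : ColsGe dg (j + 1) D) {x : PrimeSpectrum A}
    (h : GoodAt D dg x (j + 1)) {S : Set (ι → A)} (hS : bdGam D dg j ≤ Submodule.span A S) :
    lker D dg j x ≤ Submodule.span x.asIdeal.ResidueField (evAt x '' S) := by
  refine (lker_le_span hD hc h).trans (Submodule.span_le.mpr ?_)
  rintro _ ⟨σ, h1, h2, rfl⟩
  exact bd_ev_span x (hS (bd_mem.mpr ⟨h1, h2⟩))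
end Rows

/-- General position for affine families of rows. -/
theorem bd_gen {N : Type} [Finite N] (J : N → Ideal R[X]) (S : N → Set (PrimeSpectrum R[X]))
    (hJ : ∀ ν, ∀ x ∈ S ν, J ν ≤ x.asIdeal)
    (hS : ∀ ν, ∀ x ∈ S ν, ∀ x' : PrimeSpectrum R[X], J ν ≤ x'.asIdeal → x' ≤ x → x' ∈ S ν)
    (h : N → PrimeSpectrum R[X] → ℕ) (hh : ∀ ν, ∀ x ∈ S ν, ∀ x' ∈ S ν, x' < x → h ν x' < h ν x)
    {j : ℕ} (hb : ∀ ν, ∀ x ∈ S ν, (h ν x : ℤ) ≤ sAlt dg j + 1)
    (Dm : N → Matrix ι ι R[X]) (hmc : ∀ ν, IsMC (Dm ν) (zd dg))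
    (hc : ∀ ν, ColsGe dg (j + 2) (Dm ν)) (hg : ∀ ν, ∀ x ∈ S ν, GoodAt (Dm ν) dg x (j + 2))
    {Γ : Type u} [AddCommGroup Γ] [Module R Γ] [Module.Finite R Γ]
    (L : N → Γ →ₗ[R] (ι → R[X])) (c : N → {a // dg a = j} → ι → R[X])
    (hrow : ∀ ν r γ, c ν r + L ν γ ∈ bdGam (Dm ν) dg (j + 1))
    (hsp : ∀ ν, ∀ x ∈ S ν, lker (Dm ν) dg (j + 1) x ≤
      Submodule.span x.asIdeal.ResidueField (evAt x '' Set.range (L ν))) :
    ∃ γ : {a // dg a = j} → Γ, ∀ ν, ∃ Z : Set (PrimeSpectrum R[X]), Z.Finite ∧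
      (∀ x ∈ Z, x ∈ S ν ∧ (h ν x : ℤ) = sAlt dg j + 1 ∧
        GoodAt (bdRows dg j (Dm ν) fun r => c ν r + L ν (γ r)) dg x (j + 2) ∧
        hk (bdRows dg j (Dm ν) fun r => c ν r + L ν (γ r)) dg x (j + 1 : ℕ) = 1) ∧
      ∀ x ∈ S ν, x ∉ Z → GoodAt (bdRows dg j (Dm ν) fun r => c ν r + L ν (γ r)) dg x (j + 1) := by
  have hfin : ∀ ν, ∀ x ∈ S ν, (Module.finrank x.asIdeal.ResidueField
      (lker (Dm ν) dg (j + 1) x) : ℤ) = sAlt dg (j + 1) :=
    fun ν x hx => finrank_lker (hmc ν) (hg ν x hx)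
  obtain ⟨γ, hγ⟩ := genPos (N := N) (fun _ => R[X]) J S hJ hS h hh (κ := ι)
    (ρ := {a // dg a = j}) (sAlt dg (j + 1)).toNat (fun ν x => lker (Dm ν) dg (j + 1) x)
    (fun ν x hx => by have := hfin ν x hx; omega) (fun _ => Γ) (fun ν r γ => c ν r + L ν γ)
    (fun ν r γ x _ => bd_ev_mem (hrow ν r γ) x) (fun r F hF hFS W hW => by
      classical
      have := hF.to_subtype
      have hsm : ∀ (x : PrimeSpectrum R[X]) (t : R) (v : ι → R[X]),
          evAt x (t • v) = algebraMap R[X] x.asIdeal.ResidueField (C t) • evAt x v := by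
        intro x t v
        rw [← bd_ev_smul]
        congr 1
        funext b
        simp only [Pi.smul_apply, smul_eq_mul, smul_eq_C_mul]
      obtain ⟨M, hM⟩ : ∃ M : F → Submodule R Γ,
          ∀ z γ, γ ∈ M z ↔ evAt z.1.2 (L z.1.1 γ) ∈ W z.1.1 z.1.2 :=
        ⟨fun z =>
          { carrier := {γ | evAt z.1.2 (L z.1.1 γ) ∈ W z.1.1 z.1.2}
            add_mem' := fun h1 h2 => by
              rw [Set.mem_ofPred_eq, map_add, bd_ev_add]; exact Submodule.add_mem _ h1 h2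
            zero_mem' := by
              rw [Set.mem_ofPred_eq, map_zero, bd_ev_zero]; exact Submodule.zero_mem _
            smul_mem' := fun t v h1 => by
              rw [Set.mem_ofPred_eq, map_smul, hsm]; exact Submodule.smul_mem _ _ h1 },
          fun _ _ => Iff.rfl⟩
      have hne : ∀ z, M z ≠ ⊤ := fun z hz => by
        refine (hW z.1 z.2).not_ge ((hsp z.1.1 z.1.2 (hFS z.1 z.2)).trans
          (Submodule.span_le.mpr ?_))
        rintro _ ⟨_, ⟨γ, rfl⟩, rfl⟩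
        exact (hM z γ).mp (hz ▸ Submodule.mem_top)
      have hg0 : ∀ z : F, ∃ g : Γ, ∀ γ, evAt z.1.2 (c z.1.1 r + L z.1.1 γ) ∈ W z.1.1 z.1.2 →
          evAt z.1.2 (c z.1.1 r + L z.1.1 g) ∈ W z.1.1 z.1.2 := fun z => by
        by_cases hz : ∃ g, evAt z.1.2 (c z.1.1 r + L z.1.1 g) ∈ W z.1.1 z.1.2
        · exact ⟨hz.choose, fun _ _ => hz.choose_spec⟩
        · exact ⟨0, fun γ hγ => absurd ⟨γ, hγ⟩ hz⟩
      choose g hg0 using hg0
      obtain ⟨γ, hγ⟩ := exists_avoid M hne g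
      refine ⟨γ, fun z hz hmem => hγ ⟨z, hz⟩ ((hM _ _).mpr ?_)⟩
      have h1 := Submodule.sub_mem _ hmem (hg0 ⟨z, hz⟩ γ hmem)
      have h2 : c z.1 r + L z.1 γ = L z.1 (γ - g ⟨z, hz⟩) + (c z.1 r + L z.1 (g ⟨z, hz⟩)) := by
        rw [map_sub]; abel
      rwa [h2, bd_ev_add, add_sub_cancel_right] at h1)
  refine ⟨γ, fun ν => ⟨_, (hγ ν).2, fun x hx => ?_, fun x hx hZ => ?_⟩⟩
  · obtain ⟨hx, h1, h2⟩ := hx
    have h3 := hfin ν x hx
    have h4 := card_deg_eq (dg := dg) j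
    have h5 := hb ν x hx
    exact ⟨hx, by omega, bd_read (hmc ν) (hc ν) (fun r => hrow ν r (γ r)) (hg ν x hx) (k := 1)
      (by omega)⟩
  · obtain ⟨h1, h2⟩ := (hγ ν).1 x hx
    have h3 := hfin ν x hx
    have h4 := card_deg_eq (dg := dg) j
    have h5 := hb ν x hx
    have h6 : ¬ (rkAt x (fun r => c ν r + L ν (γ r)) < (sAlt dg (j + 1)).toNat ∧
        rkAt x (fun r => c ν r + L ν (γ r)) + h ν x = Fintype.card {a // dg a = j}) :=
      fun h6 => hZ ⟨hx, h6⟩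
    obtain ⟨h7, h8⟩ := bd_read (hmc ν) (hc ν) (fun r => hrow ν r (γ r)) (hg ν x hx) (k := 0)
      (by omega)
    exact bd_good h7 h8

section Pts
omit [IsNoetherianRing R] [Infinite (ResidueField R)]

theorem bd_xgen {x x' : PrimeSpectrum R[X]} (hx : XPt I x) (h1 : I.map C ≤ x'.asIdeal)
    (h2 : x' ≤ x) : XPt I x' := by
  refine ⟨h1, fun h => hx.2 ?_⟩
  refine ((maximalIdeal.isMaximal R).eq_of_le (Ideal.comap_ne_top _ x.2.ne_top) ?_).symm
  rw [← h]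
  exact Ideal.comap_mono h2

theorem bd_xu {x : PrimeSpectrum R[X]} (hx : XPt I x) : UPt I (PrimeSpectrum.comap C x) :=
  ⟨Ideal.map_le_iff_le_comap.mp hx.1, hx.2⟩

omit [IsLocalRing R] in
theorem bd_cc (y : PrimeSpectrum R) :
    PrimeSpectrum.comap C (PrimeSpectrum.comap (evalRingHom 0) y) = y := by
  ext t
  simp

omit [IsLocalRing R] in
theorem bd_cx {x : PrimeSpectrum R[X]} (hx : X ∈ x.asIdeal) :
    PrimeSpectrum.comap (evalRingHom 0) (PrimeSpectrum.comap C x) = x := by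
  ext f
  simp only [PrimeSpectrum.comap_asIdeal, Ideal.mem_comap, coe_evalRingHom, ← coeff_zero_eq_eval_zero]
  conv_rhs => rw [← X_mul_divX_add f]
  exact (Ideal.add_mem_iff_right _ (Ideal.mul_mem_right _ _ hx)).symm

/-- Points of the affine line on the zero section. -/
def bdS0 (I : Ideal R) : Set (PrimeSpectrum R[X]) := {x | XPt I x ∧ X ∈ x.asIdeal}

theorem bd_s0 {y : PrimeSpectrum R} (hy : UPt I y) :
    PrimeSpectrum.comap (evalRingHom 0) y ∈ bdS0 I := by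
  refine ⟨⟨Ideal.map_le_iff_le_comap.mpr ?_, ?_⟩, by simp⟩
  · exact hy.1.trans (congrArg PrimeSpectrum.asIdeal (bd_cc y)).ge
  · exact fun h => hy.2 ((congrArg PrimeSpectrum.asIdeal (bd_cc y)).symm.trans h)

theorem bd_s0_le {x : PrimeSpectrum R[X]} (hx : x ∈ bdS0 I) :
    I.map C ⊔ Ideal.span {X} ≤ x.asIdeal :=
  sup_le hx.1.1 ((Ideal.span_singleton_le_iff_mem _).mpr hx.2)

theorem bd_s0_gen {x x' : PrimeSpectrum R[X]} (hx : x ∈ bdS0 I)
    (h1 : I.map C ⊔ Ideal.span {X} ≤ x'.asIdeal) (h2 : x' ≤ x) : x' ∈ bdS0 I :=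
  ⟨bd_xgen hx.1 (le_sup_left.trans h1) h2,
    (Ideal.span_singleton_le_iff_mem _).mp (le_sup_right.trans h1)⟩

theorem bd_s0_lt {x x' : PrimeSpectrum R[X]} (hx : x ∈ bdS0 I) (hx' : x' ∈ bdS0 I) (h : x' < x) :
    PrimeSpectrum.comap C x' < PrimeSpectrum.comap C x := by
  refine lt_of_le_of_ne (Ideal.comap_mono h.le) fun he => h.ne ?_
  rw [← bd_cx hx'.2, he, bd_cx hx.2]

theorem bd_ev0 {D : Matrix ι ι R[X]} (hD : IsMC D (zd dg)) {j : ℕ} :
    GoodU I (ev0M D) dg j ↔ ∀ x ∈ bdS0 I, GoodAt D dg x j := by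
  refine ⟨fun h x hx i hi => ?_, fun h y hy i hi => ?_⟩
  · rw [← bd_cx hx.2, ← hk_comap hD]
    exact h _ (bd_xu hx.1) i hi
  · rw [ev0M, hk_comap hD]
    exact h _ (bd_s0 hy) i hi

theorem bd_max {h : PrimeSpectrum R[X] → ℕ} (h1 : ∀ x, XPt I x → h x ≤ a)
    (h2 : ∀ x x', XPt I x → XPt I x' → x' < x → h x' < h x) {x : PrimeSpectrum R[X]}
    (hx : XPt I x) (ha : a ≤ h x) (x' : PrimeSpectrum R[X]) (hx' : XPt I x') (hle : x ≤ x') :
    x' = x := by
  by_contra hne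
  have := h2 x' x hx' hx (lt_of_le_of_ne hle fun e => hne e.symm)
  have := h1 x' hx'
  omega
end Pts

section Refl
omit [IsLocalRing R] [IsNoetherianRing R] [Infinite (ResidueField R)]

/-- Reflection of a row vector of weight `W`. -/
noncomputable def bdRef (W : ℕ) (w : ι → ℕ) : (ι → R[X]) →ₗ[R] (ι → R[X]) where
  toFun σ := grM C 1 X (fun _ : Unit => W) w (fun _ => σ) ()
  map_add' σ τ := congrFun (grM_add C 1 X (fun _ => σ) (fun _ => τ)) ()
  map_smul' t σ := by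
    funext b
    simp only [grM, Pi.smul_apply, smul_eq_C_mul, hev_C_mul, RingHom.id_apply, mul_ite, mul_zero]

/-- Row vectors of weight `W`. -/
noncomputable def bdWt (R : Type u) [CommRing R] (W : ℕ) (w : ι → ℕ) : Submodule R (ι → R[X]) :=
  Submodule.pi Set.univ fun b => degreeLT R (W + 1 - w b)

theorem bd_wt {W : ℕ} {w : ι → ℕ} {σ : ι → R[X]} :
    σ ∈ bdWt R W w ↔ Wt (fun _ : Unit => W) w (fun _ => σ) := by
  simp only [bdWt, Submodule.mem_pi, Set.mem_univ, mem_degreeLT, Wt, forall_const]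
  refine forall_congr' fun b => ⟨fun h hb => ?_, fun h => ?_⟩
  · have := (natDegree_lt_iff_degree_lt hb).mpr h
    omega
  · by_cases hb : σ b = 0
    · rw [hb, degree_zero]; exact WithBot.bot_lt_coe _
    · have := h hb
      exact (natDegree_lt_iff_degree_lt hb).mp (by omega)

theorem bd_wt_fg (W : ℕ) (w : ι → ℕ) : (bdWt R W w).FG := by
  classical
  refine Submodule.fg_pi fun b => ?_
  rw [degreeLT_eq_span_X_pow]
  exact ⟨_, rfl⟩

theorem bd_gr_gr {ι' : Type} [Fintype ι'] {w' : ι' → ℕ} {w : ι → ℕ} {D : Matrix ι' ι R[X]}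
    (h : Wt w' w D) : grM C 1 X w' w (grM C 1 X w' w D) = D := by
  rw [grM_grM_reflect, grM_one _ _ h]
  ext1 a b
  exact eval₂_C_X

theorem bd_ref_ref {W : ℕ} {w : ι → ℕ} {σ : ι → R[X]} (h : σ ∈ bdWt R W w) :
    bdRef W w (bdRef W w σ) = σ := congrFun (bd_gr_gr (bd_wt.mp h)) ()

theorem bd_ref_wt (W : ℕ) (w : ι → ℕ) (σ : ι → R[X]) : bdRef W w σ ∈ bdWt R W w :=
  bd_wt.mpr (wt_grM_reflect fun _ => σ)

theorem bd_gr_zero {R' : Type*} [CommRing R'] (φ : R →+* R') (x s : R') {ι' : Type}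
    (w' : ι' → ℕ) (w : ι → ℕ) {D : Matrix ι' ι R[X]} {a : ι'} {b : ι} (h : D a b = 0) :
    grM φ x s w' w D a b = 0 := by
  simp only [grM, h, hev_zero, ite_self]

theorem bd_ref_gam {W j : ℕ} {w : ι → ℕ} {D : Matrix ι ι R[X]} (hD : Wt w w D) {σ : ι → R[X]}
    (h : σ ∈ bdWt R W w) (hσ : σ ∈ bdGam D dg j) :
    bdRef W w σ ∈ bdGam (grM C 1 X w w D) dg j := by
  refine bd_mem.mpr ⟨fun b hb => bd_gr_zero C 1 X (fun _ : Unit => W) w (D := fun _ => σ) (a := ())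
    ((bd_mem.mp hσ).1 b hb), funext fun b => ?_⟩
  have h1 := congrFun (congrFun (grM_mul C 1 X (bd_wt.mp h) hD) ()) b
  rw [bd_gr_zero _ _ _ _ _ (congrFun (bd_mem.mp hσ).2 b)] at h1
  exact h1.symm

theorem bd_lead (w : ι → ℕ) (D : Matrix ι ι R[X]) : leadM w D = ev0M (grM C 1 X w w D) := by
  rw [ev0M, grM_map, leadM]
  congr 1
  · ext t; simp
  · simp
  · simp

theorem bd_wt_rows {W j : ℕ} {w : ι → ℕ} {D : Matrix ι ι R[X]} (hD : IsMC D (zd dg))
    (hc : ColsGe dg (j + 2) D) (hw : Wt w w D) {σ : {a // dg a = j} → ι → R[X]}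
    (h : ∀ r, σ r ∈ bdWt R W w) (hσ : ∀ r, σ r ∈ bdGam D dg (j + 1)) :
    Wt (fun b => if dg b ≤ j then W else w b) (fun b => if dg b ≤ j then W else w b)
      (bdRows dg j D σ) := by
  intro a b hab
  have h1 := bd_deg (bd_mc hD hc hσ) hab
  have h2 := bd_cols hc hσ a b hab
  by_cases ha : dg a = j
  · rw [bd_rows_of_eq σ ha] at hab ⊢
    simp only [if_neg (show ¬ dg b ≤ j by omega), if_pos ha.le]
    exact bd_wt.mp (h _) () b hab
  · rw [bd_rows_of_ne σ ha] at hab ⊢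
    simp only [if_neg (show ¬ dg b ≤ j by omega), if_neg (show ¬ dg a ≤ j by omega)]
    exact hw a b hab

theorem bd_gr_rows {W j : ℕ} {w : ι → ℕ} {D : Matrix ι ι R[X]} (hD : IsMC D (zd dg))
    (hc : ColsGe dg (j + 2) D) {σ : {a // dg a = j} → ι → R[X]}
    (hσ : ∀ r, σ r ∈ bdGam D dg (j + 1)) :
    grM C 1 X (fun b => if dg b ≤ j then W else w b) (fun b => if dg b ≤ j then W else w b)
      (bdRows dg j D σ) = bdRows dg j (grM C 1 X w w D) fun r => bdRef W w (σ r) := by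
  ext1 a b
  by_cases ha : dg a = j
  · rw [bd_rows_of_eq _ ha]
    by_cases hb : dg b = j + 1
    · change _ = grM C 1 X (fun _ : Unit => W) w (fun _ => σ ⟨a, ha⟩) () b
      simp only [grM, bd_rows_of_eq σ ha, if_pos ha.le, if_neg (show ¬ dg b ≤ j by omega)]
    · have h0 := (bd_mem.mp (hσ ⟨a, ha⟩)).1 b hb
      rw [bd_gr_zero _ _ _ _ _ ((bd_rows_of_eq σ ha b).trans h0)]
      exact (bd_gr_zero C 1 X (fun _ : Unit => W) w (D := fun _ => σ ⟨a, ha⟩) (a := ()) h0).symm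
  · rw [bd_rows_of_ne _ ha]
    by_cases h0 : D a b = 0
    · rw [bd_gr_zero _ _ _ _ _ ((bd_rows_of_ne σ ha b).trans h0), bd_gr_zero _ _ _ _ _ h0]
    · have h1 := bd_deg hD h0
      have h2 := hc a b h0
      simp only [grM, bd_rows_of_ne σ ha, if_neg (show ¬ dg a ≤ j by omega),
        if_neg (show ¬ dg b ≤ j by omega)]

theorem bd_lead_agree {k : ℕ} {w w' : ι → ℕ} {D D' : Matrix ι ι R[X]} (hD : IsMC D (zd dg))
    (h : AgreeGe dg (k + 1) D D') (hw : ∀ b, k ≤ dg b → w' b = w b) :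
    AgreeGe dg (k + 1) (leadM w D) (leadM w' D') := by
  intro a b hb
  by_cases h0 : D a b = 0
  · exact (bd_gr_zero _ _ _ _ _ h0).trans
      (bd_gr_zero _ _ _ _ _ ((h a b hb).symm.trans h0)).symm
  · have h1 := bd_deg hD h0
    simp only [leadM, grM, ← h a b hb, hw a (by omega), hw b (by omega)]

theorem bd_big [IsNoetherianRing R] (w : ι → ℕ) (P : Submodule R[X] (ι → R[X])) :
    ∃ W₀, ∀ W, W₀ ≤ W → P ≤ Submodule.span R[X] {σ | σ ∈ P ∧ σ ∈ bdWt R W w} := by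
  obtain ⟨S, hS⟩ := IsNoetherian.noetherian P
  refine ⟨S.sup fun σ => Finset.univ.sup fun b => (σ b).natDegree + w b, fun W hW => ?_⟩
  refine hS.ge.trans (Submodule.span_mono fun σ hσ =>
    ⟨hS ▸ Submodule.subset_span hσ, bd_wt.mpr fun _ b _ => le_trans ?_ hW⟩)
  exact le_trans (Finset.le_sup (f := fun b => (σ b).natDegree + w b) (Finset.mem_univ b))
    (Finset.le_sup (f := fun σ => Finset.univ.sup fun b => (σ b).natDegree + w b) hσ)
end Refl

/-- One more differential of a family. -/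
theorem bd_ext (hd : ringKrullDim (R ⧸ I) ≤ a) {w : ι → ℕ} {j : ℕ} (ha : (a : ℤ) ≤ sAlt dg j + 1)
    {D : Matrix ι ι R[X]} (h : FamGe I dg w (j + 2) D) :
    ∃ (w' : ι → ℕ) (D' : Matrix ι ι R[X]) (Z : Set (PrimeSpectrum R[X])),
      IsMC D' (zd dg) ∧ Wt w' w' D' ∧ ColsGe dg (j + 1) D' ∧ AgreeGe dg (j + 2) D D' ∧
      (∀ b, j + 1 ≤ dg b → w' b = w b) ∧ GoodU I (leadM w' D') dg (j + 1) ∧
      GoodU I (ev0M D') dg (j + 1) ∧ Z.Finite ∧
      (∀ x ∈ Z, XPt I x ∧ (∀ x', XPt I x' → x ≤ x' → x' = x) ∧ sAlt dg j + 1 = a ∧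
        GoodAt D' dg x (j + 2) ∧ hk D' dg x (j + 1 : ℕ) = 1) ∧
      ∀ x, XPt I x → x ∉ Z → GoodAt D' dg x (j + 1) := by
  obtain ⟨hU, hU1, hU2⟩ := exists_height_U hd
  obtain ⟨hX, hX1, hX2⟩ := exists_height_X hd
  obtain ⟨E, hE⟩ : ∃ E, E = grM C 1 X w w D := ⟨_, rfl⟩
  have hEmc : IsMC E (zd dg) := hE ▸ isMC_grM C 1 X h.mc h.wt
  have hEw : Wt w w E := hE ▸ wt_grM_reflect D
  have hEc : ColsGe dg (j + 2) E := fun a b hab =>
    h.cols a b fun h0 => hab (hE ▸ bd_gr_zero _ _ _ _ _ h0)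
  have hEg : ∀ x ∈ bdS0 I, GoodAt E dg x (j + 2) :=
    (bd_ev0 hEmc).mp (by rw [hE, ← bd_lead]; exact h.inf)
  obtain ⟨W₁, hW₁⟩ := bd_big w (bdGam D dg (j + 1))
  obtain ⟨W₂, hW₂⟩ := bd_big w (bdGam E dg (j + 1))
  obtain ⟨W, hW1, hW2⟩ : ∃ W, W₁ ≤ W ∧ W₂ ≤ W := ⟨_, le_max_left _ _, le_max_right _ _⟩
  obtain ⟨Γ, hΓ⟩ : ∃ Γ : Submodule R (ι → R[X]),
      ∀ σ, σ ∈ Γ ↔ σ ∈ bdGam D dg (j + 1) ∧ σ ∈ bdWt R W w :=
    ⟨(bdGam D dg (j + 1)).restrictScalars R ⊓ bdWt R W w, fun _ => Iff.rfl⟩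
  have : Module.Finite R Γ := Module.Finite.iff_fg.mpr
    ((bd_wt_fg W w).of_le fun σ hσ => ((hΓ σ).mp hσ).2)
  have sp1 : ∀ x, XPt I x → lker D dg (j + 1) x ≤
      Submodule.span x.asIdeal.ResidueField (evAt x '' Set.range Γ.subtype) := fun x hx =>
    bd_span h.mc h.cols (h.good x hx) ((hW₁ W hW1).trans (Submodule.span_mono fun σ hσ =>
      ⟨⟨σ, (hΓ σ).mpr hσ⟩, rfl⟩))
  have sp2 : ∀ x ∈ bdS0 I, lker E dg (j + 1) x ≤ Submodule.span x.asIdeal.ResidueField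
      (evAt x '' Set.range (bdRef W w ∘ₗ Γ.subtype)) := fun x hx =>
    bd_span hEmc hEc (hEg x hx) ((hW₂ W hW2).trans (Submodule.span_mono fun σ hσ => by
      have h1 := bd_ref_gam hEw hσ.2 hσ.1
      rw [hE, bd_gr_gr h.wt] at h1
      exact ⟨⟨bdRef W w σ, (hΓ _).mpr ⟨h1, bd_ref_wt W w σ⟩⟩, bd_ref_ref hσ.2⟩))
  have rw1 : ∀ γ : Γ, 0 + Γ.subtype γ ∈ bdGam D dg (j + 1) := fun γ => by
    rw [zero_add]; exact ((hΓ _).mp γ.2).1
  have rw2 : ∀ γ : Γ, 0 + (bdRef W w ∘ₗ Γ.subtype) γ ∈ bdGam E dg (j + 1) := fun γ => by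
    rw [zero_add, hE]; exact bd_ref_gam h.wt ((hΓ _).mp γ.2).2 ((hΓ _).mp γ.2).1
  obtain ⟨γ, hγ⟩ := bd_gen (N := Fin 3)
    ![I.map C, I.map C ⊔ Ideal.span {X}, I.map C ⊔ Ideal.span {X}]
    ![{x | XPt I x}, bdS0 I, bdS0 I]
    (Fin.forall_fin_succ.mpr ⟨fun x hx => hx.1, Fin.forall_fin_two.mpr
      ⟨fun x hx => bd_s0_le hx, fun x hx => bd_s0_le hx⟩⟩)
    (Fin.forall_fin_succ.mpr ⟨fun x hx x' => bd_xgen hx, Fin.forall_fin_two.mpr
      ⟨fun x hx x' => bd_s0_gen hx, fun x hx x' => bd_s0_gen hx⟩⟩)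
    ![hX, fun x => hU (PrimeSpectrum.comap C x), fun x => hU (PrimeSpectrum.comap C x)]
    (Fin.forall_fin_succ.mpr ⟨fun x hx x' hx' => hX2 x x' hx hx', Fin.forall_fin_two.mpr
      ⟨fun x hx x' hx' hl => hU2 _ _ (bd_xu hx.1) (bd_xu hx'.1) (bd_s0_lt hx hx' hl),
        fun x hx x' hx' hl => hU2 _ _ (bd_xu hx.1) (bd_xu hx'.1) (bd_s0_lt hx hx' hl)⟩⟩)
    (j := j)
    (Fin.forall_fin_succ.mpr ⟨fun x hx => (Int.ofNat_le.mpr (hX1 x hx)).trans ha,
      Fin.forall_fin_two.mpr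
      ⟨fun x hx => (Int.ofNat_le.mpr (hU1 _ (bd_xu hx.1)).le).trans ha,
        fun x hx => (Int.ofNat_le.mpr (hU1 _ (bd_xu hx.1)).le).trans ha⟩⟩)
    ![D, D, E]
    (Fin.forall_fin_succ.mpr ⟨h.mc, Fin.forall_fin_two.mpr ⟨h.mc, hEmc⟩⟩)
    (Fin.forall_fin_succ.mpr ⟨h.cols, Fin.forall_fin_two.mpr ⟨h.cols, hEc⟩⟩)
    (Fin.forall_fin_succ.mpr ⟨h.good, Fin.forall_fin_two.mpr ⟨fun x hx => h.good x hx.1, hEg⟩⟩)
    ![Γ.subtype, Γ.subtype, bdRef W w ∘ₗ Γ.subtype] (fun _ _ => 0)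
    (Fin.forall_fin_succ.mpr ⟨fun _ => rw1, Fin.forall_fin_two.mpr ⟨fun _ => rw1, fun _ => rw2⟩⟩)
    (Fin.forall_fin_succ.mpr ⟨sp1, Fin.forall_fin_two.mpr ⟨fun x hx => sp1 x hx.1, sp2⟩⟩)
  simp only [zero_add] at hγ
  obtain ⟨Z, hZ1, hZ2, hZ3⟩ := hγ 0
  obtain ⟨Z', -, hZ2', hZ3'⟩ := hγ 1
  obtain ⟨Z'', -, hZ2'', hZ3''⟩ := hγ 2
  have hσ : ∀ r, (γ r).1 ∈ bdGam D dg (j + 1) := fun r => ((hΓ _).mp (γ r).2).1
  have hmc := bd_mc h.mc h.cols hσ
  have hwt := bd_wt_rows h.mc h.cols h.wt (fun r => ((hΓ _).mp (γ r).2).2) hσ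
  refine ⟨_, _, Z, hmc, hwt, bd_cols h.cols hσ, bd_agree h.mc hσ,
    fun b hb => if_neg (by omega), ?_, (bd_ev0 hmc).mpr fun x hx => hZ3' x hx fun hz => ?_, hZ1,
    fun x hx => ?_, hZ3⟩
  · rw [bd_lead, bd_ev0 (isMC_grM C 1 X hmc hwt), bd_gr_rows h.mc h.cols hσ, ← hE]
    refine fun x hx => hZ3'' x hx fun hz => ?_
    have h1 : (hU (PrimeSpectrum.comap C x) : ℤ) = _ := (hZ2'' x hz).2.1
    have := hU1 _ (bd_xu hx.1)
    omega
  · have h1 : (hU (PrimeSpectrum.comap C x) : ℤ) = _ := (hZ2' x hz).2.1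
    have := hU1 _ (bd_xu hx.1)
    omega
  · obtain ⟨h1, h2, h3⟩ := hZ2 x hx
    have h4 : (hX x : ℤ) = _ := h2
    have h5 := hX1 x h1
    exact ⟨h1, bd_max hX1 hX2 h1 (by omega), by omega, h3⟩

/-- One more differential of a family (not the last one). -/
theorem FamGe.step (hd : ringKrullDim (R ⧸ I) ≤ a) {n : ℕ} (hs : Stab dg a n) {w : ι → ℕ} {j : ℕ}
    (hj : j + 2 ≤ n) {D : Matrix ι ι R[X]} (h : FamGe I dg w (j + 3) D) :
    ∃ (w' : ι → ℕ) (D' : Matrix ι ι R[X]), FamGe I dg w' (j + 2) D' ∧ AgreeGe dg (j + 3) D D' ∧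
      ∀ b, j + 2 ≤ dg b → w' b = w b := by
  have ha := hs.inner (j + 1) (by omega) (by omega)
  obtain ⟨w', D', Z, h1, h2, h3, h4, h5, h6, -, -, h7, h8⟩ := bd_ext hd (j := j + 1) (by omega) h
  refine ⟨w', D', ⟨h1, h2, h3, h6, fun x hx => h8 x hx fun hz => ?_⟩, h4, h5⟩
  have := (h7 x hz).2.2.1
  omega

/-- The last differential of a family. -/
theorem FamGe.last (hd : ringKrullDim (R ⧸ I) ≤ a) {n : ℕ} (hs : Stab dg a n) {w : ι → ℕ}
    {D : Matrix ι ι R[X]} (h : FamGe I dg w 2 D) :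
    ∃ (w' : ι → ℕ) (D' : Matrix ι ι R[X]) (Z : Set (PrimeSpectrum R[X])),
      AlmostGood I dg w' D' Z ∧ AgreeGe dg 2 D D' ∧ (∀ b, 1 ≤ dg b → w' b = w b) ∧
      (Z = ∅ ∨ sAlt dg 0 + 1 = a) := by
  obtain ⟨w', D', Z, h1, h2, -, h4, h5, h6, h7, h8, h9, h10⟩ := bd_ext hd (j := 0) hs.zero h
  refine ⟨w', D', Z, ⟨h1, h2, h6, h7, h8, fun x hx => (h9 x hx).1, fun x hx => (h9 x hx).2.1, h10,
    fun x hx => (h9 x hx).2.2.2⟩, h4, h5, ?_⟩
  exact Z.eq_empty_or_nonempty.imp id fun ⟨x, hx⟩ => (h9 x hx).2.2.1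

theorem bd_down (hd : ringKrullDim (R ⧸ I) ≤ a) {n : ℕ} (hs : Stab dg a n) (k : ℕ) :
    ∀ {w : ι → ℕ} {D : Matrix ι ι R[X]}, k + 1 ≤ n → FamGe I dg w (k + 2) D →
    ∃ (w' : ι → ℕ) (D' : Matrix ι ι R[X]) (Z : Set (PrimeSpectrum R[X])),
      AlmostGood I dg w' D' Z ∧ AgreeGe dg (k + 2) D D' ∧ (∀ b, k + 1 ≤ dg b → w' b = w b) ∧
      (Z = ∅ ∨ sAlt dg 0 + 1 = a) := by
  induction k with
  | zero => exact fun _ h => h.last hd hs
  | succ k ih =>
    intro w D hk h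
    obtain ⟨w₁, D₁, h1, h2, h3⟩ := FamGe.step hd hs hk h
    obtain ⟨w', D', Z, h4, h5, h6, h7⟩ := ih (by omega) h1
    exact ⟨w', D', Z, h4, fun a b hb => (h2 a b hb).trans (h5 a b (by omega)),
      fun b hb => (h6 b (by omega)).trans (h3 b hb), h7⟩

section Trunc
variable {A : Type u} [CommRing A] {D : Matrix ι ι A} {j : ℕ}

/-- Keep the columns of degree `≥ j`. -/
def bdTr (dg : ι → ℕ) (j : ℕ) (D : Matrix ι ι A) : Matrix ι ι A :=
  fun a b => if j ≤ dg b then D a b else 0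

theorem bd_tr_agree : AgreeGe dg j (bdTr dg j D) D := fun _ _ hb => if_pos hb
theorem bd_tr_cols : ColsGe dg j (bdTr dg j D) := fun _ _ hab => by
  by_contra hb
  exact hab (if_neg hb)
theorem bd_tr_row (hD : IsMC D (zd dg)) (a : ι) : Matrix.vecMul (D a) (bdTr dg j D) = 0 := by
  funext c
  by_cases hc : j ≤ dg c
  · refine Eq.trans (Finset.sum_congr rfl fun b _ => ?_) (congrFun (congrFun hD.sq a) c)
    simp only [bdTr, if_pos hc]
  · exact Finset.sum_eq_zero fun b _ => by simp only [bdTr, if_neg hc, mul_zero]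
theorem bd_tr_mc (hD : IsMC D (zd dg)) : IsMC (bdTr dg j D) (zd dg) := by
  have h0 : ∀ a b, bdTr dg j D a b ≠ 0 → D a b ≠ 0 := fun a b hab h0 => hab (by
    simp only [bdTr, h0, ite_self])
  refine ⟨?_, fun a b hab => hD.homog a b (h0 a b hab)⟩
  ext a c
  by_cases ha : j ≤ dg a + 1
  · refine Eq.trans (Finset.sum_congr rfl fun b _ => ?_) (congrFun (bd_tr_row (j := j) hD a) c)
    by_cases hb : D a b = 0
    · simp only [bdTr, hb, ite_self]
    · simp only [bd_tr_agree a b (show j ≤ dg b by rw [bd_deg hD hb]; exact ha)]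
  · refine Finset.sum_eq_zero fun b _ => mul_eq_zero_of_left ?_ _
    by_contra hb
    have h1 := bd_deg hD (h0 a b hb)
    have h2 := bd_tr_cols a b hb
    omega
theorem bd_row_gam (hD : IsMC D (zd dg)) (r : {a // dg a = j}) :
    D r.1 ∈ bdGam (bdTr dg (j + 2) D) dg (j + 1) := by
  refine bd_mem.mpr ⟨fun b hb => ?_, bd_tr_row hD _⟩
  by_contra h0
  have := bd_deg hD h0
  have := r.2
  omega
theorem bd_map_gam {A' : Type u} [CommRing A'] (f : A →+* A') {σ : ι → A}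
    (hσ : σ ∈ bdGam D dg j) : (fun b => f (σ b)) ∈ bdGam (D.map f) dg j := by
  refine bd_mem.mpr ⟨fun b hb => by rw [(bd_mem.mp hσ).1 b hb, map_zero], funext fun b => ?_⟩
  have := RingHom.map_vecMul f D σ b
  rw [(bd_mem.mp hσ).2, Pi.zero_apply, map_zero] at this
  exact this.symm
end Trunc

section Pencil
omit [IsLocalRing R] [IsNoetherianRing R] [Infinite (ResidueField R)]

/-- Constant vectors times a polynomial. -/
noncomputable def bdC (f : R[X]) : (ι → R) →ₗ[R] (ι → R[X]) where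
  toFun v b := f * C (v b)
  map_add' v v' := by funext b; simp only [Pi.add_apply, map_add, mul_add]
  map_smul' t v := by
    funext b
    simp only [Pi.smul_apply, smul_eq_mul, map_mul, RingHom.id_apply, smul_eq_C_mul]
    ring

theorem bd_C_gam {T : Matrix ι ι R} {j : ℕ} (f : R[X]) {v : ι → R} (hv : v ∈ bdGam T dg j) :
    bdC f v ∈ bdGam (T.map C) dg j := Submodule.smul_mem _ f (bd_map_gam C hv)

theorem bd_C_span (T : Matrix ι ι R) (j : ℕ) : bdGam (T.map C) dg j ≤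
    Submodule.span R[X] (Set.range (bdC 1 ∘ₗ (bdGam T dg j).subtype)) := by
  intro σ hσ
  obtain ⟨n, hn⟩ : ∃ n, ∀ b, (σ b).natDegree < n :=
    ⟨Finset.univ.sup (fun b => (σ b).natDegree) + 1, fun b => Nat.lt_succ_of_le
      (Finset.le_sup (f := fun b => (σ b).natDegree) (Finset.mem_univ b))⟩
  have h1 : σ = ∑ k ∈ Finset.range n, (X ^ k : R[X]) • bdC 1 fun b => (σ b).coeff k := by
    funext b
    rw [Finset.sum_apply]
    refine ((σ b).as_sum_range_C_mul_X_pow' (hn b)).trans (Finset.sum_congr rfl fun k _ => ?_)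
    change _ = X ^ k * (1 * C _)
    ring
  rw [h1]
  refine Submodule.sum_mem _ fun k _ => Submodule.smul_mem _ _ (Submodule.subset_span
    ⟨⟨fun b => (σ b).coeff k, bd_mem.mpr ⟨fun b hb => ?_, funext fun b => ?_⟩⟩, rfl⟩)
  · rw [(bd_mem.mp hσ).1 b hb, coeff_zero]
  · have := congrArg (fun f => coeff f k) (congrFun (bd_mem.mp hσ).2 b)
    simpa only [Matrix.vecMul, dotProduct, finsetSum_coeff, Matrix.map_apply, coeff_mul_C,
      Pi.zero_apply, coeff_zero] using this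

theorem bd_X_span {Γ : Submodule R (ι → R)} {x : PrimeSpectrum R[X]} (hx : X ∉ x.asIdeal) :
    Submodule.span x.asIdeal.ResidueField (evAt x '' Set.range (bdC 1 ∘ₗ Γ.subtype)) ≤
      Submodule.span x.asIdeal.ResidueField (evAt x '' Set.range (bdC X ∘ₗ Γ.subtype)) := by
  refine Submodule.span_le.mpr ?_
  rintro _ ⟨_, ⟨γ, rfl⟩, rfl⟩
  have h0 : algebraMap R[X] x.asIdeal.ResidueField X ≠ 0 :=
    fun h => hx (Ideal.algebraMap_residueField_eq_zero.mp h)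
  refine (Submodule.smul_mem_iff _ h0).mp (Submodule.subset_span ⟨_, ⟨γ, rfl⟩, ?_⟩)
  rw [← bd_ev_smul]
  congr 1
  funext b
  change X * C _ = X * (1 * C _)
  rw [one_mul]

theorem bd_pen_wt {j : ℕ} {T : Matrix ι ι R} (hT : IsMC T (zd dg)) (hc : ColsGe dg (j + 2) T)
    {c γ : {a // dg a = j} → ι → R} (h1 : ∀ r, c r ∈ bdGam T dg (j + 1))
    (h2 : ∀ r, γ r ∈ bdGam T dg (j + 1)) :
    Wt (fun b => if dg b ≤ j then 1 else 0) (fun b => if dg b ≤ j then 1 else 0)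
      (bdRows dg j (T.map C) fun r => bdC 1 (c r) + bdC X (γ r)) := by
  refine bd_wt_rows (w := fun _ => 0) (isMC_map hT C)
    (fun a b hab => hc a b fun h0 => hab (by rw [Matrix.map_apply, h0, map_zero]))
    (fun a b _ => (natDegree_C _).le) (fun r => bd_wt.mpr fun _ b _ => ?_)
    fun r => Submodule.add_mem _ (bd_C_gam 1 (h1 r)) (bd_C_gam X (h2 r))
  change (1 * C _ + X * C _).natDegree + 0 ≤ 1
  rw [add_zero]
  compute_degree

theorem bd_pen_ev0 {j : ℕ} (T : Matrix ι ι R) (c γ : {a // dg a = j} → ι → R) :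
    ev0M (bdRows dg j (T.map C) fun r => bdC 1 (c r) + bdC X (γ r)) = bdRows dg j T c := by
  ext a b
  by_cases ha : dg a = j
  · rw [ev0M, Matrix.map_apply, bd_rows_of_eq _ ha, bd_rows_of_eq _ ha]
    change evalRingHom (0 : R) (1 * C _ + X * C _) = _
    simp
  · rw [ev0M, Matrix.map_apply, bd_rows_of_ne _ ha, bd_rows_of_ne _ ha]
    simp

theorem bd_pen_lead {j : ℕ} {T : Matrix ι ι R} (hT : IsMC T (zd dg)) (hc : ColsGe dg (j + 2) T)
    {c γ : {a // dg a = j} → ι → R} (h1 : ∀ r, c r ∈ bdGam T dg (j + 1))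
    (h2 : ∀ r, γ r ∈ bdGam T dg (j + 1)) :
    leadM (fun b => if dg b ≤ j then 1 else 0)
      (bdRows dg j (T.map C) fun r => bdC 1 (c r) + bdC X (γ r)) = bdRows dg j T γ := by
  ext a b
  by_cases ha : dg a = j
  · by_cases hb : dg b = j + 1
    · simp only [leadM, grM, bd_rows_of_eq _ ha, if_pos ha.le, if_neg (show ¬ dg b ≤ j by omega),
        hev_lead, zero_le_one, if_true]
      change (1 * C _ + X * C _).coeff 1 = _
      simp
    · rw [bd_rows_of_eq _ ha, (bd_mem.mp (h2 _)).1 b hb]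
      refine bd_gr_zero _ _ _ _ _ ?_
      rw [bd_rows_of_eq _ ha]
      exact (bd_mem.mp (Submodule.add_mem _ (bd_C_gam 1 (h1 _)) (bd_C_gam X (h2 _)))).1 b hb
  · rw [bd_rows_of_ne _ ha]
    by_cases h0 : T a b = 0
    · rw [h0]
      refine bd_gr_zero _ _ _ _ _ ?_
      rw [bd_rows_of_ne _ ha, Matrix.map_apply, h0, map_zero]
    · have h3 := bd_deg hT h0
      have h4 := hc a b h0
      simp only [leadM, grM, bd_rows_of_ne _ ha, if_neg (show ¬ dg a ≤ j by omega),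
        if_neg (show ¬ dg b ≤ j by omega), hev_lead, le_refl, if_true, Matrix.map_apply]
      simp
end Pencil

/-- Completion of one pencil to an almost good family. -/
theorem bd_pen_fin (hd : ringKrullDim (R ⧸ I) ≤ a) {n : ℕ} (hs : Stab dg a n) {j : ℕ}
    (hjn : j + 1 ≤ n) {w : ι → ℕ} {E : Matrix ι ι R[X]} {Z : Set (PrimeSpectrum R[X])}
    (hmc : IsMC E (zd dg)) (hw : Wt w w E) (hc : ColsGe dg (j + 1) E)
    (hinf : GoodU I (leadM w E) dg (j + 1)) (h0 : GoodU I (ev0M E) dg (j + 1)) (hZ : Z.Finite)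
    (hZ2 : ∀ x ∈ Z, XPt I x ∧ (∀ x', XPt I x' → x ≤ x' → x' = x) ∧ sAlt dg j + 1 = a ∧
        GoodAt E dg x (j + 2) ∧ hk E dg x (j + 1 : ℕ) = 1)
    (hZ3 : ∀ x, XPt I x → x ∉ Z → GoodAt E dg x (j + 1)) :
    ∃ (w' : ι → ℕ) (E' : Matrix ι ι R[X]) (Z' : Set (PrimeSpectrum R[X])),
      AlmostGood I dg w' E' Z' ∧ (Z' = ∅ ∨ sAlt dg 0 + 1 = a) ∧
      AgreeGe dg (j + 1) (ev0M E) (ev0M E') ∧ AgreeGe dg (j + 1) (leadM w E) (leadM w' E') := by
  rcases j with _ | k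
  · exact ⟨w, E, Z, ⟨hmc, hw, hinf, h0, hZ, fun x hx => (hZ2 x hx).1, fun x hx => (hZ2 x hx).2.1,
      hZ3, fun x hx => (hZ2 x hx).2.2.2⟩,
      Z.eq_empty_or_nonempty.imp id fun ⟨x, hx⟩ => (hZ2 x hx).2.2.1, fun _ _ _ => rfl,
      fun _ _ _ => rfl⟩
  · have ha := hs.inner (k + 1) (by omega) (by omega)
    obtain ⟨w', E', Z', h1, h2, h3, h4⟩ := bd_down hd hs k (by omega)
      (⟨hmc, hw, hc, hinf, fun x hx => hZ3 x hx fun hz => by
        have := (hZ2 x hz).2.2.1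
        omega⟩ : FamGe I dg w (k + 2) E)
    exact ⟨w', E', Z', h1, h4, fun a b hb => congrArg (evalRingHom 0) (h2 a b hb),
      bd_lead_agree hmc h2 h3⟩

/-- Two good complexes that agree in degrees `> j` are joined by two almost good families whose
fibres at infinity agree in degrees `≥ j`. -/
theorem exists_pencils (hd : ringKrullDim (R ⧸ I) ≤ a) {n : ℕ} (hs : Stab dg a n) {j : ℕ}
    (hj : 1 ≤ j) (hjn : j ≤ n) {D₁ D₂ : Matrix ι ι R} (h₁ : IsMC D₁ (zd dg))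
    (h₂ : IsMC D₂ (zd dg)) (g₁ : GoodU I D₁ dg 1) (g₂ : GoodU I D₂ dg 1)
    (hag : AgreeGe dg (j + 1) D₁ D₂) :
    ∃ (w₁ w₂ : ι → ℕ) (E₁ E₂ : Matrix ι ι R[X]) (Z₁ Z₂ : Set (PrimeSpectrum R[X])),
      AlmostGood I dg w₁ E₁ Z₁ ∧ AlmostGood I dg w₂ E₂ Z₂ ∧
      (Z₁ = ∅ ∨ sAlt dg 0 + 1 = a) ∧ (Z₂ = ∅ ∨ sAlt dg 0 + 1 = a) ∧
      AgreeGe dg j (ev0M E₁) D₁ ∧ AgreeGe dg j (ev0M E₂) D₂ ∧
      AgreeGe dg j (leadM w₁ E₁) (leadM w₂ E₂) := by
  obtain ⟨j, rfl⟩ : ∃ k, j = k + 1 := ⟨j - 1, by omega⟩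
  have ha : (a : ℤ) ≤ sAlt dg j + 1 := by
    rcases j with _ | k
    · exact hs.zero
    · have := hs.inner (k + 1) (by omega) (by omega)
      omega
  obtain ⟨hU, hU1, hU2⟩ := exists_height_U hd
  obtain ⟨hX, hX1, hX2⟩ := exists_height_X hd
  obtain ⟨T, hT⟩ : ∃ T, T = bdTr dg (j + 2) D₁ := ⟨_, rfl⟩
  have hT2 : T = bdTr dg (j + 2) D₂ := by
    rw [hT]
    ext a b
    by_cases hb : j + 2 ≤ dg b
    · rw [bd_tr_agree a b hb, bd_tr_agree a b hb, hag a b hb]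
    · simp only [bdTr, if_neg hb]
  have hmc : IsMC T (zd dg) := hT ▸ bd_tr_mc h₁
  have hc : ColsGe dg (j + 2) T := hT ▸ bd_tr_cols
  have hmcC := isMC_map hmc (C : R →+* R[X])
  have hcC : ColsGe dg (j + 2) (T.map (C : R →+* R[X])) :=
    fun a b hab => hc a b fun h0 => hab (by rw [Matrix.map_apply, h0, map_zero])
  have hg : ∀ x, XPt I x → GoodAt (T.map (C : R →+* R[X])) dg x (j + 2) := fun x hx i hi => by
    rw [hk_comap hmc]
    exact (goodAt_congr hmc h₁ (hT ▸ bd_tr_agree)).mpr (bd_mono (g₁ _ (bd_xu hx)) (by omega)) i hi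
  have r1 : ∀ r : {a // dg a = j}, D₁ r.1 ∈ bdGam T dg (j + 1) := fun r => hT ▸ bd_row_gam h₁ r
  have r2 : ∀ r : {a // dg a = j}, D₂ r.1 ∈ bdGam T dg (j + 1) := fun r => hT2 ▸ bd_row_gam h₂ r
  have sp1 : ∀ x, XPt I x → lker (T.map (C : R →+* R[X])) dg (j + 1) x ≤ _ := fun x hx =>
    bd_span hmcC hcC (hg x hx) (bd_C_span T (j + 1))
  obtain ⟨γ, hγ⟩ := bd_gen (N := Fin 3) ![I.map C ⊔ Ideal.span {X}, I.map C, I.map C]
    ![bdS0 I, {x | XPt I x ∧ X ∉ x.asIdeal}, {x | XPt I x ∧ X ∉ x.asIdeal}]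
    (Fin.forall_fin_succ.mpr ⟨fun x hx => bd_s0_le hx, Fin.forall_fin_two.mpr
      ⟨fun x hx => hx.1.1, fun x hx => hx.1.1⟩⟩)
    (Fin.forall_fin_succ.mpr ⟨fun x hx x' => bd_s0_gen hx, Fin.forall_fin_two.mpr
      ⟨fun x hx x' h1 h2 => ⟨bd_xgen hx.1 h1 h2, fun h3 => hx.2 (h2 h3)⟩,
        fun x hx x' h1 h2 => ⟨bd_xgen hx.1 h1 h2, fun h3 => hx.2 (h2 h3)⟩⟩⟩)
    ![fun x => hU (PrimeSpectrum.comap C x), hX, hX]
    (Fin.forall_fin_succ.mpr
      ⟨fun x hx x' hx' hl => hU2 _ _ (bd_xu hx.1) (bd_xu hx'.1) (bd_s0_lt hx hx' hl),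
        Fin.forall_fin_two.mpr ⟨fun x hx x' hx' => hX2 x x' hx.1 hx'.1,
          fun x hx x' hx' => hX2 x x' hx.1 hx'.1⟩⟩)
    (j := j)
    (Fin.forall_fin_succ.mpr ⟨fun x hx => (Int.ofNat_le.mpr (hU1 _ (bd_xu hx.1)).le).trans ha,
      Fin.forall_fin_two.mpr ⟨fun x hx => (Int.ofNat_le.mpr (hX1 x hx.1)).trans ha,
        fun x hx => (Int.ofNat_le.mpr (hX1 x hx.1)).trans ha⟩⟩)
    (fun _ => T.map C) (fun _ => hmcC) (fun _ => hcC)
    (Fin.forall_fin_succ.mpr ⟨fun x hx => hg x hx.1, Fin.forall_fin_two.mpr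
      ⟨fun x hx => hg x hx.1, fun x hx => hg x hx.1⟩⟩)
    ![bdC 1 ∘ₗ (bdGam T dg (j + 1)).subtype, bdC X ∘ₗ (bdGam T dg (j + 1)).subtype,
      bdC X ∘ₗ (bdGam T dg (j + 1)).subtype]
    ![fun _ => bdC 0 0, fun r => bdC 1 (D₁ r.1), fun r => bdC 1 (D₂ r.1)]
    (Fin.forall_fin_succ.mpr
      ⟨fun r γ => Submodule.add_mem _ (bd_C_gam 0 (Submodule.zero_mem _)) (bd_C_gam 1 γ.2),
      Fin.forall_fin_two.mpr ⟨fun r γ => Submodule.add_mem _ (bd_C_gam 1 (r1 r)) (bd_C_gam X γ.2),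
        fun r γ => Submodule.add_mem _ (bd_C_gam 1 (r2 r)) (bd_C_gam X γ.2)⟩⟩)
    (Fin.forall_fin_succ.mpr ⟨fun x hx => sp1 x hx.1, Fin.forall_fin_two.mpr
      ⟨fun x hx => (sp1 x hx.1).trans (bd_X_span hx.2),
        fun x hx => (sp1 x hx.1).trans (bd_X_span hx.2)⟩⟩)
  have hγm : ∀ r, (γ r).1 ∈ bdGam T dg (j + 1) := fun r => (γ r).2
  have hinf : GoodU I (bdRows dg j T fun r => (γ r).1) dg (j + 1) := by
    obtain ⟨Z, -, hZ2, hZ3⟩ := hγ 0
    have e : (fun r => bdC (0 : R[X]) (0 : ι → R) + bdC 1 (γ r).1)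
        = fun r => bdC 1 (γ r).1 + bdC X ((fun _ => 0 : {a // dg a = j} → ι → R) r) := by
      funext r
      rw [map_zero, map_zero, zero_add, add_zero]
    rw [← bd_pen_ev0 T _ fun _ => 0, ← e, bd_ev0 (bd_mc hmcC hcC fun r =>
      Submodule.add_mem _ (bd_C_gam 0 (Submodule.zero_mem _)) (bd_C_gam 1 (hγm r)))]
    refine fun x hx => hZ3 x hx fun hz => ?_
    have h1 : (hU (PrimeSpectrum.comap C x) : ℤ) = _ := (hZ2 x hz).2.1
    have := hU1 _ (bd_xu hx.1)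
    omega
  have key : ∀ D : Matrix ι ι R, IsMC D (zd dg) → GoodU I D dg 1 → T = bdTr dg (j + 2) D →
      (∃ Z : Set (PrimeSpectrum R[X]), Z.Finite ∧
        (∀ x ∈ Z, (XPt I x ∧ X ∉ x.asIdeal) ∧ (hX x : ℤ) = sAlt dg j + 1 ∧
          GoodAt (bdRows dg j (T.map C) fun r => bdC 1 (D r.1) + bdC X (γ r).1) dg x (j + 2) ∧
          hk (bdRows dg j (T.map C) fun r => bdC 1 (D r.1) + bdC X (γ r).1) dg x (j + 1 : ℕ) = 1) ∧
        ∀ x, XPt I x ∧ X ∉ x.asIdeal → x ∉ Z →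
          GoodAt (bdRows dg j (T.map C) fun r => bdC 1 (D r.1) + bdC X (γ r).1) dg x (j + 1)) →
      ∃ (w' : ι → ℕ) (E' : Matrix ι ι R[X]) (Z' : Set (PrimeSpectrum R[X])),
        AlmostGood I dg w' E' Z' ∧ (Z' = ∅ ∨ sAlt dg 0 + 1 = a) ∧
        AgreeGe dg (j + 1) (ev0M E') D ∧
        AgreeGe dg (j + 1) (bdRows dg j T fun r => (γ r).1) (leadM w' E') := by
    rintro D hD gD hTD ⟨Z, hZ1, hZ2, hZ3⟩
    have r0 : ∀ r : {a // dg a = j}, D r.1 ∈ bdGam T dg (j + 1) := fun r => hTD ▸ bd_row_gam hD r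
    have hσ : ∀ r : {a // dg a = j}, bdC 1 (D r.1) + bdC X (γ r).1 ∈ bdGam (T.map C) dg (j + 1) :=
      fun r => Submodule.add_mem _ (bd_C_gam 1 (r0 r)) (bd_C_gam X (hγm r))
    have hag0 : AgreeGe dg (j + 1) (bdRows dg j T fun r => D r.1) D := fun a b hb => by
      by_cases ha : dg a = j
      · exact bd_rows_of_eq _ ha b
      · rw [bd_rows_of_ne _ ha, hTD]
        by_cases h0 : D a b = 0
        · simp only [bdTr, h0, ite_self]
        · exact bd_tr_agree a b (by have := bd_deg hD h0; omega)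
    have h0 : GoodU I (ev0M (bdRows dg j (T.map C) fun r => bdC 1 (D r.1) + bdC X (γ r).1)) dg
        (j + 1) := by
      rw [bd_pen_ev0]
      exact fun y hy => (goodAt_congr (bd_mc hmc hc r0) hD hag0).mpr (bd_mono (gD y hy) (by omega))
    obtain ⟨w', E', Z', h1, h2, h3, h4⟩ := bd_pen_fin hd hs hjn (bd_mc hmcC hcC hσ)
      (bd_pen_wt hmc hc r0 hγm) (bd_cols hcC hσ) (by rw [bd_pen_lead hmc hc r0 hγm]; exact hinf)
      h0 hZ1 (fun x hx => by
        obtain ⟨h1, h2, h3⟩ := hZ2 x hx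
        have h5 := hX1 x h1.1
        exact ⟨h1.1, bd_max hX1 hX2 h1.1 (by omega), by omega, h3⟩) (fun x hx hz => by
        by_cases hm : X ∈ x.asIdeal
        · exact (bd_ev0 (bd_mc hmcC hcC hσ)).mp h0 x ⟨hx, hm⟩
        · exact hZ3 x ⟨hx, hm⟩ hz)
    rw [bd_pen_ev0] at h3
    rw [bd_pen_lead hmc hc r0 hγm] at h4
    exact ⟨w', E', Z', h1, h2, fun a b hb => (h3 a b hb).symm.trans (hag0 a b hb), h4⟩
  obtain ⟨w₁, E₁, Z₁, a1, a2, a3, a4⟩ := key D₁ h₁ g₁ hT (hγ 1)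
  obtain ⟨w₂, E₂, Z₂, b1, b2, b3, b4⟩ := key D₂ h₂ g₂ hT2 (hγ 2)
  exact ⟨w₁, w₂, E₁, E₂, Z₁, Z₂, a1, b1, a2, b2, a3, b3,
    fun a b hb => (a4 a b hb).symm.trans (b4 a b hb)⟩

end Vale.Agent.P177
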