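import Vale.Agent.P177.Gen
import Vale.Agent.P177.Min
import Vale.Agent.P202.CM
import Vale.Agent.P202.Reduce

/-! P177: auxiliary lemmas for the section `Chi` of the module Chi (partial homotopies, flat base
change of homology, dimension of quotients). -/

namespace Vale.Agent.P177.ChiC

open Vale.Agent.P202 IsLocalRing TensorProduct MinAux Matrix

universe u

section Htp
variable {A : Type u} [CommRing A] {X : Type u} [AddCommGroup X] [Module A X] {N : ℕ∞}

theorem eps_pos (F : PResol A X N) {i : ℤ} (hi : i ≠ 0) {v : F.ι → A}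
    (hv : Res.Sp (zd F.dg) i v) : F.ε v = 0 :=
  (F.ker v).2 ⟨0, fun _ _ => rfl, fun a ha => by
    rw [hv a (by simp only [zd]; omega), Matrix.mulVec_zero, Pi.zero_apply]⟩

theorem lift (F : PResol A X N) (i : ℕ) (hi : (i : ℕ∞) < N) {u : F.ι → A}
    (hu : Res.Sp (zd F.dg) i u) (h0 : F.D *ᵥ u = 0) (hε : F.ε u = 0) :
    ∃ w, Res.Sp (zd F.dg) (i + 1) w ∧ u = F.D *ᵥ w := by
  rcases Nat.eq_zero_or_pos i with rfl | hi'
  · obtain ⟨w, h1, h2⟩ := (F.ker u).1 hε
    refine ⟨w, by simpa using h1, funext fun a => ?_⟩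
    by_cases ha : F.dg a = 0
    · exact h2 a ha
    · have h3 : zd F.dg a ≠ 0 := by simp only [zd]; omega
      rw [hu a (by simpa using h3), hr_sp (j := 0) F.mc.homog h1 (by simp) a h3]
  · exact F.ex i hi' hi u hu h0

/-- A partial null-homotopy on a partial resolution. -/
theorem exists_htp (F : PResol A X N) {Ψ : Matrix F.ι F.ι A} (h1 : IsHomR Ψ F.dg F.dg 0)
    (h2 : Ψ * F.D = F.D * Ψ) (h3 : ∀ v, F.ε (Ψ *ᵥ v) = 0) :
    ∃ H : Matrix F.ι F.ι A, IsHomR H F.dg F.dg (-1) ∧
      ∀ a b, (F.dg b : ℕ∞) < N → Ψ a b = (F.D * H + H * F.D) a b := by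
  obtain ⟨Y, hY⟩ := col_rec F.dg (W := F.ι → A) (fun b Y w => Res.Sp (zd F.dg) (F.dg b + 1) w ∧
      ((F.dg b : ℕ∞) < N → F.D *ᵥ w = Ψ.col b - ∑ c, F.D c b • Y c))
    (fun b Y Y' w h h' => ⟨h'.1, fun hb => (h'.2 hb).trans (by rw [sum_loc F.mc b h])⟩)
    (fun b Y h => by
      by_cases hb : (F.dg b : ℕ∞) < N
      swap
      · exact ⟨0, fun _ _ => rfl, fun h' => absurd h' hb⟩
      have a1 : Res.Sp (zd F.dg) (F.dg b) (Ψ.col b) := fun a ha => by
        by_contra h'
        have := h1 a b h'
        simp only [zd] at ha; omega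
      have a2 := sp_sum (i := F.dg b) F.mc b (fun c hc => (h c hc).1) rfl
      obtain ⟨w, b1, b2⟩ := lift F (F.dg b) hb (u := Ψ.col b - ∑ c, F.D c b • Y c)
        (fun a ha => by rw [Pi.sub_apply, a1 a ha, a2 a ha, sub_zero]) (by
          rw [← Matrix.mulVecLin_apply, map_sub, map_sum]
          simp only [map_smul, Matrix.mulVecLin_apply]
          rw [sum_loc F.mc b fun c hc => (h c hc).2 (lt_trans (Nat.cast_lt.2 hc) hb)]
          simp only [smul_sub, Finset.sum_sub_distrib]
          rw [sum_sum_zero F.mc, sub_zero, sub_eq_zero]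
          funext a
          rw [Finset.sum_apply]
          exact (congrFun (congrFun h2 a) b).symm.trans
            (Finset.sum_congr rfl fun c _ => mul_comm _ _)) (by
          rw [map_sub, ← Matrix.mulVec_single_one, h3, map_sum]
          simp only [map_smul]
          rw [sum_loc F.mc b (Y' := 0) fun c hc => eps_pos F (by omega) (h c hc).1]
          simp)
      exact ⟨w, b1, fun _ => b2.symm⟩)
  refine ⟨(Matrix.of Y)ᵀ, fun a b h => ?_, fun a b hb => ?_⟩
  · by_contra h'
    exact h ((hY b).1 a (by simp only [zd]; omega))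
  · have := congrFun ((hY b).2 hb) a
    rw [Pi.sub_apply, Finset.sum_apply, eq_sub_iff_add_eq] at this
    refine this.symm.trans ?_
    rw [Matrix.add_apply]
    congr 1
    exact Finset.sum_congr rfl fun c _ => mul_comm _ _

/-- The annihilator of `X` kills the homology of `F ⊗ V` in the good range. -/
theorem smul_mem_bdy (F : PResol A X N) {g : A} (hg : g ∈ Module.annihilator A X) {i : ℕ}
    (hi : (i : ℕ∞) < N) {V : Type*} [AddCommGroup V] [Module A V] {v : F.ι → V}
    (hv : v ∈ cyc (cx F.D F.dg V) (fam F.dg (⊤ : Submodule A V)) (fam F.dg ⊥) i) :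
    g • v ∈ bdy (cx F.D F.dg V) (fam F.dg (⊤ : Submodule A V)) (fam F.dg ⊥) i := by
  obtain ⟨H, c1, c2⟩ := exists_htp F (hr_smul hr_one g) (by simp)
    (fun v => by rw [Matrix.smul_mulVec, map_smul, Module.mem_annihilator.1 hg])
  obtain ⟨h1, h2⟩ := mem_cyc'.1 hv
  refine mem_bdy'.2 ⟨act A V H v, act_mem c1 (by ring) h1, ?_⟩
  have e : act A V (g • (1 : Matrix F.ι F.ι A)) v = act A V (F.D * H + H * F.D) v := by
    funext a
    rw [act_apply, act_apply]
    refine Finset.sum_congr rfl fun b _ => ?_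
    by_cases hb : (F.dg b : ℤ) = i
    · rw [c2 a b (by rw [show F.dg b = i by omega]; exact hi)]
    · rw [(mem_fam.1 h1 b).2 hb, smul_zero, smul_zero]
  rw [← act_smul_one (T := A), e, act_add, act_mul, act_mul, h2, map_zero, add_zero]
end Htp

section BC
variable {R : Type*} [CommRing R] (A : Type*) [CommRing A] [Algebra R A]

/-- Homology commutes with flat base change. -/
theorem rl_ker_range [Module.Flat R A] {M₁ M M₂ : Type*} [AddCommGroup M₁] [Module R M₁]
    [AddCommGroup M] [Module R M] [AddCommGroup M₂] [Module R M₂] (f : M₁ →ₗ[R] M)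
    (g : M →ₗ[R] M₂) : rl (LinearMap.ker (g.baseChange A)) (LinearMap.range (f.baseChange A)) =
      Module.length A (A ⊗[R] ((LinearMap.ker g).map (LinearMap.range f).mkQ)) := by
  set H := (LinearMap.ker g).map (LinearMap.range f).mkQ with hH
  have hψ : Function.Injective (H.subtype.baseChange A) :=
    Module.Flat.lTensor_preserves_injective_linearMap _ H.subtype_injective
  let ρ : LinearMap.ker g →ₗ[R] H :=
    (LinearMap.range f).mkQ.restrict fun x hx => Submodule.mem_map_of_mem hx
  have hρ : Function.Surjective ρ := by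
    rintro ⟨_, x, hx, rfl⟩
    exact ⟨⟨x, hx⟩, rfl⟩
  have hc : ∀ w, (LinearMap.range f).mkQ.baseChange A ((LinearMap.ker g).subtype.baseChange A w) =
      H.subtype.baseChange A (ρ.baseChange A w) := fun w => by
    rw [← LinearMap.comp_apply, ← LinearMap.comp_apply, ← LinearMap.baseChange_comp,
      ← LinearMap.baseChange_comp]
    rfl
  have e1 : Function.Exact ((LinearMap.ker g).subtype.baseChange A) (g.baseChange A) :=
    Module.Flat.lTensor_exact A (LinearMap.exact_subtype_ker_map g)
  have e2 : Function.Exact (f.baseChange A) ((LinearMap.range f).mkQ.baseChange A) :=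
    lTensor_exact A (LinearMap.exact_map_mkQ_range f) (Submodule.mkQ_surjective _)
  have e3 : Module.length A (A ⊗[R] H) =
      Module.length A (LinearMap.range (H.subtype.baseChange A)) :=
    LinearEquiv.length_eq (LinearEquiv.ofInjective _ hψ)
  rw [e3, ← rl_bot]
  refine rl_eq_of_map ((LinearMap.range f).mkQ.baseChange A) ?_ ?_ ?_ ?_
  · intro x hx
    obtain ⟨w, rfl⟩ := (e1 x).1 hx
    exact ⟨_, (hc w).symm⟩
  · intro x hx
    exact (e2 x).2 hx
  · rintro _ ⟨z, rfl⟩
    obtain ⟨w, rfl⟩ : ∃ w, ρ.baseChange A w = z := LinearMap.lTensor_surjective A hρ z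
    exact ⟨_, (e1 _).2 ⟨w, rfl⟩, by rw [hc, sub_self]; exact zero_mem _⟩
  · intro x _ hx
    exact (e2 x).1 hx

theorem map_ann_le {V : Type*} [AddCommGroup V] [Module R V] :
    (Module.annihilator R V).map (algebraMap R A) ≤ Module.annihilator A (A ⊗[R] V) := by
  refine Ideal.map_le_iff_le_comap.2 fun r hr => Module.mem_annihilator.2 fun x => ?_
  rw [algebraMap_smul]
  induction x with
  | zero => exact smul_zero _
  | add x y hx hy => rw [smul_add, hx, hy, add_zero]
  | tmul a v => rw [← tmul_smul, Module.mem_annihilator.1 hr, tmul_zero]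

variable {V : Type*} [AddCommGroup V] [Module R V] {ι ι' : Type} [Fintype ι] [Fintype ι']
  [DecidableEq ι] [DecidableEq ι']

theorem piRight_act (F : Matrix ι' ι R) (x : A ⊗[R] (ι → V)) :
    TensorProduct.piRight R A A (fun _ : ι' => V) ((act R V F).baseChange A x) =
      act A (A ⊗[R] V) (F.map (algebraMap R A))
        (TensorProduct.piRight R A A (fun _ : ι => V) x) := by
  induction x with
  | zero => simp
  | add x y hx hy => simp only [map_add, hx, hy]
  | tmul a v =>
    funext j
    rw [LinearMap.baseChange_tmul, TensorProduct.piRight_apply, TensorProduct.piRight_apply,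
      TensorProduct.piRightHom_tmul, TensorProduct.piRightHom_tmul, act_apply]
    simp only [act_apply, tmul_sum, tmul_smul, Matrix.map_apply, algebraMap_smul]

theorem cyc_eq (D : Matrix ι ι R) (dg : ι → ℕ) (i : ℤ) :
    cyc (cx D dg V) (fam dg (⊤ : Submodule R V)) (fam dg ⊥) i = LinearMap.ker (act R V
      (Matrix.fromRows (Matrix.diagonal fun a => if (dg a : ℤ) = i then (0 : R) else 1) D)) := by
  ext v
  have e1 : ∀ a, act R V (Matrix.fromRows
      (Matrix.diagonal fun a => if (dg a : ℤ) = i then (0 : R) else 1) D) v (Sum.inl a) =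
      if (dg a : ℤ) = i then 0 else v a := fun a => by
    rw [act_apply, Finset.sum_eq_single a]
    · by_cases h : (dg a : ℤ) = i <;> simp [h]
    · intro b _ hb
      simp [Matrix.diagonal_apply_ne _ hb.symm]
    · simp
  have e2 : ∀ a, act R V (Matrix.fromRows
      (Matrix.diagonal fun a => if (dg a : ℤ) = i then (0 : R) else 1) D) v (Sum.inr a) =
      act R V D v a := fun a => rfl
  rw [mem_cyc', LinearMap.mem_ker, mem_fam, funext_iff, funext_iff, Sum.forall]
  refine and_congr (forall_congr' fun a => ?_) (forall_congr' fun a => by rw [e2]; rfl)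
  rw [e1]
  by_cases h : (dg a : ℤ) = i <;> simp [h]

theorem bdy_eq (D : Matrix ι ι R) (dg : ι → ℕ) (i : ℤ) :
    bdy (cx D dg V) (fam dg (⊤ : Submodule R V)) (fam dg ⊥) i = LinearMap.range (act R V
      (D * Matrix.diagonal fun a => if (dg a : ℤ) = i + 1 then (1 : R) else 0)) := by
  have e1 : ∀ (w : ι → V) a, act R V
      (Matrix.diagonal fun a => if (dg a : ℤ) = i + 1 then (1 : R) else 0) w a =
      if (dg a : ℤ) = i + 1 then w a else 0 := fun w a => by
    rw [act_apply, Finset.sum_eq_single a]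
    · by_cases h : (dg a : ℤ) = i + 1 <;> simp [h]
    · intro b _ hb
      simp [Matrix.diagonal_apply_ne _ hb.symm]
    · simp
  ext v
  rw [mem_bdy', LinearMap.mem_range]
  constructor
  · rintro ⟨w, hw, rfl⟩
    refine ⟨w, ?_⟩
    rw [act_mul]
    congr 1
    funext a
    rw [e1]
    by_cases h : (dg a : ℤ) = i + 1
    · rw [if_pos h]
    · rw [if_neg h, (mem_fam.1 hw a).2 h]
  · rintro ⟨w, rfl⟩
    refine ⟨_, mem_fam.2 fun a => ⟨fun _ => Submodule.mem_top, fun h => ?_⟩, act_mul _ _ _⟩
    rw [e1, if_neg h]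

theorem mlen_baseChange [IsLocalRing R] [IsLocalRing A] (hA : IsUnram (algebraMap R A))
    (D : Matrix ι ι R) (dg : ι → ℕ) (i : ℤ) :
    mlen A (D.map (algebraMap R A)) dg (A ⊗[R] V) i = mlen R D dg V i := by
  have := isLocalHom_of_map_le hA.map_max.le
  have : Module.Flat R A := RingHom.flat_algebraMap_iff.1 hA.flat
  have h1 := IsLocalRing.length_baseChange R A
    ((cyc (cx D dg V) (fam dg (⊤ : Submodule R V)) (fam dg ⊥) i).map
      (bdy (cx D dg V) (fam dg (⊤ : Submodule R V)) (fam dg ⊥) i).mkQ)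
  rw [hA.map_max, length_quot_maximalIdeal, mul_one] at h1
  refine Eq.trans ?_ h1
  rw [cyc_eq, bdy_eq, ← rl_ker_range, mlen, hl, cyc_eq, bdy_eq]
  have m1 : Matrix.fromRows (Matrix.diagonal fun a => if (dg a : ℤ) = i then (0 : A) else 1)
      (D.map (algebraMap R A)) = (Matrix.fromRows
        (Matrix.diagonal fun a => if (dg a : ℤ) = i then (0 : R) else 1) D).map
          (algebraMap R A) := by
    ext (a | a) b
    · simp only [Matrix.fromRows_apply_inl, Matrix.map_apply, Matrix.diagonal_apply]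
      split_ifs <;> simp
    · rfl
  have m2 : (D.map (algebraMap R A) *
      Matrix.diagonal fun a => if (dg a : ℤ) = i + 1 then (1 : A) else 0) =
      (D * Matrix.diagonal fun a => if (dg a : ℤ) = i + 1 then (1 : R) else 0).map
        (algebraMap R A) := by
    ext a b
    simp only [Matrix.mul_diagonal, Matrix.map_apply]
    split_ifs <;> simp
  rw [m1, m2]
  symm
  refine rl_eq_of_map (TensorProduct.piRight R A A fun _ : ι => V).toLinearMap ?_ ?_ ?_ ?_
  · intro x hx
    rw [LinearMap.mem_ker] at hx ⊢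
    rw [LinearEquiv.coe_coe, ← piRight_act, hx, map_zero]
  · rintro _ ⟨x, rfl⟩
    exact ⟨_, (piRight_act A _ x).symm⟩
  · intro y hy
    obtain ⟨x, rfl⟩ := (TensorProduct.piRight R A A fun _ : ι => V).surjective y
    rw [LinearMap.mem_ker, ← piRight_act, LinearEquiv.map_eq_zero_iff] at hy
    exact ⟨x, hy, by rw [LinearEquiv.coe_coe, sub_self]; exact zero_mem _⟩
  · rintro x - ⟨y, hy⟩
    obtain ⟨z, rfl⟩ := (TensorProduct.piRight R A A fun _ : ι => V).surjective y
    rw [← piRight_act, LinearEquiv.coe_coe] at hy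
    exact ⟨z, (TensorProduct.piRight R A A fun _ : ι => V).injective hy⟩
end BC

/-- Complexes with the same homology lengths. -/
theorem meul_eq_of_mlen {T T' : Type u} [CommRing T] [CommRing T'] {B B' : Type*} [CommRing B]
    [CommRing B'] [Algebra T B] [Algebra T' B'] {V V' : Type u} [AddCommGroup V] [Module B V]
    [Module T V] [IsScalarTower T B V] [AddCommGroup V'] [Module B' V'] [Module T' V']
    [IsScalarTower T' B' V'] {ι ι' : Type} [Fintype ι] [Fintype ι'] [DecidableEq ι]
    [DecidableEq ι'] {D : Matrix ι ι B} {dg : ι → ℕ} {D' : Matrix ι' ι' B'} {dg' : ι' → ℕ}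
    (h : ∀ i : ℕ, mlen T D dg V i = mlen T' D' dg' V' i) :
    ((lenFun T).MFin D dg V ↔ (lenFun T').MFin D' dg' V') ∧
      (lenFun T).meul D dg V = (lenFun T').meul D' dg' V' := by
  have a := meul_lenFun (T := T) (V := V) (D := D) (dg := dg)
    (n := max (Finset.univ.sup dg) (Finset.univ.sup dg'))
    fun a => le_max_of_le_left (Finset.le_sup (Finset.mem_univ a))
  have b := meul_lenFun (T := T') (V := V') (D := D') (dg := dg')
    (n := max (Finset.univ.sup dg) (Finset.univ.sup dg'))
    fun a => le_max_of_le_right (Finset.le_sup (Finset.mem_univ a))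
  rw [a.1, a.2, b.1, b.2]
  simp only [h, and_self]

theorem mem_support_tensor {R : Type*} [CommRing R] {X V : Type*} [AddCommGroup X] [Module R X]
    [AddCommGroup V] [Module R V] [Module.Finite R X] [Module.Finite R V] (p : PrimeSpectrum R) :
    p ∈ Module.support R (X ⊗[R] V) ↔ p ∈ Module.support R X ∧ p ∈ Module.support R V := by
  simp only [Module.mem_support_iff_nontrivial_residueField_tensorProduct]
  rw [(AlgebraTensorModule.distribBaseChange R p.asIdeal.ResidueField X V).nontrivial_congr]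
  by_cases h : Nontrivial (p.asIdeal.ResidueField ⊗[R] X)
  · rw [Module.FaithfullyFlat.nontrivial_tensorProduct_iff_right, and_iff_right h]
  · refine iff_of_false (fun h' => ?_) fun h' => h h'.1
    have := not_nontrivial_iff_subsingleton.1 h
    exact not_nontrivial_iff_subsingleton.2 inferInstance h'

section Dim
variable {R : Type u} [CommRing R] [IsLocalRing R] [IsNoetherianRing R]

theorem exists_dim_eq {I : Ideal R} (hI : I ≠ ⊤) : ∃ n : ℕ, ringKrullDim (R ⧸ I) = n := by
  have := Ideal.Quotient.nontrivial_iff.2 hI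
  have : IsLocalRing (R ⧸ I) := .of_surjective' (Ideal.Quotient.mk I) Ideal.Quotient.mk_surjective
  obtain ⟨n, hn⟩ := WithBot.ne_bot_iff_exists.1 (ringKrullDim_ne_bot (R := R ⧸ I))
  have h2 : n ≠ ⊤ := by
    rintro rfl
    exact ringKrullDim_ne_top (R := R ⧸ I) hn.symm
  obtain ⟨m, rfl⟩ := ENat.ne_top_iff_exists.1 h2
  exact ⟨m, hn.symm⟩

theorem exists_minPrime {I : Ideal R} (hI : I ≠ ⊤) :
    ∃ P ∈ I.minimalPrimes, ringKrullDim (R ⧸ P) = ringKrullDim (R ⧸ I) := by
  obtain ⟨n, hn⟩ := exists_dim_eq hI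
  have h1 : (n : WithBot ℕ∞) ≤ Order.krullDim (PrimeSpectrum.zeroLocus (I : Set R)) := by
    rw [← ringKrullDim_quotient, hn]
  obtain ⟨l, hl⟩ := Order.le_krullDim_iff.1 h1
  obtain ⟨P, hP, hPle⟩ := Ideal.exists_minimalPrimes_le (I := I) (J := l.head.1.asIdeal) l.head.2
  refine ⟨P, hP, le_antisymm (afDim_le hP.1.2) ?_⟩
  have h3 : ∀ k, (l k).1 ∈ PrimeSpectrum.zeroLocus (P : Set R) := fun k =>
    hPle.trans (l.head_le k)
  have h4 := Order.LTSeries.length_le_krullDim
    (LTSeries.mk l.length (fun k => (⟨(l k).1, h3 k⟩ : PrimeSpectrum.zeroLocus (P : Set R)))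
      (fun _ _ h => l.strictMono h))
  rw [← ringKrullDim_quotient] at h4
  rw [hn, ← hl]
  exact h4

theorem exists_supportDim_eq {X : Type*} [AddCommGroup X] [Module R X] [Module.Finite R X]
    [Nontrivial X] : ∃ n : ℕ, Module.supportDim R X = n := by
  rw [Module.supportDim_eq_ringKrullDim_quotient_annihilator]
  exact exists_dim_eq (mt Module.annihilator_eq_top_iff.1 (not_subsingleton X))
end Dim

end Vale.Agent.P177.ChiC
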