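import Vale.Agent.P177.MinAux

/-! P177: auxiliary lemmas on resolutions for the module Chi. -/

namespace Vale.Agent.P177.ChiRes

open Vale.Agent.P202 IsLocalRing Matrix TensorProduct

universe u

variable {R : Type u} [CommRing R] {X V : Type u} [AddCommGroup X] [Module R X] [AddCommGroup V]
  [Module R V] {N : ℕ∞}

theorem eps_pos (F : PResol R X N) {v : F.ι → R} (hv : ∀ a, F.dg a = 0 → v a = 0) : F.ε v = 0 :=
  (F.ker v).2 ⟨0, fun _ _ => rfl, fun a ha => by rw [hv a ha, Matrix.mulVec_zero, Pi.zero_apply]⟩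

theorem eps_D (F : PResol R X N) (v : F.ι → R) : F.ε (F.D *ᵥ v) = 0 := by
  refine (F.ker _).2 ⟨fun a => if F.dg a = 1 then v a else 0,
    fun a ha => if_neg fun h => ha (by simp [zd, h]), fun a ha => ?_⟩
  refine Finset.sum_congr rfl fun b _ => ?_
  change F.D a b * v b = F.D a b * if F.dg b = 1 then v b else 0
  by_cases h : F.D a b = 0
  · rw [h, zero_mul, zero_mul]
  · have := F.mc.homog a b h
    rw [if_pos (by simp only [zd] at this; omega)]

theorem lift_zero (F : PResol R X N) {u : F.ι → R} (hu : Res.Sp (zd F.dg) 0 u) (hε : F.ε u = 0) :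
    ∃ w, Res.Sp (zd F.dg) 1 w ∧ u = F.D *ᵥ w := by
  obtain ⟨w, h1, h2⟩ := (F.ker u).1 hε
  refine ⟨w, h1, funext fun a => ?_⟩
  by_cases ha : F.dg a = 0
  · exact h2 a ha
  · have h3 : zd F.dg a ≠ 0 := by simp only [zd]; omega
    rw [hu a h3, MinAux.hr_sp (j := 0) F.mc.homog h1 (by simp) a h3]

/-- Splicing a complex with a surjection from a free module. -/
theorem splice {κ ι : Type} [Fintype κ] [Fintype ι] [DecidableEq κ] [DecidableEq ι]
    (ε : (κ → R) →ₗ[R] X) (hε : Function.Surjective ε) {dg : ι → ℕ} {D : Matrix ι ι R}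
    (hD : IsMC D (zd dg)) (η : (ι → R) →ₗ[R] (κ → R)) (hη : ∀ v, ε v = 0 ↔ ∃ w, η w = v)
    (h0 : ∀ v, (∀ a, dg a = 0 → v a = 0) → η v = 0) (hηD : ∀ v, η (D *ᵥ v) = 0)
    (hker : 1 < N → ∀ v, Res.Sp (zd dg) 0 v → η v = 0 → ∃ w, Res.Sp (zd dg) 1 w ∧ v = D *ᵥ w)
    (hex : ∀ i : ℕ, 0 < i → ((i + 1 : ℕ) : ℕ∞) < N → ∀ v, Res.Sp (zd dg) i v → D *ᵥ v = 0 →
      ∃ w, Res.Sp (zd dg) (i + 1) w ∧ v = D *ᵥ w) :
    ∃ F : PResol R X N, ∀ a, F.dg a = 0 ∨ ∃ b, F.dg a = dg b + 1 := by
  set E : Matrix κ ι R := LinearMap.toMatrix' η with hE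
  have hEv : ∀ v, E *ᵥ v = η v := fun v => LinearMap.toMatrix'_mulVec η v
  have hED : E * D = 0 := Matrix.ext_of_mulVec_single fun b => by
    rw [← mulVec_mulVec, hEv, hηD, zero_mulVec]
  have hE0 : ∀ a b, E a b ≠ 0 → dg b = 0 := fun a b h => by
    by_contra hb
    refine h ?_
    rw [hE, LinearMap.toMatrix'_apply,
      h0 _ fun c hc => Pi.single_eq_of_ne (by rintro rfl; exact hb hc) _]
    rfl
  have hsp : ∀ (j : ℤ) (w : ι → R), Res.Sp (zd dg) j w →
      Res.Sp (zd (Sum.elim (fun _ : κ => 0) fun b => dg b + 1)) (j + 1) (Sum.elim 0 w) := by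
    rintro j w hw (a | a) ha
    · rfl
    · exact hw a (by simp only [zd, Sum.elim_inr] at ha ⊢; omega)
  have hpos : ∀ (j : ℤ) (w : ι → R), j ≠ 0 → Res.Sp (zd dg) j w → η w = 0 :=
    fun j w hj hw => h0 w fun a ha => hw a (by simp only [zd]; omega)
  refine ⟨{ ι := κ ⊕ ι
            dg := Sum.elim (fun _ => 0) fun b => dg b + 1
            D := fromBlocks 0 E 0 D
            mc := ⟨by simp [fromBlocks_multiply, hED, hD.sq], ?_⟩
            ex := ?_
            ε := ε ∘ₗ LinearMap.funLeft R R Sum.inl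
            surj := fun x => ?_
            ker := fun v => ?_ }, ?_⟩
  · rintro (a | a) (b | b) hab
    · simp at hab
    · have := hE0 a b hab
      simp [zd, this]
    · simp at hab
    · have := hD.homog a b hab
      simp only [zd, Sum.elim_inr] at this ⊢; omega
  · intro i hi hN v hv hv0
    rw [Res.full_mulVec, hEv] at hv0
    have a1 : η (v ∘ Sum.inr) = 0 := funext fun a => congrFun hv0 (.inl a)
    have a2 : D *ᵥ (v ∘ Sum.inr) = 0 := funext fun a => congrFun hv0 (.inr a)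
    obtain ⟨k, rfl⟩ : ∃ k, i = k + 1 := ⟨i - 1, by omega⟩
    have a3 : Res.Sp (zd dg) k (v ∘ Sum.inr) := fun a ha =>
      hv (.inr a) (by simp only [zd, Sum.elim_inr] at ha ⊢; omega)
    obtain ⟨w, b1, b2⟩ : ∃ w, Res.Sp (zd dg) (k + 1) w ∧ v ∘ Sum.inr = D *ᵥ w := by
      rcases Nat.eq_zero_or_pos k with rfl | hk
      · simpa using hker (by simpa using hN) _ (by simpa using a3) a1
      · exact hex k hk hN _ a3 a2
    refine ⟨Sum.elim 0 w, by simpa using hsp _ w b1, ?_⟩
    rw [Res.full_mulVec, Sum.elim_comp_inr, hEv, hpos _ w (by omega) b1, ← b2]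
    funext a
    rcases a with a | a
    · exact hv (.inl a) (by simp only [zd, Sum.elim_inl]; omega)
    · rfl
  · obtain ⟨v, rfl⟩ := hε x
    exact ⟨Sum.elim v 0, rfl⟩
  · change ε (v ∘ Sum.inl) = 0 ↔ _
    rw [hη]
    constructor
    · rintro ⟨w, hw⟩
      refine ⟨Sum.elim 0 fun b => if dg b = 0 then w b else 0, ?_, ?_⟩
      · simpa using hsp 0 _ fun a ha => if_neg fun h => ha (by simp [zd, h])
      · rintro (a | a) ha
        · rw [Res.full_mulVec, Sum.elim_comp_inr, Sum.elim_inl, hEv]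
          have : η (w - fun b => if dg b = 0 then w b else 0) = 0 :=
            h0 _ fun c hc => by simp [hc]
          rw [map_sub, sub_eq_zero] at this
          rw [← this, hw]
          rfl
        · simp at ha
    · rintro ⟨w, -, hw⟩
      refine ⟨w ∘ Sum.inr, funext fun a => ?_⟩
      have := hw (.inl a) rfl
      rw [Res.full_mulVec, Sum.elim_inl, hEv] at this
      exact this.symm
  · rintro (a | a)
    · exact Or.inl rfl
    · exact Or.inr ⟨a, rfl⟩

/-- Splicing with a resolution of the kernel. -/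
theorem splice_res {κ : Type} [Fintype κ] [DecidableEq κ] (ε : (κ → R) →ₗ[R] X)
    (hε : Function.Surjective ε) {N' : ℕ∞} (G : PResol R (LinearMap.ker ε) N')
    (hN : ∀ i : ℕ, ((i + 1 : ℕ) : ℕ∞) < N → (i : ℕ∞) < N') :
    ∃ F : PResol R X N, ∀ a, F.dg a = 0 ∨ ∃ b, F.dg a = G.dg b + 1 := by
  refine splice ε hε G.mc ((LinearMap.ker ε).subtype ∘ₗ G.ε) (fun v => ⟨fun h => ?_, ?_⟩)
    (fun v hv => by simp [eps_pos G hv]) (fun v => by simp [eps_D G v])
    (fun _ v hv h => lift_zero G hv (by simpa using h)) fun i hi h => G.ex i hi (hN i h)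
  · obtain ⟨w, hw⟩ := G.surj ⟨v, h⟩
    exact ⟨w, by simp [hw]⟩
  · rintro ⟨w, rfl⟩
    exact (G.ε w).2

theorem exists_pResol [IsNoetherianRing R] (N : ℕ) : ∀ (X : Type u) [AddCommGroup X] [Module R X]
    [Module.Finite R X], Nonempty (PResol R X N) := by
  induction N with
  | zero =>
    intro X _ _ _
    obtain ⟨n, ε, hε⟩ := Module.Finite.exists_fin' R X
    obtain ⟨m, η, hη⟩ := Module.Finite.exists_fin' R (LinearMap.ker ε)
    obtain ⟨F, -⟩ := splice (N := (0 : ℕ)) ε hε (dg := fun _ : Fin m => 0) isMC_zero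
      ((LinearMap.ker ε).subtype ∘ₗ η) (fun v => ⟨fun h => by
        obtain ⟨w, hw⟩ := hη ⟨v, h⟩
        exact ⟨w, by simp [hw]⟩, by rintro ⟨w, rfl⟩; exact (η w).2⟩)
      (fun v hv => by rw [show v = 0 from funext fun a => hv a rfl, map_zero])
      (fun v => by rw [zero_mulVec, map_zero]) (fun h => by simp at h) fun i _ h => by simp at h
    exact ⟨F⟩
  | succ N ih =>
    intro X _ _ _
    obtain ⟨n, ε, hε⟩ := Module.Finite.exists_fin' R X
    obtain ⟨G⟩ := ih (LinearMap.ker ε)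
    obtain ⟨F, -⟩ := splice_res (N := (N + 1 : ℕ)) ε hε G fun i h => by
      rw [Nat.cast_lt] at h ⊢; omega
    exact ⟨F⟩

theorem exists_min_surj [IsLocalRing R] [Module.Finite R X] : ∃ (n : ℕ) (ε : (Fin n → R) →ₗ[R] X),
    Function.Surjective ε ∧ ∀ z, ε z = 0 → ∀ a, z a ∈ maximalIdeal R := by
  obtain ⟨n, g, h1, h2⟩ := Res.exists_min_gen (⊤ : Submodule R X) Module.Finite.fg_top
  refine ⟨n, Fintype.linearCombination R g, ?_, fun z hz => h2 z hz⟩
  rw [← LinearMap.range_eq_top, Fintype.range_linearCombination, h1]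

theorem syzygy [IsLocalRing R] [IsNoetherianRing R] (I : ℕ → Ideal R) (x : ℕ → R) (l : ℕ)
    (h0 : I 0 = ⊥) (hl : I l = maximalIdeal R)
    (hI : ∀ j < l, I (j + 1) = I j ⊔ Ideal.span {x j})
    (hreg : ∀ j < l, ∀ t, x j * t ∈ I j → t ∈ I j) (c : ℕ) :
    ∀ k, k + c = l → ∀ (X : Type u) [AddCommGroup X] [Module R X] (κ : Type) [Fintype κ]
      [DecidableEq κ] (ε : (κ → R) →ₗ[R] X), Function.Surjective ε →
      (∀ z, ε z = 0 → ∀ a, z a ∈ maximalIdeal R) →
      (∀ j < k, ∀ f : κ → R, x j • f ∈ (I j • ⊤ : Submodule R (κ → R)) ⊔ LinearMap.ker ε →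
        f ∈ (I j • ⊤ : Submodule R (κ → R)) ⊔ LinearMap.ker ε) →
      ∃ F : Resol R X, ∀ a, F.dg a ≤ c := by
  have pure : ∀ k, k ≤ l → ∀ (κ : Type) (Z : Submodule R (κ → R)),
      (∀ j < k, ∀ f : κ → R, x j • f ∈ (I j • ⊤ : Submodule R (κ → R)) ⊔ Z →
        f ∈ (I j • ⊤ : Submodule R (κ → R)) ⊔ Z) →
      ∀ j ≤ k, ∀ z ∈ Z, z ∈ (I j • ⊤ : Submodule R (κ → R)) → z ∈ I j • Z := by
    intro k hk κ Z hr j
    induction j with
    | zero => intro _ z hz h; rw [h0, Submodule.bot_smul] at h ⊢; exact h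
    | succ j ih =>
      intro hj z hz h
      rw [hI j (by omega), Submodule.sup_smul] at h ⊢
      obtain ⟨a, ha, b, hb, rfl⟩ := Submodule.mem_sup.mp h
      rw [Submodule.ideal_span_singleton_smul] at hb ⊢
      obtain ⟨f, -, rfl⟩ := (Submodule.mem_smul_pointwise_iff_exists _ _ _).mp hb
      have h1 := hr j (by omega) f (by
        have : x j • f = -a + (a + x j • f) := by abel
        rw [this]
        exact Submodule.add_mem_sup (neg_mem ha) hz)
      obtain ⟨a', ha', z', hz', rfl⟩ := Submodule.mem_sup.mp h1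
      have e : a + x j • (a' + z') = (a + x j • a') + x j • z' := by rw [smul_add, add_assoc]
      rw [e] at hz ⊢
      refine Submodule.add_mem_sup (ih (by omega) _ ?_ (add_mem ha (Submodule.smul_mem _ _ ha')))
        (Submodule.smul_mem_pointwise_smul _ _ _ hz')
      simpa using sub_mem hz (Z.smul_mem (x j) hz')
  induction c with
  | zero =>
    intro k hk X _ _ κ _ _ ε hε hmin hr
    have hZ : LinearMap.ker ε = ⊥ := by
      refine Submodule.eq_bot_of_le_smul_of_le_jacobson_bot (maximalIdeal R) _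
        (IsNoetherian.noetherian _) (fun z hz => ?_) (maximalIdeal_le_jacobson _)
      rw [← hl]
      refine pure k (by omega) κ _ hr l (by omega) z hz ?_
      rw [Res.mem_smul_top_iff, hl]; exact hmin z hz
    obtain ⟨F, hF⟩ := splice (N := ⊤) ε hε (dg := fun _ : Empty => 0) isMC_zero 0
      (fun v => ⟨fun h => ⟨0, ((Submodule.eq_bot_iff _).1 hZ v h).symm⟩,
        by rintro ⟨w, rfl⟩; exact map_zero ε⟩) (fun _ _ => rfl) (fun _ => rfl)
      (fun _ v _ _ => ⟨0, fun a => a.elim, funext fun a => a.elim⟩)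
      fun i _ _ v _ _ => ⟨0, fun a => a.elim, funext fun a => a.elim⟩
    exact ⟨F, fun a => (hF a).elim le_of_eq fun ⟨b, _⟩ => b.elim⟩
  | succ c ih =>
    intro k hk X _ _ κ _ _ ε hε hmin hr
    obtain ⟨n, η, hη, hmin'⟩ := exists_min_surj (R := R) (X := LinearMap.ker ε)
    obtain ⟨G, hG⟩ := ih (k + 1) (by omega) (LinearMap.ker ε) (Fin n) η hη hmin' fun j hj f hf => by
      have key : ∀ f : Fin n → R, f ∈ (I j • ⊤ : Submodule R (Fin n → R)) ⊔ LinearMap.ker η ↔
          (η f : κ → R) ∈ I j • LinearMap.ker ε := by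
        intro f
        rw [← Submodule.comap_map_eq, Submodule.map_smul'', Submodule.map_top,
          LinearMap.range_eq_top.2 hη, Submodule.mem_comap, Submodule.mem_smul_top_iff]
      rw [key] at hf ⊢
      refine pure k (by omega) κ _ hr j (by omega) _ (η f).2 ?_
      rw [Res.mem_smul_top_iff]
      intro a
      refine hreg j (by omega) _ ?_
      have := (Res.mem_smul_top_iff _ _).mp (Submodule.smul_mono le_rfl le_top hf) a
      rwa [map_smul] at this
    obtain ⟨F, hF⟩ := splice_res (N := ⊤) ε hε G fun i _ => WithTop.coe_lt_top _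
    refine ⟨F, fun a => ?_⟩
    rcases hF a with h | ⟨b, h⟩
    · omega
    · have := hG b
      omega

theorem hasRes [IsLocalRing R] [IsNoetherianRing R] {x : List R}
    (hx : RingTheory.Sequence.IsWeaklyRegular R x) (hm : Ideal.ofList x = maximalIdeal R) :
    HasRes R x.length := by
  intro X _ _ _
  obtain ⟨n, ε, hε, hmin⟩ := exists_min_surj (R := R) (X := X)
  refine syzygy (fun j => Ideal.ofList (x.take j)) (fun j => x.getD j 0) x.length (by simp)
    (by rw [List.take_length, hm]) (fun j hj => ?_) (fun j hj t ht => ?_) x.length 0 (by simp) X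
    (Fin n) ε hε hmin fun j hj => absurd hj (by simp)
  · rw [List.take_add_one, Ideal.ofList_append, List.getElem?_eq_getElem hj,
      List.getD_eq_getElem _ _ hj, Option.toList_some, Ideal.ofList_singleton]
  · rw [List.getD_eq_getElem _ _ hj] at ht
    have e : ∀ s : R, s ∈ Ideal.ofList (x.take j) ↔ (Submodule.Quotient.mk s :
        R ⧸ (Ideal.ofList (x.take j) • ⊤ : Submodule R R)) = 0 := fun s => by
      rw [Submodule.Quotient.mk_eq_zero, smul_eq_mul, Ideal.mul_top]
    rw [e] at ht ⊢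
    refine hx.regular_mod_prev j hj ?_
    simp only [smul_zero]
    exact ht

theorem eps_single (F : PResol R X N) {a : F.ι} (ha : F.dg a ≠ 0) : F.ε (Pi.single a 1) = 0 :=
  eps_pos F fun c hc => Pi.single_eq_of_ne (by rintro rfl; exact ha hc) _

theorem eps_eq_sum (F : PResol R X N) (u : F.ι → R) : F.ε u = ∑ a, u a • F.ε (Pi.single a 1) := by
  conv_lhs => rw [pi_eq_sum_univ' u]
  simp only [map_sum, map_smul]

theorem tens_surj (F : PResol R X N) (t : X ⊗[R] V) : ∃ v : F.ι → V,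
    (∀ a, F.dg a ≠ 0 → v a = 0) ∧ ∑ a, F.ε (Pi.single a 1) ⊗ₜ[R] v a = t := by
  induction t with
  | zero => exact ⟨0, fun _ _ => rfl, by simp⟩
  | add s t hs ht =>
    obtain ⟨v, a1, rfl⟩ := hs
    obtain ⟨w, b1, rfl⟩ := ht
    exact ⟨v + w, fun a ha => by simp [a1 a ha, b1 a ha],
      by simp [tmul_add, Finset.sum_add_distrib]⟩
  | tmul x y =>
    obtain ⟨u, rfl⟩ := F.surj x
    refine ⟨fun a => if F.dg a = 0 then u a • y else 0, fun a ha => if_neg ha, ?_⟩
    rw [eps_eq_sum F u, sum_tmul]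
    refine Finset.sum_congr rfl fun a _ => ?_
    by_cases ha : F.dg a = 0
    · simp only [if_pos ha, smul_tmul]
    · simp [eps_single F ha]

theorem tens_ker (F : PResol R X N) (v : F.ι → V) :
    ∑ a, F.ε (Pi.single a 1) ⊗ₜ[R] v a = 0 ↔ ∃ w : F.ι → V, (∀ a, (F.dg a : ℤ) ≠ 1 → w a = 0) ∧
      ∀ a, F.dg a = 0 → v a = ∑ b, F.D a b • w b := by
  constructor
  · intro h
    let K : Submodule R (F.ι → V) :=
      { carrier := {v | ∃ w : F.ι → V, (∀ a, (F.dg a : ℤ) ≠ 1 → w a = 0) ∧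
          ∀ a, F.dg a = 0 → v a = ∑ b, F.D a b • w b}
        add_mem' := by
          rintro v v' ⟨w, a1, a2⟩ ⟨w', b1, b2⟩
          exact ⟨w + w', fun a ha => by simp [a1 a ha, b1 a ha],
            fun a ha => by simp [a2 a ha, b2 a ha, Finset.sum_add_distrib]⟩
        zero_mem' := ⟨0, fun _ _ => rfl, fun _ _ => by simp⟩
        smul_mem' := by
          rintro r v ⟨w, a1, a2⟩
          exact ⟨r • w, fun a ha => by simp [a1 a ha],
            fun a ha => by simp [a2 a ha, Finset.smul_sum, smul_comm r]⟩ }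
    let Φ : (F.ι → R) →ₗ[R] V →ₗ[R] ((F.ι → V) ⧸ K) :=
      LinearMap.mk₂ R (fun u y => K.mkQ fun a => u a • y)
        (fun u u' y => by rw [← map_add]; congr 1; funext a; simp [add_smul])
        (fun r u y => by rw [← map_smul]; congr 1; funext a; simp [mul_smul])
        (fun u y y' => by rw [← map_add]; congr 1; funext a; simp)
        (fun r u y => by rw [← map_smul]; congr 1; funext a; simp [smul_comm r])
    have hΦ : LinearMap.ker F.ε ≤ LinearMap.ker Φ := fun u hu => by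
      obtain ⟨w, a1, a2⟩ := (F.ker u).1 hu
      refine LinearMap.ext fun y => (Submodule.Quotient.mk_eq_zero K).2
        ⟨fun a => w a • y, fun a ha => by simp [a1 a ha], fun a ha => ?_⟩
      simp [a2 a ha, mulVec, dotProduct, Finset.sum_smul, mul_smul]
    let Ψ : X →ₗ[R] V →ₗ[R] ((F.ι → V) ⧸ K) :=
      (LinearMap.ker F.ε).liftQ Φ hΦ ∘ₗ (F.ε.quotKerEquivOfSurjective F.surj).symm.toLinearMap
    have hΨ : ∀ u, Ψ (F.ε u) = Φ u := fun u => by
      simp [Ψ]
    have h1 := congrArg (TensorProduct.lift Ψ) h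
    rw [map_sum, map_zero] at h1
    simp only [lift.tmul, hΨ, Φ, LinearMap.mk₂_apply, ← map_sum] at h1
    have h2 := (Submodule.Quotient.mk_eq_zero K).1 h1
    have h3 : (∑ a, fun c => (Pi.single a (1 : R) : F.ι → R) c • v a) = v := by
      funext c
      simp [Finset.sum_apply, Pi.single_apply]
    rwa [h3] at h2
  · rintro ⟨w, -, hw⟩
    have h1 : ∀ a, F.ε (Pi.single a 1) ⊗ₜ[R] v a =
        ∑ b, (F.D a b • F.ε (Pi.single a 1)) ⊗ₜ[R] w b := fun a => by
      by_cases ha : F.dg a = 0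
      · simp only [hw a ha, tmul_sum, smul_tmul]
      · simp [eps_single F ha]
    simp only [h1]
    rw [Finset.sum_comm]
    refine Finset.sum_eq_zero fun b _ => ?_
    have h2 := eps_D F (Pi.single b 1)
    rw [eps_eq_sum, mulVec_single_one] at h2
    rw [← sum_tmul]
    exact (congrArg (· ⊗ₜ[R] w b) h2).trans (zero_tmul _ _)

/-- The double complex computes the homology with coefficients in the resolved module. -/
theorem hl_double {ι : Type} [Fintype ι] {D : Matrix ι ι R} {dg : ι → ℕ} (hD : IsMC D (zd dg))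
    (G : PResol R V N) {i : ℕ} (hi : (i : ℕ∞) < N) :
    hl (tot D (zd dg) (cx G.D G.dg R)) (totFam (zd dg) fun _ => fam G.dg (⊤ : Submodule R R))
      (totFam (zd dg) fun _ => fam G.dg (⊥ : Submodule R R)) i = mlen R D dg V i := by
  let K : ℤ → Submodule R (G.ι → R) := fun j => fam G.dg ⊤ j ⊓ LinearMap.ker G.ε
  have p := isPair_top_bot (T := R) (V := R) G.mc
  have hK : IsFam (cx G.D G.dg R) K := fun j x hx =>
    ⟨p.top j x hx.1, by rw [cx_eq_mulVec]; exact eps_D G x⟩
  have p1 : IsPair (cx G.D G.dg R) (fam G.dg ⊤) K := ⟨p.dd, p.top, hK, fun _ => inf_le_left⟩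
  have p2 : IsPair (cx G.D G.dg R) K (fam G.dg ⊥) :=
    ⟨p.dd, hK, p.bot, fun j => by rw [fam_bot]; exact bot_le⟩
  have tp : ∀ {L L' : ℤ → Submodule R (G.ι → R)}, IsPair (cx G.D G.dg R) L L' →
      IsTotPair D (zd dg) (cx G.D G.dg R) (fun _ => L) fun _ => L' := fun h =>
    ⟨hD.homog, fun a b x => by rw [hD.sq, Matrix.zero_apply, zero_smul], p.dd, fun _ => h,
      fun _ _ _ _ hx => Submodule.smul_mem _ _ hx, fun _ _ _ _ hx => Submodule.smul_mem _ _ hx⟩
  have hsp : ∀ {j : ℤ} {x : G.ι → R}, x ∈ fam G.dg (⊤ : Submodule R R) j ↔ Res.Sp (zd G.dg) j x :=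
    ⟨fun h a => (mem_fam.1 h a).2, fun h => mem_fam.2 fun a => ⟨fun _ => trivial, h a⟩⟩
  have hε : ∀ j : ℤ, j ≠ 0 → ∀ x ∈ fam G.dg (⊤ : Submodule R R) j, G.ε x = 0 :=
    fun j hj x hx => eps_pos G fun a ha => hsp.1 hx a (by simp only [zd]; omega)
  have acyc : ∀ j : ℤ, j ≤ i → hl (cx G.D G.dg R) K (fam G.dg ⊥) j = 0 := by
    intro j hj
    rw [hl_eq_zero_iff]
    simp only [fam_bot, Submodule.mem_bot, sub_eq_zero, cx_eq_mulVec]
    intro x hx h0
    rcases lt_trichotomy j 0 with h | rfl | h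
    · exact ⟨0, zero_mem _, by
        rw [mulVec_zero]
        exact funext fun a => hsp.1 hx.1 a (by simp only [zd]; omega)⟩
    · obtain ⟨w, a1, a2⟩ := lift_zero G (hsp.1 hx.1) hx.2
      exact ⟨w, ⟨hsp.2 a1, hε _ (by omega) w (hsp.2 a1)⟩, a2⟩
    · lift j to ℕ using h.le
      obtain ⟨w, a1, a2⟩ := G.ex j (by omega)
        (lt_of_le_of_lt (Nat.cast_le.2 (by omega : j ≤ i)) hi) x (hsp.1 hx.1) h0
      exact ⟨w, ⟨hsp.2 a1, hε _ (by omega) w (hsp.2 a1)⟩, a2⟩
  have z : ∀ j : ℤ, j ≤ i → hl (tot D (zd dg) (cx G.D G.dg R)) (totFam (zd dg) fun _ => K)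
      (totFam (zd dg) fun _ => fam G.dg ⊥) j = 0 := fun j hj =>
    nonpos_iff_eq_zero.1 ((hl_tot_le (tp p2) j).trans (Finset.sum_eq_zero fun a _ =>
      acyc _ (by simp only [zd]; omega)).le)
  have iso : PairIso (cx G.D G.dg R) (fam G.dg ⊤) K (0 : V →ₗ[R] V) (conc ⊤) (conc ⊥) G.ε 1 0 := by
    refine ⟨fun j x hx => br_mem_conc.2 ⟨trivial, fun hj => hε j (by omega) x hx⟩,
      fun j x hx => br_mem_conc.2 ⟨hx.2, fun _ => hx.2⟩, fun j y hy => ?_,
      fun j x hx h => ⟨hx, (br_mem_conc.1 h).1⟩, fun j x hx => ?_⟩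
    · by_cases hj : j = 0
      · obtain ⟨u, rfl⟩ := G.surj y
        refine ⟨fun a => if G.dg a = 0 then u a else 0,
          hsp.2 fun a ha => if_neg fun h => ha (by simp [zd, h, hj]), ?_⟩
        rw [← map_sub, eps_pos G fun a ha => by simp [ha]]
        exact zero_mem _
      · refine ⟨0, zero_mem _, ?_⟩
        rw [(br_mem_conc.1 hy).2 (by omega), map_zero, sub_zero]
        exact zero_mem _
    · rw [cx_eq_mulVec, eps_D, LinearMap.zero_apply, smul_zero, sub_zero]
      exact zero_mem _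
  have e := (PairIso.tot hD.homog hD.homog (fun _ => iso) fun a b j _ x _ => by
    rw [map_smul, sub_self]; exact zero_mem _).hl_eq (tp p1).isPair (isPair_top_bot hD) i
  rw [add_zero] at e
  have l1 := hl_le_add (tp p1).isPair (tp p2).isPair i
  have l2 := hl_quot_le (tp p1).isPair (tp p2).isPair i
  rw [z _ le_rfl, add_zero] at l1
  rw [z _ (by omega), add_zero] at l2
  exact (le_antisymm l1 l2).trans e

end Vale.Agent.P177.ChiRes
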