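import Vale.Agent.P177.Gen
import Vale.Agent.P177.Min
import Vale.Agent.P177.ChiAuxRes
import Vale.Agent.P202.CM
import Vale.Agent.P202.Reduce
import Vale.Agent.P177.ChiAuxC

/-! P177 module Chi: resolutions, balance of Tor, Serre's intersection multiplicity. -/

namespace Vale.Agent.P177

open Vale.Agent.P202 IsLocalRing TensorProduct

universe u

section Res
variable {R : Type u} [CommRing R] {X V : Type u} [AddCommGroup X] [Module R X] [AddCommGroup V]
  [Module R V]

/-- Hilbert's syzygy theorem (copy the proof of `Res.exists_isRes` with `I 0 = ⊥` and without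
the flatness hypotheses). -/
theorem hasRes_of_reg [IsLocalRing R] [IsNoetherianRing R] {x : List R}
    (hx : RingTheory.Sequence.IsWeaklyRegular R x) (hm : Ideal.ofList x = maximalIdeal R) :
    HasRes R x.length := ChiRes.hasRes hx hm

/-- Transport of a resolution along an isomorphism. -/
def PResol.ofEquiv {N : ℕ∞} (F : PResol R X N) (e : X ≃ₗ[R] V) : PResol R V N where
  ι := F.ι
  dg := F.dg
  D := F.D
  mc := F.mc
  ex := F.ex
  ε := e.toLinearMap ∘ₗ F.ε
  surj := e.surjective.comp F.surj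
  ker v := by rw [← F.ker v]; simp

theorem exists_pResol [IsNoetherianRing R] [Module.Finite R X] (N : ℕ) :
    Nonempty (PResol R X N) := ChiRes.exists_pResol N X

/-- The Koszul complex of a regular sequence is a resolution. -/
theorem exists_resol_kos {n : ℕ} {b : Fin n → R}
    (hb : RingTheory.Sequence.IsWeaklyRegular R (List.ofFn b)) :
    ∃ F : Resol R (R ⧸ Ideal.span (Set.range b)),
      MHEq F.D F.dg (kos b) Finset.card := by
  have hk : ∀ w : Finset (Fin n) → R, (kos b).mulVec w ∅ = ∑ j, w {j} • b j := fun w => by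
    refine (matAct_kos_apply b w ∅).trans (Finset.sum_congr rfl fun j _ => ?_)
    simp [ksgn, sgn_zero, mul_comm]
  refine ⟨{ ι := Finset (Fin n)
            dg := Finset.card
            D := kos b
            mc := isMC_kos' b
            ex := fun i hi _ v hv h0 => ?_
            ε := (Ideal.span (Set.range b)).mkQ ∘ₗ LinearMap.proj ∅
            surj := fun x => ?_
            ker := fun v => ?_ }, MHEq.refl⟩
  · obtain ⟨w, h1, h2⟩ := mlen_eq_zero_iff.1
      (AddFun.mlen_kos_of_regular (T := R) hb (i := i) (by omega)) v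
      (mem_fam.2 fun a => ⟨fun _ => trivial, hv a⟩) (by rw [cx_eq_mulVec, h0])
    exact ⟨w, fun a => (mem_fam.1 h1 a).2, by rw [h2, cx_eq_mulVec]⟩
  · obtain ⟨r, rfl⟩ := Submodule.Quotient.mk_surjective _ x
    exact ⟨fun _ => r, rfl⟩
  · refine (Submodule.Quotient.mk_eq_zero _).trans
      ((Submodule.mem_span_range_iff_exists_fun R).trans ⟨?_, ?_⟩)
    · rintro ⟨c, hc⟩
      refine ⟨fun S => ∑ j, if S = {j} then c j else 0, fun S hS => Finset.sum_eq_zero fun j _ =>
        if_neg (by rintro rfl; exact hS (by simp [zd])), fun S hS => ?_⟩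
      obtain rfl := Finset.card_eq_zero.1 hS
      rw [hk]
      simpa using hc.symm
    · rintro ⟨w, -, hw⟩
      exact ⟨fun j => w {j}, ((hw ∅ rfl).trans (hk w)).symm⟩

/-- Flat base change of resolutions. -/
theorem exists_pResol_baseChange {N : ℕ∞} (F : PResol R X N) (A : Type u) [CommRing A]
    [Algebra R A] [Module.Flat R A] : ∃ (G : PResol A (A ⊗[R] X) N) (e : G.ι ≃ F.ι),
      G.dg = F.dg ∘ e ∧ G.D = (F.D.map (algebraMap R A)).submatrix e e := by
  have he : ∀ v : F.ι → A,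
      Fintype.linearCombination A (fun a => (1 : A) ⊗ₜ[R] F.ε (Pi.single a 1)) v =
        TensorProduct.comm R X A (∑ a, F.ε (Pi.single a 1) ⊗ₜ[R] v a) := fun v => by
    simp [Fintype.linearCombination_apply, smul_tmul']
  refine ⟨{ ι := F.ι
            dg := F.dg
            D := F.D.map (algebraMap R A)
            mc := isMC_map F.mc _
            ex := fun i hi hN => Res.exact_map F.mc (F.ex i hi hN) _
              (RingHom.flat_algebraMap_iff.2 inferInstance)
            ε := Fintype.linearCombination A fun a => (1 : A) ⊗ₜ[R] F.ε (Pi.single a 1)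
            surj := fun t => ?_
            ker := fun v => ?_ }, Equiv.refl _, rfl, rfl⟩
  · obtain ⟨v, -, hv⟩ := ChiRes.tens_surj F ((TensorProduct.comm R X A).symm t)
    exact ⟨v, by rw [he, hv, LinearEquiv.apply_symm_apply]⟩
  · rw [he, LinearEquiv.map_eq_zero_iff, ChiRes.tens_ker]
    simp only [Algebra.smul_def]
    rfl

theorem PResol.mlen_zero {N : ℕ∞} (F : PResol R X N) :
    mlen R F.D F.dg V 0 = Module.length R (X ⊗[R] V) := by
  have hd : ∀ (i : ℤ) (w : F.ι → V), w ∈ fam F.dg (⊤ : Submodule R V) (i + 1) →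
      ∀ a, (F.dg a : ℤ) ≠ i → act R V F.D w a = 0 := fun i w hw a =>
    (mem_fam.1 (act_mem (dg := F.dg) (dg' := F.dg) F.mc.homog rfl hw) a).2
  refine rl_eq_of_surj ((∑ a, TensorProduct.mk R X V (F.ε (Pi.single a 1)) ∘ₗ
    LinearMap.proj a) ∘ₗ Submodule.subtype _) (fun t => ?_) fun v => ?_
  · obtain ⟨v, h1, h2⟩ := ChiRes.tens_surj F t
    have h3 : v ∈ fam F.dg (⊤ : Submodule R V) 0 :=
      mem_fam.2 fun a => ⟨fun _ => trivial, fun ha => h1 a (by omega)⟩
    exact ⟨⟨v, mem_cyc'.2 ⟨h3, funext fun a =>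
      hd (-1) v (by rw [neg_add_cancel]; exact h3) a (by omega)⟩⟩, by simpa using h2⟩
  · rw [mem_bdy']
    refine Iff.trans (by simp) ((ChiRes.tens_ker F v.1).trans ⟨?_, ?_⟩)
    · rintro ⟨w, h1, h2⟩
      have h3 : w ∈ fam F.dg (⊤ : Submodule R V) (0 + 1) :=
        mem_fam.2 fun a => ⟨fun _ => trivial, h1 a⟩
      refine ⟨w, h3, funext fun a => ?_⟩
      by_cases ha : F.dg a = 0
      · exact h2 a ha
      · rw [hd 0 w h3 a (by omega), (mem_fam.1 (mem_cyc'.1 v.2).1 a).2 (by omega)]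
    · rintro ⟨w, h1, h2⟩
      exact ⟨w, fun a => (mem_fam.1 h1 a).2, fun a _ => congrFun h2 a⟩

/-- Balance of Tor (double complex `F ⊗ G`; see `hl_tot_swap`, `hl_tot_le`). -/
theorem mlen_balance {N : ℕ∞} (F : PResol R X N) (G : PResol R V N) {i : ℕ}
    (hi : (i : ℕ∞) + 1 < N) : mlen R F.D F.dg V i = mlen R G.D G.dg X i := by
  have hi' : (i : ℕ∞) < N := le_self_add.trans_lt hi
  have p := isPair_top_bot (T := R) (V := R) G.mc
  have tp : IsTotPair F.D (zd F.dg) (cx G.D G.dg R) (fun _ => fam G.dg (⊤ : Submodule R R))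
      fun _ => fam G.dg ⊥ :=
    ⟨F.mc.homog, fun a b x => by rw [F.mc.sq, Matrix.zero_apply, zero_smul], p.dd, fun _ => p,
      fun _ _ _ _ hx => Submodule.smul_mem _ _ hx, fun _ _ _ _ hx => Submodule.smul_mem _ _ hx⟩
  rw [← ChiRes.hl_double F.mc G hi', ← ChiRes.hl_double G.mc F hi']
  exact (hl_tot_swap (L := fun _ _ => conc ⊤) (L' := fun _ _ => conc ⊥) F.mc.homog G.mc.homog
    tp.isPair).2 i
end Res

section Chi
variable {R : Type u} [CommRing R] [IsLocalRing R] [IsNoetherianRing R] {d : ℕ}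
  {X V : Type u} [AddCommGroup X] [Module R X] [AddCommGroup V] [Module R V]

omit [IsLocalRing R] [IsNoetherianRing R] in
theorem chi_eq (F : Resol R X) (h : (lenFun R).MFin F.D F.dg V) :
    chi R X V = (lenFun R).meul F.D F.dg V := by
  have hn : Nonempty (Resol R X) := ⟨F⟩
  rw [chi, dif_pos hn]
  exact (mheq_of_resol F hn.some).meul_eq.2 h
theorem Meets.symm (h : Meets R X V) : Meets R V X := by
  obtain ⟨h1, h2, N, hN⟩ := h
  exact ⟨h2, h1, N, by rwa [sup_comm]⟩
theorem meets_iff [Module.Finite R X] [Module.Finite R V] :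
    Meets R X V ↔ Module.length R (X ⊗[R] V) ≠ ⊤ := by
  rw [← inA_bot_iff, inA_iff_local]
  have e : Meets R X V ↔ InA (Module.annihilator R X) V :=
    ⟨fun h => h.2, fun h => ⟨inferInstance, h⟩⟩
  rw [e, inA_iff_local]
  have k : ∀ (M : Type u) [AddCommGroup M] [Module R M] [Module.Finite R M] (x : PrimeSpectrum R),
      (∃ t, t ∉ x.asIdeal ∧ t ∈ Module.annihilator R M) ↔ x ∉ Module.support R M := by
    intro M _ _ _ x
    rw [Module.mem_support_iff_of_finite, SetLike.not_le_iff_exists]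
    exact exists_congr fun t => and_comm
  refine forall_congr' fun x => ?_
  rw [k, k, ChiC.mem_support_tensor, UPt, UPt, ← Module.mem_support_iff_of_finite]
  simp only [bot_le, true_and]
  tauto
theorem meets_quot_iff {P Q : Ideal R} :
    Meets R (R ⧸ P) (R ⧸ Q) ↔ ∃ N : ℕ, maximalIdeal R ^ N ≤ P ⊔ Q := by
  rw [Meets, Ideal.annihilator_quotient, Ideal.annihilator_quotient]
  exact ⟨fun h => h.2.2, fun h => ⟨inferInstance, inferInstance, h⟩⟩
theorem Meets.mlen_ne_top (h : Meets R X V) {N : ℕ∞} (F : PResol R X N) {i : ℕ}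
    (hi : (i : ℕ∞) + 1 < N) : mlen R F.D F.dg V i ≠ ⊤ := by
  obtain ⟨-, h2, n, hn⟩ := h
  refine IsSopP.rl_ne_top ⟨by simp, n, fun r hr => ⟨0, zero_mem _, fun x hx => ?_⟩⟩
  obtain ⟨a, ha, b, hb, rfl⟩ := Submodule.mem_sup.1 (hn hr)
  have e : b • x = 0 := funext fun j => Module.mem_annihilator.1 hb (x j)
  rw [sub_zero, add_smul, e, add_zero]
  exact ChiC.smul_mem_bdy F ha (lt_of_le_of_lt le_self_add hi) hx
theorem Meets.mfin (h : Meets R X V) (F : Resol R X) : (lenFun R).MFin F.D F.dg V := 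
  (meul_lenFun (n := Finset.univ.sup F.dg) fun a => Finset.le_sup (Finset.mem_univ a)).1.2
    fun i => h.mlen_ne_top F (WithTop.coe_lt_top (i + 1))
theorem chi_symm (hR : HasRes R d) (h : Meets R X V) : chi R X V = chi R V X := by
  have := h.1
  have := h.2.1
  obtain ⟨F, -⟩ := hR X
  obtain ⟨G, -⟩ := hR V
  rw [chi_eq F (h.mfin F), chi_eq G (h.symm.mfin G)]
  exact (ChiC.meul_eq_of_mlen fun i => mlen_balance F G (WithTop.coe_lt_top (i + 1))).2
theorem chi_congr {X' V' : Type u} [AddCommGroup X'] [Module R X'] [AddCommGroup V']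
    [Module R V'] (hR : HasRes R d) (h : Meets R X V) (e : X ≃ₗ[R] X') (e' : V ≃ₗ[R] V') :
    chi R X V = chi R X' V' := by
  have := h.1
  obtain ⟨F, -⟩ := hR X
  have k := ChiC.meul_eq_of_mlen (T := R) (T' := R) (D := F.D) (dg := F.dg) (D' := F.D)
    (dg' := F.dg) fun i => mlen_congr F.mc F.mc e' (fun a b x => map_smul e' _ _) i
  rw [chi_eq F (h.mfin F), chi_eq (F.ofEquiv e) (k.1.1 (h.mfin F))]
  exact k.2
theorem chi_self_left (hV : Module.length R V ≠ ⊤) :
    chi R R V = ((Module.length R V).toNat : ℝ) := by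
  let F : Resol R R :=
    { ι := Unit
      dg := fun _ => 0
      D := 0
      mc := isMC_zero
      ex := fun i hi _ v hv _ => ⟨0, fun _ _ => rfl, funext fun a => by
        rw [hv a (by simp only [zd]; omega)]; simp⟩
      ε := LinearMap.proj ()
      surj := fun r => ⟨fun _ => r, rfl⟩
      ker := fun v => ⟨fun h => ⟨0, fun _ _ => rfl, fun a _ => by simpa using h⟩,
        fun ⟨w, _, h⟩ => by simpa using h () rfl⟩ }
  have e0 : mlen R F.D F.dg V 0 = Module.length R V :=
    F.mlen_zero.trans (TensorProduct.lid R V).length_eq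
  have k := meul_lenFun (T := R) (V := V) (D := F.D) (dg := F.dg) (n := 0) fun _ => le_rfl
  rw [chi_eq F (k.1.2 fun i => ?_), k.2]
  · simp [e0]
  · rcases Nat.eq_zero_or_pos i with rfl | hi
    · rwa [Nat.cast_zero, e0]
    · rw [mlen_eq_zero_of_forall_ne fun a => by change ((0 : ℕ) : ℤ) ≠ i; omega]
      exact ENat.zero_ne_top

/-- The intersection multiplicity with `X` as an additive functional. -/
theorem exists_chiFun (hR : HasRes R d) [Module.Finite R X] {I : Ideal R}
    (hI : I ≤ Module.annihilator R X) : ∃ δ : AddFun R,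
      (∀ (V : Type u) [AddCommGroup V] [Module R V], δ.mem V ↔ InA I V) ∧
      (∀ (V : Type u) [AddCommGroup V] [Module R V], InA I V → δ.val V = chi R X V) ∧
      PropF I δ := by
  obtain ⟨F, -⟩ := hR X
  have hm : ∀ (V : Type u) [AddCommGroup V] [Module R V], InA I V → Meets R X V :=
    fun V _ _ ⟨h1, N, hN⟩ => ⟨inferInstance, h1, N, hN.trans (sup_le_sup_right hI _)⟩
  have k := fun (V : Type u) [AddCommGroup V] [Module R V] =>
    ChiC.meul_eq_of_mlen (T := R) (T' := R) (D := F.D) (dg := F.dg) (D' := F.D) (dg' := F.dg)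
      fun i => mlen_congr F.mc F.mc (TensorProduct.lid R V) (fun a b x => map_smul _ _ _) i
  obtain ⟨δ, h1, h2, h3⟩ := exists_genFun (I := I) R (lenFun R) F.mc
    fun V _ _ hV => (k V).1.2 ((hm V hV).mfin F)
  refine ⟨δ, h1, fun V _ _ hV => ?_, h3 fun g hg => nullHtp_of_resol F (hI hg)⟩
  rw [h2, chi_eq F ((hm V hV).mfin F), (k V).2]

/-- Reduction to a multiplicity: balance over `A`, `finH_eul_kos_conc`, `mlen_eq_of_residue`. -/
theorem chi_eq_mult (hR : HasRes R d) [Module.Finite R X] (A : Type u) [CommRing A]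
    [IsLocalRing A] [IsNoetherianRing A] [Algebra R A] [IsLocalHom (algebraMap R A)]
    [Module.Flat R A] (hres : ∀ b : A, ∃ r : R, b - algebraMap R A r ∈ maximalIdeal A)
    {y : List A} (hy : RingTheory.Sequence.IsWeaklyRegular A y) (hs : IsSop (A ⊗[R] X) y) :
    chi R X (A ⧸ Ideal.ofList y) = (mult (A ⊗[R] X) y : ℝ) := by
  obtain ⟨F, -⟩ := hR X
  obtain ⟨G, e, g1, g2⟩ := exists_pResol_baseChange F A
  obtain ⟨K, hK⟩ := exists_resol_kos (b := y.get) (by rwa [List.ofFn_get])
  have e1 : Ideal.span (Set.range y.get) = Ideal.ofList y := by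
    rw [Set.range_list_get]
  have k : ∀ i : ℕ, mlen R F.D F.dg (A ⧸ Ideal.ofList y) i =
      mlen A (kos y.get) Finset.card (A ⊗[R] X) i := fun i => by
    rw [mlen_congr (E := F.D.map (algebraMap R A)) F.mc (isMC_map F.mc _)
      (LinearEquiv.refl R (A ⧸ Ideal.ofList y)) (fun a b x => (algebraMap_smul A _ x).symm),
      mlen_eq_of_residue hres, (mheq_reindex e).mlen_eq, ← g1, ← g2, ← hK.mlen_eq]
    exact mlen_balance G (K.ofEquiv (Submodule.quotEquivOfEq _ _ e1)) (WithTop.coe_lt_top (i + 1))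
  have k' := ChiC.meul_eq_of_mlen k
  obtain ⟨f1, f2⟩ := finH_eul_kos_conc (N := A ⊗[R] X) y.get (P := ⊤) (Q := ⊥) bot_le
    (by rwa [List.ofFn_get])
  rw [List.ofFn_get] at f2
  rw [chi_eq F (k'.1.2 (lenFun_finH.2 f1)), k'.2, mult, ← f2]
  exact lenFun_eul

/-- Unramified base change. -/
theorem chi_unram (hR : HasRes R d) (h : Meets R X V) (A : Type u) [CommRing A] [IsLocalRing A]
    [IsNoetherianRing A] [Algebra R A] (hA : IsUnram (algebraMap R A)) :
    Meets A (A ⊗[R] X) (A ⊗[R] V) ∧ chi A (A ⊗[R] X) (A ⊗[R] V) = chi R X V := by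
  have := h.1
  have := h.2.1
  have : Module.Flat R A := RingHom.flat_algebraMap_iff.1 hA.flat
  have hm : Meets A (A ⊗[R] X) (A ⊗[R] V) := by
    obtain ⟨-, -, N, hN⟩ := h
    refine ⟨inferInstance, inferInstance, N, ?_⟩
    rw [← hA.map_max, ← Ideal.map_pow]
    refine (Ideal.map_mono hN).trans ?_
    rw [Ideal.map_sup]
    exact sup_le_sup (ChiC.map_ann_le A) (ChiC.map_ann_le A)
  obtain ⟨F, -⟩ := hR X
  obtain ⟨G, e, g1, g2⟩ := exists_pResol_baseChange F A
  refine ⟨hm, ?_⟩
  rw [chi_eq F (h.mfin F), chi_eq G (hm.mfin G)]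
  refine (ChiC.meul_eq_of_mlen fun i => ?_).2
  rw [g1, g2, ← (mheq_reindex e).mlen_eq, ChiC.mlen_baseChange A hA]
theorem supportDim_unram [Module.Finite R X] (A : Type u) [CommRing A] [IsLocalRing A]
    [IsNoetherianRing A] [Algebra R A] (hA : IsUnram (algebraMap R A)) :
    Module.supportDim A (A ⊗[R] X) = Module.supportDim R X := by
  have := hA.isLocalHom
  have : Module.Flat R A := RingHom.flat_algebraMap_iff.1 hA.flat
  rcases subsingleton_or_nontrivial X with hX | hX
  · rw [Module.supportDim_eq_bot_of_subsingleton, Module.supportDim_eq_bot_of_subsingleton]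
  obtain ⟨n, hn⟩ := ChiC.exists_supportDim_eq (R := R) (X := X)
  obtain ⟨y, rfl, hy⟩ := exists_isSop_of_supportDim_le hn.le
  obtain ⟨h1, h2⟩ := mult_append_baseChange (Λ' := A) hy (w := [])
    (isSop_quotient_iff.2 ⟨by simp, 1, by rw [pow_one, hA.map_max]; exact le_sup_left⟩)
  have h3 := mult_pos_of_supportDim hy hn.ge
  rw [mult_nil, hA.map_max, length_quot_maximalIdeal] at h2
  have e : (y.map (algebraMap R A) ++ []).length = y.length := by simp
  rw [hn, ← e]
  refine le_antisymm h1.supportDim_le (not_lt.1 fun h => ?_)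
  rw [mult_eq_zero_of_supportDim_lt h1 h] at h2
  simp only [ENat.toNat_one, Nat.cast_one, mul_one] at h2
  omega
theorem supportDim_le_of_isSop [Module.Finite R X] {y : List R} (h : IsSop X y) :
    Module.supportDim R X ≤ y.length := h.supportDim_le

/-- Vanishing and positivity for pairs of primes. -/
def PairThm (R : Type u) [CommRing R] [IsLocalRing R] (d : ℕ) : Prop :=
  ∀ (P Q : Ideal R) (a b : ℕ), P.IsPrime → Q.IsPrime → Meets R (R ⧸ P) (R ⧸ Q) →
    ringKrullDim (R ⧸ P) = a → ringKrullDim (R ⧸ Q) = b →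
    (a + b < d → chi R (R ⧸ P) (R ⧸ Q) = 0) ∧ (a + b = d → 0 < chi R (R ⧸ P) (R ⧸ Q))

/-- Reduction to primes (`val_nonneg_of_primes` in both variables). -/
theorem chi_pos_of_pairThm (hR : HasRes R d) (hp : PairThm R d) (h : Meets R X V) [Nontrivial X]
    [Nontrivial V] (hd : Module.supportDim R X + Module.supportDim R V = d) :
    0 < chi R X V := by
  have := h.1
  have := h.2.1
  have hX : Module.annihilator R X ≠ ⊤ := mt Module.annihilator_eq_top_iff.1 (not_subsingleton X)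
  have hV : Module.annihilator R V ≠ ⊤ := mt Module.annihilator_eq_top_iff.1 (not_subsingleton V)
  rw [Module.supportDim_eq_ringKrullDim_quotient_annihilator,
    Module.supportDim_eq_ringKrullDim_quotient_annihilator] at hd
  -- pairs of primes
  have key : ∀ Q P : Ideal R, Q.IsPrime → P.IsPrime → Module.annihilator R V ≤ Q →
      Module.annihilator R X ≤ P → Meets R (R ⧸ Q) (R ⧸ P) → 0 ≤ chi R (R ⧸ Q) (R ⧸ P) ∧
      (ringKrullDim (R ⧸ Q) = ringKrullDim (R ⧸ Module.annihilator R V) →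
        ringKrullDim (R ⧸ P) = ringKrullDim (R ⧸ Module.annihilator R X) →
        0 < chi R (R ⧸ Q) (R ⧸ P)) := by
    intro Q P hQ hP h1 h2 hm
    obtain ⟨a, ha⟩ := ChiC.exists_dim_eq hQ.ne_top
    obtain ⟨b, hb⟩ := ChiC.exists_dim_eq hP.ne_top
    obtain ⟨k1, k2⟩ := hp Q P a b hQ hP hm ha hb
    have h3 : a + b ≤ d := by
      have := add_le_add (afDim_le h2) (afDim_le h1)
      rw [hd, ha, hb, add_comm] at this
      exact_mod_cast this
    refine ⟨?_, fun e1 e2 => k2 ?_⟩
    · rcases h3.lt_or_eq with h4 | h4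
      · exact (k1 h4).ge
      · exact (k2 h4).le
    · rw [← e1, ← e2, ha, hb, add_comm] at hd
      exact_mod_cast hd
  -- one prime
  have key2 : ∀ Q : Ideal R, Q.IsPrime → Module.annihilator R V ≤ Q → Meets R X (R ⧸ Q) →
      0 ≤ chi R X (R ⧸ Q) ∧
      (ringKrullDim (R ⧸ Q) = ringKrullDim (R ⧸ Module.annihilator R V) →
        0 < chi R X (R ⧸ Q)) := by
    intro Q hQ h1 hm
    obtain ⟨δ, d1, d2, -⟩ := exists_chiFun (X := R ⧸ Q) hR le_rfl
    have mX : InA (Module.annihilator R (R ⧸ Q)) X := hm.symm.2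
    obtain ⟨v1, v2⟩ := val_nonneg_of_primes ((d1 X).2 mX) fun P hP h2 h3 => by
      rw [d2 _ ((d1 _).1 h3)]
      exact (key Q P hQ hP h1 h2 ⟨inferInstance, (d1 _).1 h3⟩).1
    rw [chi_symm hR hm, ← d2 X mX]
    refine ⟨v1, fun e => ?_⟩
    obtain ⟨P, hP, e'⟩ := ChiC.exists_minPrime hX
    obtain ⟨w1, w2⟩ := v2 P hP
    refine lt_of_lt_of_le ?_ w2
    rw [d2 _ ((d1 _).1 w1)]
    exact (key Q P hQ hP.1.1 h1 hP.1.2 ⟨inferInstance, (d1 _).1 w1⟩).2 e e'
  obtain ⟨δ, d1, d2, -⟩ := exists_chiFun (X := X) hR le_rfl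
  have mV : InA (Module.annihilator R X) V := h.2
  obtain ⟨-, v2⟩ := val_nonneg_of_primes ((d1 V).2 mV) fun Q hQ h2 h3 => by
    rw [d2 _ ((d1 _).1 h3)]
    exact (key2 Q hQ h2 ⟨inferInstance, (d1 _).1 h3⟩).1
  obtain ⟨Q, hQ, e⟩ := ChiC.exists_minPrime hV
  obtain ⟨w1, w2⟩ := v2 Q hQ
  rw [← d2 V mV]
  refine lt_of_lt_of_le ?_ w2
  rw [d2 _ ((d1 _).1 w1)]
  exact (key2 Q hQ.1.1 hQ.1.2 ⟨inferInstance, (d1 _).1 w1⟩).2 e
end Chi

end Vale.Agent.P177
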