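import Vale.Agent.P177.Defs

/-! P177 module Core: additive functionals on subquotients and on complexes (signed analogue of
`P202/LenCore.lean` and `P202/LenTot.lean`; most proofs can be adapted from there). -/

namespace Vale.Agent.P177

open Vale.Agent.P202

universe u

namespace AddFun
variable {T : Type u} [CommRing T] (δ : AddFun T) {M : Type u} [AddCommGroup M] [Module T M]
  {M' : Type u} [AddCommGroup M'] [Module T M'] {M'' : Type u} [AddCommGroup M''] [Module T M'']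

theorem val_zero (h : Subsingleton M) : δ.val M = 0 := by
  have h1 := δ.val_add M ⊥ (δ.mem_zero M h)
  have h2 := δ.val_equiv M (M ⧸ (⊥ : Submodule T M)) (Submodule.quotEquivOfEqBot ⊥ rfl).symm
    (δ.mem_zero M h)
  have h3 := δ.val_equiv M (⊥ : Submodule T M) (LinearEquiv.ofSubsingleton _ _) (δ.mem_zero M h)
  linarith
theorem mem_equiv (e : M ≃ₗ[T] M') : δ.mem M ↔ δ.mem M' :=
  ⟨δ.mem_surj _ _ e.toLinearMap e.surjective, δ.mem_inj _ _ e.toLinearMap e.injective⟩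
theorem mem_of_exact (f : M →ₗ[T] M') (g : M' →ₗ[T] M'') (h : Function.Exact f g)
    (h1 : δ.mem M) (h3 : δ.mem M'') : δ.mem M' := by
  refine δ.mem_ext M' (LinearMap.ker g) ?_ ?_
  · rw [h.linearMap_ker_eq]
    exact δ.mem_surj _ _ f.rangeRestrict f.surjective_rangeRestrict h1
  · exact δ.mem_inj _ _ ((LinearMap.ker g).liftQ g le_rfl)
      (LinearMap.ker_eq_bot.1 (Submodule.ker_liftQ_eq_bot _ _ _ le_rfl)) h3
theorem val_exact (f : M →ₗ[T] M') (g : M' →ₗ[T] M'') (hf : Function.Injective f)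
    (hg : Function.Surjective g) (h : Function.Exact f g) (hm : δ.mem M') :
    δ.val M' = δ.val M + δ.val M'' := by
  rw [δ.val_add M' (LinearMap.ker g) hm, δ.val_equiv _ _ (g.quotKerEquivOfSurjective hg)
    (δ.mem_surj _ _ (LinearMap.ker g).mkQ (Submodule.mkQ_surjective _) hm), h.linearMap_ker_eq,
    ← δ.val_equiv _ _ (LinearEquiv.ofInjective f hf) (δ.mem_inj _ _ f hf hm)]
theorem mem_prod (h : δ.mem M) (h' : δ.mem M') :
    δ.mem (M × M') ∧ δ.val (M × M') = δ.val M + δ.val M' := by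
  have hm := δ.mem_of_exact (LinearMap.inl T M M') (LinearMap.snd T M M')
    Function.Exact.inl_snd h h'
  exact ⟨hm, δ.val_exact (LinearMap.inl T M M') (LinearMap.snd T M M') LinearMap.inl_injective
    LinearMap.snd_surjective Function.Exact.inl_snd hm⟩
theorem mem_pi {ι : Type} [Fintype ι] (N : ι → Type u) [∀ a, AddCommGroup (N a)]
    [∀ a, Module T (N a)] (h : ∀ a, δ.mem (N a)) :
    δ.mem (∀ a, N a) ∧ δ.val (∀ a, N a) = ∑ a, δ.val (N a) := by
  refine Fintype.induction_empty_option (P := fun ι _ => ∀ (N : ι → Type u)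
    [∀ a, AddCommGroup (N a)] [∀ a, Module T (N a)], (∀ a, δ.mem (N a)) →
      δ.mem (∀ a, N a) ∧ δ.val (∀ a, N a) = ∑ a, δ.val (N a)) ?_ ?_ ?_ ι N h
  · intro α β _ e ih N _ _ h
    let : Fintype α := Fintype.ofEquiv β e.symm
    obtain ⟨i1, i2⟩ := ih (fun a => N (e a)) fun a => h _
    refine ⟨(δ.mem_equiv (LinearEquiv.piCongrLeft T N e)).1 i1, ?_⟩
    rw [← δ.val_equiv _ _ (LinearEquiv.piCongrLeft T N e) i1, i2, ← e.sum_comp]
  · intro N _ _ _
    refine ⟨δ.mem_zero _ inferInstance, ?_⟩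
    rw [δ.val_zero inferInstance]
    simp
  · intro α _ ih N _ _ h
    obtain ⟨i1, i2⟩ := ih (fun a => N (some a)) fun a => h _
    obtain ⟨j1, j2⟩ := δ.mem_prod (h none) i1
    have k1 := (δ.mem_equiv (LinearEquiv.piOptionEquivProd T (M := N))).2 j1
    refine ⟨k1, ?_⟩
    rw [δ.val_equiv _ _ (LinearEquiv.piOptionEquivProd T) k1, j2, i2, Fintype.sum_option]

theorem rm_iff_of_surj {P Q : Submodule T M} (g : P →ₗ[T] M') (hs : Function.Surjective g)
    (hk : ∀ x : P, g x = 0 ↔ (x : M) ∈ Q) :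
    (δ.rm P Q ↔ δ.mem M') ∧ (δ.mem M' → δ.rv P Q = δ.val M') := by
  have h1 : LinearMap.ker g = LinearMap.ker (Q.mkQ ∘ₗ P.subtype) := by
    ext x; simp [hk]
  have h2 : LinearMap.range (Q.mkQ ∘ₗ P.subtype) = P.map Q.mkQ := by
    rw [LinearMap.range_comp, Submodule.range_subtype]
  let e : M' ≃ₗ[T] P.map Q.mkQ := (g.quotKerEquivOfSurjective hs).symm ≪≫ₗ
    Submodule.quotEquivOfEq _ _ h1 ≪≫ₗ LinearMap.quotKerEquivRange _ ≪≫ₗ
    LinearEquiv.ofEq _ _ h2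
  exact ⟨(δ.mem_equiv e).symm, fun h => (δ.val_equiv _ _ e h).symm⟩
theorem rm_of_le {P Q : Submodule T M} (h : P ≤ Q) : δ.rm P Q ∧ δ.rv P Q = 0 := by
  have : Subsingleton (P.map Q.mkQ) := by
    rw [Submodule.subsingleton_iff_eq_bot, ← le_bot_iff, Submodule.map_le_iff_le_comap,
      Submodule.comap_bot, Submodule.ker_mkQ]
    exact h
  exact ⟨δ.mem_zero _ this, δ.val_zero this⟩
theorem rm_top (Q : Submodule T M) :
    (δ.rm ⊤ Q ↔ δ.mem (M ⧸ Q)) ∧ (δ.mem (M ⧸ Q) → δ.rv ⊤ Q = δ.val (M ⧸ Q)) :=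
  δ.rm_iff_of_surj (Q.mkQ ∘ₗ (⊤ : Submodule T M).subtype)
    (fun y => by
      obtain ⟨x, rfl⟩ := Q.mkQ_surjective y
      exact ⟨⟨x, trivial⟩, rfl⟩) fun x => by simp
theorem rm_bot (P : Submodule T M) :
    (δ.rm P ⊥ ↔ δ.mem P) ∧ (δ.mem P → δ.rv P ⊥ = δ.val P) :=
  δ.rm_iff_of_surj LinearMap.id Function.surjective_id fun x => by simp
theorem rm_sup (P Q : Submodule T M) :
    (δ.rm (P ⊔ Q) Q ↔ δ.rm P Q) ∧ δ.rv (P ⊔ Q) Q = δ.rv P Q := by
  unfold rm rv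
  rw [Submodule.map_sup, Submodule.mkQ_map_self, sup_bot_eq]
  exact ⟨Iff.rfl, rfl⟩
theorem rm_iff_quot (P Q : Submodule T M) : δ.rm P Q ↔ δ.mem (P ⧸ Q.comap P.subtype) :=
  (δ.rm_iff_of_surj (Q.comap P.subtype).mkQ (Submodule.mkQ_surjective _) fun x => by simp).1
theorem core_ses {A B C : Submodule T M} (hCB : C ≤ B) (hBA : B ≤ A) :
    ∃ (f : B.map C.mkQ →ₗ[T] A.map C.mkQ) (g : A.map C.mkQ →ₗ[T] A.map B.mkQ),
      Function.Injective f ∧ Function.Surjective g ∧ Function.Exact f g := by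
  have hm : ∀ x ∈ A.map C.mkQ, Submodule.factor hCB x ∈ A.map B.mkQ := by
    rintro _ ⟨x, hx, rfl⟩
    exact ⟨x, hx, rfl⟩
  refine ⟨Submodule.inclusion (Submodule.map_mono hBA), (Submodule.factor hCB).restrict hm,
    Submodule.inclusion_injective _, ?_, ?_⟩
  · rintro ⟨_, x, hx, rfl⟩
    exact ⟨⟨C.mkQ x, x, hx, rfl⟩, rfl⟩
  · rintro ⟨_, x, hx, rfl⟩
    constructor
    · intro h
      have h1 : B.mkQ x = 0 := congrArg Subtype.val h
      exact ⟨⟨C.mkQ x, x, (Submodule.Quotient.mk_eq_zero B).mp h1, rfl⟩, rfl⟩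
    · rintro ⟨⟨_, y, hy, rfl⟩, h⟩
      rw [← h]
      exact Subtype.ext ((Submodule.Quotient.mk_eq_zero B).mpr hy)
variable {δ}
theorem rm_of_map_inj (φ : M →ₗ[T] M') {P Q : Submodule T M} {P' Q' : Submodule T M'}
    (h1 : ∀ x ∈ P, φ x ∈ P') (h4 : ∀ x ∈ P, φ x ∈ Q' → x ∈ Q) (h : δ.rm P' Q') : δ.rm P Q := by
  rw [δ.rm_iff_quot]
  have a1 : LinearMap.ker (Q'.mkQ ∘ₗ φ ∘ₗ P.subtype) ≤ Q.comap P.subtype := by
    intro x hx
    exact h4 x x.2 (by simpa using hx)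
  refine δ.mem_surj _ _ (Submodule.factor a1) (Submodule.factor_surjective a1) ?_
  rw [δ.mem_equiv (LinearMap.quotKerEquivRange _)]
  have a2 : LinearMap.range (Q'.mkQ ∘ₗ φ ∘ₗ P.subtype) ≤ P'.map Q'.mkQ := by
    rintro _ ⟨x, rfl⟩
    exact ⟨φ x, h1 x x.2, rfl⟩
  exact δ.mem_inj _ _ (Submodule.inclusion a2) (Submodule.inclusion_injective a2) h
theorem rm_of_map_surj (φ : M →ₗ[T] M') {P Q : Submodule T M} {P' Q' : Submodule T M'}
    (h2 : ∀ x ∈ P ⊓ Q, φ x ∈ Q') (h3 : ∀ y ∈ P', ∃ x ∈ P, y - φ x ∈ Q') (h : δ.rm P Q) :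
    δ.rm P' Q' := by
  rw [δ.rm_iff_quot] at h
  have a1 : Q.comap P.subtype ≤ LinearMap.ker (Q'.mkQ ∘ₗ φ ∘ₗ P.subtype) := by
    intro x hx
    simpa using h2 x ⟨x.2, hx⟩
  have a3 := δ.mem_surj _ _ (Submodule.factor a1) (Submodule.factor_surjective a1) h
  rw [δ.mem_equiv (LinearMap.quotKerEquivRange _)] at a3
  have a2 : P'.map Q'.mkQ ≤ LinearMap.range (Q'.mkQ ∘ₗ φ ∘ₗ P.subtype) := by
    rintro _ ⟨y, hy, rfl⟩
    obtain ⟨x, hx, hxy⟩ := h3 y hy
    exact ⟨⟨x, hx⟩, ((Submodule.Quotient.eq _).mpr hxy).symm⟩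
  exact δ.mem_inj _ _ (Submodule.inclusion a2) (Submodule.inclusion_injective a2) a3
theorem rm_mono {P P' Q Q' : Submodule T M} (hP : P ≤ P') (hQ : Q' ≤ Q) (h : δ.rm P' Q') :
    δ.rm P Q :=
  rm_of_map_inj LinearMap.id (fun _ hx => hP hx) (fun _ _ hx => hQ hx) h
theorem rm_trans {A B C : Submodule T M} (h : δ.rm A B) (h' : δ.rm B C) : δ.rm A C := by
  refine rm_mono (P' := A ⊔ (B ⊔ C)) le_sup_left le_rfl ?_
  obtain ⟨f, g, -, -, e⟩ := core_ses (le_sup_right : C ≤ B ⊔ C) (le_sup_right : B ⊔ C ≤ A ⊔ (B ⊔ C))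
  exact δ.mem_of_exact f g e ((δ.rm_sup B C).1.2 h')
    ((δ.rm_sup A (B ⊔ C)).1.2 (rm_mono le_rfl le_sup_left h))
theorem rv_add {A B C : Submodule T M} (hCB : C ≤ B) (hBA : B ≤ A) (h : δ.rm A C) :
    δ.rv A C = δ.rv A B + δ.rv B C := by
  obtain ⟨f, g, hf, hg, e⟩ := core_ses hCB hBA
  rw [add_comm]
  exact δ.val_exact f g hf hg e h
theorem rv_eq_of_map (φ : M →ₗ[T] M') {P Q : Submodule T M} {P' Q' : Submodule T M'}
    (h1 : ∀ x ∈ P, φ x ∈ P') (h2 : ∀ x ∈ P ⊓ Q, φ x ∈ Q')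
    (h3 : ∀ y ∈ P', ∃ x ∈ P, y - φ x ∈ Q') (h4 : ∀ x ∈ P, φ x ∈ Q' → x ∈ Q) :
    (δ.rm P Q ↔ δ.rm P' Q') ∧ (δ.rm P Q → δ.rv P Q = δ.rv P' Q') := by
  have := δ.rm_iff_of_surj (P := P) (Q := Q) (LinearMap.codRestrict (P'.map Q'.mkQ)
    (Q'.mkQ ∘ₗ φ ∘ₗ P.subtype) fun x => ⟨φ x, h1 x x.2, rfl⟩) ?_ ?_
  · exact ⟨this.1, fun h => this.2 (this.1.1 h)⟩
  · rintro ⟨_, y, hy, rfl⟩
    obtain ⟨x, hx, hxy⟩ := h3 y hy
    exact ⟨⟨x, hx⟩, Subtype.ext ((Submodule.Quotient.eq _).mpr hxy).symm⟩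
  · intro x
    exact ⟨fun h => h4 x x.2 ((Submodule.Quotient.mk_eq_zero _).mp (congrArg Subtype.val h)),
      fun h => Subtype.ext ((Submodule.Quotient.mk_eq_zero _).mpr (h2 x ⟨x.2, h⟩))⟩
theorem rm_pi {ι : Type} [Fintype ι] (P Q : ι → Submodule T M) (h : ∀ a, δ.rm (P a) (Q a)) :
    δ.rm (Submodule.pi Set.univ P) (Submodule.pi Set.univ Q) ∧
    δ.rv (Submodule.pi Set.univ P) (Submodule.pi Set.univ Q) = ∑ a, δ.rv (P a) (Q a) := by
  have e := δ.mem_pi (fun a => (P a).map (Q a).mkQ) h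
  have := δ.rm_iff_of_surj (P := Submodule.pi Set.univ P) (Q := Submodule.pi Set.univ Q)
    (LinearMap.pi fun a => LinearMap.codRestrict ((P a).map (Q a).mkQ)
    ((Q a).mkQ ∘ₗ LinearMap.proj a ∘ₗ (Submodule.pi Set.univ P).subtype)
    fun x => ⟨x.1 a, x.2 a (Set.mem_univ a), rfl⟩) ?_ ?_
  · exact ⟨this.1.2 e.1, (this.2 e.1).trans e.2⟩
  · intro y
    choose x hx hxy using fun a => (y a).2
    exact ⟨⟨x, fun a _ => hx a⟩, funext fun a => Subtype.ext (hxy a)⟩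
  · intro x
    rw [funext_iff, Submodule.mem_pi]
    refine forall_congr' fun a => ?_
    exact ⟨fun h _ => (Submodule.Quotient.mk_eq_zero _).mp (congrArg Subtype.val h),
      fun h => Subtype.ext ((Submodule.Quotient.mk_eq_zero _).mpr (h (Set.mem_univ a)))⟩

theorem rm_split {A B C : Submodule T M} (hCB : C ≤ B) (hBA : B ≤ A) :
    (δ.rm A C ↔ δ.rm B C ∧ δ.rm A B) ∧ (δ.rm A C → δ.rv A C = δ.rv B C + δ.rv A B) :=
  ⟨⟨fun h => ⟨rm_mono hBA le_rfl h, rm_mono le_rfl hCB h⟩, fun h => rm_trans h.2 h.1⟩,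
    fun h => by rw [rv_add hCB hBA h, add_comm]⟩

theorem core_finsum_add {f g g' : ℤ → ℝ} (he : ∀ i, f i = g i + g' i)
    (h : (Function.support g).Finite) (h' : (Function.support g').Finite) :
    ∑ᶠ i, (sgn i : ℝ) * f i = ∑ᶠ i, (sgn i : ℝ) * g i + ∑ᶠ i, (sgn i : ℝ) * g' i := by
  have key : ∀ u : ℤ → ℝ, (Function.support u).Finite →
      (Function.support fun i => (sgn i : ℝ) * u i).Finite := fun u hu =>
    hu.subset fun i hi hf => hi (by simp [hf])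
  rw [← finsum_add_distrib (key g h) (key g' h')]
  refine finsum_congr fun i => ?_
  rw [he, mul_add]

theorem core_finsum_shift (γ : ℤ → ℝ) :
    ∑ᶠ i, (sgn i : ℝ) * γ (i + 1) = -∑ᶠ i, (sgn i : ℝ) * γ i := by
  rw [← finsum_neg_distrib,
    ← finsum_comp_equiv (Equiv.addRight (1 : ℤ)) (f := fun i => -((sgn i : ℝ) * γ i))]
  refine finsum_congr fun i => ?_
  rw [Equiv.coe_addRight, sgn_succ]
  push_cast
  ring

section Cx
variable {B : Type*} [CommRing B] [Algebra T B] [Module B M] [IsScalarTower T B M]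
  {B' : Type*} [CommRing B'] [Algebra T B'] [Module B' M'] [IsScalarTower T B' M']
  {d : M →ₗ[B] M} {A A' A'' : ℤ → Submodule T M}

theorem finH_of_exact (h : ∀ i, cyc d A A' i ≤ bdy d A A' i) :
    δ.FinH d A A' ∧ δ.eul d A A' = 0 := by
  refine ⟨⟨fun i => (δ.rm_of_le (h i)).1, Set.finite_empty.subset fun i hi => absurd (h i) hi⟩, ?_⟩
  have : ∀ i, δ.hv d A A' i = 0 := fun i => (δ.rm_of_le (h i)).2
  simp [eul, this]
theorem eul_eq_sum (s : Finset ℤ) (h : ∀ i, i ∉ s → cyc d A A' i ≤ bdy d A A' i) :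
    δ.eul d A A' = ∑ i ∈ s, (sgn i : ℝ) * δ.hv d A A' i := by
  refine finsum_eq_sum_of_support_subset _ fun i hi => ?_
  by_contra hn
  have : δ.hv d A A' i = 0 := (δ.rm_of_le (h i hn)).2
  exact hi (by simp [this])
theorem core_les (h : IsPair d A A') (h' : IsPair d A' A'') :
    ∃ (a b c : ℤ → Prop) (α β γ : ℤ → ℝ),
      (∀ i, (δ.hm d A A'' i ↔ a i ∧ b i) ∧ (δ.hm d A A'' i → δ.hv d A A'' i = α i + β i)) ∧
      (∀ i, (δ.hm d A A' i ↔ b i ∧ c i) ∧ (δ.hm d A A' i → δ.hv d A A' i = β i + γ i)) ∧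
      (∀ i, (δ.hm d A' A'' i ↔ c (i + 1) ∧ a i) ∧
        (δ.hm d A' A'' i → δ.hv d A' A'' i = γ (i + 1) + α i)) ∧
      (∀ i, cyc d A' A'' i ≤ bdy d A' A'' i → α i = 0) ∧
      (∀ i, cyc d A A' i ≤ bdy d A A' i → β i = 0 ∧ γ i = 0) := by
  have h'' : IsPair d A A'' := h.trans h'
  have l1 : ∀ i, bdy d A A' i ≤ cyc d A A'' i ⊔ A' i := fun i x hx => by
    obtain ⟨y, hy, hxy⟩ := mem_bdy.1 hx
    refine Submodule.mem_sup.2 ⟨d y, mem_cyc.2 ⟨h.les_d hy, ?_⟩, x - d y, hxy, add_sub_cancel _ _⟩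
    rw [h.dd]
    exact zero_mem _
  have l2 : ∀ i, cyc d A A'' i ⊔ A' i ≤ cyc d A A' i := fun i =>
    sup_le (fun x hx => mem_cyc.2 ⟨(mem_cyc.1 hx).1, h'.le _ (mem_cyc.1 hx).2⟩)
      fun x hx => mem_cyc.2 ⟨h.le _ hx, h.bot _ _ hx⟩
  have l3 : ∀ i, bdy d A' A'' i ≤ bdy d A A'' i := fun i x hx => by
    obtain ⟨y, hy, hxy⟩ := mem_bdy.1 hx
    exact mem_bdy.2 ⟨y, h.le _ hy, hxy⟩
  refine ⟨fun i => δ.rm (cyc d A' A'' i) (bdy d A A'' i),
    fun i => δ.rm (cyc d A A'' i ⊔ A' i) (bdy d A A' i),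
    fun i => δ.rm (cyc d A A' i) (cyc d A A'' i ⊔ A' i),
    fun i => δ.rv (cyc d A' A'' i) (bdy d A A'' i),
    fun i => δ.rv (cyc d A A'' i ⊔ A' i) (bdy d A A' i),
    fun i => δ.rv (cyc d A A' i) (cyc d A A'' i ⊔ A' i), fun i => ?_,
    fun i => rm_split (l1 i) (l2 i), fun i => ?_, fun i hi => (δ.rm_of_le (hi.trans (l3 i))).2,
    fun i hi => ⟨(δ.rm_of_le ((l2 i).trans hi)).2, (δ.rm_of_le (hi.trans (l1 i))).2⟩⟩
  · have m1 : cyc d A' A'' i ⊔ bdy d A A'' i ≤ cyc d A A'' i :=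
      sup_le (fun x hx => mem_cyc.2 ⟨h.le _ (mem_cyc.1 hx).1, (mem_cyc.1 hx).2⟩) (h''.bdy_le_cyc i)
    have s := rm_split (δ := δ) le_sup_right m1
    rw [(δ.rm_sup _ _).1, (δ.rm_sup _ _).2] at s
    have e := rv_eq_of_map (δ := δ) (P := cyc d A A'' i) (Q := cyc d A' A'' i ⊔ bdy d A A'' i)
      (P' := cyc d A A'' i ⊔ A' i) (Q' := bdy d A A' i) LinearMap.id
      (fun x hx => Submodule.mem_sup_left hx) (fun x hx => ?_) (fun y hy => ?_) fun x hx hx' => ?_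
    · refine ⟨s.1.trans (and_congr_right' e.1), fun hm => ?_⟩
      beta_reduce
      rw [← e.2 (s.1.1 hm).2]
      exact s.2 hm
    · obtain ⟨a, ha, b, hb, rfl⟩ := Submodule.mem_sup.1 hx.2
      obtain ⟨y, hy, hby⟩ := mem_bdy.1 hb
      exact add_mem (les_bot_le_bdy (mem_cyc.1 ha).1) (mem_bdy.2 ⟨y, hy, h'.le _ hby⟩)
    · obtain ⟨a, ha, b, hb, rfl⟩ := Submodule.mem_sup.1 hy
      exact ⟨a, ha, by rw [LinearMap.id_apply, add_sub_cancel_left]; exact les_bot_le_bdy hb⟩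
    · obtain ⟨y, hy, hxy⟩ := mem_bdy.1 hx'
      rw [LinearMap.id_apply] at hxy
      refine Submodule.mem_sup.2
        ⟨x - d y, mem_cyc.2 ⟨hxy, ?_⟩, d y, les_dy_mem_bdy hy, sub_add_cancel _ _⟩
      rw [map_sub, h.dd, sub_zero]
      exact (mem_cyc.1 hx).2
  · have m1 : bdy d A' A'' i ≤ cyc d A' A'' i ⊓ bdy d A A'' i := le_inf (h'.bdy_le_cyc i) (l3 i)
    have s := rm_split (δ := δ) m1 inf_le_left
    have e0 := rv_eq_of_map (δ := δ) (P := cyc d A' A'' i) (Q := cyc d A' A'' i ⊓ bdy d A A'' i)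
      (P' := cyc d A' A'' i) (Q' := bdy d A A'' i) LinearMap.id (fun _ hx => hx)
      (fun _ hx => hx.2.2) (fun y hy => ⟨y, hy, by simp⟩) fun _ hx hx' => ⟨hx, hx'⟩
    have e := rv_eq_of_map (δ := δ) (P := cyc d A A' (i + 1))
      (Q := cyc d A A'' (i + 1) ⊔ A' (i + 1)) (P' := cyc d A' A'' i ⊓ bdy d A A'' i)
      (Q' := bdy d A' A'' i) (d.restrictScalars T) (fun x hx => ?_) (fun x hx => ?_)
      (fun y hy => ?_) fun x hx hx' => ?_
    · refine ⟨s.1.trans (and_congr e.1.symm e0.1), fun hm => ?_⟩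
      beta_reduce
      rw [e.2 (e.1.2 (s.1.1 hm).1), ← e0.2 (s.1.1 hm).2]
      exact s.2 hm
    · have hx1 := mem_cyc.1 hx
      rw [add_sub_cancel_right] at hx1
      refine ⟨mem_cyc.2 ⟨hx1.2, ?_⟩, les_dy_mem_bdy hx1.1⟩
      rw [LinearMap.restrictScalars_apply, h.dd]
      exact zero_mem _
    · obtain ⟨a, ha, b, hb, rfl⟩ := Submodule.mem_sup.1 hx.2
      have ha1 := (mem_cyc.1 ha).2
      rw [add_sub_cancel_right] at ha1
      rw [LinearMap.restrictScalars_apply, map_add]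
      exact add_mem (les_bot_le_bdy ha1) (les_dy_mem_bdy hb)
    · obtain ⟨x, hx, hxy⟩ := mem_bdy.1 hy.2
      refine ⟨x, mem_cyc.2 ⟨hx, ?_⟩, les_bot_le_bdy hxy⟩
      have := sub_mem (mem_cyc.1 hy.1).1 (h'.le _ hxy)
      rwa [sub_sub_cancel, ← add_sub_cancel_right i 1] at this
    · obtain ⟨y, hy, hxy⟩ := mem_bdy.1 hx'
      refine Submodule.mem_sup.2 ⟨x - y, mem_cyc.2 ⟨sub_mem (mem_cyc.1 hx).1 (h.le _ hy), ?_⟩, y,
        hy, sub_add_cancel _ _⟩
      rw [add_sub_cancel_right, map_sub]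
      exact hxy
theorem core_fin_of_le {A₁ A₁' A₂ A₂' : ℤ → Submodule T M} (k k' : ℤ)
    (hle : ∀ i, hl d A A' i ≤ hl d A₁ A₁' (i + k) + hl d A₂ A₂' (i + k'))
    (h1 : {i | ¬ cyc d A₁ A₁' i ≤ bdy d A₁ A₁' i}.Finite)
    (h2 : {i | ¬ cyc d A₂ A₂' i ≤ bdy d A₂ A₂' i}.Finite) :
    {i | ¬ cyc d A A' i ≤ bdy d A A' i}.Finite := by
  refine ((h1.preimage (f := fun i => i + k) (add_left_injective k).injOn).union
    (h2.preimage (f := fun i => i + k') (add_left_injective k').injOn)).subset fun i hi => ?_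
  by_contra hcon
  simp only [Set.mem_union, Set.mem_preimage, Set.mem_ofPred_eq, not_or, not_not] at hcon
  have := hle i
  rw [hl.eq_1 d A₁, hl.eq_1 d A₂, rl_eq_zero_iff.2 hcon.1, rl_eq_zero_iff.2 hcon.2,
    add_zero] at this
  exact hi (rl_eq_zero_iff.1 (nonpos_iff_eq_zero.1 this))
/-- The three membership statements of the long exact sequence, degree by degree. -/
theorem hm_mid (h : IsPair d A A') (h' : IsPair d A' A'') {i : ℤ} (f : δ.hm d A A' i)
    (f' : δ.hm d A' A'' i) : δ.hm d A A'' i := by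
  obtain ⟨_, _, _, _, _, _, h1, h2, h3, -⟩ := core_les (δ := δ) h h'
  exact (h1 i).1.2 ⟨((h3 i).1.1 f').2, ((h2 i).1.1 f).1⟩
theorem hm_quot (h : IsPair d A A') (h' : IsPair d A' A'') {i : ℤ} (f : δ.hm d A A'' i)
    (f' : δ.hm d A' A'' (i - 1)) : δ.hm d A A' i := by
  obtain ⟨_, _, _, _, _, _, h1, h2, h3, -⟩ := core_les (δ := δ) h h'
  have := ((h3 (i - 1)).1.1 f').1
  rw [sub_add_cancel] at this
  exact (h2 i).1.2 ⟨((h1 i).1.1 f).2, this⟩
theorem hm_sub (h : IsPair d A A') (h' : IsPair d A' A'') {i : ℤ} (f : δ.hm d A A'' i)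
    (f' : δ.hm d A A' (i + 1)) : δ.hm d A' A'' i := by
  obtain ⟨_, _, _, _, _, _, h1, h2, h3, -⟩ := core_les (δ := δ) h h'
  exact (h3 i).1.2 ⟨((h2 (i + 1)).1.1 f').2, ((h1 i).1.1 f).1⟩
theorem FinH.mid (h : IsPair d A A') (h' : IsPair d A' A'') (f : δ.FinH d A A')
    (f' : δ.FinH d A' A'') : δ.FinH d A A'' :=
  ⟨fun i => hm_mid h h' (f.hm i) (f'.hm i), core_fin_of_le 0 0
    (fun i => by simpa using hl_le_add h h' i) f.fin f'.fin⟩
theorem FinH.quot (h : IsPair d A A') (h' : IsPair d A' A'') (f : δ.FinH d A A'')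
    (f' : δ.FinH d A' A'') : δ.FinH d A A' :=
  ⟨fun i => hm_quot h h' (f.hm i) (f'.hm _), core_fin_of_le 0 (-1)
    (fun i => by rw [add_zero, ← sub_eq_add_neg]; exact hl_quot_le h h' i) f.fin f'.fin⟩
theorem FinH.sub (h : IsPair d A A') (h' : IsPair d A' A'') (f : δ.FinH d A A'')
    (f' : δ.FinH d A A') : δ.FinH d A' A'' :=
  ⟨fun i => hm_sub h h' (f.hm i) (f'.hm _), core_fin_of_le 0 1
    (fun i => by rw [add_zero]; exact hl_sub_le h h' i) f.fin f'.fin⟩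
theorem eul_add (h : IsPair d A A') (h' : IsPair d A' A'') (f : δ.FinH d A A')
    (f' : δ.FinH d A' A'') : δ.eul d A A'' = δ.eul d A A' + δ.eul d A' A'' := by
  have f'' := FinH.mid h h' f f'
  obtain ⟨_, _, _, α, β, γ, h1, h2, h3, h4, h5⟩ := core_les (δ := δ) h h'
  have sα : (Function.support α).Finite := f'.fin.subset fun i hi hc => hi (h4 i hc)
  have sβ : (Function.support β).Finite := f.fin.subset fun i hi hc => hi (h5 i hc).1
  have sγ : (Function.support γ).Finite := f.fin.subset fun i hi hc => hi (h5 i hc).2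
  have sγ' : (Function.support fun i => γ (i + 1)).Finite :=
    sγ.preimage (f := fun i => i + 1) (add_left_injective 1).injOn
  unfold eul
  rw [core_finsum_add (fun i => (h1 i).2 (f''.hm i)) sα sβ,
    core_finsum_add (fun i => (h2 i).2 (f.hm i)) sβ sγ,
    core_finsum_add (g := fun i => γ (i + 1)) (fun i => (h3 i).2 (f'.hm i)) sγ' sα,
    core_finsum_shift]
  ring
theorem finH_eul_chain (F : ℕ → ℤ → Submodule T M) (N : ℕ)
    (h : ∀ k < N, IsPair d (F k) (F (k + 1))) (f : ∀ k < N, δ.FinH d (F k) (F (k + 1))) :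
    δ.FinH d (F 0) (F N) ∧
      δ.eul d (F 0) (F N) = ∑ k ∈ Finset.range N, δ.eul d (F k) (F (k + 1)) := by
  induction N with
  | zero => exact finH_of_exact fun _ => inf_le_left.trans le_sup_right
  | succ N ih =>
    obtain ⟨a1, a2⟩ := ih (fun k hk => h k (by omega)) fun k hk => f k (by omega)
    have p := les_chain_pair F N h
    refine ⟨FinH.mid p (h N (by omega)) a1 (f N (by omega)), ?_⟩
    rw [Finset.sum_range_succ, eul_add p (h N (by omega)) a1 (f N (by omega)), a2]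

variable {d' : M' →ₗ[B'] M'} {C C' : ℤ → Submodule T M'}

theorem core_pairIso_maps {φ : M →ₗ[T] M'} {ε : ℤˣ} {k : ℤ} (h : PairIso d A A' d' C C' φ ε k)
    (hA : IsPair d A A') (hC : IsPair d' C C') (i : ℤ) :
    (∀ x ∈ cyc d A A' i, φ x ∈ cyc d' C C' (i + k)) ∧
    (∀ x ∈ bdy d A A' i, φ x ∈ bdy d' C C' (i + k)) ∧
    (∀ y ∈ cyc d' C C' (i + k), ∃ x ∈ cyc d A A' i, y - φ x ∈ bdy d' C C' (i + k)) ∧
    (∀ x ∈ cyc d A A' i, φ x ∈ bdy d' C C' (i + k) → x ∈ bdy d A A' i) := by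
  have e1 : i - 1 + k = i + k - 1 := by ring
  have e2 : i + 1 + k = i + k + 1 := by ring
  have e3 : i + 1 + k - 1 = i + k := by ring
  have e4 : i + 1 - 1 = i := by ring
  have hεε : ∀ y : M', ε • ε • y = y := fun y => by
    rw [smul_smul, Int.units_mul_self, one_smul]
  have key : ∀ x ∈ A i, (d x ∈ A' (i - 1) ↔ d' (φ x) ∈ C' (i + k - 1)) := by
    intro x hx
    have c := h.comm i x hx
    constructor
    · intro h1
      have a1 := h.map_bot _ _ h1
      rw [e1] at a1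
      have a2 := sub_mem a1 c
      rw [sub_sub_cancel] at a2
      exact (units_smul_mem_iff _ _ _).mp a2
    · intro h1
      have a2 := add_mem c ((units_smul_mem_iff _ ε _).mpr h1)
      rw [sub_add_cancel, ← e1] at a2
      exact h.inj _ _ (hA.top i x hx) a2
  refine ⟨?_, ?_, ?_, ?_⟩
  · intro x hx
    obtain ⟨h1, h2⟩ := mem_cyc.mp hx
    exact mem_cyc.mpr ⟨h.map_top i x h1, (key x h1).mp h2⟩
  · intro x hx
    obtain ⟨y, hy, hxy⟩ := mem_bdy.mp hx
    have c := h.comm _ y hy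
    rw [e3] at c
    refine mem_bdy.mpr ⟨ε • φ y, (units_smul_mem_iff _ _ _).mpr (e2 ▸ h.map_top _ y hy), ?_⟩
    have a1 := add_mem (h.map_bot _ _ hxy) c
    rw [map_sub, sub_add_sub_cancel] at a1
    rcases Int.units_eq_one_or ε with rfl | rfl <;> simpa using a1
  · intro y hy
    obtain ⟨h1, h2⟩ := mem_cyc.mp hy
    obtain ⟨x, hx, hxy⟩ := h.surj i y h1
    refine ⟨x, mem_cyc.mpr ⟨hx, (key x hx).mpr ?_⟩, Submodule.mem_sup_right hxy⟩
    have a1 := sub_mem h2 (hC.bot _ _ hxy)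
    rwa [map_sub, sub_sub_cancel] at a1
  · intro x hx hφ
    obtain ⟨h1, _⟩ := mem_cyc.mp hx
    obtain ⟨z, hz, hxz⟩ := mem_bdy.mp hφ
    obtain ⟨y, hy, hzy⟩ := h.surj (i + 1) z (e2 ▸ hz)
    have c := h.comm _ y hy
    rw [e3] at c
    have a1 := hC.bot _ _ hzy
    rw [e3, map_sub] at a1
    have hy' : ε • y ∈ A (i + 1) := by
      rcases Int.units_eq_one_or ε with rfl | rfl <;> simpa using hy
    refine mem_bdy.mpr ⟨ε • y, hy', h.inj i _ (sub_mem h1 (e4 ▸ hA.top _ _ hy')) ?_⟩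
    have a2 := sub_mem (add_mem hxz a1) ((units_smul_mem_iff _ ε _).mpr c)
    rw [smul_sub, hεε, sub_add_sub_cancel, sub_sub_sub_cancel_right] at a2
    rcases Int.units_eq_one_or ε with rfl | rfl <;> simpa using a2
theorem core_finH_eul_of_hm (k : ℤ) (h : ∀ i, (δ.hm d A A' i ↔ δ.hm d' C C' (i + k)) ∧
      (δ.hm d A A' i → δ.hv d A A' i = δ.hv d' C C' (i + k)) ∧
      (cyc d A A' i ≤ bdy d A A' i ↔ cyc d' C C' (i + k) ≤ bdy d' C C' (i + k))) :
    (δ.FinH d A A' ↔ δ.FinH d' C C') ∧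
      (δ.FinH d A A' → δ.eul d' C C' = (sgn k : ℝ) * δ.eul d A A') := by
  refine ⟨⟨fun f => ⟨fun i => ?_, ?_⟩, fun f => ⟨fun i => (h i).1.2 (f.hm _), ?_⟩⟩, fun f => ?_⟩
  · have := (h (i - k)).1.1 (f.hm _)
    rwa [sub_add_cancel] at this
  · refine (f.fin.image (· + k)).subset fun i hi => ⟨i - k, ?_, sub_add_cancel _ _⟩
    rw [Set.mem_ofPred_eq, (h (i - k)).2.2, sub_add_cancel]
    exact hi
  · refine (f.fin.image (· - k)).subset fun i hi => ⟨i + k, ?_, add_sub_cancel_right _ _⟩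
    rw [Set.mem_ofPred_eq, ← (h i).2.2]
    exact hi
  · rw [eul, eul, ← finsum_comp_equiv (Equiv.addRight k), mul_finsum]
    refine finsum_congr fun i => ?_
    rw [Equiv.coe_addRight, ← (h i).2.1 (f.hm i), sgn_add]
    push_cast
    ring
/-- Comparison of homology along an isomorphism of complexes. -/
theorem hm_iff_of_pairIso {φ : M →ₗ[T] M'} {ε : ℤˣ} {k : ℤ} (h : PairIso d A A' d' C C' φ ε k)
    (hA : IsPair d A A') (hC : IsPair d' C C') (i : ℤ) :
    (δ.hm d A A' i ↔ δ.hm d' C C' (i + k)) ∧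
      (δ.hm d A A' i → δ.hv d A A' i = δ.hv d' C C' (i + k)) ∧
      (cyc d A A' i ≤ bdy d A A' i ↔ cyc d' C C' (i + k) ≤ bdy d' C C' (i + k)) := by
  obtain ⟨h1, h2, h3, h4⟩ := core_pairIso_maps h hA hC i
  have := rv_eq_of_map (δ := δ) φ h1 (fun x hx => h2 x hx.2) h3 h4
  refine ⟨this.1, this.2, ?_⟩
  rw [← rl_eq_zero_iff, ← rl_eq_zero_iff, rl_eq_of_map φ h1 h2 h3 h4]
theorem finH_eul_of_pairIso {φ : M →ₗ[T] M'} {ε : ℤˣ} {k : ℤ} (h : PairIso d A A' d' C C' φ ε k)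
    (hA : IsPair d A A') (hC : IsPair d' C C') : (δ.FinH d A A' ↔ δ.FinH d' C C') ∧
      (δ.FinH d A A' → δ.eul d' C C' = (sgn k : ℝ) * δ.eul d A A') :=
  core_finH_eul_of_hm k (hm_iff_of_pairIso h hA hC)
/-- Comparison along a map inducing isomorphisms on homology. -/
theorem finH_eul_of_qis (φ : M →ₗ[T] M')
    (h1 : ∀ i, ∀ x ∈ cyc d A A' i, φ x ∈ cyc d' C C' i)
    (h2 : ∀ i, ∀ x ∈ bdy d A A' i, φ x ∈ bdy d' C C' i)
    (h3 : ∀ i, ∀ y ∈ cyc d' C C' i, ∃ x ∈ cyc d A A' i, y - φ x ∈ bdy d' C C' i)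
    (h4 : ∀ i, ∀ x ∈ cyc d A A' i, φ x ∈ bdy d' C C' i → x ∈ bdy d A A' i) :
    (δ.FinH d A A' ↔ δ.FinH d' C C') ∧ (δ.FinH d A A' → δ.eul d' C C' = δ.eul d A A') := by
  have := core_finH_eul_of_hm (δ := δ) (d := d) (A := A) (A' := A') (d' := d') (C := C) (C' := C')
    0 fun i => by
      rw [add_zero]
      have := rv_eq_of_map (δ := δ) φ (h1 i) (fun x hx => h2 i x hx.2) (h3 i) (h4 i)
      refine ⟨this.1, this.2, ?_⟩
      rw [← rl_eq_zero_iff, ← rl_eq_zero_iff, rl_eq_of_map φ (h1 i) (h2 i) (h3 i) (h4 i)]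
  rwa [sgn_zero, Int.cast_one, one_mul] at this
/-- A bounded complex all of whose terms lie in the class. -/
theorem finH_eul_of_terms (hA : IsPair d A A') (s : Finset ℤ) (hs : ∀ i, i ∉ s → A i ≤ A' i)
    (h : ∀ i, δ.rm (A i) (A' i)) :
    δ.FinH d A A' ∧ δ.eul d A A' = ∑ i ∈ s, (sgn i : ℝ) * δ.rv (A i) (A' i) := by
  have hz : ∀ i, i ∉ s → cyc d A A' i ≤ bdy d A A' i := fun i hi =>
    inf_le_left.trans ((hs i hi).trans le_sup_right)
  have hm : ∀ i, δ.hm d A A' i := fun i => rm_mono inf_le_left le_sup_right (h i)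
  refine ⟨⟨hm, s.finite_toSet.subset fun i hi => by
    by_contra hn
    exact hi (hz i hn)⟩, ?_⟩
  let b : ℤ → ℝ := fun i => δ.rv (bdy d A A' (i - 1)) (A' (i - 1))
  have hbA : ∀ i, bdy d A A' i ≤ A i := fun i => (hA.bdy_le_cyc i).trans inf_le_left
  have e1 : ∀ i, δ.rv (A i) (cyc d A A' i) = b i := fun i => by
    refine (rv_eq_of_map (δ := δ) (d.restrictScalars T) (fun x hx => ?_) (fun x hx => ?_)
      (fun y hy => ?_) fun x hx hx' => mem_cyc.2 ⟨hx, hx'⟩).2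
      (rm_mono le_rfl (le_sup_right.trans (hA.bdy_le_cyc i)) (h i))
    · exact les_dy_mem_bdy (by rwa [sub_add_cancel])
    · exact (mem_cyc.1 hx.2).2
    · obtain ⟨x, hx, hxy⟩ := mem_bdy.1 hy
      exact ⟨x, by rwa [sub_add_cancel] at hx, hxy⟩
  have e2 : ∀ i, δ.rv (A i) (A' i) = δ.hv d A A' i + (b (i + 1) + b i) := fun i => by
    have l1 : A' i ≤ bdy d A A' i := le_sup_right
    rw [rv_add (l1.trans (hA.bdy_le_cyc i)) inf_le_left (h i),
      rv_add l1 (hA.bdy_le_cyc i) (rm_mono inf_le_left le_rfl (h i)), e1]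
    simp only [b, add_sub_cancel_right, hv]
    ring
  have sb : (Function.support b).Finite := s.finite_toSet.subset fun i hi => by
    by_contra hn
    refine hi ?_
    rw [← e1]
    exact (δ.rm_of_le ((hs i hn).trans (le_sup_right.trans (hA.bdy_le_cyc i)))).2
  have sb' : (Function.support fun i => b (i + 1)).Finite :=
    sb.preimage (f := fun i => i + 1) (add_left_injective 1).injOn
  have sh : (Function.support (δ.hv d A A')).Finite := s.finite_toSet.subset fun i hi => by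
    by_contra hn
    exact hi (δ.rm_of_le (hz i hn)).2
  have e3 : ∑ i ∈ s, (sgn i : ℝ) * δ.rv (A i) (A' i) =
      ∑ᶠ i, (sgn i : ℝ) * δ.rv (A i) (A' i) := by
    refine (finsum_eq_sum_of_support_subset _ fun i hi => ?_).symm
    by_contra hn
    exact hi (by simp [(δ.rm_of_le (hs i hn)).2])
  have sbb : (Function.support fun i => b (i + 1) + b i).Finite :=
    (sb'.union sb).subset (Function.support_add _ _)
  rw [e3, core_finsum_add (g' := fun i => b (i + 1) + b i) e2 sh sbb,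
    core_finsum_add (f := fun i => b (i + 1) + b i) (g := fun i => b (i + 1)) (fun _ => rfl) sb' sb,
    core_finsum_shift, eul]
  ring

omit [Algebra T B] [IsScalarTower T B M] in
theorem core_t1_iso {ι : Type} [Fintype ι] {D : Matrix ι ι B} {deg : ι → ℤ}
    {K K' : ι → ℤ → Submodule T M} (h : IsTotPair D deg d K K') (a₀ : ι)
    (h0 : ∀ a, a ≠ a₀ → K a = K' a) :
    PairIso (tot D deg d) (totFam deg K) (totFam deg K') d (K a₀) (K' a₀)
      (LinearMap.proj a₀ : (ι → M) →ₗ[T] M) (deg a₀).negOnePow (-deg a₀) := by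
  classical
  refine ⟨fun i x hx => ?_, fun i x hx => ?_, fun i y hy => ⟨Pi.single a₀ y, ?_, ?_⟩,
    fun i x hx hx' => ?_, fun i x hx => ?_⟩
  · rw [← sub_eq_add_neg]; exact mem_totFam.1 hx a₀
  · rw [← sub_eq_add_neg]; exact mem_totFam.1 hx a₀
  · refine mem_totFam.2 fun a => ?_
    by_cases ha : a = a₀
    · subst ha
      rwa [Pi.single_eq_same, sub_eq_add_neg]
    · rw [Pi.single_eq_of_ne ha]
      exact zero_mem _
  · rw [LinearMap.proj_apply, Pi.single_eq_same, sub_self]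
    exact zero_mem _
  · refine mem_totFam.2 fun a => ?_
    by_cases ha : a = a₀
    · subst ha
      rwa [sub_eq_add_neg]
    · rw [← h0 a ha]
      exact mem_totFam.1 hx a
  · have e : (deg a₀).negOnePow • d (x a₀) = sgn (deg a₀) • d (x a₀) := rfl
    rw [LinearMap.proj_apply, LinearMap.proj_apply, tot_apply, e, add_sub_cancel_right]
    refine sum_mem fun b _ => ?_
    by_cases hb : D a₀ b = 0
    · rw [hb, zero_smul]
      exact zero_mem _
    · have hdeg := h.homog a₀ b hb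
      have hne : b ≠ a₀ := fun e => by rw [e] at hdeg; omega
      have := mem_totFam.1 hx b
      rw [h0 b hne, hdeg, show i - (deg a₀ + 1) = i + -deg a₀ - 1 by ring] at this
      exact h.bot a₀ b _ _ this

theorem core_t1_main {ι : Type} [Fintype ι] {D : Matrix ι ι B} {deg : ι → ℤ}
    {K K' : ι → ℤ → Submodule T M} (h : IsTotPair D deg d K K')
    (f : ∀ a, δ.FinH d (K a) (K' a)) (U : Finset ι)
    (hU : ∀ a b, deg b = deg a + 1 → b ∈ U → a ∈ U) :
    δ.FinH (tot D deg d) (totFam deg (t1Mix K K' U)) (totFam deg (t1Mix K K' ∅)) ∧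
      δ.eul (tot D deg d) (totFam deg (t1Mix K K' U)) (totFam deg (t1Mix K K' ∅)) =
        ∑ a ∈ U, (sgn (deg a) : ℝ) * δ.eul d (K a) (K' a) := by
  classical
  induction U using Finset.induction_on_max_value deg with
  | empty =>
    rw [Finset.sum_empty]
    exact finH_of_exact fun _ => inf_le_left.trans le_sup_right
  | insert a s ha hmax ih =>
    have hs : ∀ a b, deg b = deg a + 1 → b ∈ s → a ∈ s := fun a' b e hb => by
      rcases Finset.mem_insert.1 (hU a' b e (Finset.mem_insert_of_mem hb)) with rfl | h'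
      · have := hmax b hb
        omega
      · exact h'
    obtain ⟨j1, j2⟩ := ih hs
    have p1 := t1_pair h hU hs (Finset.subset_insert _ _)
    have p2 := t1_pair h hs (U' := ∅) (fun _ _ _ h => absurd h (Finset.notMem_empty _))
      (Finset.empty_subset _)
    have iso := core_t1_iso p1 a fun b hb => by simp [t1Mix, hb]
    have e1 : t1Mix K K' (insert a s) a = K a := by simp [t1Mix]
    have e2 : t1Mix K K' s a = K' a := by simp [t1Mix, ha]
    rw [e1, e2] at iso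
    obtain ⟨k1, k2⟩ := finH_eul_of_pairIso (δ := δ) iso p1.isPair (h.pair a)
    refine ⟨FinH.mid p1.isPair p2.isPair (k1.2 (f a)) j1, ?_⟩
    have s1 : (sgn (deg a) : ℝ) * (sgn (-deg a) : ℝ) = 1 := by
      rw [← Int.cast_mul, ← sgn_add, add_neg_cancel, sgn_zero, Int.cast_one]
    rw [eul_add p1.isPair p2.isPair (k1.2 (f a)) j1, j2, Finset.sum_insert ha, k2 (k1.2 (f a)),
      ← mul_assoc, s1, one_mul]

/-- (T1) filtration by the vertices of a matrix complex. -/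
theorem finH_eul_tot {ι : Type} [Fintype ι] {D : Matrix ι ι B} {deg : ι → ℤ}
    {K K' : ι → ℤ → Submodule T M} (h : IsTotPair D deg d K K')
    (f : ∀ a, δ.FinH d (K a) (K' a)) :
    δ.FinH (tot D deg d) (totFam deg K) (totFam deg K') ∧
    δ.eul (tot D deg d) (totFam deg K) (totFam deg K') =
      ∑ a, (sgn (deg a) : ℝ) * δ.eul d (K a) (K' a) := by
  have := core_t1_main h f Finset.univ fun _ _ _ _ => Finset.mem_univ _
  rwa [t1Mix_univ, t1Mix_empty] at this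
theorem finH_eul_conc {P Q : Submodule T M} (h : δ.rm P Q) :
    δ.FinH (0 : M →ₗ[B] M) (conc P) (conc Q) ∧
      δ.eul (0 : M →ₗ[B] M) (conc P) (conc Q) = δ.rv P Q := by
  have p1 : ∀ i, cyc (0 : M →ₗ[B] M) (conc P) (conc Q) i = conc P i := fun i => by
    ext x; simp [mem_cyc]
  have p2 : ∀ i, bdy (0 : M →ₗ[B] M) (conc P) (conc Q) i = conc Q i := fun i => by
    ext x
    rw [mem_bdy]
    exact ⟨fun ⟨_, _, h⟩ => by simpa using h, fun h => ⟨0, zero_mem _, by simpa using h⟩⟩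
  have hz : ∀ i, i ∉ ({0} : Finset ℤ) →
      cyc (0 : M →ₗ[B] M) (conc P) (conc Q) i ≤ bdy (0 : M →ₗ[B] M) (conc P) (conc Q) i := by
    intro i hi
    rw [p1, conc, if_neg (by simpa using hi)]
    exact bot_le
  refine ⟨⟨fun i => ?_, ({0} : Finset ℤ).finite_toSet.subset fun i hi => by
    by_contra hn
    exact hi (hz i hn)⟩, ?_⟩
  · by_cases hi : i = 0
    · subst hi
      rw [hm, p1, p2]
      exact h
    · exact (δ.rm_of_le (hz i (by simpa using hi))).1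
  · rw [eul_eq_sum _ hz, Finset.sum_singleton, sgn_zero, Int.cast_one, one_mul, hv, p1, p2]
    rfl
end Cx
end AddFun

section Len
variable {T : Type u} [CommRing T] {M : Type u} [AddCommGroup M] [Module T M]
  {B : Type*} [CommRing B] [Algebra T B] [Module B M] [IsScalarTower T B M]
  {d : M →ₗ[B] M} {A A' : ℤ → Submodule T M}

theorem lenFun_rm (P Q : Submodule T M) : (lenFun T).rm P Q ↔ rl P Q ≠ ⊤ := Iff.rfl
theorem lenFun_rv (P Q : Submodule T M) : (lenFun T).rv P Q = ((rl P Q).toNat : ℝ) := rfl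
theorem lenFun_finH : (lenFun T).FinH d A A' ↔ Vale.Agent.P202.FinH d A A' := by
  have e : {i | ¬ cyc d A A' i ≤ bdy d A A' i} = Function.support (hl d A A') := by
    ext i
    rw [Set.mem_ofPred_eq, Function.mem_support, hl, Ne, rl_eq_zero_iff]
  exact ⟨fun h => ⟨h.hm, e ▸ h.fin⟩, fun h => ⟨h.ne_top, e ▸ h.fin⟩⟩
theorem lenFun_eul : (lenFun T).eul d A A' = (Vale.Agent.P202.eul d A A' : ℝ) := by
  have := (Int.castAddHom ℝ).map_finsum_of_injective Int.cast_injective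
    fun i => sgn i * ((hl d A A' i).toNat : ℤ)
  rw [Vale.Agent.P202.eul]
  refine Eq.trans ?_ this.symm
  refine finsum_congr fun i => ?_
  rw [Int.coe_castAddHom]
  push_cast
  rfl
end Len

section Fam
variable {T : Type*} [CommRing T] {B : Type*} [CommRing B] [Algebra T B] {V : Type*}
  [AddCommGroup V] [Module B V] [Module T V] [IsScalarTower T B V] {ι : Type} [Fintype ι]

omit [Fintype ι] in
theorem mem_fam {dg : ι → ℕ} {P : Submodule T V} {i : ℤ} {v : ι → V} :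
    v ∈ fam dg P i ↔ ∀ a, ((dg a : ℤ) = i → v a ∈ P) ∧ ((dg a : ℤ) ≠ i → v a = 0) := by
  have e : v ∈ fam dg P i ↔ ∀ a, v a ∈ conc P (i - dg a) := by
    simp [totFam, Submodule.mem_pi, zd]
  rw [e]
  refine forall_congr' fun a => ?_
  unfold conc
  by_cases h : (dg a : ℤ) = i
  · simp [h]
  · rw [if_neg (by omega)]
    simp [h]
theorem cx_apply (D : Matrix ι ι B) (dg : ι → ℕ) (v : ι → V) (a : ι) :
    cx D dg V v a = ∑ b, D a b • v b := by
  rw [tot_apply, LinearMap.zero_apply, smul_zero, add_zero]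
theorem cx_eq_mulVec (D : Matrix ι ι B) (dg : ι → ℕ) (v : ι → B) :
    cx D dg B v = D.mulVec v := by
  funext a
  rw [cx_apply]
  rfl
theorem isPair_fam {D : Matrix ι ι B} {dg : ι → ℕ} (hD : IsMC D (zd dg)) {P Q : Submodule T V}
    (hQP : Q ≤ P) (hP : ∀ a b, ∀ x ∈ P, D a b • x ∈ P) (hQ : ∀ a b, ∀ x ∈ Q, D a b • x ∈ Q) :
    IsPair (cx D dg V) (fam dg P) (fam dg Q) := by
  have c : ∀ R : Submodule T V, (∀ a b, ∀ x ∈ R, D a b • x ∈ R) →
      Compat D fun _ : ι => conc R := fun R hR a b j x hx => by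
    simp only [conc] at hx ⊢
    split_ifs at hx ⊢
    · exact hR a b x hx
    · rw [Submodule.mem_bot] at hx ⊢
      rw [hx, smul_zero]
  refine IsTotPair.isPair ⟨hD.homog, fun a b x => by rw [hD.sq, Matrix.zero_apply, zero_smul],
    fun _ => rfl, fun _ => ⟨fun _ => rfl, isFam_conc P, isFam_conc Q, fun i => ?_⟩, c P hP, c Q hQ⟩
  unfold conc
  split_ifs
  · exact hQP
  · exact le_rfl
theorem isPair_top_bot {D : Matrix ι ι B} {dg : ι → ℕ} (hD : IsMC D (zd dg)) :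
    IsPair (cx D dg V) (fam dg (⊤ : Submodule T V)) (fam dg ⊥) :=
  isPair_fam hD bot_le (fun _ _ _ _ => trivial) fun a b x hx => by
    rw [Submodule.mem_bot] at hx ⊢
    rw [hx, smul_zero]
omit [Fintype ι] in
theorem fam_bot (dg : ι → ℕ) (i : ℤ) : fam dg (⊥ : Submodule T V) i = ⊥ := by
  refine le_bot_iff.1 fun v hv => ?_
  rw [mem_fam] at hv
  rw [Submodule.mem_bot]
  funext a
  by_cases h : (dg a : ℤ) = i
  · exact (Submodule.mem_bot T).1 ((hv a).1 h)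
  · exact (hv a).2 h
/-- Vanishing of homology, written out. -/
theorem mlen_eq_zero_iff {D : Matrix ι ι B} {dg : ι → ℕ} {i : ℤ} : mlen T D dg V i = 0 ↔
    ∀ v ∈ fam dg (⊤ : Submodule T V) i, cx D dg V v = 0 →
      ∃ w ∈ fam dg (⊤ : Submodule T V) (i + 1), v = cx D dg V w := by
  rw [mlen, hl_eq_zero_iff]
  simp only [fam_bot, Submodule.mem_bot, sub_eq_zero]
theorem mlen_eq_zero_of_forall_ne {D : Matrix ι ι B} {dg : ι → ℕ} {i : ℤ}
    (h : ∀ a, (dg a : ℤ) ≠ i) : mlen T D dg V i = 0 := by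
  rw [mlen_eq_zero_iff]
  intro v hv _
  refine ⟨0, zero_mem _, ?_⟩
  rw [map_zero]
  funext a
  exact (mem_fam.1 hv a).2 (h a)
end Fam

end Vale.Agent.P177
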