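import Vale.Agent.P202.FactorA

/-! P177: commutative algebra for the truncated delta envelope. -/

namespace Vale.Agent.P177.DL

open Vale.Agent.P202 IsLocalRing RingTheory.Sequence Pointwise

universe u

theorem len_map {A B : Type u} [CommRing A] [CommRing B] (ψ : A →+* B)
    (hψ : Function.Surjective ψ) (I : Ideal A) :
    Module.length B (B ⧸ I.map ψ) = Module.length A (A ⧸ (RingHom.ker ψ ⊔ I)) := by
  let _ := ψ.toAlgebra
  rw [← Module.length_eq_of_surjective (S := A) (R := B) hψ]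
  have hs : Function.Surjective ((Ideal.Quotient.mkₐ A (I.map ψ)).comp (Algebra.ofId A B)) :=
    Ideal.Quotient.mk_surjective.comp hψ
  have e : RingHom.ker ((Ideal.Quotient.mkₐ A (I.map ψ)).comp (Algebra.ofId A B)) =
      RingHom.ker ψ ⊔ I := by
    rw [sup_comm, RingHom.ker_eq_comap_bot ψ, ← Ideal.comap_map_of_surjective ψ hψ]
    ext x
    exact Ideal.Quotient.eq_zero_iff_mem
  rw [← e]
  exact (Ideal.quotientKerAlgEquivOfSurjective hs).toLinearEquiv.length_eq.symm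

theorem len_mk {A : Type u} [CommRing A] (I J : Ideal A) :
    Module.length (A ⧸ I) ((A ⧸ I) ⧸ J.map (Ideal.Quotient.mk I)) =
      Module.length A (A ⧸ (I ⊔ J)) := by
  rw [len_map _ Ideal.Quotient.mk_surjective, Ideal.mk_ker]

theorem finite_of_gens {A B : Type u} [CommRing A] [CommRing B] (φ : A →+* B) {n : ℕ}
    (v : Fin n → B) (h : ∀ b, ∃ c : Fin n → A, b = ∑ i, φ (c i) * v i) : φ.Finite := by
  let _ := φ.toAlgebra
  refine Module.Finite.of_surjective (Fintype.linearCombination A v) fun b => ?_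
  obtain ⟨c, rfl⟩ := h b
  exact ⟨c, rfl⟩

theorem len_quot {A : Type u} [CommRing A] (I J : Ideal A) :
    Module.length A ((A ⧸ I) ⧸ (J • ⊤ : Submodule A (A ⧸ I))) =
      Module.length A (A ⧸ (I ⊔ J)) := by
  have e : (J • ⊤ : Submodule A (A ⧸ I)) = Submodule.map (Submodule.mkQ I) J := by
    conv_rhs => rw [← Ideal.mul_top J, ← smul_eq_mul, Submodule.map_smul'', Submodule.map_top,
      Submodule.range_mkQ]
  rw [e]
  exact (Submodule.quotientQuotientEquivQuotientSup I J).length_eq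

theorem sup_congr {A B : Type*} [CommRing B] (K : Ideal B) (y : List A) {F G : A → B}
    (h : ∀ a ∈ y, F a - G a ∈ K) :
    K ⊔ Ideal.ofList (y.map F) = K ⊔ Ideal.ofList (y.map G) := by
  have k : ∀ {F G : A → B}, (∀ a ∈ y, F a - G a ∈ K) →
      K ⊔ Ideal.ofList (y.map F) ≤ K ⊔ Ideal.ofList (y.map G) := by
    intro F G h
    refine sup_le le_sup_left (Ideal.span_le.2 fun b hb => ?_)
    obtain ⟨a, ha, rfl⟩ := List.mem_map.1 hb
    rw [← sub_add_cancel (F a) (G a)]
    exact Submodule.add_mem_sup (h a ha) (Ideal.subset_span (List.mem_map_of_mem ha))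
  exact le_antisymm (k h) (k fun a ha => by rw [← neg_sub]; exact neg_mem (h a ha))

theorem ofList_ofFn {A : Type*} [CommRing A] {n : ℕ} (s : Fin n → A) :
    Ideal.ofList (List.ofFn s) = Ideal.span (Set.range s) :=
  congrArg Ideal.span (Set.ext fun _ => List.mem_ofFn' _ _)

theorem ofList_univ {A τ : Type*} [CommRing A] [Fintype τ] (s : τ → A) :
    Ideal.ofList (Finset.univ.toList.map s) = Ideal.span (Set.range s) :=
  congrArg Ideal.span (Set.ext fun _ => by simp)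

/-- Ideals with `c` generators. -/
def Gn {A : Type u} [CommRing A] (I : Ideal A) (c : ℕ) : Prop :=
  ∃ l : List A, l.length = c ∧ Ideal.ofList l = I

theorem Gn.sup {A : Type u} [CommRing A] {I J : Ideal A} {c d : ℕ} (h : Gn I c) (h' : Gn J d) :
    Gn (I ⊔ J) (c + d) := by
  obtain ⟨l, rfl, rfl⟩ := h
  obtain ⟨l', rfl, rfl⟩ := h'
  exact ⟨l ++ l', by simp, by simp⟩

theorem Gn.map {A B : Type u} [CommRing A] [CommRing B] {I : Ideal A} {c : ℕ} (h : Gn I c)
    (f : A →+* B) : Gn (I.map f) c := by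
  obtain ⟨l, rfl, rfl⟩ := h
  exact ⟨l.map f, by simp, by simp⟩

theorem gn_range {A : Type u} {τ : Type} [CommRing A] [Fintype τ] (s : τ → A) :
    Gn (Ideal.span (Set.range s)) (Fintype.card τ) := ⟨_, by simp, ofList_univ s⟩

theorem gn_one {A : Type u} [CommRing A] (a : A) : Gn (Ideal.span {a}) 1 :=
  ⟨[a], rfl, Ideal.ofList_singleton a⟩

variable {S : Type u} [CommRing S] [IsLocalRing S] [IsNoetherianRing S]

theorem pow_le_of_len {I : Ideal S} (h : Module.length S (S ⧸ I) ≠ ⊤) :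
    ∃ N : ℕ, maximalIdeal S ^ N ≤ I := by
  have h1 := (isFiniteLength_iff_isNoetherian_isArtinian.1 (Module.length_ne_top_iff.1 h)).2
  obtain ⟨N, hN⟩ := IsArtinian.monotone_stabilizes (R := S) (M := S ⧸ I)
    ⟨fun n => OrderDual.toDual (maximalIdeal S ^ n • ⊤), fun a b hab =>
      Submodule.smul_mono_left (Ideal.pow_le_pow_right hab)⟩
  have h2 : (maximalIdeal S ^ N • ⊤ : Submodule S (S ⧸ I)) = ⊥ := by
    refine Submodule.eq_bot_of_le_smul_of_le_jacobson_bot (maximalIdeal S) _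
      (IsNoetherian.noetherian _) ?_ (maximalIdeal_le_jacobson _)
    rw [← Submodule.mul_smul, ← pow_succ']
    exact (OrderDual.toDual.injective (hN (N + 1) N.le_succ)).le
  refine ⟨N, fun r hr => ?_⟩
  have h3 : r • (1 : S ⧸ I) ∈ (maximalIdeal S ^ N • ⊤ : Submodule S (S ⧸ I)) :=
    Submodule.smul_mem_smul hr trivial
  rw [h2, Submodule.mem_bot, ← Algebra.algebraMap_eq_smul_one] at h3
  exact Ideal.Quotient.eq_zero_iff_mem.1 h3

variable (S) in
/-- There is a regular sequence of length `D`. -/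
def Dp (D : ℕ) : Prop :=
  ∃ w : List S, w.length = D ∧ IsWeaklyRegular S w ∧ ∀ a ∈ w, a ∈ maximalIdeal S

theorem Dp.reg {D : ℕ} (h : Dp S D) {y : List S} (hl : y.length ≤ D)
    (hm : Ideal.ofList y ≤ maximalIdeal S) (hN : ∃ N : ℕ, maximalIdeal S ^ N ≤ Ideal.ofList y) :
    IsWeaklyRegular S y := by
  obtain ⟨w, rfl, h1, h2⟩ := h
  obtain ⟨N, hN⟩ := hN
  exact isWeaklyRegular_of_isSop h1 h2 (isSop_iff_ann.2
    ⟨fun a ha => hm (Ideal.subset_span ha), N, hN.trans le_sup_right⟩) hl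

theorem Dp.quot {D c : ℕ} (h : Dp S D) {I : Ideal S} (hI : Gn I c) {y : List S}
    (hl : c + y.length ≤ D) (hm : I ⊔ Ideal.ofList y ≤ maximalIdeal S)
    (hN : ∃ N : ℕ, maximalIdeal S ^ N ≤ I ⊔ Ideal.ofList y) :
    IsWeaklyRegular (S ⧸ I) y ∧ IsSop (S ⧸ I) y ∧
      ∃ n : ℕ, Module.length S (S ⧸ (I ⊔ Ideal.ofList y)) = n ∧ mult (S ⧸ I) y = n := by
  obtain ⟨l, rfl, rfl⟩ := hI
  have h1 : IsWeaklyRegular (S ⧸ Ideal.ofList l) y := FacA.reg_quot
    (h.reg (by simpa using hl) (by rwa [Ideal.ofList_append]) (by rwa [Ideal.ofList_append])) rfl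
  have h2 : IsSop (S ⧸ Ideal.ofList l) y :=
    isSop_quotient_iff.2 ⟨fun a ha => hm (Ideal.mem_sup_right (Ideal.subset_span ha)), hN⟩
  have h3 := mult_eq_length_of_isRegular h1
  have h4 := h2.length_ne_top
  rw [len_quot] at h3 h4
  exact ⟨h1, h2, _, (ENat.natCast_toNat h4).symm, h3⟩

theorem Dp.len_pow {D c : ℕ} (h : Dp S D) {I : Ideal S} (hI : Gn I c) {y : List S}
    (hl : c + y.length ≤ D) (hm : I ⊔ Ideal.ofList y ≤ maximalIdeal S)
    (hN : ∃ N : ℕ, maximalIdeal S ^ N ≤ I ⊔ Ideal.ofList y) {q : ℕ} (hq : 0 < q) :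
    I ⊔ Ideal.ofList (y.map (· ^ q)) ≤ maximalIdeal S ∧
    (∃ N : ℕ, maximalIdeal S ^ N ≤ I ⊔ Ideal.ofList (y.map (· ^ q))) ∧
    Module.length S (S ⧸ (I ⊔ Ideal.ofList (y.map (· ^ q)))) =
      (q ^ y.length : ℕ) * Module.length S (S ⧸ (I ⊔ Ideal.ofList y)) := by
  obtain ⟨-, h2, n, h3, h4⟩ := h.quot hI hl hm hN
  obtain ⟨k1, k2⟩ := isSop_quotient_iff.1 (h2.pow hq)
  have k0 : I ⊔ Ideal.ofList (y.map (· ^ q)) ≤ maximalIdeal S :=
    sup_le (le_sup_left.trans hm) (Ideal.span_le.2 k1)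
  obtain ⟨-, -, n', k3, k4⟩ := h.quot hI (y := y.map (· ^ q)) (by simpa using hl) k0 k2
  rw [mult_pow h2 hq, h4] at k4
  refine ⟨k0, k2, ?_⟩
  rw [k3, h3]
  exact_mod_cast k4.symm

theorem Dp.len_flat {D c : ℕ} (h : Dp S D) {T : Type u} [CommRing T] [IsLocalRing T]
    [IsNoetherianRing T] (f : T →+* S) [IsLocalHom f] (hf : f.Flat) {J : Ideal T} (hJ : Gn J c)
    (hT : Gn (maximalIdeal T) c) (hm : J ≤ maximalIdeal T)
    (hN : ∃ N : ℕ, maximalIdeal T ^ N ≤ J) {w : List S} (hl : c + w.length ≤ D)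
    (hw : Ideal.ofList w ≤ maximalIdeal S)
    (hN' : ∃ N : ℕ, maximalIdeal S ^ N ≤ (maximalIdeal T).map f ⊔ Ideal.ofList w) :
    (∃ N : ℕ, maximalIdeal S ^ N ≤ J.map f ⊔ Ideal.ofList w) ∧
    Module.length S (S ⧸ (J.map f ⊔ Ideal.ofList w)) = Module.length T (T ⧸ J) *
      Module.length S (S ⧸ ((maximalIdeal T).map f ⊔ Ideal.ofList w)) := by
  have hmax : (maximalIdeal T).map f ≤ maximalIdeal S :=
    Ideal.map_le_iff_le_comap.2 fun a ha => map_nonunit f a ha
  obtain ⟨-, h2, n, h3, h4⟩ := h.quot (hT.map f) hl (sup_le hmax hw) hN'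
  have h5 : IsSop (T ⧸ J) ([] : List T) := isSop_quotient_iff.2 ⟨by simp, by simpa using hN⟩
  obtain ⟨k1, k2⟩ := mult_quotient_map f hf J h5 h2
  rw [List.map_nil, List.nil_append] at k1 k2
  have k3 := (isSop_quotient_iff.1 k1).2
  obtain ⟨-, -, n', k4, k5⟩ := h.quot (hJ.map f) hl
    (sup_le ((Ideal.map_mono hm).trans hmax) hw) k3
  have h6 := h5.length_ne_top
  rw [length_quot_nil] at h6
  rw [k5, h4, mult_nil] at k2
  refine ⟨k3, ?_⟩
  rw [k4, h3, ← ENat.natCast_toNat h6]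
  exact_mod_cast k2

theorem approx {A B : Type u} [CommRing A] [CommRing B] [Algebra A B] (B' : Subalgebra A B)
    (s : Set B) (hs : s ⊆ B') (h : ∀ b : B, ∃ b' ∈ B', b - b' ∈ Ideal.span s) (N : ℕ) (b : B) :
    ∃ b' ∈ B', b - b' ∈ Ideal.span s ^ N := by
  induction N with
  | zero => exact ⟨0, zero_mem _, by simp⟩
  | succ N ih =>
    have key : ∀ x ∈ Submodule.span B (s ^ N), ∀ d,
        ∃ b' ∈ B', d * x - b' ∈ Ideal.span s ^ (N + 1) := by
      intro x hx
      induction hx using Submodule.span_induction with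
      | mem x hx =>
        intro d
        obtain ⟨d', h1, h2⟩ := h d
        have h3 : x ∈ B' := Submonoid.pow_subset (S := B'.toSubmonoid) hs hx
        refine ⟨d' * x, mul_mem h1 h3, ?_⟩
        rw [← sub_mul, pow_succ']
        refine Ideal.mul_mem_mul h2 ?_
        rw [Ideal.span, Submodule.span_pow]
        exact Submodule.subset_span hx
      | zero => exact fun _ => ⟨0, zero_mem _, by simp⟩
      | add x y _ _ hx hy =>
        intro d
        obtain ⟨c, h1, h2⟩ := hx d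
        obtain ⟨c', k1, k2⟩ := hy d
        exact ⟨c + c', add_mem h1 k1, by rw [mul_add, add_sub_add_comm]; exact add_mem h2 k2⟩
      | smul c x _ hx => exact fun d => by rw [smul_eq_mul, ← mul_assoc]; exact hx _
    obtain ⟨c, h1, h2⟩ := ih
    rw [Ideal.span, Submodule.span_pow] at h2
    obtain ⟨d, k1, k2⟩ := key _ h2 1
    exact ⟨c + d, add_mem h1 k1, by rwa [one_mul, sub_sub] at k2⟩

theorem eq_top {A : Type u} [CommRing A] [IsLocalRing A] [Algebra A S] [Module.Finite A S]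
    (B' : Subalgebra A S) (s : Set S) (hs : s ⊆ B') (hm : Ideal.span s ≤ maximalIdeal S)
    (h : ∀ b : S, ∃ a : A, b - algebraMap A S a ∈ Ideal.span s) (b : S) : b ∈ B' := by
  obtain ⟨N, hN⟩ := exists_pow_le_map_of_finite (algebraMap A S)
    (RingHom.finite_algebraMap.2 inferInstance)
  refine Submodule.le_of_le_smul_of_le_jacobson_bot (I := maximalIdeal A) (N := B'.toSubmodule)
    Module.Finite.fg_top (IsLocalRing.maximalIdeal_le_jacobson _) (fun b _ => ?_) trivial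
  obtain ⟨b', h1, h2⟩ := approx B' s hs
    (fun b => (h b).elim fun a ha => ⟨_, Subalgebra.algebraMap_mem _ a, ha⟩) N b
  rw [Ideal.smul_top_eq_map, ← add_sub_cancel b' b]
  exact Submodule.add_mem_sup h1 (hN (Ideal.pow_right_mono hm N h2))

end Vale.Agent.P177.DL
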