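import Vale.Agent.P177.Delta
import Vale.Agent.P177.DLevelAux

/-! P177: the relations of the truncated delta envelope. -/

set_option linter.unusedSectionVars false

namespace Vale.Agent.P177.DL

open Vale.Agent.P202 IsLocalRing RingTheory.Sequence MvPowerSeries

universe u

variable {T : Type u} [CommRing T] [IsLocalRing T]

section PS
variable {τ : Type} [Fintype τ] {w₀ : List T}

theorem localC (τ : Type) : IsLocalHom (C (σ := τ) (R := T)) :=
  ⟨fun a h => by simpa using h.map constantCoeff⟩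

theorem C_mem (τ : Type) {a : T} (h : a ∈ maximalIdeal T) :
    (C a : MvPowerSeries τ T) ∈ maximalIdeal _ :=
  have := localC (T := T) τ
  map_nonunit _ a h

theorem map_surj : Function.Surjective (MvPowerSeries.map (σ := τ) (residue T)) := fun z => by
  choose c hc using fun m => residue_surjective (R := T) (coeff m z)
  exact ⟨c, MvPowerSeries.ext hc⟩

theorem ker_map (h2 : Ideal.ofList w₀ = maximalIdeal T) :
    RingHom.ker (MvPowerSeries.map (σ := τ) (residue T)) = (maximalIdeal T).map C := by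
  refine le_antisymm (fun z hz => ?_) (Ideal.map_le_iff_le_comap.2 fun a ha => ?_)
  · rw [← h2, Ideal.map_ofList]
    refine CMAux.mem_ofList_C _ _ fun m => ?_
    rw [h2, ← residue_eq_zero_iff, ← coeff_map, RingHom.mem_ker.1 hz, map_zero]
  · rw [Ideal.mem_comap, RingHom.mem_ker, map_C, (residue_eq_zero_iff a).2 ha, map_zero]

variable [IsNoetherianRing T]

theorem dp_series (τ : Type) [Fintype τ] (h1 : IsWeaklyRegular T w₀)
    (h2 : Ideal.ofList w₀ = maximalIdeal T) :
    Dp (MvPowerSeries τ T) (w₀.length + Fintype.card τ) := by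
  refine ⟨_, by simp [add_comm], isWeaklyRegular_X_append _ (Finset.nodup_toList Finset.univ) h1,
    fun a ha => ?_⟩
  rcases List.mem_append.1 ha with ha | ha <;> obtain ⟨b, hb, rfl⟩ := List.mem_map.1 ha
  exacts [FacA.X_mem b, C_mem τ (h2 ▸ Ideal.subset_span hb)]

theorem flat_C (τ : Type) [Fintype τ] (h1 : IsWeaklyRegular T w₀)
    (h2 : Ideal.ofList w₀ = maximalIdeal T) : (C (σ := τ) (R := T)).Flat := by
  have := localC (T := T) τ
  have e : Ideal.ofList (w₀.map C ++ Finset.univ.toList.map X) =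
      maximalIdeal (MvPowerSeries τ T) := by
    rw [Ideal.ofList_append, ← Ideal.map_ofList, h2, ofList_univ, maximalIdeal_mvPowerSeries]
  exact flat_of_isWeaklyRegular _ w₀ h2 ((isWeaklyRegular_append_iff _ _ _).1
    ((dp_series τ h1 h2).reg (by simp) e.le ⟨1, by rw [e, pow_one]⟩)).1

end PS

variable {p M : ℕ} {ι : Type}

/-- The shape of the relations. -/
structure Rel (p : ℕ) (F : ℕ → T) (H : ι → T) (r y : ι → ℕ → MvPowerSeries (ι × Fin M) T) :
    Prop where
  hy : ∀ i (j : Fin M), y i j = X (i, j)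
  r0 : ∀ i, r i 0 = C (F 0) * y i 0 - C (H i)
  mem : ∀ i j, r i j ∈ maximalIdeal _
  tri : ∀ i j, ∃ u : T, IsUnit u ∧ r i (j + 1) - C u * y i j ^ p ∈
    (maximalIdeal T).map C ⊔ Ideal.span (y i '' {l | l < j})
  adj : ∀ i j, r i j - C (F j) * y i j ∈ Algebra.adjoin T (y i '' {l | l < j})

/-- The ideal of relations. -/
noncomputable def rI (r : ι → ℕ → MvPowerSeries (ι × Fin M) T) : Ideal (MvPowerSeries (ι × Fin M) T) :=
  Ideal.span (Set.range fun i => r i 0) ⊔
    Ideal.span (Set.range fun q : ι × Fin M => r q.1 (q.2 + 1))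

theorem mem_rI (r : ι → ℕ → MvPowerSeries (ι × Fin M) T) (i : ι) {j : ℕ} (hj : j ≤ M) :
    r i j ∈ rI r := by
  cases j with
  | zero => exact Ideal.mem_sup_left (Ideal.subset_span ⟨i, rfl⟩)
  | succ j => exact Ideal.mem_sup_right (Ideal.subset_span ⟨(i, ⟨j, hj⟩), rfl⟩)

variable {F : ℕ → T} {H : ι → T} {r y : ι → ℕ → MvPowerSeries (ι × Fin M) T}

theorem Rel.le₁ (h : Rel p F H r y) :
    Ideal.span (Set.range fun q : ι × Fin M => r q.1 (q.2 + 1)) ≤ maximalIdeal _ :=
  Ideal.span_le.2 (Set.range_subset_iff.2 fun _ => h.mem _ _)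

theorem Rel.le (h : Rel p F H r y) : rI r ≤ maximalIdeal _ :=
  sup_le (Ideal.span_le.2 (Set.range_subset_iff.2 fun _ => h.mem _ _)) h.le₁

theorem Rel.sup_eq (h : Rel p F H r y) {a : ℕ} (s : Fin a → T) :
    rI r ⊔ Ideal.span {(p : MvPowerSeries (ι × Fin M) T)} ⊔
      Ideal.ofList ((F 0 :: List.ofFn s).map C) =
    (Ideal.span {(p : T), F 0} ⊔ Ideal.span (Set.range H) ⊔ Ideal.span (Set.range s)).map C ⊔
      Ideal.span (Set.range fun q : ι × Fin M => r q.1 (q.2 + 1)) := by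
  have e : Ideal.span {(C (F 0) : MvPowerSeries (ι × Fin M) T)} ⊔
      Ideal.span (Set.range fun i => r i 0) =
      Ideal.span {C (F 0)} ⊔ (Ideal.span (Set.range H)).map C := by
    refine le_antisymm (sup_le le_sup_left (Ideal.span_le.2 (Set.range_subset_iff.2 fun i => ?_)))
      (sup_le le_sup_left (Ideal.map_le_iff_le_comap.2
        (Ideal.span_le.2 (Set.range_subset_iff.2 fun i => ?_))))
    · rw [h.r0]
      exact sub_mem (Ideal.mem_sup_left (Ideal.mul_mem_right _ _ (Ideal.subset_span rfl)))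
        (Ideal.mem_sup_right (Ideal.mem_map_of_mem _ (Ideal.subset_span ⟨i, rfl⟩)))
    · rw [SetLike.mem_coe, Ideal.mem_comap, ← sub_sub_cancel (C (F 0) * y i 0) (C (H i)), ← h.r0]
      exact sub_mem (Ideal.mem_sup_left (Ideal.mul_mem_right _ _ (Ideal.subset_span rfl)))
        (Ideal.mem_sup_right (Ideal.subset_span ⟨i, rfl⟩))
  have e' : ∀ c : T, (Ideal.span {c}).map C = Ideal.span {(C c : MvPowerSeries (ι × Fin M) T)} :=
    fun c => by rw [Ideal.map_span, Set.image_singleton]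
  rw [← Ideal.map_ofList, Ideal.ofList_cons, ofList_ofFn, Ideal.span_insert, rI]
  simp only [Ideal.map_sup, e', map_natCast]
  rw [sup_assoc (Ideal.span {(p : MvPowerSeries (ι × Fin M) T)}), ← e]
  ac_rfl

variable (p) in
/-- Elements that come from the base after inverting `p`, modulo `g`. -/
def genAlg (D : Type u) [CommRing D] [Algebra T D] (g : T) : Subalgebra T D where
  carrier := {b | ∃ (n : ℕ) (c : T), (p : D) ^ n * b - algebraMap T D c ∈
    Ideal.span {algebraMap T D g}}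
  mul_mem' := by
    rintro a b ⟨n, c, h1⟩ ⟨m, d, h2⟩
    refine ⟨n + m, c * d, ?_⟩
    have := add_mem (Ideal.mul_mem_right ((p : D) ^ m * b) _ h1)
      (Ideal.mul_mem_left _ (algebraMap T _ c) h2)
    rw [map_mul]
    exact (congrArg (· ∈ _) (by ring)).mp this
  add_mem' := by
    rintro a b ⟨n, c, h1⟩ ⟨m, d, h2⟩
    refine ⟨n + m, p ^ m * c + p ^ n * d, ?_⟩
    have := add_mem (Ideal.mul_mem_left _ ((p : D) ^ m) h1)
      (Ideal.mul_mem_left _ ((p : D) ^ n) h2)
    simp only [map_add, map_mul, map_pow, map_natCast]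
    exact (congrArg (· ∈ _) (by ring)).mp this
  algebraMap_mem' := fun c => ⟨0, c, by simp⟩

theorem genAlg_step {D : Type u} [CommRing D] [Algebra T D] {g e : T} {x : D}
    (h : algebraMap T D e * x ∈ genAlg p D g) (hp : (p : T) ∈ Ideal.span {e, g}) :
    x ∈ genAlg p D g := by
  obtain ⟨n, c, h2⟩ := h
  obtain ⟨a, b, h3⟩ := Ideal.mem_span_pair.1 hp
  have h4 := congrArg (algebraMap T D) h3
  simp only [map_add, map_mul, map_natCast] at h4
  refine ⟨n + 1, a * c, ?_⟩
  have := add_mem (Ideal.mul_mem_left _ (algebraMap T D a) h2) (Ideal.mul_mem_left _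
    ((p : D) ^ n * algebraMap T D b * x) (Ideal.subset_span rfl))
  rw [map_mul]
  exact (congrArg (· ∈ _) (by linear_combination (p : D) ^ n * x * h4)).mp this

theorem Rel.gen [IsNoetherianRing T] [Finite ι] (h : Rel p F H r y)
    [IsLocalRing (MvPowerSeries (ι × Fin M) T ⧸ rI r)]
    [Module.Finite T (MvPowerSeries (ι × Fin M) T ⧸ rI r)] {g : T}
    (hp : ∀ j < M, (p : T) ∈ Ideal.span {F j, g}) (b : MvPowerSeries (ι × Fin M) T ⧸ rI r) :
    b ∈ genAlg p (MvPowerSeries (ι × Fin M) T ⧸ rI r) g := by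
  have hy : ∀ i j, j < M → Ideal.Quotient.mk (rI r) (y i j) ∈ genAlg p _ g := by
    intro i j
    induction j using Nat.strong_induction_on with
    | _ j ih =>
      intro hj
      have h1 : Algebra.adjoin T (y i '' {l | l < j}) ≤
          (genAlg p _ g).comap (Ideal.Quotient.mkₐ T (rI r)) :=
        Algebra.adjoin_le (Set.image_subset_iff.2 fun l hl => ih l hl (hl.trans hj))
      have h2 : -Ideal.Quotient.mk (rI r) (r i j - C (F j) * y i j) ∈ genAlg p _ g :=
        neg_mem (h1 (h.adj i j))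
      rw [map_sub, Ideal.Quotient.eq_zero_iff_mem.2 (mem_rI r i hj.le), zero_sub, neg_neg,
        map_mul] at h2
      exact genAlg_step h2 (hp j hj)
  refine eq_top _ (Set.range fun q => Ideal.Quotient.mk (rI r) (X q))
    (Set.range_subset_iff.2 fun q => ?_) (Ideal.span_le.2 (Set.range_subset_iff.2 fun q => ?_))
    (fun b => ?_) b
  · exact h.hy q.1 q.2 ▸ hy q.1 q.2 q.2.2
  · rw [← map_maximalIdeal_of_surjective _ Ideal.Quotient.mk_surjective]
    exact Ideal.mem_map_of_mem _ (FacA.X_mem q)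
  · obtain ⟨b, rfl⟩ := Ideal.Quotient.mk_surjective b
    refine ⟨constantCoeff b, ?_⟩
    have h1 : b - C (constantCoeff b) ∈ Ideal.span (Set.range X) := by
      rw [← ker_constantCoeff]
      simp [RingHom.mem_ker]
    have h2 := Ideal.mem_map_of_mem (Ideal.Quotient.mk (rI r)) h1
    rwa [Ideal.map_span, ← Set.range_comp] at h2

variable (M) in
/-- Truncation of the variables. -/
noncomputable def ev : MvPolynomial (ι × ℕ) T →ₐ[T] MvPowerSeries (ι × Fin M) T :=
  MvPolynomial.aeval fun q => if h : q.2 < M then X (q.1, ⟨q.2, h⟩) else 0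

theorem ev_C (c : T) : ev (ι := ι) M (MvPolynomial.C c) = C c := MvPolynomial.aeval_C _ c

theorem ev_X_mem [Finite ι] (q : ι × ℕ) : ev (T := T) M (MvPolynomial.X q) ∈ maximalIdeal _ := by
  rw [ev, MvPolynomial.aeval_X]
  split_ifs
  exacts [FacA.X_mem _, zero_mem _]

variable [Fact p.Prime]

theorem iter_mem (E : DRing p T) (j : ℕ) (f : T) : E.φ^[j] f ∈ Ideal.span {(p : T), f} := by
  rw [← sub_add_cancel (E.φ^[j] f) (f ^ p ^ j), Ideal.span_insert]
  exact Submodule.add_mem_sup (E.iterate_sub_pow j f) (Ideal.pow_mem_of_mem _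
    (Ideal.mem_span_singleton_self f) _ (pow_pos (Fact.out : p.Prime).pos j))

theorem iter_max (E : DRing p T) (hp : (p : T) ∈ maximalIdeal T) (j : ℕ) {f : T}
    (hf : f ∈ maximalIdeal T) : E.φ^[j] f ∈ maximalIdeal T := by
  have h : Ideal.span {(p : T), f} ≤ maximalIdeal T := by
    rw [Ideal.span_le, Set.insert_subset_iff, Set.singleton_subset_iff]
    exact ⟨hp, hf⟩
  exact h (iter_mem E j f)

theorem iter_unit (E : DRing p T) {f : T} (hu : IsUnit (E.δ f)) (j : ℕ) :
    IsUnit (E.δ (E.φ^[j] f)) := by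
  induction j with
  | zero => exact hu
  | succ j ih => rw [Function.iterate_succ_apply', E.δ_φ]; exact ih.map _

theorem rel [Finite ι] (E : DRing p T) (E' : DRing p (MvPolynomial (ι × ℕ) T))
    (h1 : ∀ c, E'.φ (MvPolynomial.C c) = MvPolynomial.C (E.φ c))
    (h2 : ∀ c, E'.δ (MvPolynomial.C c) = MvPolynomial.C (E.δ c))
    (h3 : ∀ i j, E'.δ (MvPolynomial.X (i, j)) = MvPolynomial.X (i, j + 1))
    (𝔵 : Ideal T) (hδ : ∀ g ∈ 𝔵, E.δ g ∈ 𝔵) (htf : ∀ g : T, p * g ∈ 𝔵 → g ∈ 𝔵)
    (h𝔵 : 𝔵 ≤ maximalIdeal T) (hp : (p : T) ∈ maximalIdeal T) {f : T} (hf : f ∈ maximalIdeal T)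
    (hu : IsUnit (E.δ f)) (hH : ∀ i, H i ∈ 𝔵) :
    Rel p (fun j => E.φ^[j] f) H
      (fun i j => ev M (E'.δ^[j] (MvPolynomial.C f * MvPolynomial.X (i, 0) - MvPolynomial.C (H i))))
      (fun i j => ev M (MvPolynomial.X (i, j))) := by
  have k1 : 𝔵.map MvPolynomial.C ≤ ((maximalIdeal T).map C).comap (ev (ι := ι) M) :=
    Ideal.map_le_iff_le_comap.2 fun a ha => by
      rw [Ideal.mem_comap, Ideal.mem_comap, ev_C]
      exact Ideal.mem_map_of_mem _ (h𝔵 ha)
  have k2 : (maximalIdeal T).map C ≤ maximalIdeal (MvPowerSeries (ι × Fin M) T) :=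
    Ideal.map_le_iff_le_comap.2 fun a ha => C_mem _ ha
  refine ⟨fun i j => by simp [ev], fun i => by simp [c_eq_algebraMap], fun i j => ?_, fun i j => ?_,
    fun i j => ?_⟩
  · obtain ⟨g, e, -, hg, -⟩ := relation_shape E E' h1 h2 h3 𝔵 hδ htf f _ (hH i) i j
    rw [e, map_add, map_mul]
    refine add_mem (Ideal.mul_mem_left _ _ (ev_X_mem _)) ?_
    exact sup_le (k1.trans (Ideal.comap_mono k2))
      (Ideal.span_le.2 (Set.image_subset_iff.2 fun l _ => ev_X_mem (i, l))) hg
  · obtain ⟨g, e, -, -, hg⟩ := relation_shape E E' h1 h2 h3 𝔵 hδ htf f _ (hH i) i (j + 1)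
    refine ⟨_, iter_unit E hu j, ?_⟩
    rw [e, map_add, map_mul, ev_C, add_sub_assoc, ← ev_C (E.δ _), ← map_pow, ← map_mul, ← map_sub]
    refine add_mem (Ideal.mem_sup_left (Ideal.mul_mem_right _ _
      (Ideal.mem_map_of_mem _ (iter_max E hp _ hf)))) ?_
    refine sup_le (c := Ideal.comap (ev M) _) (sup_le (k1.trans (Ideal.comap_mono le_sup_left))
      (Ideal.span_le.2 (Set.image_subset_iff.2 fun l hl => ?_)))
      (Ideal.span_le.2 (Set.singleton_subset_iff.2 ?_)) (hg j rfl)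
    · exact Ideal.mem_sup_right (Ideal.subset_span ⟨l, hl, rfl⟩)
    · rw [SetLike.mem_coe, Ideal.mem_comap, map_mul, map_natCast,
        ← map_natCast (C (σ := ι × Fin M) (R := T))]
      exact Ideal.mem_sup_left (Ideal.mul_mem_right _ _ (Ideal.mem_map_of_mem _ hp))
  · obtain ⟨g, e, hg, -⟩ := relation_shape E E' h1 h2 h3 𝔵 hδ htf f _ (hH i) i j
    rw [e, map_add, map_mul, ev_C, add_sub_cancel_left,
      ← Set.image_image (ev M) fun l => MvPolynomial.X (i, l), Algebra.adjoin_image]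
    exact Subalgebra.mem_map.2 ⟨g, hg, rfl⟩

/-- The ideals generated by iterated derivatives. -/
def KK {P : Type u} [CommRing P] (E : DRing p P) (g : ι → P) (j : ℕ) : Ideal P :=
  Ideal.span {x | ∃ i l, l ≤ j ∧ x = E.δ^[l] (g i)}

theorem KK_step {P : Type u} [CommRing P] (E : DRing p P) (g : ι → P) (j : ℕ) {x : P}
    (hx : x ∈ KK E g j) : x ∈ KK E g (j + 1) ∧ E.δ x ∈ KK E g (j + 1) ∧
      E.φ x ∈ KK E g (j + 1) := by
  refine ⟨Ideal.span_mono ?_ hx, E.δ_mem_span ?_ hx⟩
  · rintro _ ⟨i, l, hl, rfl⟩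
    exact ⟨i, l, hl.trans j.le_succ, rfl⟩
  · rintro _ ⟨i, l, hl, rfl⟩
    exact ⟨Ideal.subset_span ⟨i, l, hl.trans j.le_succ, rfl⟩, Ideal.subset_span
      ⟨i, l + 1, Nat.succ_le_succ hl, (Function.iterate_succ_apply' _ _ _).symm⟩⟩

theorem KK_iter {P : Type u} [CommRing P] (E : DRing p P) (g : ι → P) (i : ι) (j : ℕ) :
    E.φ^[j] (g i) ∈ KK E g j := by
  induction j with
  | zero => exact Ideal.subset_span ⟨i, 0, le_rfl, rfl⟩
  | succ j ih => rw [Function.iterate_succ_apply']; exact (KK_step E g j ih).2.2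

end Vale.Agent.P177.DL
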