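import Vale.Agent.P177.Delta
import Vale.Agent.P202.FactorA

/-! P177: the triangular lemma and generators over the image of the Frobenius lift. -/

namespace Vale.Agent.P177.DLT

open Vale.Agent.P202 IsLocalRing MvPowerSeries

universe u v

theorem length_sup_pow {T : Type*} [CommRing T] (J : Ideal T) {θ : T}
    (h : ∀ y, θ * y ∈ J → y ∈ J) (k : ℕ) :
    Module.length T (T ⧸ (J ⊔ Ideal.span {θ ^ k})) =
      k * Module.length T (T ⧸ (J ⊔ Ideal.span {θ})) := by
  have hk : ∀ (k : ℕ) (y : T), θ ^ k * y ∈ J → y ∈ J := by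
    intro k
    induction k with
    | zero => simp
    | succ k ih => exact fun y hy => h y (ih _ (by rwa [← mul_assoc, ← pow_succ]))
  induction k with
  | zero =>
    rw [pow_zero, Ideal.span_singleton_one, sup_top_eq, Nat.cast_zero, zero_mul,
      Module.length_eq_zero_iff]
    infer_instance
  | succ k ih =>
    have e1 : (J ⊔ Ideal.span {θ ^ (k + 1)}).colon {θ ^ k} = J ⊔ Ideal.span {θ} := by
      ext y
      rw [Submodule.mem_colon_singleton, smul_eq_mul, sup_comm J, sup_comm J,
        Ideal.mem_span_singleton_sup, Ideal.mem_span_singleton_sup]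
      constructor
      · rintro ⟨a, b, hb, he⟩
        refine ⟨a, y - a * θ, hk k _ ?_, by ring⟩
        rwa [show θ ^ k * (y - a * θ) = b by linear_combination -he]
      · rintro ⟨a, b, hb, rfl⟩
        exact ⟨a, b * θ ^ k, J.mul_mem_right _ hb, by ring⟩
    have e2 : J ⊔ Ideal.span {θ ^ (k + 1)} ⊔ Ideal.span {θ ^ k} = J ⊔ Ideal.span {θ ^ k} := by
      rw [sup_assoc, sup_eq_right.2
        (Ideal.span_singleton_le_span_singleton.2 (pow_dvd_pow θ (Nat.le_succ k)))]
    rw [afLength_colon (J ⊔ Ideal.span {θ ^ (k + 1)}) (θ ^ k), e1, e2, ih, Nat.cast_succ, add_mul,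
      one_mul, add_comm]

section Tri
variable {K : Type u} [Field K] {τ : Type} [Fintype τ] [DecidableEq τ]

omit [DecidableEq τ] in
theorem max_eq : maximalIdeal (MvPowerSeries τ K) = Ideal.span (Set.range X) := by
  rw [maximalIdeal_mvPowerSeries, maximalIdeal_eq_bot, Ideal.map_bot, bot_sup_eq]

theorem reg_last (b : τ → MvPowerSeries τ K) (hb : ∀ l, b l ∈ maximalIdeal _) (j : τ) {N : ℕ}
    (hN : maximalIdeal (MvPowerSeries τ K) ^ N ≤
      Ideal.span (b '' {l | l ≠ j}) ⊔ Ideal.span {b j}) (y : MvPowerSeries τ K)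
    (hy : b j * y ∈ Ideal.span (b '' {l | l ≠ j})) : y ∈ Ideal.span (b '' {l | l ≠ j}) := by
  have e : Ideal.ofList ((Finset.univ.erase j).toList.map b) = Ideal.span (b '' {l | l ≠ j}) := by
    refine congrArg Ideal.span (Set.ext fun x => ?_)
    simp
  have h1 := isWeaklyRegular_X_append (V := K) (Finset.univ : Finset τ).toList
    (Finset.nodup_toList _) (w := []) (RingTheory.Sequence.IsWeaklyRegular.nil _ _)
  have h2 := isWeaklyRegular_of_isSop (z := (Finset.univ.erase j).toList.map b ++ [b j]) h1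
    (fun a ha => by
      simp only [List.map_nil, List.append_nil, List.mem_map] at ha
      obtain ⟨s, -, rfl⟩ := ha
      exact FacA.X_mem s)
    ⟨fun a ha => by
      simp only [List.mem_append, List.mem_map, List.mem_singleton] at ha
      rcases ha with ⟨s, -, rfl⟩ | rfl <;> exact hb _,
    N, fun r hr => ⟨r, by
      rw [Ideal.ofList_append, e, Ideal.ofList_singleton]
      exact hN hr, fun x _ => by simp⟩⟩
    (by
      have := Finset.card_erase_add_one (Finset.mem_univ j)
      simpa using this.le)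
  rw [← e] at hy ⊢
  exact (CMAux.weaklyRegular_iff _).1 h2 _ _ _ rfl y hy

omit [Fintype τ] [DecidableEq τ] in
theorem span_range_split {R : Type*} [CommRing R] (b : τ → R) (j : τ) :
    Ideal.span (Set.range b) = Ideal.span (b '' {l | l ≠ j}) ⊔ Ideal.span {b j} := by
  rw [← Ideal.span_union, ← Set.image_singleton, ← Set.image_union, ← Set.image_univ]
  congr 2
  ext l
  simpa using em (l = j)

theorem tri {p : ℕ} (hp : 0 < p) (rk : τ → ℕ) (g u : τ → MvPowerSeries τ K)
    (hu : ∀ j, IsUnit (u j)) (hg : ∀ j, g j - u j * X j ^ p ∈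
      Ideal.span ((fun l => X l) '' {l | rk l < rk j})) (n : ℕ) :
    ∀ V : Finset τ, V.card = n → (∀ j l, rk l < rk j → l ∈ V → j ∈ V) →
      (∃ N, maximalIdeal (MvPowerSeries τ K) ^ N ≤
        Ideal.span (Set.range fun l => if l ∈ V then g l else X l)) ∧
      Module.length (MvPowerSeries τ K) (MvPowerSeries τ K ⧸
        Ideal.span (Set.range fun l => if l ∈ V then g l else X l)) = (p ^ n : ℕ) := by
  have hgm : ∀ l, g l ∈ maximalIdeal (MvPowerSeries τ K) := fun l => by
    rw [← sub_add_cancel (g l) (u l * X l ^ p)]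
    refine add_mem (Ideal.span_le.2 ?_ (hg l))
      (Ideal.mul_mem_left _ _ (Ideal.pow_mem_of_mem _ (FacA.X_mem l) _ hp))
    rintro _ ⟨s, -, rfl⟩
    exact FacA.X_mem s
  induction n with
  | zero =>
    intro V hV _
    rw [Finset.card_eq_zero] at hV
    subst hV
    have e : Ideal.span (Set.range fun l => if l ∈ (∅ : Finset τ) then g l else X l) =
        maximalIdeal (MvPowerSeries τ K) := by simp [max_eq]
    rw [e]
    refine ⟨⟨1, by simp⟩, ?_⟩
    rw [pow_zero, Nat.cast_one, Module.length_eq_one_iff]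
    exact isSimpleModule_iff_quot_maximal.2 ⟨_, inferInstance, ⟨LinearEquiv.refl _ _⟩⟩
  | succ n ih =>
    intro V hV hl
    obtain ⟨j, hj, hmin⟩ := V.exists_min_image rk (Finset.card_pos.1 (by omega))
    obtain ⟨⟨N, hN⟩, h2⟩ := ih (V.erase j) (by rw [Finset.card_erase_of_mem hj]; omega)
      fun i l hil hl' => Finset.mem_erase.2 ⟨fun h => by
        have := hmin l (Finset.mem_of_mem_erase hl')
        rw [h] at hil
        omega, hl i l hil (Finset.mem_of_mem_erase hl')⟩
    set b : τ → MvPowerSeries τ K := fun l => if l ∈ V.erase j then g l else X l with hb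
    have hbj : b j = X j := by simp [hb]
    have e1 : (fun l => if l ∈ V then g l else X l) '' {l | l ≠ j} = b '' {l | l ≠ j} :=
      Set.image_congr fun l hl => by simp [hb, show l ≠ j from hl]
    have e2 : g j - u j * X j ^ p ∈ Ideal.span (b '' {l | l ≠ j}) := by
      refine Ideal.span_mono ?_ (hg j)
      rintro _ ⟨l, hl', rfl⟩
      have h3 : l ∉ V := fun h => (hmin l h).not_gt hl'
      exact ⟨l, fun h => h3 (h ▸ hj), by simp [hb, h3]⟩
    have e3 : Ideal.span (Set.range fun l => if l ∈ V then g l else X l) =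
        Ideal.span (b '' {l | l ≠ j}) ⊔ Ideal.span {X j ^ p} := by
      rw [span_range_split _ j, e1, if_pos hj, ← Ideal.span_singleton_mul_left_unit (hu j) (X j ^ p)]
      refine le_antisymm (sup_le le_sup_left ?_) (sup_le le_sup_left ?_) <;>
        rw [Ideal.span_singleton_le_iff_mem]
      · rw [← sub_add_cancel (g j) (u j * X j ^ p)]
        exact Submodule.add_mem_sup e2 (Ideal.mem_span_singleton_self _)
      · rw [show u j * X j ^ p = -(g j - u j * X j ^ p) + g j by ring]
        exact Submodule.add_mem_sup (neg_mem e2) (Ideal.mem_span_singleton_self _)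
    rw [span_range_split b j] at hN h2
    have h4 := reg_last b (fun l => by
      simp only [hb]
      split_ifs
      exacts [hgm l, FacA.X_mem l]) j hN
    rw [hbj] at hN h2 h4
    rw [e3]
    refine ⟨⟨N * (1 + p), ?_⟩, ?_⟩
    · rw [pow_mul, ← Ideal.span_singleton_pow]
      refine (Ideal.pow_right_mono hN _).trans (Ideal.sup_pow_add_le_pow_sup_pow.trans ?_)
      rw [pow_one]
    · rw [length_sup_pow _ h4, h2, ← Nat.cast_mul, pow_succ']

end Tri

theorem gen_of_mod {A : Type u} {B : Type v} [CommRing A] [IsLocalRing A]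
    [IsAdicComplete (maximalIdeal A) A] [CommRing B] [IsLocalRing B] [IsNoetherianRing B]
    (f : A →+* B) [IsLocalHom f] {ι : Type} [Fintype ι] (w : ι → B)
    (h : ∀ b, ∃ c : ι → A, b - ∑ i, f (c i) * w i ∈ (maximalIdeal A).map f) (b : B) :
    ∃ c : ι → A, b = ∑ i, f (c i) * w i := by
  classical
  let _ := f.toAlgebra
  have : IsHausdorff (maximalIdeal A) B :=
    IsHausdorff.of_map (S := B) (J := maximalIdeal B) (map_max_le f)
  have h1 := span_eq_top_of_complete (maximalIdeal A) (Finset.univ.image w)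
    (eq_top_iff.2 fun b _ => by
      obtain ⟨c, hc⟩ := h b
      rw [Ideal.smul_top_eq_map, ← add_sub_cancel (∑ i, f (c i) * w i) b]
      refine Submodule.add_mem_sup (Submodule.sum_mem _ fun i _ => ?_) hc
      exact Submodule.smul_mem _ (c i) (Submodule.subset_span (by simp)))
  rw [Finset.coe_image, Finset.coe_univ, Set.image_univ] at h1
  obtain ⟨c, hc⟩ := (Submodule.mem_span_range_iff_exists_fun A).1
    (h1 ▸ Submodule.mem_top : b ∈ Submodule.span A (Set.range w))
  exact ⟨c, hc.symm⟩

theorem mem_span_X_pow {V : Type u} [CommRing V] {σ : Type} [Fintype σ] (q : ℕ)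
    (b : MvPowerSeries σ V) (h : ∀ m : σ →₀ ℕ, (∀ s, m s < q) → coeff m b = 0) :
    b ∈ Ideal.span (Set.range fun s => (X s : MvPowerSeries σ V) ^ q) := by
  classical
  let ch : (σ →₀ ℕ) → Option σ := fun m => if h : ∃ s, q ≤ m s then some h.choose else none
  let c : σ → MvPowerSeries σ V := fun s m => if ch m = some s then coeff m b else 0
  have hc : ∀ s m, coeff m (c s) = if ch m = some s then coeff m b else 0 := fun _ _ => rfl
  have e : b = ∑ s, c s := by
    ext m
    rw [map_sum]
    simp only [hc]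
    by_cases hm : ∃ s, q ≤ m s
    · simp [ch, hm]
    · simpa [ch, hm] using h m (by simpa using hm)
  rw [e]
  refine Ideal.sum_mem _ fun s _ => Ideal.mem_of_dvd _ (X_pow_dvd_iff.2 fun m hm => ?_)
    (Ideal.subset_span ⟨s, rfl⟩)
  rw [hc, if_neg]
  intro he
  simp only [ch] at he
  split_ifs at he with h1
  have h2 := h1.choose_spec
  rw [Option.some.inj he] at h2
  omega

theorem sub_trunc_mem {V : Type u} [CommRing V] {σ : Type} [Fintype σ] [DecidableEq σ] (q : ℕ)
    (b : MvPowerSeries σ V) :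
    b - ∑ α : σ → Fin q, C (coeff (Finsupp.equivFunOnFinite.symm fun s => (α s : ℕ)) b) *
      monomial (Finsupp.equivFunOnFinite.symm fun s => (α s : ℕ)) 1 ∈
      Ideal.span (Set.range fun s => (X s : MvPowerSeries σ V) ^ q) := by
  refine mem_span_X_pow q _ fun m hm => ?_
  have e : (Finsupp.equivFunOnFinite.symm fun s => (((fun s => ⟨m s, hm s⟩ : σ → Fin q) s : ℕ))) =
      m := by
    ext s
    simp
  rw [map_sub, map_sum, Finset.sum_eq_single (fun s => ⟨m s, hm s⟩), coeff_C_mul, e,
    coeff_monomial_same, mul_one, sub_self]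
  · intro α _ hα
    rw [coeff_C_mul, coeff_monomial_ne, mul_zero]
    rintro rfl
    exact hα (funext fun s => Fin.ext (by simp))
  · simp

theorem frob_gens {p : ℕ} [Fact p.Prime] {W : Type u} [CommRing W] [IsDomain W]
    [IsDiscreteValuationRing W] {σ : Type} [Fintype σ] (hW : IsCohen p W)
    [IsAlgClosed (ResidueField W)] (E : DRing p (MvPowerSeries σ W)) (M : ℕ) :
    ∃ v : Fin (p ^ (M * Fintype.card σ)) → MvPowerSeries σ W, ∀ b, ∃ c : Fin _ → MvPowerSeries σ W,
      b = ∑ i, E.φ^[M] (c i) * v i := by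
  classical
  have hq : 0 < p ^ M := pow_pos (Fact.out : p.Prime).pos M
  have := hW.complete
  have := isAdicComplete_mvPowerSeries (σ := σ) (V := W)
  have hψ : ∀ a, (E.φ ^ M) a - a ^ p ^ M ∈ Ideal.span {(p : MvPowerSeries σ W)} := fun a => by
    rw [RingHom.coe_pow]
    exact E.iterate_sub_pow M a
  have hp : Ideal.span {(p : MvPowerSeries σ W)} ≤ maximalIdeal _ :=
    (Ideal.span_singleton_le_iff_mem _).2 (FacA.p_mem hW σ)
  have : IsLocalHom (E.φ ^ M) := isLocalHom_of_map_le (Ideal.map_le_iff_le_comap.2 fun a ha => by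
    rw [Ideal.mem_comap, ← sub_add_cancel ((E.φ ^ M) a) (a ^ p ^ M)]
    exact add_mem (hp (hψ a)) (Ideal.pow_mem_of_mem _ ha _ hq))
  have hp' : Ideal.span {(p : MvPowerSeries σ W)} ≤ (maximalIdeal _).map (E.φ ^ M) := by
    rw [Ideal.span_singleton_le_iff_mem, ← map_natCast (E.φ ^ M)]
    exact Ideal.mem_map_of_mem _ (FacA.p_mem hW σ)
  have hX : Ideal.span (Set.range fun s => (X s : MvPowerSeries σ W) ^ p ^ M) ≤
      (maximalIdeal _).map (E.φ ^ M) := by
    rw [Ideal.span_le]
    rintro _ ⟨s, rfl⟩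
    have h1 := sub_mem (Ideal.mem_map_of_mem (E.φ ^ M) (FacA.X_mem s)) (hp' (hψ (X s)))
    rwa [sub_sub_cancel] at h1
  have hC : ∀ a : W, ∃ a' : MvPowerSeries σ W,
      C a - (E.φ ^ M) a' ∈ (maximalIdeal _).map (E.φ ^ M) := fun a => by
    obtain ⟨z, hz⟩ := IsAlgClosed.exists_pow_nat_eq (residue W a) hq
    obtain ⟨a', rfl⟩ := residue_surjective z
    have h1 : a - a' ^ p ^ M ∈ maximalIdeal W := by
      rw [← residue_eq_zero_iff, map_sub, map_pow, hz, sub_self]
    rw [hW.max, Ideal.mem_span_singleton'] at h1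
    obtain ⟨t, ht⟩ := h1
    refine ⟨C a', hp' ?_⟩
    have h2 : (C a - C a' ^ p ^ M : MvPowerSeries σ W) ∈ Ideal.span {(p : MvPowerSeries σ W)} := by
      rw [← map_pow, ← map_sub, ← ht, map_mul, map_natCast]
      exact Ideal.mul_mem_left _ _ (Ideal.mem_span_singleton_self _)
    have h3 := sub_mem h2 (hψ (C a'))
    rwa [sub_sub_sub_cancel_right] at h3
  choose r hr using hC
  let e : Fin (p ^ (M * Fintype.card σ)) ≃ (σ → Fin (p ^ M)) :=
    Fintype.equivOfCardEq (by simp [pow_mul])
  let w : (σ → Fin (p ^ M)) → MvPowerSeries σ W := fun α =>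
    monomial (Finsupp.equivFunOnFinite.symm fun s => (α s : ℕ)) 1
  refine ⟨fun i => w (e i), fun b => ?_⟩
  obtain ⟨c, hc⟩ := gen_of_mod (E.φ ^ M) w (fun b => ⟨fun α =>
    r (coeff (Finsupp.equivFunOnFinite.symm fun s => (α s : ℕ)) b), by
      have h1 := add_mem (hX (sub_trunc_mem (p ^ M) b)) (Ideal.sum_mem _ fun α (_ : α ∈ Finset.univ) =>
        Ideal.mul_mem_right (w α) _
          (hr (coeff (Finsupp.equivFunOnFinite.symm fun s => (α s : ℕ)) b)))
      simpa only [sub_mul, Finset.sum_sub_distrib, sub_add_sub_cancel, w] using h1⟩) b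
  refine ⟨fun i => c (e i), hc.trans ?_⟩
  rw [RingHom.coe_pow]
  exact (e.sum_comp fun α => E.φ^[M] (c α) * w α).symm

end Vale.Agent.P177.DLT
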