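import Vale.Agent.P177.Core

/-! P177 module MC: homotopy theory of matrix complexes. -/

namespace Vale.Agent.P177

open Vale.Agent.P202 IsLocalRing

universe u

section Basic
variable {A : Type*} [CommRing A] {ι ι' ι'' : Type} [Fintype ι] [Fintype ι'] [Fintype ι'']
  [DecidableEq ι] [DecidableEq ι'] [DecidableEq ι''] {D : Matrix ι ι A} {dg : ι → ℕ}
  {D' : Matrix ι' ι' A} {dg' : ι' → ℕ} {D'' : Matrix ι'' ι'' A} {dg'' : ι'' → ℕ}

section HomR
omit [DecidableEq ι] [DecidableEq ι'] [DecidableEq ι'']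
variable {F F' : Matrix ι' ι A} {G : Matrix ι'' ι' A} {k k' : ℤ}

omit [Fintype ι] [Fintype ι''] in
theorem IsHomR.mul' (hG : IsHomR G dg'' dg' k) (hF : IsHomR F dg' dg k') {m : ℤ} (hm : m = k + k') :
    IsHomR (G * F) dg'' dg m := fun a b h => by
  obtain ⟨c, -, hc⟩ := Finset.exists_ne_zero_of_sum_ne_zero h
  rw [hF c b (right_ne_zero_of_mul hc), hG a c (left_ne_zero_of_mul hc), hm, add_assoc]

omit [Fintype ι] [Fintype ι']
theorem IsHomR.add' (h : IsHomR F dg' dg k) (h' : IsHomR F' dg' dg k) : IsHomR (F + F') dg' dg k :=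
  fun a b e => by
    by_cases e1 : F a b = 0
    · exact h' a b (by simpa [e1] using e)
    · exact h a b e1
theorem IsHomR.neg' (h : IsHomR F dg' dg k) : IsHomR (-F) dg' dg k :=
  fun a b e => h a b (by simpa using e)
theorem IsHomR.sub' (h : IsHomR F dg' dg k) (h' : IsHomR F' dg' dg k) :
    IsHomR (F - F') dg' dg k := by rw [sub_eq_add_neg]; exact h.add' h'.neg'
theorem IsHomR.smul' (r : A) (h : IsHomR F dg' dg k) : IsHomR (r • F) dg' dg k :=
  fun a b e => h a b (right_ne_zero_of_mul e)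
theorem IsHomR.zero' : IsHomR (0 : Matrix ι' ι A) dg' dg k := fun _ _ e => absurd rfl e
theorem IsHomR.map' {A' : Type*} [CommRing A'] (h : IsHomR F dg' dg k) (f : A →+* A') :
    IsHomR (F.map f) dg' dg k := fun a b e => h a b fun e' => e (by simp [e'])
theorem IsHomR.blocks {κ κ' : Type} {eg : κ → ℕ} {eg' : κ' → ℕ} {X : Matrix ι' ι A}
    {Y : Matrix ι' κ A} {Z : Matrix κ' ι A} {W : Matrix κ' κ A} (hX : IsHomR X dg' dg k)
    (hY : IsHomR Y dg' eg k) (hZ : IsHomR Z eg' dg k) (hW : IsHomR W eg' eg k) :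
    IsHomR (Matrix.fromBlocks X Y Z W) (Sum.elim dg' eg') (Sum.elim dg eg) k := by
  rintro (a | a) (b | b) e
  exacts [hX a b e, hY a b e, hZ a b e, hW a b e]
theorem IsHomR.shift (h : IsHomR F dg' dg k) {i j : ℕ} {m : ℤ} (hm : m + i = k + j) :
    IsHomR F (fun a => dg' a + i) (fun a => dg a + j) m := fun a b e => by
  have := h a b e; push_cast; omega
end HomR

omit [Fintype ι] in
theorem IsHomR.one' : IsHomR (1 : Matrix ι ι A) dg dg 0 := fun a b e => by
  by_cases h : a = b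
  · simp [h]
  · exact absurd (Matrix.one_apply_ne h) e

theorem isMC_map {A' : Type*} [CommRing A'] (hD : IsMC D (zd dg)) (f : A →+* A') :
    IsMC (D.map f) (zd dg) :=
  ⟨by rw [← Matrix.map_mul, hD.sq]; simp, IsHomR.map' (dg := dg) (dg' := dg) hD.homog f⟩
theorem isMC_zero : IsMC (0 : Matrix ι ι A) (zd dg) :=
  ⟨by simp, fun _ _ e => absurd rfl e⟩
theorem isMC_kos' {J : Type} [Fintype J] [LinearOrder J] (b : J → A) :
    IsMC (kos b) (zd Finset.card) := isMC_kos b
theorem isMC_twoM {c : ℕ} (y : Fin c → A) : IsMC (twoM y) (zd (twoDg c)) := by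
  refine ⟨?_, ?_⟩
  · ext a b
    rw [Matrix.mul_apply, Matrix.zero_apply]
    refine Finset.sum_eq_zero fun k _ => ?_
    rcases a with _ | a <;> rcases b with _ | b <;> rcases k with _ | k <;> simp [twoM]
  · rintro (_ | a) (_ | b) e <;> simp_all [twoM, zd, twoDg]
theorem twoM_map {A' : Type*} [CommRing A'] (f : A →+* A') {c : ℕ} (y : Fin c → A) :
    (twoM y).map f = twoM fun j => f (y j) := by
  ext (_ | a) (_ | b) <;> simp [twoM]
theorem kpM_map {A' : Type*} [CommRing A'] (f : A →+* A') {c : ℕ} (x : Fin c → A) :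
    (kpM x).map f = kpM fun j => f (x j) := by
  rw [kpM, kpM, Matrix.fromBlocks_map, kos_map]; simp
theorem isMC_fromBlocks (hD : IsMC D (zd dg)) (hD' : IsMC D' (zd dg')) :
    IsMC (Matrix.fromBlocks D 0 0 D') (zd (Sum.elim dg dg')) :=
  ⟨by simp [Matrix.fromBlocks_multiply, hD.sq, hD'.sq],
    IsHomR.blocks (dg := dg) (dg' := dg) (eg := dg') (eg' := dg') hD.homog .zero' .zero' hD'.homog⟩
theorem isMC_kpM {c : ℕ} (x : Fin c → A) : IsMC (kpM x) (zd (kpDg c)) :=
  isMC_fromBlocks (isMC_kos' x) isMC_zero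
theorem isMC_coneM (hD : IsMC D (zd dg)) (hD' : IsMC D' (zd dg')) {F : Matrix ι' ι A}
    (hF : IsHomR F dg' dg 0) (hc : F * D = D' * F) : IsMC (coneM D D' F) (zd (coneDg dg dg')) :=
  ⟨by simp [coneM, Matrix.fromBlocks_multiply, hD.sq, hD'.sq, hc],
    IsHomR.blocks (eg := dg') (eg' := dg')
      ((IsHomR.neg' (dg := dg) (dg' := dg) hD.homog).shift (i := 1) (j := 1) rfl) .zero'
      (hF.shift (i := 0) (j := 1) rfl) hD'.homog⟩

theorem MHEq.refl : MHEq D dg D dg :=
  ⟨1, 1, 0, 0, .one', .one', .zero', .zero', by simp, by simp, by simp, by simp⟩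
theorem MHEq.symm (h : MHEq D dg D' dg') : MHEq D' dg' D dg := by
  obtain ⟨F, G, H, H', a, b, c, d, e1, e2, e3, e4⟩ := h
  exact ⟨G, F, H', H, b, a, d, c, e2, e1, e4, e3⟩
theorem mheq_aux {F : Matrix ι' ι A} {G : Matrix ι ι' A} {F' : Matrix ι'' ι' A}
    {G' : Matrix ι' ι'' A} {H : Matrix ι ι A} {K : Matrix ι' ι' A} (e1 : F * D = D' * F)
    (e2 : G * D' = D * G) (e3 : G * F - 1 = D * H + H * D) (f3 : G' * F' - 1 = D' * K + K * D') :
    G * G' * (F' * F) - 1 = D * (H + G * K * F) + (H + G * K * F) * D := by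
  have : G * G' * (F' * F) = G * (D' * K + K * D') * F + G * F := by
    rw [← f3]; simp [Matrix.mul_sub, Matrix.sub_mul, Matrix.mul_assoc]
  rw [this, add_sub_assoc, e3, Matrix.mul_add, Matrix.add_mul, ← Matrix.mul_assoc G D', e2,
    Matrix.mul_assoc G (K * D'), Matrix.mul_assoc K, ← e1]
  simp only [Matrix.mul_add, Matrix.add_mul, Matrix.mul_assoc]
  abel
theorem MHEq.trans (h : MHEq D dg D' dg') (h' : MHEq D' dg' D'' dg'') : MHEq D dg D'' dg'' := by
  obtain ⟨F, G, H, H', a, b, c, d, e1, e2, e3, e4⟩ := h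
  obtain ⟨F', G', K, K', a', b', c', d', f1, f2, f3, f4⟩ := h'
  refine ⟨F' * F, G * G', H + G * K * F, K' + F' * H' * G', a'.mul' a rfl, b.mul' b' rfl,
    c.add' ((b.mul' c' rfl).mul' a rfl), d'.add' ((a'.mul' d rfl).mul' b' rfl), ?_, ?_,
    mheq_aux e1 e2 e3 f3, mheq_aux f2 f1 f4 e4⟩
  · rw [Matrix.mul_assoc, e1, ← Matrix.mul_assoc, f1, Matrix.mul_assoc]
  · rw [Matrix.mul_assoc, f2, ← Matrix.mul_assoc, e2, Matrix.mul_assoc]
theorem MHEq.map {A' : Type*} [CommRing A'] (h : MHEq D dg D' dg') (f : A →+* A') :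
    MHEq (D.map f) dg (D'.map f) dg' := by
  obtain ⟨F, G, H, H', a, b, c, d, e1, e2, e3, e4⟩ := h
  refine ⟨F.map f, G.map f, H.map f, H'.map f, a.map' f, b.map' f, c.map' f, d.map' f, ?_, ?_,
    ?_, ?_⟩
  · rw [← Matrix.map_mul, ← Matrix.map_mul, e1]
  · rw [← Matrix.map_mul, ← Matrix.map_mul, e2]
  · simpa [Matrix.map_mul, Matrix.map_sub, Matrix.map_add] using congrArg (·.map f) e3
  · simpa [Matrix.map_mul, Matrix.map_sub, Matrix.map_add] using congrArg (·.map f) e4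
/-- An isomorphism of complexes is a homotopy equivalence. -/
theorem mheq_of_iso (F : Matrix ι' ι A) (G : Matrix ι ι' A) (hF : IsHomR F dg' dg 0)
    (hG : IsHomR G dg dg' 0) (hc : F * D = D' * F) (h1 : G * F = 1) (h2 : F * G = 1) :
    MHEq D dg D' dg' := by
  refine ⟨F, G, 0, 0, hF, hG, .zero', .zero', hc, ?_, by simp [h1], by simp [h2]⟩
  calc G * D' = G * (D' * F) * G := by
        rw [Matrix.mul_assoc, Matrix.mul_assoc, h2, Matrix.mul_one]
    _ = D * G := by rw [← hc, ← Matrix.mul_assoc, h1, Matrix.one_mul]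
theorem mheq_reindex (e : ι' ≃ ι) : MHEq D dg (D.submatrix e e) (dg ∘ e) := by
  refine mheq_of_iso ((1 : Matrix ι ι A).submatrix e id) ((1 : Matrix ι ι A).submatrix id e)
    (fun a b h => IsHomR.one' (dg := dg) _ _ h) (fun a b h => IsHomR.one' (dg := dg) _ _ h) ?_ ?_ ?_
  · rw [Matrix.submatrix_mul_equiv, Matrix.mul_one]
    have := Matrix.submatrix_mul_equiv (1 : Matrix ι ι A) D e (Equiv.refl ι) id
    simpa using this
  · rw [Matrix.submatrix_mul_equiv]; simp
  · have := Matrix.submatrix_mul_equiv (1 : Matrix ι ι A) (1 : Matrix ι ι A) e (Equiv.refl ι) e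
    simpa using this
theorem MHEq.fromBlocks {κ κ' : Type} [Fintype κ] [Fintype κ'] [DecidableEq κ] [DecidableEq κ']
    {E : Matrix κ κ A} {eg : κ → ℕ} {E' : Matrix κ' κ' A} {eg' : κ' → ℕ}
    (h : MHEq D dg D' dg') (h' : MHEq E eg E' eg') :
    MHEq (Matrix.fromBlocks D 0 0 E) (Sum.elim dg eg) (Matrix.fromBlocks D' 0 0 E')
      (Sum.elim dg' eg') := by
  obtain ⟨F, G, H, H', a, b, c, d, e1, e2, e3, e4⟩ := h
  obtain ⟨F', G', K, K', a', b', c', d', f1, f2, f3, f4⟩ := h'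
  rw [sub_eq_iff_eq_add] at e3 e4 f3 f4
  refine ⟨Matrix.fromBlocks F 0 0 F', Matrix.fromBlocks G 0 0 G', Matrix.fromBlocks H 0 0 K,
    Matrix.fromBlocks H' 0 0 K', a.blocks .zero' .zero' a', b.blocks .zero' .zero' b',
    c.blocks .zero' .zero' c', d.blocks .zero' .zero' d', ?_, ?_, ?_, ?_⟩
  · simp [Matrix.fromBlocks_multiply, e1, f1]
  · simp [Matrix.fromBlocks_multiply, e2, f2]
  · rw [sub_eq_iff_eq_add, ← Matrix.fromBlocks_one]
    simp only [Matrix.fromBlocks_multiply, Matrix.fromBlocks_add, e3, f3, Matrix.mul_zero,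
      Matrix.zero_mul, add_zero, zero_add]
  · rw [sub_eq_iff_eq_add, ← Matrix.fromBlocks_one]
    simp only [Matrix.fromBlocks_multiply, Matrix.fromBlocks_add, e4, f4, Matrix.mul_zero,
      Matrix.zero_mul, add_zero, zero_add]
/-- A contractible summand can be dropped. -/
theorem mheq_fromBlocks_null (h : NullHtp D' dg' 1) :
    MHEq (Matrix.fromBlocks D 0 0 D') (Sum.elim dg dg') D dg := by
  obtain ⟨H, a, e⟩ := h
  rw [one_smul] at e
  refine ⟨Matrix.fromCols 1 0, Matrix.fromRows 1 0, Matrix.fromBlocks 0 0 0 (-H), 0, ?_, ?_,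
    IsHomR.blocks .zero' .zero' .zero' a.neg', .zero', ?_, ?_, ?_, ?_⟩
  · rintro x (y | y) h
    exacts [IsHomR.one' (dg := dg) _ _ h, absurd rfl h]
  · rintro (x | x) y h
    exacts [IsHomR.one' (dg := dg) _ _ h, absurd rfl h]
  · simp [Matrix.fromCols_mul_fromBlocks, Matrix.mul_fromCols]
  · simp [Matrix.fromBlocks_mul_fromRows, Matrix.fromRows_mul]
  · rw [sub_eq_iff_eq_add, ← Matrix.fromBlocks_one, Matrix.fromRows_mul_fromCols]
    simp only [Matrix.fromBlocks_multiply, Matrix.fromBlocks_add, Matrix.mul_zero, Matrix.zero_mul,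
      add_zero, zero_add, Matrix.mul_neg, Matrix.neg_mul, ← neg_add, e, neg_add_cancel,
      Matrix.mul_one, neg_zero]
  · simp [Matrix.fromCols_mul_fromRows]
theorem mheq_fromBlocks_null' (h : NullHtp D dg 1) :
    MHEq (Matrix.fromBlocks D 0 0 D') (Sum.elim dg dg') D' dg' := by
  obtain ⟨H, a, e⟩ := h
  rw [one_smul] at e
  refine ⟨Matrix.fromCols 0 1, Matrix.fromRows 0 1, Matrix.fromBlocks (-H) 0 0 0, 0, ?_, ?_,
    IsHomR.blocks a.neg' .zero' .zero' .zero', .zero', ?_, ?_, ?_, ?_⟩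
  · rintro x (y | y) h
    exacts [absurd rfl h, IsHomR.one' (dg := dg') _ _ h]
  · rintro (x | x) y h
    exacts [absurd rfl h, IsHomR.one' (dg := dg') _ _ h]
  · simp [Matrix.fromCols_mul_fromBlocks, Matrix.mul_fromCols]
  · simp [Matrix.fromBlocks_mul_fromRows, Matrix.fromRows_mul]
  · rw [sub_eq_iff_eq_add, ← Matrix.fromBlocks_one, Matrix.fromRows_mul_fromCols]
    simp only [Matrix.fromBlocks_multiply, Matrix.fromBlocks_add, Matrix.mul_zero, Matrix.zero_mul,
      add_zero, zero_add, Matrix.mul_neg, Matrix.neg_mul, ← neg_add, e, neg_add_cancel,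
      Matrix.mul_one, neg_zero]
  · simp [Matrix.fromCols_mul_fromRows]
theorem NullHtp.of_mheq (h : MHEq D dg D' dg') {g : A} (hg : NullHtp D' dg' g) :
    NullHtp D dg g := by
  obtain ⟨F, G, H, H', a, b, c, d, e1, e2, e3, e4⟩ := h
  obtain ⟨K, k, e⟩ := hg
  refine ⟨G * K * F - g • H, ((b.mul' k rfl).mul' a rfl).sub' (c.smul' g), ?_⟩
  have : D * (G * K * F) + G * K * F * D = g • (G * F) := by
    rw [← Matrix.mul_assoc, ← Matrix.mul_assoc, ← e2, Matrix.mul_assoc (G * K), e1]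
    calc _ = G * (D' * K + K * D') * F := by
          simp only [Matrix.mul_add, Matrix.add_mul, Matrix.mul_assoc]
      _ = _ := by rw [e]; simp
  rw [Matrix.mul_sub, Matrix.sub_mul, Matrix.mul_smul, Matrix.smul_mul, sub_add_sub_comm, this,
    ← smul_add, ← e3, smul_sub, sub_sub_cancel]
theorem NullHtp.map {A' : Type*} [CommRing A'] {g : A} (h : NullHtp D dg g) (f : A →+* A') :
    NullHtp (D.map f) dg (f g) := by
  obtain ⟨K, k, e⟩ := h
  refine ⟨K.map f, k.map' f, ?_⟩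
  rw [← Matrix.map_mul, ← Matrix.map_mul, ← Matrix.map_add _ (map_add f), e]
  ext a b
  by_cases h : a = b <;> simp [Matrix.one_apply, h]
theorem NullHtp.mul {g : A} (h : NullHtp D dg g) (r : A) : NullHtp D dg (r * g) := by
  obtain ⟨K, k, e⟩ := h
  exact ⟨r • K, k.smul' r, by rw [Matrix.mul_smul, Matrix.smul_mul, ← smul_add, e, smul_smul]⟩
theorem NullHtp.add {g g' : A} (h : NullHtp D dg g) (h' : NullHtp D dg g') :
    NullHtp D dg (g + g') := by
  obtain ⟨K, k, e⟩ := h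
  obtain ⟨K', k', e'⟩ := h'
  exact ⟨K + K', k.add' k', by
    rw [add_smul, ← e, ← e', Matrix.mul_add, Matrix.add_mul]; abel⟩
theorem nullHtp_zero : NullHtp D dg 0 := ⟨0, .zero', by simp⟩
theorem nullHtp_of_isEmpty [IsEmpty ι] (g : A) : NullHtp D dg g :=
  ⟨0, .zero', Subsingleton.elim _ _⟩
theorem nullHtp_kos {J : Type} [Fintype J] [LinearOrder J] (b : J → A) {g : A}
    (hg : g ∈ Ideal.span (Set.range b)) : NullHtp (kos b) Finset.card g := by
  induction hg using Submodule.span_induction with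
  | mem x hx =>
    obtain ⟨j, rfl⟩ := hx
    exact ⟨creMat j 1, isHomog_creMat j 1, by simpa using kos_mul_creMat b j 1⟩
  | zero => exact nullHtp_zero
  | add x y _ _ h h' => exact h.add h'
  | smul r x _ h => exact h.mul r
/-- Correction of an approximate contraction by a square zero term. -/
theorem nullHtp_fix (hD : D * D = 0) {K N : Matrix ι ι A} {g : A} (hK : IsHomR K dg dg (-1))
    (hN : IsHomR N dg dg 0) (e : D * K + K * D = g • 1 + N) (hNN : N * N = 0) :
    NullHtp D dg (g * g) := by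
  have hc : D * N = N * D := by
    have : N = D * K + K * D - g • 1 := by rw [e, add_sub_cancel_left]
    rw [this, Matrix.mul_sub, Matrix.sub_mul, Matrix.mul_add, Matrix.add_mul,
      ← Matrix.mul_assoc D D, Matrix.mul_assoc K D D, hD]
    simp [Matrix.mul_assoc]
  refine ⟨g • K - K * N, (hK.smul' g).sub' (hK.mul' hN rfl), ?_⟩
  calc _ = g • (D * K + K * D) - (D * K + K * D) * N := by
        simp only [Matrix.mul_sub, Matrix.sub_mul, Matrix.mul_smul, Matrix.smul_mul,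
          Matrix.add_mul, Matrix.mul_assoc, hc, smul_add]
        abel
    _ = _ := by rw [e, Matrix.add_mul, hNN]; simp [smul_smul]
/-- The cone of a homotopy equivalence (multiplied by a unit) is contractible. -/
theorem nullHtp_cone (hD : IsMC D (zd dg)) (hD' : IsMC D' (zd dg')) {F : Matrix ι' ι A}
    {G : Matrix ι ι' A} {H : Matrix ι ι A} {H' : Matrix ι' ι' A} (hF : IsHomR F dg' dg 0)
    (hG : IsHomR G dg dg' 0) (hH : IsHomR H dg dg (-1)) (hH' : IsHomR H' dg' dg' (-1))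
    (h1 : F * D = D' * F) (h2 : G * D' = D * G) (h3 : G * F - 1 = D * H + H * D)
    (h4 : F * G - 1 = D' * H' + H' * D') : NullHtp (coneM D D' F) (coneDg dg dg') 1 := by
  have := nullHtp_fix (dg := coneDg dg dg') (isMC_coneM hD hD' hF h1).sq (g := 1)
    (K := Matrix.fromBlocks H G 0 (-H')) (N := Matrix.fromBlocks 0 0 (F * H - H' * F) 0)
    (IsHomR.blocks (hH.shift (i := 1) (j := 1) rfl) (hG.shift (i := 1) (j := 0) rfl) .zero'
      hH'.neg')
    (IsHomR.blocks .zero' .zero'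
      (((hF.mul' hH rfl).sub' (hH'.mul' hF rfl)).shift (i := 0) (j := 1) rfl) .zero')
    (by
      rw [sub_eq_iff_eq_add] at h3 h4
      rw [one_smul, ← Matrix.fromBlocks_one]
      simp only [coneM, Matrix.fromBlocks_multiply, Matrix.fromBlocks_add, h2, h3, h4,
        Matrix.neg_mul, Matrix.mul_neg, Matrix.zero_mul, Matrix.mul_zero]
      congr 1 <;> abel)
    (by simp [Matrix.fromBlocks_multiply])
  rwa [one_mul] at this
/-- The cone of a map between complexes that are contractible near `x`. -/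
theorem nullAt_cone (hD : IsMC D (zd dg)) (hD' : IsMC D' (zd dg')) {F : Matrix ι' ι A}
    (hF : IsHomR F dg' dg 0) (hc : F * D = D' * F) {x : PrimeSpectrum A} (h : NullAt D dg x)
    (h' : NullAt D' dg' x) : NullAt (coneM D D' F) (coneDg dg dg') x := by
  obtain ⟨g, hg, h⟩ := h
  obtain ⟨g', hg', h'⟩ := h'
  obtain ⟨H, a, e⟩ := h.mul g'
  obtain ⟨H', a', e'⟩ := h'.mul g
  have hp : g' * g ∉ x.asIdeal := fun h => (x.isPrime.mem_or_mem h).elim hg' hg
  refine ⟨_, fun h => (x.isPrime.mem_or_mem h).elim hp hp,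
    nullHtp_fix (dg := coneDg dg dg') (isMC_coneM hD hD' hF hc).sq
    (K := Matrix.fromBlocks (-H) 0 0 H') (N := Matrix.fromBlocks 0 0 (H' * F - F * H) 0)
    (IsHomR.blocks (a.neg'.shift (i := 1) (j := 1) rfl) .zero' .zero' a')
    (IsHomR.blocks .zero' .zero'
      (((a'.mul' hF rfl).sub' (hF.mul' a rfl)).shift (i := 0) (j := 1) rfl) .zero') ?_
    (by simp [Matrix.fromBlocks_multiply])⟩
  rw [mul_comm] at e'
  rw [← Matrix.fromBlocks_one, Matrix.fromBlocks_smul, ← e, ← e']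
  simp only [coneM, Matrix.fromBlocks_multiply, Matrix.fromBlocks_add, Matrix.neg_mul,
    Matrix.mul_neg, Matrix.zero_mul, Matrix.mul_zero, smul_zero]
  congr 1 <;> abel
omit [DecidableEq ι] [DecidableEq ι'] in
/-- Numerators with a common denominator. -/
theorem exists_num (S : Submonoid A) (A' : Type*) [CommRing A'] [Algebra A A']
    [IsLocalization S A'] {F : Matrix ι' ι A'} {k : ℤ} (hF : IsHomR F dg' dg k) :
    ∃ s ∈ S, ∃ F₀ : Matrix ι' ι A, IsHomR F₀ dg' dg k ∧
      F₀.map (algebraMap A A') = algebraMap A A' s • F := by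
  classical
  obtain ⟨s, hs⟩ := IsLocalization.exist_integer_multiples_of_finite S
    (fun x : ι' × ι => F x.1 x.2)
  choose f hf using hs
  refine ⟨s, s.2, fun a b => if F a b = 0 then 0 else f (a, b), fun a b h => hF a b fun e => h
    (if_pos e), ?_⟩
  ext a b
  by_cases e : F a b = 0
  · simp [Matrix.map, e]
  · simp [Matrix.map, e, hf, Algebra.smul_def]
omit [DecidableEq ι] [DecidableEq ι'] in
theorem exists_kill (S : Submonoid A) (A' : Type*) [CommRing A'] [Algebra A A']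
    [IsLocalization S A'] {X Y : Matrix ι' ι A}
    (h : X.map (algebraMap A A') = Y.map (algebraMap A A')) : ∃ t ∈ S, t • X = t • Y := by
  have := fun x : ι' × ι => (IsLocalization.eq_iff_exists S A').1
    (congrFun (congrFun h x.1) x.2)
  choose t ht using this
  refine ⟨∏ x, (t x : A), prod_mem fun x _ => (t x).2, ?_⟩
  ext a b
  obtain ⟨c, hc⟩ := Finset.dvd_prod_of_mem (fun x => (t x : A)) (Finset.mem_univ (a, b))
  simp only [Matrix.smul_apply, smul_eq_mul, hc]
  rw [mul_right_comm, ht (a, b), mul_right_comm]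
/-- Clearing denominators in a contraction. -/
theorem exists_nullHtp_of_localization (S : Submonoid A) (A' : Type*) [CommRing A'] [Algebra A A']
    [IsLocalization S A'] (h : NullHtp (D.map (algebraMap A A')) dg 1) :
    ∃ g ∈ S, NullHtp D dg g := by
  obtain ⟨H, a, e⟩ := h
  obtain ⟨s, hs, H₀, a₀, e₀⟩ := exists_num S A' a
  obtain ⟨t, ht, e1⟩ := exists_kill S A' (X := D * H₀ + H₀ * D) (Y := s • 1) (by
    rw [Matrix.map_add _ (map_add _), Matrix.map_mul, Matrix.map_mul, e₀, Matrix.mul_smul,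
      Matrix.smul_mul, ← smul_add, e, one_smul]
    ext a b
    by_cases h : a = b <;> simp [Matrix.one_apply, h])
  exact ⟨t * s, mul_mem ht hs, t • H₀, a₀.smul' t, by
    rw [Matrix.mul_smul, Matrix.smul_mul, ← smul_add, e1, smul_smul]⟩
theorem nullAt_iff {x : PrimeSpectrum A} : NullAt D dg x ↔
    NullHtp (D.map (algebraMap A (Localization.AtPrime x.asIdeal))) dg 1 := by
  constructor
  · rintro ⟨g, hg, h⟩
    obtain ⟨u, hu⟩ := IsLocalization.map_units (Localization.AtPrime x.asIdeal)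
      (⟨g, hg⟩ : x.asIdeal.primeCompl)
    have := (h.map (algebraMap A (Localization.AtPrime x.asIdeal))).mul (u⁻¹ : Units _)
    rwa [← hu, Units.inv_mul] at this
  · intro h
    exact exists_nullHtp_of_localization x.asIdeal.primeCompl _ h
/-- Clearing denominators in a homotopy equivalence: a chain map whose cone is contractible near
`x`. -/
theorem exists_cone_nullAt [IsDomain A] (hD : IsMC D (zd dg)) (hD' : IsMC D' (zd dg'))
    {x : PrimeSpectrum A}
    (h : MHEq (D.map (algebraMap A (Localization.AtPrime x.asIdeal))) dg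
      (D'.map (algebraMap A (Localization.AtPrime x.asIdeal))) dg') :
    ∃ F : Matrix ι' ι A, IsHomR F dg' dg 0 ∧ F * D = D' * F ∧
      NullAt (coneM D D' F) (coneDg dg dg') x := by
  obtain ⟨F, G, H, H', a, b, c, d, e1, e2, e3, e4⟩ := h
  obtain ⟨s, hs, F₀, a₀, e₀⟩ := exists_num x.asIdeal.primeCompl _ a
  obtain ⟨t, ht, f1⟩ := exists_kill x.asIdeal.primeCompl (Localization.AtPrime x.asIdeal)
    (X := F₀ * D) (Y := D' * F₀) (by
      rw [Matrix.map_mul, Matrix.map_mul, e₀, Matrix.mul_smul, Matrix.smul_mul, e1])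
  refine ⟨t • F₀, a₀.smul' t, by rw [Matrix.smul_mul, Matrix.mul_smul, f1], nullAt_iff.2 ?_⟩
  obtain ⟨u, hu⟩ := IsLocalization.map_units (Localization.AtPrime x.asIdeal)
    (⟨t * s, mul_mem ht hs⟩ : x.asIdeal.primeCompl)
  have e5 : (t • F₀).map (algebraMap A (Localization.AtPrime x.asIdeal)) = u.val • F := by
    rw [hu, map_mul, mul_smul, ← e₀]
    ext a b
    simp
  have e6 : (coneM D D' (t • F₀)).map (algebraMap A (Localization.AtPrime x.asIdeal)) =
      coneM (D.map (algebraMap A _)) (D'.map (algebraMap A _)) (u.val • F) := by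
    rw [coneM, coneM, Matrix.fromBlocks_map, e5, Matrix.map_neg _ (map_neg _)]
    simp
  rw [e6]
  exact nullHtp_cone (isMC_map hD _) (isMC_map hD' _) (a.smul' _) (b.smul' (u⁻¹ : Units _).val) c d
    (by rw [Matrix.smul_mul, Matrix.mul_smul, e1]) (by rw [Matrix.smul_mul, Matrix.mul_smul, e2])
    (by simpa [smul_smul] using e3) (by simpa [smul_smul] using e4)
end Basic

section Act
variable (T : Type*) [CommRing T] {B : Type*} [CommRing B] [Algebra T B]
  (V : Type*) [AddCommGroup V] [Module B V] [Module T V] [IsScalarTower T B V]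
  {ι ι' ι'' : Type} [Fintype ι] [Fintype ι'] [Fintype ι'']
  {D : Matrix ι ι B} {dg : ι → ℕ} {D' : Matrix ι' ι' B} {dg' : ι' → ℕ}

/-- A rectangular matrix acting on vectors. -/
def act (F : Matrix ι' ι B) : (ι → V) →ₗ[T] (ι' → V) where
  toFun v a := ∑ b, F a b • v b
  map_add' v w := by funext a; simp [Finset.sum_add_distrib]
  map_smul' r v := by
    funext a
    simp only [Pi.smul_apply, RingHom.id_apply, Finset.smul_sum]
    exact Finset.sum_congr rfl fun b _ => by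
      rw [← algebraMap_smul B r, ← algebraMap_smul B r, smul_comm]

variable {T V}
omit [Fintype ι'] in
theorem act_apply (F : Matrix ι' ι B) (v : ι → V) (a : ι') : act T V F v a = ∑ b, F a b • v b := rfl
omit [Fintype ι''] in
theorem act_mul (G : Matrix ι'' ι' B) (F : Matrix ι' ι B) (v : ι → V) :
    act T V (G * F) v = act T V G (act T V F v) := by
  funext a
  simp only [act_apply, Matrix.mul_apply, Finset.sum_smul, Finset.smul_sum, mul_smul]
  exact Finset.sum_comm
omit [Fintype ι'] in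
theorem act_add (F F' : Matrix ι' ι B) (v : ι → V) :
    act T V (F + F') v = act T V F v + act T V F' v := by
  funext a; simp [act_apply, add_smul, Finset.sum_add_distrib]
theorem act_smul_one [DecidableEq ι] (g : B) (v : ι → V) :
    act T V (g • (1 : Matrix ι ι B)) v = g • v := by
  funext a; simp [act_apply, Matrix.one_apply]
variable (T) in
theorem cx_act (v : ι → V) : cx D dg V v = act T V D v := funext fun a => cx_apply D dg v a
omit [Fintype ι'] in
theorem act_mem {F : Matrix ι' ι B} {k : ℤ} (hF : IsHomR F dg' dg k) {i j : ℤ} (hj : i = j + k)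
    {v : ι → V} (hv : v ∈ fam dg (⊤ : Submodule T V) i) :
    act T V F v ∈ fam dg' (⊤ : Submodule T V) j := by
  rw [mem_fam] at hv ⊢
  refine fun a => ⟨fun _ => trivial, fun ha => Finset.sum_eq_zero fun b _ => ?_⟩
  by_cases e : F a b = 0
  · rw [e, zero_smul]
  · rw [(hv b).2 (by have := hF a b e; omega), smul_zero]
theorem mem_cyc' {i : ℤ} {v : ι → V} :
    v ∈ cyc (cx D dg V) (fam dg (⊤ : Submodule T V)) (fam dg ⊥) i ↔
      v ∈ fam dg (⊤ : Submodule T V) i ∧ act T V D v = 0 := by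
  rw [mem_cyc, fam_bot, Submodule.mem_bot, cx_act T]
theorem mem_bdy' {i : ℤ} {v : ι → V} :
    v ∈ bdy (cx D dg V) (fam dg (⊤ : Submodule T V)) (fam dg ⊥) i ↔
      ∃ w ∈ fam dg (⊤ : Submodule T V) (i + 1), v = act T V D w := by
  simp only [mem_bdy, fam_bot, Submodule.mem_bot, cx_act T, sub_eq_zero]

/-- The four conditions of a quasi-isomorphism. -/
structure Qis {B' : Type*} [CommRing B'] [Algebra T B'] {V' : Type*} [AddCommGroup V']
    [Module B' V'] [Module T V'] [IsScalarTower T B' V'] (D : Matrix ι ι B) (dg : ι → ℕ)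
    (E : Matrix ι' ι' B') (dg' : ι' → ℕ) (φ : (ι → V) →ₗ[T] (ι' → V')) : Prop where
  h1 : ∀ i, ∀ x ∈ cyc (cx D dg V) (fam dg (⊤ : Submodule T V)) (fam dg ⊥) i,
    φ x ∈ cyc (cx E dg' V') (fam dg' (⊤ : Submodule T V')) (fam dg' ⊥) i
  h2 : ∀ i, ∀ x ∈ bdy (cx D dg V) (fam dg (⊤ : Submodule T V)) (fam dg ⊥) i,
    φ x ∈ bdy (cx E dg' V') (fam dg' (⊤ : Submodule T V')) (fam dg' ⊥) i
  h3 : ∀ i, ∀ y ∈ cyc (cx E dg' V') (fam dg' (⊤ : Submodule T V')) (fam dg' ⊥) i,
    ∃ x ∈ cyc (cx D dg V) (fam dg (⊤ : Submodule T V)) (fam dg ⊥) i,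
      y - φ x ∈ bdy (cx E dg' V') (fam dg' (⊤ : Submodule T V')) (fam dg' ⊥) i
  h4 : ∀ i, ∀ x ∈ cyc (cx D dg V) (fam dg (⊤ : Submodule T V)) (fam dg ⊥) i,
    φ x ∈ bdy (cx E dg' V') (fam dg' (⊤ : Submodule T V')) (fam dg' ⊥) i →
      x ∈ bdy (cx D dg V) (fam dg (⊤ : Submodule T V)) (fam dg ⊥) i

theorem act_htp [DecidableEq ι] {X H : Matrix ι ι B} (e : X - 1 = D * H + H * D) {x : ι → V}
    (hx : act T V D x = 0) : act T V X x = x + act T V D (act T V H x) := by
  rw [sub_eq_iff_eq_add, ← one_smul B (1 : Matrix ι ι B)] at e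
  rw [e, act_add, act_add, act_mul, act_mul, hx, act_smul_one, map_zero, add_zero, one_smul,
    add_comm]

variable (T V) in
theorem MHEq.qis [DecidableEq ι] [DecidableEq ι'] (h : MHEq D dg D' dg') :
    ∃ φ : (ι → V) →ₗ[T] (ι' → V), Qis D dg D' dg' φ := by
  obtain ⟨F, G, H, H', a, b, c, d, e1, e2, e3, e4⟩ := h
  refine ⟨act T V F, fun i x hx => ?_, fun i x hx => ?_, fun i y hy => ?_, fun i x hx hx' => ?_⟩
  · rw [mem_cyc'] at hx ⊢
    exact ⟨act_mem a (by simp) hx.1, by rw [← act_mul, ← e1, act_mul, hx.2, map_zero]⟩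
  · rw [mem_bdy'] at hx ⊢
    obtain ⟨w, hw, rfl⟩ := hx
    exact ⟨_, act_mem a (by simp) hw, by rw [← act_mul, e1, act_mul]⟩
  · rw [mem_cyc'] at hy
    refine ⟨act T V G y, mem_cyc'.2 ⟨act_mem b (by simp) hy.1, by
      rw [← act_mul, ← e2, act_mul, hy.2, map_zero]⟩, mem_bdy'.2 ⟨-act T V H' y,
      neg_mem (act_mem d (by simp) hy.1), ?_⟩⟩
    rw [← act_mul, act_htp e4 hy.2, map_neg]; abel
  · rw [mem_cyc'] at hx
    rw [mem_bdy'] at hx' ⊢
    obtain ⟨w, hw, e⟩ := hx'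
    refine ⟨act T V G w - act T V H x, sub_mem (act_mem b (by simp) hw)
      (act_mem c (by simp) hx.1), ?_⟩
    rw [map_sub, ← act_mul, ← e2, act_mul, ← e, ← act_mul G F, act_htp e3 hx.2]; abel

theorem qis_congr {B' : Type*} [CommRing B'] [Algebra T B'] {V' : Type*} [AddCommGroup V']
    [Module B' V'] [Module T V'] [IsScalarTower T B' V'] {E : Matrix ι ι B'} (e : V ≃ₗ[T] V')
    (he : ∀ a b x, e (D a b • x) = E a b • e x) :
    Qis D dg E dg ((LinearEquiv.piCongrRight fun _ : ι => e : (ι → V) ≃ₗ[T] (ι → V')) :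
      (ι → V) →ₗ[T] (ι → V')) := by
  set φ : (ι → V) ≃ₗ[T] (ι → V') := LinearEquiv.piCongrRight fun _ : ι => e with hφ
  have c : ∀ x, φ (act T V D x) = act T V' E (φ x) := fun x => by
    funext a; simp [hφ, act_apply, he]
  have m : ∀ i x, φ x ∈ fam dg (⊤ : Submodule T V') i ↔ x ∈ fam dg (⊤ : Submodule T V) i :=
    fun i x => by simp [hφ, mem_fam]
  have k1 : ∀ i x, φ x ∈ cyc (cx E dg V') (fam dg (⊤ : Submodule T V')) (fam dg ⊥) i ↔
      x ∈ cyc (cx D dg V) (fam dg (⊤ : Submodule T V)) (fam dg ⊥) i := fun i x => by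
    rw [mem_cyc', mem_cyc', m, ← c, φ.map_eq_zero_iff]
  have k2 : ∀ i x, φ x ∈ bdy (cx E dg V') (fam dg (⊤ : Submodule T V')) (fam dg ⊥) i ↔
      x ∈ bdy (cx D dg V) (fam dg (⊤ : Submodule T V)) (fam dg ⊥) i := fun i x => by
    rw [mem_bdy', mem_bdy']
    constructor
    · rintro ⟨w, hw, h⟩
      obtain ⟨w, rfl⟩ := φ.surjective w
      exact ⟨w, (m _ _).1 hw, φ.injective (by rw [h, c])⟩
    · rintro ⟨w, hw, rfl⟩
      exact ⟨φ w, (m _ _).2 hw, c w⟩
  refine ⟨fun i x hx => (k1 i x).2 hx, fun i x hx => (k2 i x).2 hx, fun i y hy => ?_,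
    fun i x _ hx => (k2 i x).1 hx⟩
  obtain ⟨x, rfl⟩ := φ.surjective y
  exact ⟨x, (k1 i x).1 hy, by simp⟩

omit [Fintype ι] in
theorem fam_eq_pi (P : Submodule T V) (i : ℤ) : fam dg P i =
    Submodule.pi Set.univ fun a => if (dg a : ℤ) = i then P else ⊥ := by
  ext v
  rw [mem_fam, Submodule.mem_pi]
  refine forall_congr' fun a => ?_
  by_cases e : (dg a : ℤ) = i <;> simp [e]

theorem cyc_le_bdy_of_ne {i : ℤ} (h : ∀ a, (dg a : ℤ) ≠ i) :
    cyc (cx D dg V) (fam dg (⊤ : Submodule T V)) (fam dg ⊥) i ≤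
      bdy (cx D dg V) (fam dg (⊤ : Submodule T V)) (fam dg ⊥) i :=
  rl_eq_zero_iff.1 (mlen_eq_zero_of_forall_ne h)
end Act

section Coeff
variable {T : Type u} [CommRing T] {δ : AddFun T} {B : Type*} [CommRing B] [Algebra T B]
  {V : Type u} [AddCommGroup V] [Module B V] [Module T V] [IsScalarTower T B V]
  {ι ι' : Type} [Fintype ι] [Fintype ι'] [DecidableEq ι] [DecidableEq ι']
  {D : Matrix ι ι B} {dg : ι → ℕ} {D' : Matrix ι' ι' B} {dg' : ι' → ℕ}

theorem MHEq.meul_eq (h : MHEq D dg D' dg') :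
    (δ.MFin D dg V ↔ δ.MFin D' dg' V) ∧ (δ.MFin D dg V → δ.meul D' dg' V = δ.meul D dg V) := by
  obtain ⟨φ, q⟩ := h.qis T V
  exact AddFun.finH_eul_of_qis φ q.h1 q.h2 q.h3 q.h4
/-- A null-homotopic scalar kills homology. -/
theorem NullHtp.smul_mem_bdy {g : B} (h : NullHtp D dg g) (i : ℤ) :
    ∀ v ∈ cyc (cx D dg V) (fam dg (⊤ : Submodule T V)) (fam dg ⊥) i,
      g • v ∈ bdy (cx D dg V) (fam dg (⊤ : Submodule T V)) (fam dg ⊥) i := by
  obtain ⟨H, a, e⟩ := h
  intro v hv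
  rw [mem_cyc'] at hv
  refine mem_bdy'.2 ⟨act T V H v, act_mem a (by simp) hv.1, ?_⟩
  rw [← act_smul_one (T := T), ← e, act_add, act_mul, act_mul, hv.2, map_zero, add_zero]
theorem NullHtp.meul_eq (h : NullHtp D dg 1) : δ.MFin D dg V ∧ δ.meul D dg V = 0 :=
  AddFun.finH_of_exact fun i v hv => by simpa using h.smul_mem_bdy i v hv
/-- Change of the coefficient module along a `T`-linear isomorphism compatible with the matrices
(this covers change of rings and isomorphic modules). -/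
theorem meul_congr {B' : Type*} [CommRing B'] [Algebra T B'] {V' : Type u} [AddCommGroup V']
    [Module B' V'] [Module T V'] [IsScalarTower T B' V'] {E : Matrix ι ι B'}
    (hD : IsMC D (zd dg)) (hE : IsMC E (zd dg)) (e : V ≃ₗ[T] V')
    (he : ∀ a b x, e (D a b • x) = E a b • e x) :
    (∀ i, δ.hm (cx D dg V) (fam dg ⊤) (fam dg ⊥) i ↔ δ.hm (cx E dg V') (fam dg ⊤) (fam dg ⊥) i) ∧
    (δ.MFin D dg V ↔ δ.MFin E dg V') ∧ (δ.MFin D dg V → δ.meul E dg V' = δ.meul D dg V) := by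
  have q := qis_congr (dg := dg) e he
  exact ⟨fun i => (AddFun.rv_eq_of_map _ (q.h1 i) (fun x hx => q.h2 i x hx.2) (q.h3 i)
    (q.h4 i)).1, AddFun.finH_eul_of_qis _ q.h1 q.h2 q.h3 q.h4⟩
theorem mfin_iff : δ.MFin D dg V ↔ ∀ i, δ.hm (cx D dg V) (fam dg ⊤) (fam dg ⊥) i :=
  ⟨fun h => h.hm, fun h => ⟨h, (Set.finite_range fun a => (dg a : ℤ)).subset fun i hi => by
    by_contra hc
    exact hi (cyc_le_bdy_of_ne fun a e => hc ⟨a, e⟩)⟩⟩
end Coeff

section Len
variable {T : Type*} [CommRing T] {B : Type*} [CommRing B] [Algebra T B]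
  {V : Type*} [AddCommGroup V] [Module B V] [Module T V] [IsScalarTower T B V]
  {ι ι' : Type} [Fintype ι] [Fintype ι'] [DecidableEq ι] [DecidableEq ι']
  {D : Matrix ι ι B} {dg : ι → ℕ} {D' : Matrix ι' ι' B} {dg' : ι' → ℕ}

theorem MHEq.mlen_eq (h : MHEq D dg D' dg') (i : ℤ) : mlen T D dg V i = mlen T D' dg' V i := by
  obtain ⟨φ, q⟩ := h.qis T V
  exact rl_eq_of_map φ (q.h1 i) (q.h2 i) (q.h3 i) (q.h4 i)
theorem mlen_congr {B' : Type*} [CommRing B'] [Algebra T B'] {V' : Type*} [AddCommGroup V']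
    [Module B' V'] [Module T V'] [IsScalarTower T B' V'] {E : Matrix ι ι B'}
    (hD : IsMC D (zd dg)) (hE : IsMC E (zd dg)) (e : V ≃ₗ[T] V')
    (he : ∀ a b x, e (D a b • x) = E a b • e x) (i : ℤ) :
    mlen T D dg V i = mlen T E dg V' i := by
  have q := qis_congr (dg := dg) e he
  exact rl_eq_of_map _ (q.h1 i) (q.h2 i) (q.h3 i) (q.h4 i)
theorem rl_prod {M M' : Type*} [AddCommGroup M] [Module T M] [AddCommGroup M'] [Module T M']
    (P Q : Submodule T M) (P' Q' : Submodule T M') :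
    rl (P.prod P') (Q.prod Q') = rl P Q + rl P' Q' := by
  rw [rl_eq_of_surj (M' := P.map Q.mkQ × P'.map Q'.mkQ)
    (LinearMap.prod
      (LinearMap.codRestrict _ (Q.mkQ ∘ₗ LinearMap.fst T M M' ∘ₗ (P.prod P').subtype)
        fun x => ⟨_, x.2.1, rfl⟩)
      (LinearMap.codRestrict _ (Q'.mkQ ∘ₗ LinearMap.snd T M M' ∘ₗ (P.prod P').subtype)
        fun x => ⟨_, x.2.2, rfl⟩)), Module.length_prod, rl, rl]
  · rintro ⟨⟨_, x, hx, rfl⟩, ⟨_, y, hy, rfl⟩⟩
    exact ⟨⟨(x, y), hx, hy⟩, rfl⟩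
  · intro x
    rw [Prod.ext_iff, Subtype.ext_iff, Subtype.ext_iff]
    exact and_congr (Submodule.Quotient.mk_eq_zero _) (Submodule.Quotient.mk_eq_zero _)
theorem mlen_fromBlocks (i : ℤ) :
    mlen T (Matrix.fromBlocks D 0 0 D') (Sum.elim dg dg') V i =
      mlen T D dg V i + mlen T D' dg' V i := by
  set φ := LinearEquiv.sumArrowLequivProdArrow ι ι' T V with hφ
  have c : ∀ x, φ (act T V (Matrix.fromBlocks D 0 0 D') x) =
      (act T V D (φ x).1, act T V D' (φ x).2) := fun x => by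
    ext a <;> simp [hφ, act_apply, Fintype.sum_sum_type]
  have m : ∀ i x, x ∈ fam (Sum.elim dg dg') (⊤ : Submodule T V) i ↔
      (φ x).1 ∈ fam dg (⊤ : Submodule T V) i ∧ (φ x).2 ∈ fam dg' (⊤ : Submodule T V) i :=
    fun i x => by simp [hφ, mem_fam]
  have k1 : ∀ x, φ x ∈ (cyc (cx D dg V) (fam dg (⊤ : Submodule T V)) (fam dg ⊥) i).prod
      (cyc (cx D' dg' V) (fam dg' (⊤ : Submodule T V)) (fam dg' ⊥) i) ↔
      x ∈ cyc (cx (Matrix.fromBlocks D 0 0 D') (Sum.elim dg dg') V)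
        (fam (Sum.elim dg dg') (⊤ : Submodule T V)) (fam (Sum.elim dg dg') ⊥) i := fun x => by
    rw [Submodule.mem_prod, mem_cyc', mem_cyc', mem_cyc', m, ← φ.map_eq_zero_iff, c,
      Prod.mk_eq_zero]
    tauto
  have k2 : ∀ x, φ x ∈ (bdy (cx D dg V) (fam dg (⊤ : Submodule T V)) (fam dg ⊥) i).prod
      (bdy (cx D' dg' V) (fam dg' (⊤ : Submodule T V)) (fam dg' ⊥) i) ↔
      x ∈ bdy (cx (Matrix.fromBlocks D 0 0 D') (Sum.elim dg dg') V)
        (fam (Sum.elim dg dg') (⊤ : Submodule T V)) (fam (Sum.elim dg dg') ⊥) i := fun x => by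
    rw [Submodule.mem_prod, mem_bdy', mem_bdy', mem_bdy']
    constructor
    · rintro ⟨⟨w, hw, h⟩, w', hw', h'⟩
      refine ⟨φ.symm (w, w'), (m _ _).2 (by simpa using ⟨hw, hw'⟩), φ.injective ?_⟩
      rw [c, φ.apply_symm_apply, ← h, ← h']
    · rintro ⟨w, hw, rfl⟩
      rw [c]
      exact ⟨⟨_, ((m _ _).1 hw).1, rfl⟩, _, ((m _ _).1 hw).2, rfl⟩
  rw [mlen, mlen, mlen, hl, hl, hl, ← rl_prod]
  refine rl_eq_of_map (φ : (ι ⊕ ι' → V) →ₗ[T] _) (fun x hx => (k1 x).2 hx)
    (fun x hx => (k2 x).2 hx) (fun y hy => ?_) fun x _ hx => (k2 x).1 hx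
  obtain ⟨x, rfl⟩ := φ.surjective y
  exact ⟨x, (k1 x).1 hy, by simp⟩
omit [DecidableEq ι] in
theorem rl_fam (K : Type*) [Field K] (i : ℤ) :
    rl (fam dg (⊤ : Submodule K K) i) (fam dg ⊥ i) =
      ((Finset.univ.filter fun a => (dg a : ℤ) = i).card : ℕ) := by
  rw [fam_eq_pi, fam_eq_pi, rl_pi, Finset.card_filter, Nat.cast_sum]
  refine Finset.sum_congr rfl fun a _ => ?_
  split_ifs
  · rw [rl_bot, Submodule.topEquiv.length_eq]; simp
  · simp [rl_self]
theorem mlen_zero_matrix (K : Type*) [Field K] (i : ℕ) :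
    mlen K (0 : Matrix ι ι K) dg K i = ((Finset.univ.filter fun a => dg a = i).card : ℕ) := by
  have e1 : cyc (cx (0 : Matrix ι ι K) dg K) (fam dg (⊤ : Submodule K K)) (fam dg ⊥) i =
      fam dg ⊤ i := by
    ext v; rw [mem_cyc']; exact and_iff_left (funext fun a => by simp [act_apply])
  have e2 : bdy (cx (0 : Matrix ι ι K) dg K) (fam dg (⊤ : Submodule K K)) (fam dg ⊥) i =
      fam dg ⊥ i := by
    have z : ∀ w : ι → K, act K K (0 : Matrix ι ι K) w = 0 :=
      fun w => funext fun a => by simp [act_apply]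
    ext v; rw [mem_bdy', fam_bot]
    simp only [z, Submodule.mem_bot]
    exact ⟨fun ⟨_, _, h⟩ => h, fun h => ⟨0, zero_mem _, h⟩⟩
  rw [mlen, hl, e1, e2, rl_fam]
  simp
theorem meul_lenFun {T : Type u} [CommRing T] [Algebra T B] {V : Type u} [AddCommGroup V]
    [Module B V] [Module T V] [IsScalarTower T B V] {n : ℕ} (hn : ∀ a, dg a ≤ n) :
    ((lenFun T).MFin D dg V ↔ ∀ i : ℕ, mlen T D dg V i ≠ ⊤) ∧ (lenFun T).meul D dg V =
      ∑ i ∈ Finset.range (n + 1), (-1 : ℝ) ^ i * ((mlen T D dg V i).toNat : ℝ) := by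
  constructor
  · rw [mfin_iff]
    refine ⟨fun h i => h i, fun h i => ?_⟩
    rcases i with i | i
    · exact h i
    · change mlen T D dg V _ ≠ ⊤
      rw [mlen_eq_zero_of_forall_ne fun a => by omega]; simp
  · rw [AddFun.meul, AddFun.eul_eq_sum ((Finset.range (n + 1)).map Nat.castEmbedding),
      Finset.sum_map]
    · exact Finset.sum_congr rfl fun i _ => by
        rw [Nat.castEmbedding_apply, sgn_natCast]; push_cast; rfl
    · exact fun i hi => cyc_le_bdy_of_ne fun a e => hi (Finset.mem_map.2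
        ⟨dg a, Finset.mem_range.2 (Nat.lt_succ_of_le (hn a)), e⟩)
end Len

section Alt
variable {A : Type*} [CommRing A] {ι ι' : Type} [Fintype ι] [Fintype ι'] [DecidableEq ι]
  [DecidableEq ι'] {D : Matrix ι ι A} {dg : ι → ℕ} {D' : Matrix ι' ι' A} {dg' : ι' → ℕ}

omit [DecidableEq ι] in
theorem meul_field {K : Type*} [Field K] {E : Matrix ι ι K} (hE : IsMC E (zd dg)) :
    (lenFun K).MFin E dg K ∧ (lenFun K).meul E dg K = sAlt dg 0 := by
  classical
  have := (lenFun K).finH_eul_of_terms (isPair_top_bot (T := K) (V := K) hE)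
    (Finset.univ.image fun a => (dg a : ℤ))
    (fun i hi v hv => by
      rw [mem_fam] at hv ⊢
      have : ∀ a, (dg a : ℤ) ≠ i := fun a e => hi (Finset.mem_image.2 ⟨a, by simp, e⟩)
      exact fun a => ⟨fun e => absurd e (this a), (hv a).2⟩)
    (fun i => by rw [lenFun_rm, rl_fam]; simp)
  refine ⟨this.1, this.2.trans ?_⟩
  simp only [lenFun_rv, rl_fam, ENat.toNat_natCast, sAlt, zero_le, if_true, Nat.sub_zero]
  push_cast
  rw [← Finset.sum_fiberwise_of_maps_to (s := Finset.univ) (t := Finset.univ.image fun a =>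
    (dg a : ℤ)) (g := fun a => (dg a : ℤ)) fun a ha => Finset.mem_image_of_mem _ ha]
  refine Finset.sum_congr rfl fun i _ => ?_
  rw [Finset.sum_congr rfl (g := fun _ => (sgn i : ℝ)) fun a ha => by
    rw [← (Finset.mem_filter.1 ha).2, sgn_natCast]; push_cast; rfl]
  simp [mul_comm]

/-- The Euler characteristic of the ranks is a homotopy invariant. -/
theorem MHEq.sAlt_zero [Nontrivial A] (hD : IsMC D (zd dg)) (hD' : IsMC D' (zd dg'))
    (h : MHEq D dg D' dg') : sAlt dg 0 = sAlt dg' 0 := by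
  obtain ⟨m, hm⟩ := Ideal.exists_maximal A
  letI := Ideal.Quotient.field m
  have a := meul_field (K := A ⧸ m) (isMC_map hD (Ideal.Quotient.mk m))
  have b := meul_field (K := A ⧸ m) (isMC_map hD' (Ideal.Quotient.mk m))
  have c := ((h.map (Ideal.Quotient.mk m)).meul_eq (δ := lenFun (A ⧸ m)) (V := A ⧸ m)).2 a.1
  exact_mod_cast a.2.symm.trans (c.symm.trans b.2)
end Alt

end Vale.Agent.P177
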