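import Vale.Agent.P177.Ind
import Vale.Agent.P177.MC

/-! P177 module GenAux2: auxiliary lemmas for the second half of Gen. -/

namespace Vale.Agent.P177.Gen2

open Vale.Agent.P202 IsLocalRing

universe u

section InA
variable {R : Type u} [CommRing R] [IsLocalRing R] {I : Ideal R}
  {M : Type u} [AddCommGroup M] [Module R M] {N : Type u} [AddCommGroup N] [Module R N]

theorem inA_zero (h : Subsingleton M) : InA I M :=
  ⟨inferInstance, 0, fun _ _ => Submodule.mem_sup_right
    (Module.mem_annihilator.2 fun _ => Subsingleton.elim _ _)⟩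

theorem inA_inj [IsNoetherianRing R] (f : M →ₗ[R] N) (hf : Function.Injective f) (h : InA I N) :
    InA I M := by
  obtain ⟨h1, n, hn⟩ := h
  exact ⟨Module.Finite.of_injective f hf, n,
    hn.trans (sup_le_sup_left (f.annihilator_le_of_injective hf) _)⟩

theorem inA_surj (f : M →ₗ[R] N) (hf : Function.Surjective f) (h : InA I M) : InA I N := by
  obtain ⟨h1, n, hn⟩ := h
  exact ⟨Module.Finite.of_surjective f hf, n,
    hn.trans (sup_le_sup_left (f.annihilator_le_of_surjective hf) _)⟩

theorem inA_ext (P : Submodule R M) (h : InA I P) (h' : InA I (M ⧸ P)) : InA I M := by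
  obtain ⟨h1, n, hn⟩ := h
  obtain ⟨h2, k, hk⟩ := h'
  refine ⟨Module.Finite.of_submodule_quotient P, n + k, ?_⟩
  rw [pow_add]
  refine (Ideal.mul_mono hn hk).trans (Ideal.mul_le.2 fun a ha b hb => ?_)
  obtain ⟨a1, ha1, a2, ha2, rfl⟩ := Submodule.mem_sup.1 ha
  obtain ⟨b1, hb1, b2, hb2, rfl⟩ := Submodule.mem_sup.1 hb
  rw [add_mul, mul_add a2]
  refine add_mem (Submodule.mem_sup_left (I.mul_mem_right _ ha1)) (add_mem
    (Submodule.mem_sup_left (I.mul_mem_left _ hb1))
    (Submodule.mem_sup_right (Module.mem_annihilator.2 fun x => ?_)))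
  have e : b2 • x ∈ P := (Submodule.Quotient.mk_eq_zero P).1
    (Module.mem_annihilator.1 hb2 (Submodule.Quotient.mk x))
  rw [mul_smul]
  exact congrArg Subtype.val (Module.mem_annihilator.1 ha2 ⟨_, e⟩)

theorem length_ne_top [IsNoetherianRing R] [hM : Module.Finite R M] {k : ℕ}
    (h : maximalIdeal R ^ k ≤ Module.annihilator R M) : Module.length R M ≠ ⊤ := by
  induction hM using IsNoetherianRing.induction_on_isQuotientEquivQuotientPrime R with
  | subsingleton N => rw [Module.length_eq_zero]; exact ENat.zero_ne_top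
  | quotient N p e =>
    rw [e.annihilator_eq, Ideal.annihilator_quotient] at h
    have e1 : maximalIdeal R = p.1 := (maximalIdeal.isMaximal R).eq_of_le p.2.ne_top
      fun x hx => p.2.mem_of_pow_mem k (h (Ideal.pow_mem_pow hx k))
    have : IsSimpleModule R N :=
      isSimpleModule_iff_quot_maximal.2 ⟨p.1, e1 ▸ maximalIdeal.isMaximal R, ⟨e⟩⟩
    rw [Module.length_eq_one]
    exact ENat.one_ne_top
  | exact N₁ N₂ N₃ f g hf hg hfg h₁ h₃ =>
    rw [Module.length_eq_add_of_exact f g hf hg hfg]
    exact WithTop.add_ne_top.2 ⟨h₁ (h.trans (f.annihilator_le_of_injective hf)),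
      h₃ (h.trans (g.annihilator_le_of_surjective hg))⟩

theorem inA_of_finiteLength (h : IsFiniteLength R M) : InA I M := by
  induction h with
  | of_subsingleton => exact inA_zero inferInstance
  | @of_simple_quotient M _ _ P hs _ ih =>
    refine inA_ext P ih ?_
    obtain ⟨m, hm, ⟨e⟩⟩ := isSimpleModule_iff_quot_maximal.1 hs
    refine ⟨Module.Finite.equiv e.symm, 1, ?_⟩
    rw [e.annihilator_eq, Ideal.annihilator_quotient, eq_maximalIdeal hm, pow_one]
    exact le_sup_right

omit [IsLocalRing R] in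
theorem exists_surj [Module.Finite R M] (h : I ≤ Module.annihilator R M) :
    ∃ (k : ℕ) (π : (Fin k → R ⧸ I) →ₗ[R] M), Function.Surjective π ∧
      I ≤ Module.annihilator R (LinearMap.ker π) := by
  obtain ⟨k, s, hs⟩ := Module.Finite.exists_fin (R := R) (M := M)
  let g : Fin k → (R ⧸ I) →ₗ[R] M := fun j => I.liftQ (LinearMap.toSpanSingleton R M (s j))
    fun r hr => Module.mem_annihilator.1 (h hr) _
  refine ⟨k, ∑ j, g j ∘ₗ LinearMap.proj j, ?_, fun r hr => Module.mem_annihilator.2 fun x =>
    Subtype.ext (funext fun j => ?_)⟩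
  · rw [← LinearMap.range_eq_top, eq_top_iff, ← hs, Submodule.span_le]
    rintro _ ⟨j, rfl⟩
    refine ⟨Pi.single j (Submodule.Quotient.mk 1), ?_⟩
    rw [LinearMap.sum_apply, Finset.sum_eq_single j]
    · rw [LinearMap.comp_apply, LinearMap.proj_apply, Pi.single_eq_same]
      exact one_smul R (s j)
    · intro b _ hb
      simp [Pi.single_eq_of_ne hb]
    · simp
  · exact Module.mem_annihilator.1 (Ideal.annihilator_quotient.ge hr) (x.1 j)
end InA

section Dev
variable {R : Type u} [CommRing R] {δ : AddFun R} {V : Type u} [AddCommGroup V] [Module R V]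

theorem val_mem [IsNoetherianRing R] [hF : Module.Finite R V] (S : AddSubmonoid ℝ)
    (hV : δ.mem V) (h : ∀ Q : Ideal R, Q.IsPrime → Module.annihilator R V ≤ Q → δ.mem (R ⧸ Q) →
      δ.val (R ⧸ Q) ∈ S) : δ.val V ∈ S := by
  induction hF using IsNoetherianRing.induction_on_isQuotientEquivQuotientPrime R with
  | subsingleton N =>
    rw [δ.val_zero inferInstance]
    exact zero_mem _
  | quotient N p e =>
    rw [δ.val_equiv _ _ e hV]
    exact h _ p.2 (by rw [e.annihilator_eq, Ideal.annihilator_quotient]) ((δ.mem_equiv e).1 hV)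
  | exact N₁ N₂ N₃ f g hf hg hfg h₁ h₃ =>
    rw [δ.val_exact f g hf hg hfg hV]
    exact add_mem (h₁ (δ.mem_inj _ _ f hf hV) fun Q hQ hle =>
        h Q hQ ((f.annihilator_le_of_injective hf).trans hle))
      (h₃ (δ.mem_surj _ _ g hg hV) fun Q hQ hle =>
        h Q hQ ((g.annihilator_le_of_surjective hg).trans hle))

theorem val_finiteLength [IsLocalRing R] (hk : δ.mem (R ⧸ maximalIdeal R))
    (hV : IsFiniteLength R V) :
    δ.mem V ∧ δ.val V = ((Module.length R V).toNat : ℝ) * δ.val (R ⧸ maximalIdeal R) := by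
  induction hV with
  | of_subsingleton =>
    rw [Module.length_eq_zero, δ.val_zero inferInstance]
    exact ⟨δ.mem_zero _ inferInstance, by simp⟩
  | @of_simple_quotient M _ _ P hs hP ih =>
    obtain ⟨m, hm, ⟨e⟩⟩ := isSimpleModule_iff_quot_maximal.1 hs
    obtain rfl := eq_maximalIdeal hm
    have h1 := (δ.mem_equiv e).2 hk
    have h2 := δ.mem_ext M P ih.1 h1
    refine ⟨h2, ?_⟩
    rw [δ.val_add M P h2, ih.2, δ.val_equiv _ _ e h1, Module.length_eq_add_of_exact P.subtype
      P.mkQ P.subtype_injective P.mkQ_surjective (LinearMap.exact_subtype_mkQ P),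
      Module.length_eq_one R (M ⧸ P), ENat.toNat_add (Module.length_ne_top_iff.2 hP)
        ENat.one_ne_top]
    simp [add_mul]
end Dev

section Four
variable {T : Type u} [CommRing T] {L : AddFun T} {ι : Type} [Fintype ι] {G : Matrix ι ι T}
  {dg : ι → ℕ} {K W C : Type u} [AddCommGroup K] [Module T K] [AddCommGroup W] [Module T W]
  [AddCommGroup C] [Module T C]

theorem cx_comp (ψ : K →ₗ[T] W) (x : ι → K) :
    ψ.compLeft ι (cx G dg K x) = cx G dg W (ψ.compLeft ι x) := by
  funext a
  simp [cx_apply]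

omit [Fintype ι] in
theorem comp_mem (ψ : K →ₗ[T] W) {i : ℤ} {x : ι → K} (hx : x ∈ fam dg (⊤ : Submodule T K) i) :
    ψ.compLeft ι x ∈ fam dg (⊤ : Submodule T W) i :=
  mem_fam.2 fun a => ⟨fun _ => trivial, fun h => by simp [(mem_fam.1 hx a).2 h]⟩

omit [Fintype ι] in
theorem lift_fam (ψ : K →ₗ[T] W) {i : ℤ} {y : ι → W} (hy : y ∈ fam dg (⊤ : Submodule T W) i)
    (h : ∀ a, y a ∈ Set.range ψ) :
    ∃ x ∈ fam dg (⊤ : Submodule T K) i, ψ.compLeft ι x = y := by
  choose x hx using h
  refine ⟨fun a => if (dg a : ℤ) = i then x a else 0,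
    mem_fam.2 fun a => ⟨fun _ => trivial, fun h => if_neg h⟩, funext fun a => ?_⟩
  by_cases h : (dg a : ℤ) = i
  · simp [h, hx]
  · simp [h, (mem_fam.1 hy a).2 h]

theorem indP_congr {M M' : Type u} [AddCommGroup M] [Module T M] [AddCommGroup M'] [Module T M']
    {φ φ' : M →ₗ[T] M'} {P Q : Submodule T M} {P' Q' : Submodule T M'}
    (h : ∀ x ∈ P, φ x - φ' x ∈ Q') : L.indP φ P Q P' Q' = L.indP φ' P Q P' Q' := by
  have k : ∀ {ψ ψ' : M →ₗ[T] M'}, (∀ x ∈ P, ψ x - ψ' x ∈ Q') →
      Q' ⊔ P.map ψ ≤ Q' ⊔ P.map ψ' ∧ P ⊓ Q'.comap ψ ≤ P ⊓ Q'.comap ψ' := fun {ψ ψ'} h => by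
    refine ⟨sup_le le_sup_left ?_, fun x hx => ⟨hx.1, ?_⟩⟩
    · rintro _ ⟨x, hx, rfl⟩
      exact Submodule.mem_sup.2 ⟨_, h x hx, ψ' x, ⟨x, hx, rfl⟩, sub_add_cancel _ _⟩
    · have := sub_mem (show ψ x ∈ Q' from hx.2) (h x hx.1)
      rwa [sub_sub_cancel] at this
  have h' : ∀ x ∈ P, φ' x - φ x ∈ Q' := fun x hx => by
    rw [← neg_sub]
    exact neg_mem (h x hx)
  rw [AddFun.indP, AddFun.indP, le_antisymm (k h).1 (k h').1, le_antisymm (k h).2 (k h').2]

/-- The Euler characteristics of kernel and cokernel of a map of coefficient modules. -/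
theorem meul_four [DecidableEq ι] (hG : IsMC G (zd dg)) (f : K →ₗ[T] W) (φ : W →ₗ[T] W)
    (g : W →ₗ[T] C) (hf : Function.Injective f) (h1 : Function.Exact f φ)
    (h2 : Function.Exact φ g) (hg : Function.Surjective g) (hK : L.MFin G dg K)
    (hC : L.MFin G dg C) :
    L.meul G dg C - L.meul G dg K = ∑ i ∈ Finset.univ.image fun a => (dg a : ℤ),
      (sgn i : ℝ) * L.indP (φ.compLeft ι)
        (cyc (cx G dg W) (fam dg (⊤ : Submodule T W)) (fam dg ⊥) i)
        (bdy (cx G dg W) (fam dg (⊤ : Submodule T W)) (fam dg ⊥) i)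
        (cyc (cx G dg W) (fam dg (⊤ : Submodule T W)) (fam dg ⊥) i)
        (bdy (cx G dg W) (fam dg (⊤ : Submodule T W)) (fam dg ⊥) i) := by
  have e : fam dg (⊥ : Submodule T W) = fun _ => ⊥ := funext (fam_bot _)
  have p : IsPair (cx G dg W) (fam dg (⊤ : Submodule T W)) fun _ => ⊥ :=
    e ▸ isPair_top_bot hG
  have pK := (AddFun.ia_pair_ker (φ.compLeft ι) p (cx_comp φ)).2
  have pC := (AddFun.ia_pair_im (φ.compLeft ι) p p (fun _ _ => comp_mem φ) (cx_comp φ)).1
  have i1 : PairIso (cx G dg K) (fam dg (⊤ : Submodule T K)) (fam dg ⊥) (cx G dg W)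
      (fun i => fam dg (⊤ : Submodule T W) i ⊓ LinearMap.ker (φ.compLeft ι)) (fun _ => ⊥)
      (f.compLeft ι) 1 0 := by
    refine ⟨fun i x hx => ⟨by rw [add_zero]; exact comp_mem f hx,
      funext fun a => h1.apply_apply_eq_zero _⟩, fun i x hx => ?_, fun i y hy => ?_,
      fun i x _ hx => ?_, fun i x _ => ?_⟩
    · rw [fam_bot] at hx
      rw [(Submodule.mem_bot T).1 hx, map_zero]
      exact zero_mem _
    · rw [add_zero] at hy
      obtain ⟨x, hx, rfl⟩ := lift_fam f hy.1 fun a => (h1 _).1 (congrFun hy.2 a)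
      exact ⟨x, hx, by rw [sub_self]; exact zero_mem _⟩
    · rw [fam_bot]
      exact funext fun a => hf ((congrFun hx a).trans (map_zero f).symm)
    · rw [one_smul, cx_comp, sub_self]
      exact zero_mem _
  have i2 : PairIso (cx G dg W) (fam dg (⊤ : Submodule T W))
      (fun i => (fam dg (⊤ : Submodule T W) i).map (φ.compLeft ι)) (cx G dg C)
      (fam dg (⊤ : Submodule T C)) (fam dg ⊥) (g.compLeft ι) 1 0 := by
    refine ⟨fun i x hx => by rw [add_zero]; exact comp_mem g hx, ?_, fun i y hy => ?_,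
      fun i x hx hx' => ?_, fun i x _ => ?_⟩
    · rintro i _ ⟨x, -, rfl⟩
      rw [fam_bot]
      exact funext fun a => h2.apply_apply_eq_zero _
    · rw [add_zero] at hy
      obtain ⟨x, hx, rfl⟩ := lift_fam g hy fun a => hg _
      exact ⟨x, hx, by rw [sub_self]; exact zero_mem _⟩
    · rw [fam_bot] at hx'
      exact lift_fam φ hx fun a => (h2 _).1 (congrFun hx' a)
    · rw [one_smul, cx_comp, sub_self]
      exact zero_mem _
  have q1 := AddFun.finH_eul_of_pairIso (δ := L) i1 (isPair_top_bot hG) pK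
  have q2 := AddFun.finH_eul_of_pairIso (δ := L) i2 pC (isPair_top_bot hG)
  have k := (AddFun.eul_ind (δ := L) (φ.compLeft ι) p p (fun _ _ => comp_mem φ) (cx_comp φ)
    (Finset.univ.image fun a => (dg a : ℤ)) (fun i hi => by
      have : fam dg (⊤ : Submodule T W) i = ⊥ := eq_bot_iff.2 fun x hx => funext fun a =>
        (mem_fam.1 hx a).2 fun h => hi (Finset.mem_image.2 ⟨a, Finset.mem_univ _, h⟩)
      exact ⟨this, this⟩) (q1.1.1 hK) (q2.1.2 hC)).2
  rw [e, ← k, q1.2 hK, AddFun.meul, AddFun.meul, q2.2 (q2.1.2 hC), sgn_zero]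
  simp
end Four

section Loc
variable {R : Type*} [CommRing R] (S : Submonoid R) {M N : Type*} [AddCommGroup M] [Module R M]
  [AddCommGroup N] [Module R N] [Module (Localization S) N] [IsScalarTower R (Localization S) N]
  (f : M →ₗ[R] N) [IsLocalizedModule S f]

include f in
theorem length_loc :
    Module.length (Localization S) (LocalizedModule S M) = Module.length (Localization S) N :=
  ((IsLocalizedModule.iso S f).extendScalarsOfIsLocalization S (Localization S)).length_eq

theorem rl_loc (P Q : Submodule R M) :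
    Module.length (Localization S) (LocalizedModule S (P.map Q.mkQ)) =
      rl (P.localized' (Localization S) S f) (Q.localized' (Localization S) S f) := by
  rw [length_loc S ((P.map Q.mkQ).toLocalized' (Localization S) S
    (Q.toLocalizedQuotient' (Localization S) S f)), rl]
  have : (P.map Q.mkQ).localized' (Localization S) S
      (Q.toLocalizedQuotient' (Localization S) S f) =
      (P.localized' (Localization S) S f).map (Q.localized' (Localization S) S f).mkQ := by
    rw [Submodule.localized'_eq_span _ _ _ (P.map Q.mkQ), Submodule.localized'_eq_span _ _ _ P,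
      Submodule.map_span, Submodule.map_coe, Set.image_image, Set.image_image]
    rfl
  rw [this]

variable {S f}
theorem loc_map {d : M →ₗ[R] M} {d' : N →ₗ[Localization S] N} (hd : ∀ x, f (d x) = d' (f x))
    (P : Submodule R M) :
    (P.map d).localized' (Localization S) S f = (P.localized' (Localization S) S f).map d' := by
  rw [Submodule.localized'_eq_span, Submodule.localized'_eq_span, Submodule.map_span,
    Submodule.map_coe, Set.image_image, Set.image_image]
  simp only [hd]

theorem loc_ker {d : M →ₗ[R] M} {d' : N →ₗ[Localization S] N} (hd : ∀ x, f (d x) = d' (f x)) :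
    (LinearMap.ker d).localized' (Localization S) S f = LinearMap.ker d' := by
  refine le_antisymm ?_ fun y hy => ?_
  · rw [Submodule.localized'_eq_span, Submodule.span_le]
    rintro _ ⟨x, hx, rfl⟩
    show d' (f x) = 0
    rw [← hd, LinearMap.mem_ker.1 hx, map_zero]
  · obtain ⟨⟨x, s⟩, e : s • y = f x⟩ := IsLocalizedModule.surj S f y
    have h0 : f (d x) = 0 := by
      rw [hd, ← e, Submonoid.smul_def, d'.map_smul_of_tower, LinearMap.mem_ker.1 hy, smul_zero]
    obtain ⟨t, ht⟩ := (IsLocalizedModule.eq_zero_iff S f).1 h0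
    refine ⟨t • x, ?_, t * s, ?_⟩
    · rw [LinearMap.mem_ker, Submonoid.smul_def, map_smul]
      exact ht
    · rw [IsLocalizedModule.mk'_cancel_left, IsLocalizedModule.mk'_eq_iff, e]
end Loc

section Loc2
variable {R : Type*} [CommRing R]

theorem length_loc_quot (Q : Ideal R) [Q.IsPrime] :
    Module.length (Localization.AtPrime Q) (LocalizedModule Q.primeCompl (R ⧸ Q)) = 1 := by
  rw [length_loc Q.primeCompl (Submodule.toLocalizedQuotient' (Localization.AtPrime Q)
    Q.primeCompl (Algebra.linearMap R (Localization.AtPrime Q)) Q), Ideal.localized'_eq_map,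
    Localization.AtPrime.map_eq_maximalIdeal, Module.length_eq_one_iff]
  exact isSimpleModule_iff_quot_maximal.2 ⟨_, maximalIdeal.isMaximal _, ⟨LinearEquiv.refl _ _⟩⟩

theorem length_loc_exact (S : Submonoid R) {M₁ M₂ M₃ : Type*} [AddCommGroup M₁] [Module R M₁]
    [AddCommGroup M₂] [Module R M₂] [AddCommGroup M₃] [Module R M₃] {f : M₁ →ₗ[R] M₂}
    {g : M₂ →ₗ[R] M₃} (hf : Function.Injective f) (hg : Function.Surjective g)
    (h : Function.Exact f g) : Module.length (Localization S) (LocalizedModule S M₂) =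
      Module.length (Localization S) (LocalizedModule S M₁) +
        Module.length (Localization S) (LocalizedModule S M₃) :=
  Module.length_eq_add_of_exact (LocalizedModule.map S f) (LocalizedModule.map S g)
    (LocalizedModule.map_injective S f hf) (LocalizedModule.map_surjective S g hg)
    (LocalizedModule.map_exact S f g h)

/-- The projection to the entries of degree different from `i`. -/
def prj (A : Type*) [CommRing A] {ι : Type} (dg : ι → ℕ) (i : ℤ) : (ι → A) →ₗ[A] (ι → A) :=
  LinearMap.pi fun a => if (dg a : ℤ) = i then 0 else LinearMap.proj a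

theorem fam_eq_ker (A : Type*) [CommRing A] {ι : Type} (dg : ι → ℕ) (i : ℤ) :
    fam dg (⊤ : Submodule A A) i = LinearMap.ker (prj A dg i) := by
  ext v
  rw [mem_fam, LinearMap.mem_ker, funext_iff]
  refine forall_congr' fun a => ?_
  by_cases h : (dg a : ℤ) = i <;> simp [prj, h]

/-- Homology commutes with localisation. -/
theorem mlen_loc (S : Submonoid R) {ι : Type} [Fintype ι] (D : Matrix ι ι R) (dg : ι → ℕ)
    (i : ℤ) : Module.length (Localization S) (LocalizedModule S
      ((cyc (cx D dg R) (fam dg (⊤ : Submodule R R)) (fam dg ⊥) i).map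
        (bdy (cx D dg R) (fam dg (⊤ : Submodule R R)) (fam dg ⊥) i).mkQ)) =
      mlen (Localization S) (D.map (algebraMap R (Localization S))) dg (Localization S) i := by
  let f : (ι → R) →ₗ[R] (ι → Localization S) :=
    .pi fun a => Algebra.linearMap R (Localization S) ∘ₗ .proj a
  have hd : ∀ x, f (cx D dg R x) =
      cx (D.map (algebraMap R (Localization S))) dg (Localization S) (f x) := fun x => by
    funext a
    simp [f, cx_apply]
  have hf : ∀ j, (fam dg (⊤ : Submodule R R) j).localized' (Localization S) S f =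
      fam dg (⊤ : Submodule (Localization S) (Localization S)) j := fun j => by
    rw [fam_eq_ker, fam_eq_ker]
    refine loc_ker fun x => funext fun a => ?_
    by_cases h : (dg a : ℤ) = j <;> simp [f, prj, h]
  rw [rl_loc S f, mlen, hl, cyc, cyc, bdy, bdy, fam_bot, fam_bot, fam_bot, fam_bot, sup_bot_eq,
    sup_bot_eq, Submodule.comap_bot, Submodule.comap_bot, LinearMap.restrictScalars_self,
    LinearMap.restrictScalars_self, Submodule.localized'_inf, loc_ker hd, loc_map hd, hf, hf]
end Loc2

section Residue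
variable {A B : Type*} [CommRing A] [IsLocalRing A] [CommRing B] [IsLocalRing B]
  [Algebra A B] [IsLocalHom (algebraMap A B)]

theorem length_residue (h : ∀ b : B, ∃ a : A, b - algebraMap A B a ∈ maximalIdeal B) (M : Type*)
    [AddCommGroup M] [Module A M] [Module B M] [IsScalarTower A B M] :
    Module.length A M = Module.length B M := by
  have h1 : Function.Surjective (algebraMap (ResidueField A) (ResidueField B)) := by
    intro z
    obtain ⟨b, rfl⟩ := residue_surjective z
    obtain ⟨a, ha⟩ := h b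
    refine ⟨residue A a, ?_⟩
    rw [ResidueField.algebraMap_residue, eq_comm, ← sub_eq_zero, ← map_sub, residue_eq_zero_iff]
    exact ha
  have h2 : Module.length (ResidueField A) (ResidueField B) = 1 := by
    rw [Module.length_eq_of_surjective (R := ResidueField B) h1]
    exact Module.length_eq_one _ _
  rw [IsLocalRing.length_restrictScalars A B M, h2, mul_one]

theorem rl_residue (h : ∀ b : B, ∃ a : A, b - algebraMap A B a ∈ maximalIdeal B) {M : Type*}
    [AddCommGroup M] [Module A M] [Module B M] [IsScalarTower A B M] (P Q : Submodule B M) :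
    rl (P.restrictScalars A) (Q.restrictScalars A) = rl P Q := by
  rw [rl.eq_1 P Q, ← length_residue h (P.map Q.mkQ)]
  refine rl_eq_of_surj (LinearMap.codRestrict ((P.map Q.mkQ).restrictScalars A)
    (Q.mkQ.restrictScalars A ∘ₗ (P.restrictScalars A).subtype) fun x => ⟨x.1, x.2, rfl⟩) ?_ ?_
  · rintro ⟨_, x, hx, rfl⟩
    exact ⟨⟨x, hx⟩, rfl⟩
  · intro x
    exact ⟨fun h => (Submodule.Quotient.mk_eq_zero _).mp (congrArg Subtype.val h),
      fun h => Subtype.ext ((Submodule.Quotient.mk_eq_zero _).mpr h)⟩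

theorem mlen_residue (h : ∀ b : B, ∃ a : A, b - algebraMap A B a ∈ maximalIdeal B) (M : Type*)
    [AddCommGroup M] [Module A M] [Module B M] [IsScalarTower A B M] {ι : Type} [Fintype ι]
    (D : Matrix ι ι B) (dg : ι → ℕ) (i : ℤ) : mlen A D dg M i = mlen B D dg M i := by
  rw [mlen, mlen, hl, hl, ← rl_residue h]
  congr 1
  · ext v
    simp only [Submodule.restrictScalars_mem, mem_cyc, mem_fam, Submodule.mem_top,
      Submodule.mem_bot]
  · ext v
    simp only [Submodule.restrictScalars_mem, mem_bdy, mem_fam, Submodule.mem_top,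
      Submodule.mem_bot]
end Residue

end Vale.Agent.P177.Gen2
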