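import Vale.Agent.P177.Ind
import Vale.Agent.P177.MC

/-! P177: auxiliary lemmas for the section SES of the module Gen. -/

namespace Vale.Agent.P177.SESAux

open Vale.Agent.P202 RingTheory.Sequence
open scoped Pointwise

universe u

section Reg
variable {R : Type*} [CommRing R]

theorem reg_ext (rs : List R) : ∀ {M₁ M₂ M₃ : Type u} [AddCommGroup M₁] [Module R M₁]
    [AddCommGroup M₂] [Module R M₂] [AddCommGroup M₃] [Module R M₃] (f : M₁ →ₗ[R] M₂)
    (g : M₂ →ₗ[R] M₃), Function.Injective f → Function.Surjective g → Function.Exact f g →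
    IsWeaklyRegular M₁ rs → IsWeaklyRegular M₃ rs → IsWeaklyRegular M₂ rs := by
  induction rs with
  | nil => intros; exact .nil _ _
  | cons r rs ih =>
    intro M₁ M₂ M₃ _ _ _ _ _ _ f g hf hg h h1 h3
    rw [isWeaklyRegular_cons_iff] at h1 h3 ⊢
    refine ⟨isSMulRegular_of_range_eq_ker hf h.linearMap_ker_eq.symm h1.1 h3.1,
      ih (QuotSMulTop.map r f) (QuotSMulTop.map r g) ?_ (QuotSMulTop.map_surjective r hg)
        (QuotSMulTop.map_exact r h hg) h1.2 h3.2⟩
    rw [injective_iff_map_eq_zero]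
    intro x hx
    obtain ⟨x, rfl⟩ := Submodule.Quotient.mk_surjective _ x
    obtain ⟨y, -, hy⟩ := (Submodule.mem_smul_pointwise_iff_exists _ _ _).1
      ((Submodule.Quotient.mk_eq_zero _).1 hx)
    change r • y = f x at hy
    have h4 : g y = 0 := h3.1.right_eq_zero_of_smul (by rw [← map_smul, hy, h.apply_apply_eq_zero])
    obtain ⟨z, rfl⟩ := (h y).1 h4
    rw [← map_smul] at hy
    rw [← hf hy]
    exact (Submodule.Quotient.mk_eq_zero _).2 (Submodule.smul_mem_pointwise_smul _ _ _ trivial)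

theorem reg_quot_pow {M : Type u} [AddCommGroup M] [Module R M] {r : R} {rs : List R}
    (hr : IsSMulRegular M r) (h : IsWeaklyRegular (QuotSMulTop r M) rs) (t : ℕ) :
    IsWeaklyRegular (QuotSMulTop (r ^ (t + 1)) M) rs := by
  induction t with
  | zero => rwa [zero_add, pow_one]
  | succ t ih =>
    have l1 : (r • ⊤ : Submodule R M) ≤
        (r ^ (t + 1 + 1) • ⊤ : Submodule R M).comap (LinearMap.lsmul R M (r ^ (t + 1))) := by
      intro x hx
      obtain ⟨y, -, rfl⟩ := (Submodule.mem_smul_pointwise_iff_exists _ _ _).1 hx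
      rw [Submodule.mem_comap, LinearMap.lsmul_apply, smul_smul, ← pow_succ]
      exact Submodule.smul_mem_pointwise_smul _ _ _ trivial
    have l2 : (r ^ (t + 1 + 1) • ⊤ : Submodule R M) ≤ r ^ (t + 1) • ⊤ := by
      intro x hx
      obtain ⟨y, -, rfl⟩ := (Submodule.mem_smul_pointwise_iff_exists _ _ _).1 hx
      rw [pow_succ r (t + 1), mul_smul]
      exact Submodule.smul_mem_pointwise_smul _ _ ⊤ trivial
    refine reg_ext rs (Submodule.mapQ _ _ _ l1) (Submodule.factor l2) ?_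
      (Submodule.factor_surjective l2) ?_ h ih
    · rw [injective_iff_map_eq_zero]
      intro x hx
      obtain ⟨x, rfl⟩ := Submodule.Quotient.mk_surjective _ x
      obtain ⟨y, -, hy⟩ := (Submodule.mem_smul_pointwise_iff_exists _ _ _).1
        ((Submodule.Quotient.mk_eq_zero _).1 hx)
      rw [LinearMap.lsmul_apply, pow_succ, mul_smul] at hy
      rw [← (hr.pow (t + 1)) hy]
      exact (Submodule.Quotient.mk_eq_zero _).2 (Submodule.smul_mem_pointwise_smul _ _ _ trivial)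
    · intro x
      obtain ⟨x, rfl⟩ := Submodule.Quotient.mk_surjective _ x
      constructor
      · intro hx
        obtain ⟨y, -, rfl⟩ := (Submodule.mem_smul_pointwise_iff_exists _ _ _).1
          ((Submodule.Quotient.mk_eq_zero _).1 hx)
        exact ⟨Submodule.Quotient.mk y, rfl⟩
      · rintro ⟨y, hy⟩
        obtain ⟨y, rfl⟩ := Submodule.Quotient.mk_surjective _ y
        rw [← hy]
        exact (Submodule.Quotient.mk_eq_zero _).2
          (Submodule.smul_mem_pointwise_smul _ _ _ trivial)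

theorem reg_pow (t : ℕ) (rs : List R) : ∀ {M : Type u} [AddCommGroup M] [Module R M],
    IsWeaklyRegular M rs → IsWeaklyRegular M (rs.map (· ^ (t + 1))) := by
  induction rs with
  | nil => intros; exact .nil _ _
  | cons r rs ih =>
    intro M _ _ h
    rw [isWeaklyRegular_cons_iff] at h
    exact .cons (h.1.pow _) (ih (reg_quot_pow h.1 h.2 t))

theorem mem_span_smul_top {M : Type*} [AddCommGroup M] [Module R M] {n : ℕ} (b : Fin n → R)
    (x : M) : x ∈ (Ideal.span (Set.range b) • ⊤ : Submodule R M) ↔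
      ∃ v : Fin n → M, ∑ j, b j • v j = x := by
  constructor
  · intro h
    refine Submodule.smul_induction_on h (fun r hr m _ => ?_) ?_
    · obtain ⟨c, rfl⟩ := (Ideal.mem_span_range_iff_exists_fun).1 hr
      exact ⟨fun j => c j • m, by simp only [Finset.sum_smul, smul_smul, mul_comm]⟩
    · rintro _ _ ⟨v, rfl⟩ ⟨w, rfl⟩
      exact ⟨v + w, by simp only [Pi.add_apply, smul_add, Finset.sum_add_distrib]⟩
  · rintro ⟨v, rfl⟩
    exact Submodule.sum_mem _ fun j _ =>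
      Submodule.smul_mem_smul (Ideal.subset_span ⟨j, rfl⟩) trivial

end Reg

section Map
variable {T : Type u} [CommRing T] {δ : AddFun T} {B : Type*} [CommRing B] [Algebra T B]
  {ι : Type} [Fintype ι] {D : Matrix ι ι B} {dg : ι → ℕ}
  {V V' V'' : Type u} [AddCommGroup V] [Module B V] [Module T V] [IsScalarTower T B V]
  [AddCommGroup V'] [Module B V'] [Module T V'] [IsScalarTower T B V']
  [AddCommGroup V''] [Module B V''] [Module T V''] [IsScalarTower T B V'']

variable (T ι) in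
/-- The map on vectors induced by a map of coefficients. -/
def cmap (h : V →ₗ[B] V') : (ι → V) →ₗ[T] (ι → V') := (h.restrictScalars T).compLeft ι

omit [Fintype ι] in
theorem cmap_apply (h : V →ₗ[B] V') (v : ι → V) (a : ι) : cmap T ι h v a = h (v a) := rfl

theorem cmap_cx (h : V →ₗ[B] V') (v : ι → V) :
    cmap T ι h (cx D dg V v) = cx D dg V' (cmap T ι h v) := by
  funext a
  simp only [cmap_apply, cx_apply, map_sum, map_smul]

omit [Fintype ι] in
theorem cmap_fam (h : V →ₗ[B] V') {P : Submodule T V} {P' : Submodule T V'}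
    (hP : ∀ x ∈ P, h x ∈ P') (i : ℤ) : ∀ v ∈ fam dg P i, cmap T ι h v ∈ fam dg P' i := by
  intro v hv
  rw [mem_fam] at hv ⊢
  exact fun a => ⟨fun e => hP _ ((hv a).1 e), fun e => by rw [cmap_apply, (hv a).2 e, map_zero]⟩

theorem cmap_cyc (h : V →ₗ[B] V') (i : ℤ) :
    ∀ v ∈ cyc (cx D dg V) (fam dg (⊤ : Submodule T V)) (fam dg ⊥) i,
      cmap T ι h v ∈ cyc (cx D dg V') (fam dg (⊤ : Submodule T V')) (fam dg ⊥) i := by
  intro v hv
  rw [mem_cyc, fam_bot, Submodule.mem_bot] at hv ⊢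
  exact ⟨cmap_fam h (fun _ _ => Submodule.mem_top) i v hv.1, by rw [← cmap_cx, hv.2, map_zero]⟩

theorem cmap_bdy (h : V →ₗ[B] V') (i : ℤ) :
    ∀ v ∈ bdy (cx D dg V) (fam dg (⊤ : Submodule T V)) (fam dg ⊥) i,
      cmap T ι h v ∈ bdy (cx D dg V') (fam dg (⊤ : Submodule T V')) (fam dg ⊥) i := by
  intro v hv
  simp only [mem_bdy, fam_bot, Submodule.mem_bot, sub_eq_zero] at hv ⊢
  obtain ⟨w, hw, rfl⟩ := hv
  exact ⟨_, cmap_fam h (fun _ _ => Submodule.mem_top) _ w hw, cmap_cx h w⟩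

theorem pairIso_fam (h : V →ₗ[B] V') {P Q : Submodule T V} {P' Q' : Submodule T V'}
    (h1 : ∀ x ∈ P, h x ∈ P') (h2 : ∀ x ∈ Q, h x ∈ Q') (h3 : ∀ y ∈ P', ∃ x ∈ P, y - h x ∈ Q')
    (h4 : ∀ x ∈ P, h x ∈ Q' → x ∈ Q) :
    PairIso (cx D dg V) (fam dg P) (fam dg Q) (cx D dg V') (fam dg P') (fam dg Q')
      (cmap T ι h) 1 0 where
  map_top i := by rw [add_zero]; exact cmap_fam h h1 i
  map_bot i := by rw [add_zero]; exact cmap_fam h h2 i
  surj i y hy := by
    rw [add_zero] at hy ⊢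
    rw [mem_fam] at hy
    have : ∀ a, ∃ x, (((dg a : ℤ) = i → x ∈ P) ∧ ((dg a : ℤ) ≠ i → x = 0)) ∧
        ((dg a : ℤ) = i → y a - h x ∈ Q') ∧ ((dg a : ℤ) ≠ i → y a - h x = 0) := fun a => by
      by_cases e : (dg a : ℤ) = i
      · obtain ⟨x, a1, a2⟩ := h3 _ ((hy a).1 e)
        exact ⟨x, ⟨fun _ => a1, fun e' => absurd e e'⟩, fun _ => a2, fun e' => absurd e e'⟩
      · exact ⟨0, ⟨fun e' => absurd e' e, fun _ => rfl⟩, fun e' => absurd e' e,
          fun _ => by rw [(hy a).2 e, map_zero, sub_zero]⟩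
    choose x hx using this
    exact ⟨x, mem_fam.2 fun a => (hx a).1, mem_fam.2 fun a => (hx a).2⟩
  inj i x hx hx' := by
    rw [add_zero] at hx'
    rw [mem_fam] at hx hx' ⊢
    exact fun a => ⟨fun e => h4 _ ((hx a).1 e) ((hx' a).1 e), (hx a).2⟩
  comm i x _ := by rw [cmap_cx, one_smul, sub_self]; exact zero_mem _

theorem ses_data (hD : IsMC D (zd dg)) {f : V →ₗ[B] V'} {g : V' →ₗ[B] V''}
    (hf : Function.Injective f) (hg : Function.Surjective g) (h : Function.Exact f g) :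
    ∃ A' : ℤ → Submodule T (ι → V'),
      IsPair (cx D dg V') (fam dg (⊤ : Submodule T V')) A' ∧
      IsPair (cx D dg V') A' (fam dg (⊥ : Submodule T V')) ∧
      PairIso (cx D dg V) (fam dg (⊤ : Submodule T V)) (fam dg ⊥) (cx D dg V') A' (fam dg ⊥)
        (cmap T ι f) 1 0 ∧
      PairIso (cx D dg V') (fam dg (⊤ : Submodule T V')) A' (cx D dg V'') (fam dg ⊤) (fam dg ⊥)
        (cmap T ι g) 1 0 := by
  have s : ∀ a b, ∀ x ∈ (LinearMap.ker g).restrictScalars T,
      D a b • x ∈ (LinearMap.ker g).restrictScalars T := fun a b x hx =>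
    (LinearMap.ker g).smul_mem _ hx
  refine ⟨fam dg ((LinearMap.ker g).restrictScalars T),
    isPair_fam hD le_top (fun _ _ _ _ => trivial) s, isPair_fam hD bot_le s fun a b x hx => ?_,
    pairIso_fam f (fun x _ => h.apply_apply_eq_zero x) (fun x hx => ?_) (fun y hy => ?_)
      fun x _ hx => ?_,
    pairIso_fam g (fun _ _ => trivial) (fun x hx => hx) (fun y _ => ?_) fun x _ hx => hx⟩
  · rw [Submodule.mem_bot] at hx ⊢
    rw [hx, smul_zero]
  · rw [Submodule.mem_bot] at hx ⊢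
    rw [hx, map_zero]
  · obtain ⟨x, rfl⟩ := (h y).1 hy
    exact ⟨x, trivial, by rw [sub_self]; exact zero_mem _⟩
  · rw [Submodule.mem_bot] at hx ⊢
    exact hf (by rw [hx, map_zero])
  · obtain ⟨x, rfl⟩ := hg y
    exact ⟨x, trivial, by rw [sub_self]; exact zero_mem _⟩

/-- The long exact sequence, in numerical form. -/
theorem les (hD : IsMC D (zd dg)) {f : V →ₗ[B] V'} {g : V' →ₗ[B] V''}
    (hf : Function.Injective f) (hg : Function.Surjective g) (h : Function.Exact f g) :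
    ∃ (pa pb pc : ℤ → Prop) (a b c : ℤ → ℝ) (α β γ : ℤ → ℕ∞),
      (∀ i, (δ.hm (cx D dg V') (fam dg ⊤) (fam dg ⊥) i ↔ pb i ∧ pa i) ∧
        (δ.hm (cx D dg V') (fam dg ⊤) (fam dg ⊥) i →
          δ.hv (cx D dg V') (fam dg ⊤) (fam dg ⊥) i = b i + a i)) ∧
      (∀ i, (δ.hm (cx D dg V'') (fam dg ⊤) (fam dg ⊥) i ↔ pc i ∧ pb i) ∧
        (δ.hm (cx D dg V'') (fam dg ⊤) (fam dg ⊥) i →
          δ.hv (cx D dg V'') (fam dg ⊤) (fam dg ⊥) i = c i + b i)) ∧
      (∀ i, (δ.hm (cx D dg V) (fam dg ⊤) (fam dg ⊥) i ↔ pa i ∧ pc (i + 1)) ∧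
        (δ.hm (cx D dg V) (fam dg ⊤) (fam dg ⊥) i →
          δ.hv (cx D dg V) (fam dg ⊤) (fam dg ⊥) i = a i + c (i + 1))) ∧
      ((∀ (M : Type u) [AddCommGroup M] [Module T M], δ.mem M → 0 ≤ δ.val M) →
        (∀ i, pa i → 0 ≤ a i) ∧ (∀ i, pb i → 0 ≤ b i) ∧
          (∀ i, pc i → pb i → 0 ≤ c i) ∧ ∀ i, pc (i + 1) → pa i → 0 ≤ c (i + 1)) ∧
      (∀ i, mlen T D dg V' i = α i + β i) ∧ (∀ i, mlen T D dg V'' i = β i + γ i) ∧
      (∀ i, mlen T D dg V i = γ (i + 1) + α i) ∧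
      ∀ i, (∀ x ∈ cyc (cx D dg V) (fam dg (⊤ : Submodule T V)) (fam dg ⊥) i,
        cmap T ι f x ∈ bdy (cx D dg V') (fam dg (⊤ : Submodule T V')) (fam dg ⊥) i) →
        pa i ∧ a i = 0 ∧ α i = 0 := by
  obtain ⟨A', p1, p2, q1, q2⟩ := ses_data (T := T) hD hf hg h
  obtain ⟨pa, pb, pc, a, b, c, e1, e2, e3, h1, h2, h3, -⟩ := AddFun.ia_les (δ := δ) p1 p2
  obtain ⟨α, β, γ, k1, k2, k3, k4⟩ := exists_les p1 p2
  have t1 := fun i => AddFun.hm_iff_of_pairIso (δ := δ) q1 (isPair_top_bot hD) p2 i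
  have t2 := fun i => AddFun.hm_iff_of_pairIso (δ := δ) q2 p1 (isPair_top_bot hD) i
  have t3 := q1.hl_eq (isPair_top_bot hD) p2
  have t4 := q2.hl_eq p1 (isPair_top_bot hD)
  simp only [add_zero] at t1 t2 t3 t4
  refine ⟨pa, pb, pc, a, b, c, α, β, γ, h1,
    fun i => ⟨(t2 i).1.symm.trans (h2 i).1, fun m => ?_⟩,
    fun i => ⟨(t1 i).1.trans (h3 i).1, fun m => ?_⟩, fun hn => ⟨fun i m => ?_, fun i m => ?_,
      fun i m m' => ?_, fun i m m' => ?_⟩, k1, fun i => (t4 i).symm.trans (k2 i),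
      fun i => (t3 i).trans (k3 i), fun i hi => ?_⟩
  · rw [← (t2 i).2.1 ((t2 i).1.2 m), (h2 i).2 ((t2 i).1.2 m)]
  · rw [(t1 i).2.1 m, (h3 i).2 ((t1 i).1.1 m)]
  · rw [(e1 i).2]; exact hn _ ((e1 i).1.1 m)
  · rw [(e2 i).2]; exact hn _ ((e2 i).1.1 m)
  · rw [e3]
    exact hn _ (AddFun.rm_mono le_rfl (AddFun.ia_sup_eq (A'' := fam dg ⊥) p1 i ▸ le_sup_left)
      ((h2 i).1.2 ⟨m, m'⟩))
  · rw [e3]
    exact hn _ ((AddFun.ia_gamma p1 p2 i).1.2 (AddFun.rm_mono inf_le_left le_rfl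
      ((h3 i).1.2 ⟨m', m⟩)))
  · have l : cyc (cx D dg V') A' (fam dg ⊥) i ≤
        bdy (cx D dg V') (fam dg (⊤ : Submodule T V')) (fam dg ⊥) i := by
      intro y hy
      obtain ⟨x, hx, hxy⟩ := (AddFun.core_pairIso_maps q1 (isPair_top_bot hD) p2 i).2.2.1 y
        (by rwa [add_zero])
      rw [add_zero] at hxy
      obtain ⟨z, hz, hz'⟩ := mem_bdy.1 hxy
      have := add_mem (mem_bdy.2 ⟨z, p1.le _ hz, hz'⟩) (hi x hx)
      rwa [sub_add_cancel] at this
    exact ⟨(e1 i).1.2 (δ.rm_of_le l).1, (e1 i).2.trans (δ.rm_of_le l).2,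
      (k4 i).trans (rl_eq_zero_iff.2 l)⟩

theorem rm_top' (Q : Submodule B V) :
    (δ.rm ⊤ (Q.restrictScalars T) ↔ δ.mem (V ⧸ Q)) :=
  (δ.rm_iff_of_surj (Q := Q.restrictScalars T)
    (Q.mkQ.restrictScalars T ∘ₗ (⊤ : Submodule T V).subtype)
    (fun y => by
      obtain ⟨x, rfl⟩ := Q.mkQ_surjective y
      exact ⟨⟨x, trivial⟩, rfl⟩) fun x => Submodule.Quotient.mk_eq_zero Q).1

theorem kos_zero_map {n : ℕ} (b : Fin n → B) :
    ∃ g : cyc (cx (kos b) Finset.card V) (fam Finset.card (⊤ : Submodule T V))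
        (fam Finset.card ⊥) 0 →ₗ[T] V ⧸ (Ideal.span (Set.range b) • ⊤ : Submodule B V),
      Function.Surjective g ∧ ∀ x, g x = 0 ↔ x.1 ∈ bdy (cx (kos b) Finset.card V)
        (fam Finset.card (⊤ : Submodule T V)) (fam Finset.card ⊥) 0 := by
  have p := isPair_top_bot (T := T) (V := V) (isMC_kos' b)
  have e0 : ∀ w : Finset (Fin n) → V,
      cx (kos b) Finset.card V w ∅ = ∑ j, b j • w {j} := fun w => by
    rw [AddFun.ia_cx, matAct_kos_apply]
    refine Finset.sum_congr rfl fun j _ => ?_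
    rw [if_pos (Finset.notMem_empty j), ksgn, Finset.filter_empty, Finset.card_empty,
      Nat.cast_zero, sgn_zero, one_smul, insert_empty_eq]
  refine ⟨(Submodule.mkQ _).restrictScalars T ∘ₗ LinearMap.proj ∅ ∘ₗ Submodule.subtype _,
    fun y => ?_, fun x => ?_⟩
  · obtain ⟨y, rfl⟩ := Submodule.mkQ_surjective _ y
    have m : (Pi.single ∅ y : Finset (Fin n) → V) ∈ fam Finset.card (⊤ : Submodule T V) 0 :=
      mem_fam.2 fun S => ⟨fun _ => trivial, fun e => Pi.single_eq_of_ne (by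
        rintro rfl; exact e rfl) _⟩
    refine ⟨⟨Pi.single ∅ y, mem_cyc.2 ⟨m, mem_fam.2 fun S => ⟨fun e => by omega, fun _ =>
      (mem_fam.1 (p.top _ _ m) S).2 (by omega)⟩⟩⟩, ?_⟩
    simp
  · refine (Submodule.Quotient.mk_eq_zero _).trans ((mem_span_smul_top b _).trans ?_)
    simp only [mem_bdy, fam_bot, Submodule.mem_bot, sub_eq_zero]
    constructor
    · rintro ⟨v, hv⟩
      have m : (∑ j, Pi.single {j} (v j) : Finset (Fin n) → V) ∈
          fam Finset.card (⊤ : Submodule T V) (0 + 1) := Submodule.sum_mem _ fun j _ =>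
        mem_fam.2 fun S => ⟨fun _ => trivial, fun e => Pi.single_eq_of_ne (by
          rintro rfl; exact e rfl) _⟩
      refine ⟨_, m, funext fun S => ?_⟩
      by_cases e : S = ∅
      · rw [e, e0]
        refine hv.symm.trans (Finset.sum_congr rfl fun j _ => ?_)
        simp [Finset.sum_apply, Pi.single_apply]
      · have e' : (S.card : ℤ) ≠ 0 := by simpa using e
        rw [(mem_fam.1 (mem_cyc.1 x.2).1 S).2 e', (mem_fam.1 (p.les_d m) S).2 e']
    · rintro ⟨w, -, hw⟩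
      exact ⟨fun j => w {j}, (e0 w).symm.trans (congrFun hw ∅).symm⟩

end Map

end Vale.Agent.P177.SESAux
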