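import Vale.Agent.P177.Ind
import Vale.Agent.P177.MC
import Vale.Agent.P177.GenAux2
import Vale.Agent.P177.GenAuxSES

/-! P177 module Gen: exact sequences of coefficients, Koszul depth sensitivity, functionals
defined by a complex, devissage. -/

namespace Vale.Agent.P177

open Vale.Agent.P202 IsLocalRing TensorProduct

universe u

namespace AddFun
section Abbrev
variable {T : Type u} [CommRing T] (δ : AddFun T) {B : Type*} [CommRing B] [Algebra T B]
  {ι : Type} [Fintype ι]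

/-- The `i`-th homology of a matrix complex with coefficients in `V` lies in the class. -/
def mhm (D : Matrix ι ι B) (dg : ι → ℕ) (V : Type u) [AddCommGroup V] [Module B V] [Module T V]
    [IsScalarTower T B V] (i : ℤ) : Prop :=
  δ.hm (cx D dg V) (fam dg (⊤ : Submodule T V)) (fam dg ⊥) i

/-- The value on the `i`-th homology of a matrix complex with coefficients in `V`. -/
noncomputable def mhv (D : Matrix ι ι B) (dg : ι → ℕ) (V : Type u) [AddCommGroup V] [Module B V]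
    [Module T V] [IsScalarTower T B V] (i : ℤ) : ℝ :=
  δ.hv (cx D dg V) (fam dg (⊤ : Submodule T V)) (fam dg ⊥) i

/-- The functional takes nonnegative values. -/
def Nonneg : Prop := ∀ (M : Type u) [AddCommGroup M] [Module T M], δ.mem M → 0 ≤ δ.val M
end Abbrev

section SES
variable {T : Type u} [CommRing T] {δ : AddFun T} {B : Type*} [CommRing B] [Algebra T B]
  {ι : Type} [Fintype ι] [DecidableEq ι] {D : Matrix ι ι B} {dg : ι → ℕ}
  {V₁ V₂ V₃ : Type u} [AddCommGroup V₁] [Module B V₁] [Module T V₁] [IsScalarTower T B V₁]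
  [AddCommGroup V₂] [Module B V₂] [Module T V₂] [IsScalarTower T B V₂]
  [AddCommGroup V₃] [Module B V₃] [Module T V₃] [IsScalarTower T B V₃]
  {f : V₁ →ₗ[B] V₂} {g : V₂ →ₗ[B] V₃}

theorem Nonneg.val_le_of_inj (h : δ.Nonneg) {M M' : Type u} [AddCommGroup M] [Module T M]
    [AddCommGroup M'] [Module T M'] (φ : M →ₗ[T] M') (hφ : Function.Injective φ)
    (hm : δ.mem M') : δ.val M ≤ δ.val M' := by
  rw [δ.val_exact φ (LinearMap.range φ).mkQ hφ (Submodule.mkQ_surjective _)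
    (LinearMap.exact_map_mkQ_range φ) hm]
  exact le_add_of_nonneg_right (h _ (δ.mem_surj _ _ _ (Submodule.mkQ_surjective _) hm))
theorem Nonneg.val_le_of_surj (h : δ.Nonneg) {M M' : Type u} [AddCommGroup M] [Module T M]
    [AddCommGroup M'] [Module T M'] (φ : M →ₗ[T] M') (hφ : Function.Surjective φ)
    (hm : δ.mem M) : δ.val M' ≤ δ.val M := by
  rw [δ.val_exact (LinearMap.ker φ).subtype φ (Submodule.subtype_injective _) hφ
    (LinearMap.exact_subtype_ker_map φ) hm]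
  exact le_add_of_nonneg_left (h _ (δ.mem_inj _ _ _ (Submodule.subtype_injective _) hm))
theorem mfin_iff_mhm : δ.MFin D dg V₁ ↔ ∀ i, δ.mhm D dg V₁ i := mfin_iff
theorem meul_eq_sum {n : ℕ} (hn : ∀ a, dg a ≤ n) : δ.meul D dg V₁ =
    ∑ i ∈ Finset.range (n + 1), (-1 : ℝ) ^ i * δ.mhv D dg V₁ i := by
  rw [AddFun.meul, AddFun.eul_eq_sum ((Finset.range (n + 1)).map Nat.castEmbedding),
    Finset.sum_map]
  · exact Finset.sum_congr rfl fun i _ => by
      rw [Nat.castEmbedding_apply, sgn_natCast]; push_cast; rfl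
  · exact fun i hi => cyc_le_bdy_of_ne fun a e => hi (Finset.mem_map.2
      ⟨dg a, Finset.mem_range.2 (Nat.lt_succ_of_le (hn a)), e⟩)
theorem mhm_of_mlen_eq_zero {i : ℤ} (h : mlen T D dg V₁ i = 0) :
    δ.mhm D dg V₁ i ∧ δ.mhv D dg V₁ i = 0 := δ.rm_of_le (rl_eq_zero_iff.1 h)
theorem mhm_of_mem (hD : IsMC D (zd dg)) (h : δ.mem V₁) (i : ℤ) :
    δ.mhm D dg V₁ i ∧ (δ.Nonneg → δ.mhv D dg V₁ i ≤ Fintype.card ι * δ.val V₁) := by
  obtain ⟨h1, h2⟩ := δ.mem_pi (fun _ : ι => V₁) fun _ => h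
  have h3 := δ.mem_surj _ _ _ (Submodule.mkQ_surjective
    (bdy (cx D dg V₁) (fam dg (⊤ : Submodule T V₁)) (fam dg ⊥) i)) h1
  refine ⟨δ.mem_inj _ _ _ (Submodule.subtype_injective _) h3, fun hn => ?_⟩
  refine (hn.val_le_of_inj _ (Submodule.subtype_injective _) h3).trans
    ((hn.val_le_of_surj _ (Submodule.mkQ_surjective _) h1).trans (le_of_eq ?_))
  rw [h2, Finset.sum_const, nsmul_eq_mul, Finset.card_univ]
theorem mhm_equiv (hD : IsMC D (zd dg)) (e : V₁ ≃ₗ[B] V₂) (i : ℤ) :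
    (δ.mhm D dg V₁ i ↔ δ.mhm D dg V₂ i) ∧
      (δ.mhm D dg V₁ i → δ.mhv D dg V₁ i = δ.mhv D dg V₂ i) ∧
      mlen T D dg V₁ i = mlen T D dg V₂ i := by
  have q := qis_congr (dg := dg) (D := D) (E := D) (e.restrictScalars T) fun a b x => e.map_smul _ x
  have k := rv_eq_of_map (δ := δ) _ (q.h1 i) (fun x hx => q.h2 i x hx.2) (q.h3 i) (q.h4 i)
  exact ⟨k.1, k.2, rl_eq_of_map _ (q.h1 i) (q.h2 i) (q.h3 i) (q.h4 i)⟩
theorem mhm_prod (hD : IsMC D (zd dg)) (i : ℤ) :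
    (δ.mhm D dg (V₁ × V₂) i ↔ δ.mhm D dg V₁ i ∧ δ.mhm D dg V₂ i) ∧
      (δ.mhm D dg (V₁ × V₂) i →
        δ.mhv D dg (V₁ × V₂) i = δ.mhv D dg V₁ i + δ.mhv D dg V₂ i) := by
  have p := (isPair_top_bot (T := T) (V := V₁ × V₂) hD).bdy_le_cyc i
  have s := rm_split (δ := δ) (B := cyc (cx D dg (V₁ × V₂)) (fam dg ⊤) (fam dg ⊥) i ⊓
    (bdy (cx D dg V₂) (fam dg (⊤ : Submodule T V₂)) (fam dg ⊥) i).comap
      (SESAux.cmap T ι (LinearMap.snd B V₁ V₂)))
    (fun x hx => ⟨p hx, SESAux.cmap_bdy _ i x hx⟩) inf_le_left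
  have e1 := rv_eq_of_map (δ := δ) (SESAux.cmap T ι (LinearMap.fst B V₁ V₂))
    (P := cyc (cx D dg (V₁ × V₂)) (fam dg ⊤) (fam dg ⊥) i ⊓
      (bdy (cx D dg V₂) (fam dg (⊤ : Submodule T V₂)) (fam dg ⊥) i).comap
        (SESAux.cmap T ι (LinearMap.snd B V₁ V₂)))
    (Q := bdy (cx D dg (V₁ × V₂)) (fam dg ⊤) (fam dg ⊥) i)
    (fun x hx => SESAux.cmap_cyc _ i x hx.1) (fun x hx => SESAux.cmap_bdy _ i x hx.2)
    (fun y hy => ⟨SESAux.cmap T ι (LinearMap.inl B V₁ V₂) y,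
      ⟨SESAux.cmap_cyc _ i y hy,
        zero_mem (bdy (cx D dg V₂) (fam dg (⊤ : Submodule T V₂)) (fam dg ⊥) i)⟩, by
        rw [show SESAux.cmap T ι (LinearMap.fst B V₁ V₂)
          (SESAux.cmap T ι (LinearMap.inl B V₁ V₂) y) = y from rfl, sub_self]
        exact zero_mem _⟩)
    fun x hx hx' => by
      have := add_mem (SESAux.cmap_bdy (LinearMap.inl B V₁ V₂) i _ hx')
        (SESAux.cmap_bdy (LinearMap.inr B V₁ V₂) i _ hx.2)
      convert this using 1
      funext a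
      simp [SESAux.cmap_apply]
  have e2 := rv_eq_of_map (δ := δ) (SESAux.cmap T ι (LinearMap.snd B V₁ V₂))
    (P := cyc (cx D dg (V₁ × V₂)) (fam dg ⊤) (fam dg ⊥) i)
    (Q := cyc (cx D dg (V₁ × V₂)) (fam dg ⊤) (fam dg ⊥) i ⊓
      (bdy (cx D dg V₂) (fam dg (⊤ : Submodule T V₂)) (fam dg ⊥) i).comap
        (SESAux.cmap T ι (LinearMap.snd B V₁ V₂)))
    (Q' := bdy (cx D dg V₂) (fam dg (⊤ : Submodule T V₂)) (fam dg ⊥) i)
    (SESAux.cmap_cyc _ i) (fun x hx => hx.2.2)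
    (fun y hy => ⟨SESAux.cmap T ι (LinearMap.inr B V₁ V₂) y, SESAux.cmap_cyc _ i y hy, by
      rw [show SESAux.cmap T ι (LinearMap.snd B V₁ V₂)
        (SESAux.cmap T ι (LinearMap.inr B V₁ V₂) y) = y from rfl, sub_self]
      exact zero_mem _⟩) fun x hx hx' => ⟨hx, hx'⟩
  refine ⟨s.1.trans (and_congr e1.1 e2.1), fun h => (s.2 h).trans ?_⟩
  rw [e1.2 (s.1.1 h).1, e2.2 (s.1.1 h).2]
  rfl
theorem mhm_pi (hD : IsMC D (zd dg)) (n : ℕ) {i : ℤ} (h : δ.mhm D dg V₁ i) :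
    δ.mhm D dg (Fin n → V₁) i ∧ δ.mhv D dg (Fin n → V₁) i = n * δ.mhv D dg V₁ i := by
  induction n with
  | zero =>
    rw [Nat.cast_zero, zero_mul]
    exact δ.rm_of_le fun x _ => by rw [Subsingleton.elim x 0]; exact zero_mem _
  | succ n ih =>
    have h1 := mhm_prod (δ := δ) (V₁ := V₁) (V₂ := Fin n → V₁) hD i
    have h2 := mhm_equiv (δ := δ) hD (Fin.consLinearEquiv B fun _ : Fin (n + 1) => V₁) i
    have h3 := h1.1.2 ⟨h, ih.1⟩
    refine ⟨h2.1.1 h3, ?_⟩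
    rw [← h2.2.1 h3, h1.2 h3, ih.2]
    push_cast
    ring

/-- The long exact sequence, degree by degree. -/
theorem mhm_mid (hD : IsMC D (zd dg)) (hf : Function.Injective f) (hg : Function.Surjective g)
    (h : Function.Exact f g) {i : ℤ} (h1 : δ.mhm D dg V₁ i) (h3 : δ.mhm D dg V₃ i) :
    δ.mhm D dg V₂ i ∧ (δ.Nonneg → δ.mhv D dg V₂ i ≤ δ.mhv D dg V₁ i + δ.mhv D dg V₃ i) := by
  obtain ⟨pa, pb, pc, a, b, c, -, -, -, k2, k3, k1, k4, -⟩ := SESAux.les (δ := δ) hD hf hg h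
  have m1 := (k1 i).1.1 h1
  have m3 := (k3 i).1.1 h3
  have m2 := (k2 i).1.2 ⟨m3.2, m1.1⟩
  refine ⟨m2, fun hn => ?_⟩
  obtain ⟨-, -, n3, n4⟩ := k4 hn
  rw [mhv, mhv, mhv, (k1 i).2 h1, (k2 i).2 m2, (k3 i).2 h3]
  linarith [n3 i m3.1 m3.2, n4 i m1.2 m1.1]
theorem mhm_quot (hD : IsMC D (zd dg)) (hf : Function.Injective f) (hg : Function.Surjective g)
    (h : Function.Exact f g) {i : ℤ} (h2 : δ.mhm D dg V₂ i) (h1 : δ.mhm D dg V₁ (i - 1)) :
    δ.mhm D dg V₃ i ∧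
      (δ.Nonneg → δ.mhv D dg V₃ i ≤ δ.mhv D dg V₂ i + δ.mhv D dg V₁ (i - 1)) := by
  obtain ⟨pa, pb, pc, a, b, c, -, -, -, k2, k3, k1, k4, -⟩ := SESAux.les (δ := δ) hD hf hg h
  have m1 := (k1 _).1.1 h1
  have m2 := (k2 i).1.1 h2
  rw [sub_add_cancel] at m1
  have m3 := (k3 i).1.2 ⟨m1.2, m2.1⟩
  refine ⟨m3, fun hn => ?_⟩
  obtain ⟨n1, -⟩ := k4 hn
  rw [mhv, mhv, mhv, (k1 _).2 h1, (k2 i).2 h2, (k3 i).2 m3, sub_add_cancel]
  linarith [n1 i m2.2, n1 _ m1.1]
theorem mhm_sub (hD : IsMC D (zd dg)) (hf : Function.Injective f) (hg : Function.Surjective g)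
    (h : Function.Exact f g) {i : ℤ} (h2 : δ.mhm D dg V₂ i) (h3 : δ.mhm D dg V₃ (i + 1)) :
    δ.mhm D dg V₁ i ∧
      (δ.Nonneg → δ.mhv D dg V₁ i ≤ δ.mhv D dg V₂ i + δ.mhv D dg V₃ (i + 1)) := by
  obtain ⟨pa, pb, pc, a, b, c, -, -, -, k2, k3, k1, k4, -⟩ := SESAux.les (δ := δ) hD hf hg h
  have m2 := (k2 i).1.1 h2
  have m3 := (k3 _).1.1 h3
  have m1 := (k1 i).1.2 ⟨m2.2, m3.1⟩
  refine ⟨m1, fun hn => ?_⟩
  obtain ⟨-, n2, -⟩ := k4 hn
  rw [mhv, mhv, mhv, (k1 i).2 m1, (k2 i).2 h2, (k3 _).2 h3]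
  linarith [n2 i m2.1, n2 _ m3.2]
theorem mlen_mid (hD : IsMC D (zd dg)) (hf : Function.Injective f) (hg : Function.Surjective g)
    (h : Function.Exact f g) (i : ℤ) :
    mlen T D dg V₂ i ≤ mlen T D dg V₁ i + mlen T D dg V₃ i := by
  obtain ⟨-, -, -, -, -, -, α, β, γ, -, -, -, -, k2, k3, k1, -⟩ :=
    SESAux.les (δ := lenFun T) hD hf hg h
  rw [k1, k2, k3]
  exact add_le_add le_add_self le_self_add
theorem meul_add_of_exact (hD : IsMC D (zd dg)) (hf : Function.Injective f)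
    (hg : Function.Surjective g) (h : Function.Exact f g) (h1 : δ.MFin D dg V₁)
    (h3 : δ.MFin D dg V₃) :
    δ.MFin D dg V₂ ∧ δ.meul D dg V₂ = δ.meul D dg V₁ + δ.meul D dg V₃ := by
  obtain ⟨A', p1, p2, q1, q2⟩ := SESAux.ses_data (T := T) hD hf hg h
  have t1 := finH_eul_of_pairIso (δ := δ) q1 (isPair_top_bot hD) p2
  have t2 := finH_eul_of_pairIso (δ := δ) q2 p1 (isPair_top_bot hD)
  refine ⟨FinH.mid p1 p2 (t2.1.2 h3) (t1.1.1 h1), ?_⟩
  rw [meul, meul, meul, eul_add p1 p2 (t2.1.2 h3) (t1.1.1 h1), t1.2 h1, t2.2 (t2.1.2 h3), sgn_zero]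
  push_cast
  ring

/-- Depth shift: if the regular sequence `q` acts on `V₁` like null-homotopic scalars then
`H_i (V₁)` is a quotient of `H_(i + |q|) (V₁ / q V₁)`. -/
theorem mhm_depth (hD : IsMC D (zd dg)) (q : List B)
    (hq : RingTheory.Sequence.IsWeaklyRegular V₁ q)
    (hn : ∀ r ∈ q, ∃ r', NullHtp D dg r' ∧ ∀ v : V₁, r • v = r' • v) (i : ℤ) :
    mlen T D dg V₁ i ≤ mlen T D dg (V₁ ⧸ (Ideal.ofList q • ⊤ : Submodule B V₁)) (i + q.length) ∧
    (δ.mhm D dg (V₁ ⧸ (Ideal.ofList q • ⊤ : Submodule B V₁)) (i + q.length) →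
      δ.mhm D dg V₁ i ∧ (δ.Nonneg → δ.mhv D dg V₁ i ≤
        δ.mhv D dg (V₁ ⧸ (Ideal.ofList q • ⊤ : Submodule B V₁)) (i + q.length))) := by
  induction q generalizing V₁ i with
  | nil =>
    have e := mhm_equiv (δ := δ) hD (Submodule.quotEquivOfEqBot
      (Ideal.ofList ([] : List B) • ⊤ : Submodule B V₁) (by simp)) i
    rw [List.length_nil, Nat.cast_zero, add_zero]
    exact ⟨e.2.2.ge, fun h => ⟨e.1.1 h, fun _ => (e.2.1 h).ge⟩⟩
  | cons r q ih =>
    rw [RingTheory.Sequence.isWeaklyRegular_cons_iff] at hq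
    obtain ⟨j1, j2⟩ := ih hq.2 (fun s hs => by
      obtain ⟨s', a1, a2⟩ := hn s (List.mem_cons_of_mem _ hs)
      refine ⟨s', a1, fun v => ?_⟩
      obtain ⟨v, rfl⟩ := Submodule.Quotient.mk_surjective _ v
      rw [← Submodule.Quotient.mk_smul, a2, Submodule.Quotient.mk_smul]) (i + 1)
    have e := mhm_equiv (δ := δ) hD
      (Submodule.quotOfListConsSMulTopEquivQuotSMulTopInner V₁ r q) (i + 1 + q.length)
    obtain ⟨pa, pb, pc, a, b, c, α, β, γ, -, k3, k1, k4, -, l3, l1, k5⟩ :=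
      SESAux.les (δ := δ) (f := LinearMap.lsmul B V₁ r) (V'' := QuotSMulTop r V₁)
        (g := Submodule.mkQ _) hD hq.1 (Submodule.mkQ_surjective _) fun x =>
          (Submodule.Quotient.mk_eq_zero _).trans
            ((Submodule.mem_smul_pointwise_iff_exists _ _ _).trans
              ⟨fun ⟨y, _, h⟩ => ⟨y, h⟩, fun ⟨y, h⟩ => ⟨y, trivial, h⟩⟩)
    obtain ⟨r', a1, a2⟩ := hn r List.mem_cons_self
    obtain ⟨b1, b2, b3⟩ := k5 i fun x hx => by
      have := a1.smul_mem_bdy i x hx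
      convert this using 1
      exact funext fun a => a2 _
    rw [List.length_cons, Nat.cast_succ, add_comm (q.length : ℤ), ← add_assoc]
    refine ⟨?_, fun h => ?_⟩
    · rw [e.2.2, l1, b3, add_zero]
      exact le_trans (by rw [l3]; exact le_add_self) j1
    · obtain ⟨c1, c2⟩ := j2 (e.1.1 h)
      have m3 := (k3 _).1.1 c1
      have m1 := (k1 i).1.2 ⟨b1, m3.1⟩
      refine ⟨m1, fun hn => ?_⟩
      rw [e.2.1 h]
      refine le_trans ?_ (c2 hn)
      rw [mhv, mhv, (k1 i).2 m1, (k3 _).2 c1, b2]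
      linarith [(k4 hn).2.1 _ m3.2]

/-- The zeroth Koszul homology. -/
theorem mhm_kos_zero {n : ℕ} (b : Fin n → B) :
    (δ.mhm (kos b) Finset.card V₁ 0 ↔
      δ.mem (V₁ ⧸ (Ideal.span (Set.range b) • ⊤ : Submodule B V₁))) ∧
    (δ.mem (V₁ ⧸ (Ideal.span (Set.range b) • ⊤ : Submodule B V₁)) →
      δ.mhv (kos b) Finset.card V₁ 0 =
        δ.val (V₁ ⧸ (Ideal.span (Set.range b) • ⊤ : Submodule B V₁))) ∧
    mlen T (kos b) Finset.card V₁ 0 =
      Module.length T (V₁ ⧸ (Ideal.span (Set.range b) • ⊤ : Submodule B V₁)) := by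
  obtain ⟨g, h1, h2⟩ := SESAux.kos_zero_map (T := T) (V := V₁) b
  have h3 := δ.rm_iff_of_surj g h1 h2
  exact ⟨h3.1, h3.2, rl_eq_of_surj g h1 h2⟩
theorem mlen_kos_of_regular {n : ℕ} {b : Fin n → B}
    (hb : RingTheory.Sequence.IsWeaklyRegular V₁ (List.ofFn b)) {i : ℤ} (hi : i ≠ 0) :
    mlen T (kos b) Finset.card V₁ i = 0 := by
  rcases lt_or_gt_of_ne hi with h | h
  · exact mlen_eq_zero_of_forall_ne fun a => by omega
  · have h1 := (mhm_depth (δ := lenFun T) (isMC_kos' b) _ hb (fun r hr =>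
      ⟨r, nullHtp_kos b (Ideal.subset_span (List.mem_ofFn.1 hr)), fun _ => rfl⟩) i).1
    rw [mlen_eq_zero_of_forall_ne (i := i + _) fun S => by
      have := Finset.card_le_univ S
      rw [Fintype.card_fin] at this
      rw [List.length_ofFn]
      omega] at h1
    exact nonpos_iff_eq_zero.1 h1
theorem meul_kos_of_exact {n : ℕ} {b : Fin n → B}
    (hb : ∀ i : ℤ, i ≠ 0 → mlen T (kos b) Finset.card V₁ i = 0)
    (hm : δ.mem (V₁ ⧸ (Ideal.span (Set.range b) • ⊤ : Submodule B V₁))) :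
    δ.MFin (kos b) Finset.card V₁ ∧ δ.meul (kos b) Finset.card V₁ =
      δ.val (V₁ ⧸ (Ideal.span (Set.range b) • ⊤ : Submodule B V₁)) := by
  have h0 := mhm_kos_zero (δ := δ) (V₁ := V₁) b
  refine ⟨mfin_iff_mhm.2 fun i => ?_, ?_⟩
  · by_cases hi : i = 0
    · rw [hi]; exact h0.1.2 hm
    · exact (mhm_of_mlen_eq_zero (hb i hi)).1
  · rw [meul, eul_eq_sum {0} fun i hi => rl_eq_zero_iff.1 (hb i (by simpa using hi)),
      Finset.sum_singleton, sgn_zero, Int.cast_one, one_mul]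
    exact h0.2.1 hm
/-- Powers of a regular sequence. -/
theorem val_quot_pow_regular {n : ℕ} {b : Fin n → B}
    (hb : RingTheory.Sequence.IsWeaklyRegular V₁ (List.ofFn b))
    (hm : δ.mem (V₁ ⧸ (Ideal.span (Set.range b) • ⊤ : Submodule B V₁))) {t : ℕ} (ht : 0 < t) :
    RingTheory.Sequence.IsWeaklyRegular V₁ (List.ofFn fun j => b j ^ t) ∧
    δ.mem (V₁ ⧸ (Ideal.span (Set.range fun j => b j ^ t) • ⊤ : Submodule B V₁)) ∧
    δ.val (V₁ ⧸ (Ideal.span (Set.range fun j => b j ^ t) • ⊤ : Submodule B V₁)) =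
      (t : ℝ) ^ n * δ.val (V₁ ⧸ (Ideal.span (Set.range b) • ⊤ : Submodule B V₁)) := by
  have h1 : RingTheory.Sequence.IsWeaklyRegular V₁ (List.ofFn fun j => b j ^ t) := by
    obtain ⟨s, rfl⟩ := Nat.exists_eq_succ_of_ne_zero ht.ne'
    have := SESAux.reg_pow s _ hb
    rwa [List.map_ofFn] at this
  obtain ⟨h2, h3⟩ := meul_kos_of_exact (fun _ hi => mlen_kos_of_regular hb hi) hm
  obtain ⟨h4, h5⟩ := kos_pow b h2 ht
  have h6 := (mhm_kos_zero _).1.1 (mfin_iff_mhm.1 h4 0)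
  refine ⟨h1, h6, ?_⟩
  rw [← (meul_kos_of_exact (fun _ hi => mlen_kos_of_regular h1 hi) h6).2, h5, h3,
    Fintype.card_fin]
theorem mem_quot_pow {J : Ideal B} (hJ : J.FG) (h : δ.mem (V₁ ⧸ (J • ⊤ : Submodule B V₁)))
    (N : ℕ) : δ.mem (V₁ ⧸ (J ^ N • ⊤ : Submodule B V₁)) := by
  obtain ⟨n, b, rfl⟩ := Submodule.fg_iff_exists_fin_generating_family.1 hJ
  rw [← SESAux.rm_top'] at h ⊢
  induction N with
  | zero => exact (δ.rm_of_le (by simp)).1
  | succ N ih =>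
    obtain ⟨φ, hφ⟩ : ∃ φ : (Fin n → V₁) →ₗ[T] V₁, ∀ x, φ x = ∑ j, b j • x j :=
      ⟨∑ j, (LinearMap.lsmul B V₁ (b j)).restrictScalars T ∘ₗ LinearMap.proj j,
        fun x => by simp⟩
    refine rm_trans h (rm_of_map_surj φ (fun x hx => ?_) (fun y hy => ?_)
      (rm_pi (fun _ : Fin n => ⊤) _ fun _ => ih).1)
    · rw [hφ, pow_succ', Submodule.mul_smul, Submodule.restrictScalars_mem]
      exact Submodule.sum_mem _ fun j _ =>
        Submodule.smul_mem_smul (Submodule.subset_span ⟨j, rfl⟩) (hx.2 j trivial)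
    · obtain ⟨v, rfl⟩ := (SESAux.mem_span_smul_top b y).1 hy
      refine ⟨v, fun _ _ => trivial, ?_⟩
      rw [hφ, sub_self]
      exact zero_mem _
end SES
end AddFun

section InA
variable {R : Type u} [CommRing R] [IsLocalRing R] [IsNoetherianRing R] {I : Ideal R}
  {V : Type u} [AddCommGroup V] [Module R V]

theorem inA_iff_local [Module.Finite R V] :
    InA I V ↔ ∀ x, UPt I x → ∃ t, t ∉ x.asIdeal ∧ t ∈ Module.annihilator R V := by
  refine ⟨fun ⟨_, N, hN⟩ x hx => ?_, fun h => ⟨inferInstance,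
    Ideal.exists_pow_le_of_le_radical_of_fg ?_ (IsNoetherian.noetherian _)⟩⟩
  · by_contra hc
    have h1 : Module.annihilator R V ≤ x.asIdeal := fun t ht => by
      by_contra h
      exact hc ⟨t, h, ht⟩
    exact hx.2 ((maximalIdeal.isMaximal R).eq_of_le x.2.ne_top fun r hr =>
      x.2.mem_of_pow_mem N ((hN.trans (sup_le hx.1 h1)) (Ideal.pow_mem_pow hr N))).symm
  · rw [Ideal.radical_eq_sInf]
    refine le_sInf fun P hP => ?_
    by_contra hc
    obtain ⟨t, h1, h2⟩ := h ⟨P, hP.2⟩ ⟨le_sup_left.trans hP.1, fun e => hc e.ge⟩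
    exact h1 (hP.1 (Submodule.mem_sup_right h2))
theorem inA_quot_iff {J : Ideal R} : InA I (R ⧸ J) ↔ ∃ N : ℕ, maximalIdeal R ^ N ≤ I ⊔ J := by
  rw [InA, Ideal.annihilator_quotient]
  exact and_iff_right inferInstance
theorem inA_bot_iff : InA (⊥ : Ideal R) V ↔ Module.length R V ≠ ⊤ :=
  ⟨fun ⟨_, _, h⟩ => Gen2.length_ne_top (by rwa [bot_sup_eq] at h),
    fun h => Gen2.inA_of_finiteLength (Module.length_ne_top_iff.1 h)⟩
/-- `InA I` is a Serre class: it carries the zero functional. -/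
theorem exists_zeroFun (I : Ideal R) : ∃ δ : AddFun R,
    (∀ (V : Type u) [AddCommGroup V] [Module R V], δ.mem V ↔ InA I V) ∧
    ∀ (V : Type u) [AddCommGroup V] [Module R V], δ.val V = 0 :=
  ⟨{ mem := fun V _ _ => InA I V
     val := fun _ _ _ => 0
     mem_zero := fun _ _ _ => Gen2.inA_zero
     mem_inj := fun _ _ _ _ _ _ => Gen2.inA_inj
     mem_surj := fun _ _ _ _ _ _ => Gen2.inA_surj
     mem_ext := fun _ _ _ => Gen2.inA_ext
     val_equiv := fun _ _ _ _ _ _ _ _ => rfl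
     val_add := fun _ _ _ _ _ => (add_zero _).symm }, fun _ _ _ => Iff.rfl, fun _ _ _ => rfl⟩

/-- The difference of two functionals on the same class. -/
theorem exists_sub (δ₁ δ₂ : AddFun R)
    (h : ∀ (V : Type u) [AddCommGroup V] [Module R V], δ₁.mem V ↔ δ₂.mem V) : ∃ δ : AddFun R,
    (∀ (V : Type u) [AddCommGroup V] [Module R V], δ.mem V ↔ δ₁.mem V) ∧
    (∀ (V : Type u) [AddCommGroup V] [Module R V], δ.val V = δ₁.val V - δ₂.val V) ∧
    (PropF I δ₁ → PropF I δ₂ → PropF I δ) := by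
  refine ⟨{ δ₁ with
      val := fun V _ _ => δ₁.val V - δ₂.val V
      val_equiv := fun M N _ _ _ _ e hm => by
        rw [δ₁.val_equiv M N e hm, δ₂.val_equiv M N e ((h M).1 hm)]
      val_add := fun M _ _ N hm => by
        rw [δ₁.val_add M N hm, δ₂.val_add M N ((h M).1 hm)]
        ring }, fun _ _ _ => Iff.rfl, fun _ _ _ => rfl, fun h1 h2 V _ _ _ φ φ' e a b => ?_⟩
  have e1 := h1 V φ φ' e a b
  have e2 := h2 V φ φ' e ⟨(h _).1 a.1, (h _).1 a.2⟩ ⟨(h _).1 b.1, (h _).1 b.2⟩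
  simp only [AddFun.ind] at e1 e2 ⊢
  linarith

variable {T : Type u} [CommRing T] [Algebra R T] (𝔉 : Type u) [AddCommGroup 𝔉]
  [Module R 𝔉] [Module T 𝔉] [IsScalarTower R T 𝔉] [Module.Flat R 𝔉]

/-- The functional defined by a complex with flat coefficients. For (F) apply `eul_ind` to the
chain map induced by an endomorphism; its kernel and cokernel complexes are the complexes of
the kernel and the cokernel (flatness), and `I` kills homology. -/
theorem exists_genFun (L : AddFun T) {ι : Type} [Fintype ι] [DecidableEq ι] {G : Matrix ι ι T}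
    {dg : ι → ℕ} (hG : IsMC G (zd dg))
    (hfin : ∀ (V : Type u) [AddCommGroup V] [Module R V], InA I V → L.MFin G dg (𝔉 ⊗[R] V)) :
    ∃ δ : AddFun R, (∀ (V : Type u) [AddCommGroup V] [Module R V], δ.mem V ↔ InA I V) ∧
      (∀ (V : Type u) [AddCommGroup V] [Module R V], δ.val V = L.meul G dg (𝔉 ⊗[R] V)) ∧
      ((∀ h ∈ I, NullHtp G dg (algebraMap R T h)) → PropF I δ) := by
  refine ⟨{
      mem := fun V _ _ => InA I V
      val := fun V _ _ => L.meul G dg (𝔉 ⊗[R] V)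
      mem_zero := fun _ _ _ => Gen2.inA_zero
      mem_inj := fun _ _ _ _ _ _ => Gen2.inA_inj
      mem_surj := fun _ _ _ _ _ _ => Gen2.inA_surj
      mem_ext := fun _ _ _ => Gen2.inA_ext
      val_equiv := fun M N _ _ _ _ e hm => ((meul_congr hG hG
        (AlgebraTensorModule.congr (LinearEquiv.refl T 𝔉) e) fun _ _ _ => map_smul _ _ _).2.2
          (hfin M hm)).symm
      val_add := fun M _ _ N hm => (AddFun.meul_add_of_exact
        (f := AlgebraTensorModule.lTensor T 𝔉 N.subtype)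
        (g := AlgebraTensorModule.lTensor T 𝔉 N.mkQ) hG
        (Module.Flat.lTensor_preserves_injective_linearMap _ N.subtype_injective)
        (LinearMap.lTensor_surjective 𝔉 N.mkQ_surjective)
        (lTensor_exact 𝔉 (LinearMap.exact_subtype_mkQ N) N.mkQ_surjective)
        (hfin _ (Gen2.inA_inj _ N.subtype_injective hm))
        (hfin _ (Gen2.inA_surj _ N.mkQ_surjective hm))).2 },
    fun _ _ _ => Iff.rfl, fun _ _ _ => rfl, fun hI V _ _ _ φ φ' e a b => ?_⟩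
  have k := fun (ψ : V →ₗ[R] V) (h1 : InA I (LinearMap.ker ψ))
      (h2 : InA I (V ⧸ LinearMap.range ψ)) => Gen2.meul_four (L := L) hG
    (AlgebraTensorModule.lTensor T 𝔉 (LinearMap.ker ψ).subtype)
    (AlgebraTensorModule.lTensor T 𝔉 ψ) (AlgebraTensorModule.lTensor T 𝔉 (LinearMap.range ψ).mkQ)
    (Module.Flat.lTensor_preserves_injective_linearMap _ (LinearMap.ker ψ).subtype_injective)
    (Module.Flat.lTensor_exact 𝔉 (LinearMap.exact_subtype_ker_map ψ))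
    (Module.Flat.lTensor_exact 𝔉 (LinearMap.exact_map_mkQ_range ψ))
    (LinearMap.lTensor_surjective 𝔉 (LinearMap.range ψ).mkQ_surjective) (hfin _ h1) (hfin _ h2)
  refine (k φ a.1 a.2).trans (Eq.trans (Finset.sum_congr rfl fun i _ => ?_) (k φ' b.1 b.2).symm)
  refine congrArg _ (Gen2.indP_congr fun x hx => ?_)
  have key : ∀ ψ ∈ (I • ⊤ : Submodule R (V →ₗ[R] V)),
      (AlgebraTensorModule.lTensor T 𝔉 ψ).compLeft ι x ∈
        bdy (cx G dg (𝔉 ⊗[R] V)) (fam dg (⊤ : Submodule T (𝔉 ⊗[R] V))) (fam dg ⊥) i := by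
    intro ψ hψ
    refine Submodule.smul_induction_on hψ (fun r hr ψ _ => ?_) fun ψ ψ' h h' => ?_
    · have := (hI r hr).smul_mem_bdy (T := T) i ((AlgebraTensorModule.lTensor T 𝔉 ψ).compLeft ι x)
        (mem_cyc.2 ⟨Gen2.comp_mem _ (mem_cyc.1 hx).1, by
          have h0 := (mem_cyc.1 hx).2
          rw [fam_bot] at h0 ⊢
          rw [← Gen2.cx_comp, (Submodule.mem_bot T).1 h0, map_zero]
          exact zero_mem _⟩)
      rw [algebraMap_smul] at this
      rw [map_smul]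
      exact this
    · rw [map_add]
      exact add_mem h h'
  have := key _ e
  rw [map_sub] at this
  exact this

/-- Syzygy induction over `R / J`, with constants that only depend on the module. -/
theorem syzygy_bound (J : Ideal R) (V : Type u) [AddCommGroup V] [Module R V] [Module.Finite R V]
    (hJ : J ≤ Module.annihilator R V) (n : ℕ) : ∃ K : ℝ, 0 ≤ K ∧
    ∀ (L : AddFun T) {ι : Type} [Fintype ι] [DecidableEq ι] (G : Matrix ι ι T) (dg : ι → ℕ),
      IsMC G (zd dg) → (∀ i, L.mhm G dg (𝔉 ⊗[R] (R ⧸ J)) i) → ∀ i : ℤ, i ≤ n →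
        L.mhm G dg (𝔉 ⊗[R] V) i ∧ (L.Nonneg → ∀ B : ℝ, 0 ≤ B →
          (∀ j, L.mhv G dg (𝔉 ⊗[R] (R ⧸ J)) j ≤ B) → L.mhv G dg (𝔉 ⊗[R] V) i ≤ K * B) := by
  suffices H : ∀ (m : ℕ) (V : Type u) [AddCommGroup V] [Module R V] [Module.Finite R V],
      J ≤ Module.annihilator R V → ∃ K : ℝ, 0 ≤ K ∧
      ∀ (L : AddFun T) {ι : Type} [Fintype ι] [DecidableEq ι] (G : Matrix ι ι T) (dg : ι → ℕ),
        IsMC G (zd dg) → (∀ i, L.mhm G dg (𝔉 ⊗[R] (R ⧸ J)) i) → ∀ i : ℤ, i < m →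
          L.mhm G dg (𝔉 ⊗[R] V) i ∧ (L.Nonneg → ∀ B : ℝ, 0 ≤ B →
            (∀ j, L.mhv G dg (𝔉 ⊗[R] (R ⧸ J)) j ≤ B) → L.mhv G dg (𝔉 ⊗[R] V) i ≤ K * B) by
    obtain ⟨K, h0, hK⟩ := H (n + 1) V hJ
    exact ⟨K, h0, fun L _ _ _ G dg hG h i hi => hK L G dg hG h i (by push_cast; omega)⟩
  intro m
  induction m with
  | zero =>
    refine fun V _ _ _ _ => ⟨0, le_rfl, fun L _ _ _ G dg _ _ i hi => ?_⟩
    have := AddFun.mhm_of_mlen_eq_zero (δ := L) (D := G) (dg := dg) (V₁ := 𝔉 ⊗[R] V) (i := i)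
      (mlen_eq_zero_of_forall_ne fun a => by omega)
    exact ⟨this.1, fun _ B _ _ => by rw [this.2, zero_mul]⟩
  | succ m ih =>
    intro V _ _ _ hV
    obtain ⟨k, π, hπ, hk⟩ := Gen2.exists_surj hV
    obtain ⟨K, h0, hK⟩ := ih (LinearMap.ker π) hk
    refine ⟨k + K, by positivity, fun L _ _ _ G dg hG h i hi => ?_⟩
    have h1 := hK L G dg hG h (i - 1) (by push_cast at hi; omega)
    have h2 := AddFun.mhm_pi hG k (h i)
    have h3 := AddFun.mhm_equiv (δ := L) hG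
      (TensorProduct.piRight R T 𝔉 fun _ : Fin k => R ⧸ J).symm i
    have h4 := AddFun.mhm_quot (f := AlgebraTensorModule.lTensor T 𝔉 (LinearMap.ker π).subtype)
      (g := AlgebraTensorModule.lTensor T 𝔉 π) hG
      (Module.Flat.lTensor_preserves_injective_linearMap _ (LinearMap.ker π).subtype_injective)
      (LinearMap.lTensor_surjective 𝔉 hπ)
      (Module.Flat.lTensor_exact 𝔉 (LinearMap.exact_subtype_ker_map π)) (h3.1.1 h2.1) h1.1
    refine ⟨h4.1, fun hL B hB hb => (h4.2 hL).trans ?_⟩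
    rw [← h3.2.1 h2.1, h2.2, add_mul]
    exact add_le_add (mul_le_mul_of_nonneg_left (hb i) (Nat.cast_nonneg k)) (h1.2 hL B hB hb)
end InA

section Dev
variable {R : Type u} [CommRing R] [IsNoetherianRing R] {δ : AddFun R}
  {V : Type u} [AddCommGroup V] [Module R V] [Module.Finite R V]

/-- Prime filtrations (`IsNoetherianRing.induction_on_isQuotientEquivQuotientPrime`). -/
theorem val_nonneg_of_primes (hV : δ.mem V)
    (h : ∀ Q : Ideal R, Q.IsPrime → Module.annihilator R V ≤ Q → δ.mem (R ⧸ Q) →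
      0 ≤ δ.val (R ⧸ Q)) :
    0 ≤ δ.val V ∧ ∀ Q ∈ (Module.annihilator R V).minimalPrimes, δ.mem (R ⧸ Q) ∧
      δ.val (R ⧸ Q) ≤ δ.val V := by
  refine ⟨Gen2.val_mem (AddSubmonoid.nonneg ℝ) hV h, fun Q hQ => ?_⟩
  obtain ⟨-, f, hf⟩ := (isAssociatedPrime_iff_exists_injective_linearMap _ _).1
    (Module.associatedPrimes.minimalPrimes_annihilator_subset_associatedPrimes R V hQ)
  have hs := (LinearMap.range f).mkQ_surjective
  refine ⟨δ.mem_inj _ _ f hf hV, ?_⟩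
  rw [δ.val_exact f _ hf hs (LinearMap.exact_map_mkQ_range f) hV]
  exact le_add_of_nonneg_right (Gen2.val_mem (AddSubmonoid.nonneg ℝ) (δ.mem_surj _ _ _ hs hV)
    fun P hP hle => h P hP ((LinearMap.annihilator_le_of_surjective _ hs).trans hle))
theorem val_eq_zero_of_primes (hV : δ.mem V)
    (h : ∀ Q : Ideal R, Q.IsPrime → Module.annihilator R V ≤ Q → δ.mem (R ⧸ Q) →
      δ.val (R ⧸ Q) = 0) : δ.val V = 0 := Gen2.val_mem ⊥ hV h

/-- Devissage at a prime. -/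
theorem val_eq_length_mul (Q : Ideal R) [Q.IsPrime] (hQ : δ.mem (R ⧸ Q))
    (h : ∀ Q' : Ideal R, Q'.IsPrime → Q < Q' → δ.val (R ⧸ Q') = 0) {k : ℕ}
    (hk : Q ^ k ≤ Module.annihilator R V) :
    δ.mem V ∧
    Module.length (Localization.AtPrime Q) (LocalizedModule Q.primeCompl V) ≠ ⊤ ∧
    δ.val V = ((Module.length (Localization.AtPrime Q)
      (LocalizedModule Q.primeCompl V)).toNat : ℝ) * δ.val (R ⧸ Q) := by
  induction ‹Module.Finite R V› using
    IsNoetherianRing.induction_on_isQuotientEquivQuotientPrime R with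
  | subsingleton N =>
    rw [Module.length_eq_zero, δ.val_zero inferInstance]
    exact ⟨δ.mem_zero _ inferInstance, ENat.zero_ne_top, by simp⟩
  | quotient N p e =>
    rw [e.annihilator_eq, Ideal.annihilator_quotient] at hk
    have hle : Q ≤ p.1 := fun x hx => p.2.mem_of_pow_mem k (hk (Ideal.pow_mem_pow hx k))
    have hm : δ.mem N := (δ.mem_equiv e).2
      (δ.mem_surj _ _ (Submodule.factor hle) (Submodule.factor_surjective hle) hQ)
    refine ⟨hm, ?_⟩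
    rcases hle.eq_or_lt with rfl | hlt
    · rw [Gen2.length_loc p.1.primeCompl (LocalizedModule.mkLinearMap p.1.primeCompl
        (R ⧸ p.1) ∘ₗ e), Gen2.length_loc_quot, δ.val_equiv _ _ e hm]
      exact ⟨ENat.one_ne_top, by simp⟩
    · obtain ⟨r, hr, hr'⟩ := SetLike.exists_of_lt hlt
      have : Subsingleton (LocalizedModule Q.primeCompl N) :=
        LocalizedModule.subsingleton_iff.2 fun m => ⟨r, hr', Module.mem_annihilator.1
          (by rwa [e.annihilator_eq, Ideal.annihilator_quotient]) m⟩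
      rw [Module.length_eq_zero, δ.val_equiv _ _ e hm, h _ p.2 hlt]
      exact ⟨ENat.zero_ne_top, by simp⟩
  | exact N₁ N₂ N₃ f g hf hg hfg h₁ h₃ =>
    obtain ⟨a1, a2, a3⟩ := h₁ (hk.trans (f.annihilator_le_of_injective hf))
    obtain ⟨b1, b2, b3⟩ := h₃ (hk.trans (g.annihilator_le_of_surjective hg))
    have hm := δ.mem_of_exact f g hfg a1 b1
    rw [Gen2.length_loc_exact _ hf hg hfg, δ.val_exact f g hf hg hfg hm, a3, b3,
      ENat.toNat_add a2 b2, Nat.cast_add, add_mul]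
    exact ⟨hm, WithTop.add_ne_top.2 ⟨a2, b2⟩, rfl⟩
theorem exists_val_eq_mul (Q : Ideal R) [Q.IsPrime] (hQ : δ.mem (R ⧸ Q))
    (h : ∀ Q' : Ideal R, Q'.IsPrime → Q < Q' → δ.val (R ⧸ Q') = 0) {K : Ideal R} {k : ℕ}
    (hk : Q ^ k ≤ K) (hK : K ≤ Q) :
    ∃ n : ℕ, 0 < n ∧ δ.val (R ⧸ K) = n * δ.val (R ⧸ Q) := by
  obtain ⟨-, h1, h2⟩ := val_eq_length_mul (V := R ⧸ K) Q hQ h
    (hk.trans Ideal.annihilator_quotient.ge)
  refine ⟨_, ENat.toNat_pos (fun h0 => ?_) h1, h2⟩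
  obtain ⟨r, hr, e⟩ := LocalizedModule.subsingleton_iff.1 (Module.length_eq_zero_iff.1 h0)
    (Submodule.Quotient.mk 1)
  rw [← Submodule.Quotient.mk_smul, Submodule.Quotient.mk_eq_zero, smul_eq_mul, mul_one] at e
  exact hr (hK e)
theorem val_eq_length_mul_residue [IsLocalRing R] (hk : δ.mem (R ⧸ maximalIdeal R))
    (hV : Module.length R V ≠ ⊤) :
    δ.val V = ((Module.length R V).toNat : ℝ) * δ.val (R ⧸ maximalIdeal R) :=
  (Gen2.val_finiteLength hk (Module.length_ne_top_iff.1 hV)).2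
/-- Homology commutes with localisation. -/
theorem meul_localize (Q : Ideal R) [Q.IsPrime] (hQ : δ.mem (R ⧸ Q))
    (h : ∀ Q' : Ideal R, Q'.IsPrime → Q < Q' → δ.val (R ⧸ Q') = 0) {ι : Type} [Fintype ι]
    [DecidableEq ι] {D : Matrix ι ι R} {dg : ι → ℕ} (hD : IsMC D (zd dg))
    (hn : ∀ x : PrimeSpectrum R, ¬ Q ≤ x.asIdeal → NullAt D dg x) :
    δ.meul D dg R = (lenFun (Localization.AtPrime Q)).meul
      (D.map (algebraMap R (Localization.AtPrime Q))) dg (Localization.AtPrime Q) *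
        δ.val (R ⧸ Q) := by
  have hb : ∀ a, dg a ≤ Finset.univ.sup dg := fun a => Finset.le_sup (Finset.mem_univ a)
  rw [AddFun.meul_eq_sum hb, (meul_lenFun hb).2, Finset.sum_mul]
  refine Finset.sum_congr rfl fun i _ => ?_
  rw [mul_assoc, ← Gen2.mlen_loc]
  have hr : Q ≤ (Module.annihilator R
      ((cyc (cx D dg R) (fam dg (⊤ : Submodule R R)) (fam dg ⊥) i).map
        (bdy (cx D dg R) (fam dg (⊤ : Submodule R R)) (fam dg ⊥) i).mkQ)).radical := by
    rw [Ideal.radical_eq_sInf]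
    refine le_sInf fun P hP => ?_
    by_contra hc
    obtain ⟨g, hg, hN⟩ := hn ⟨P, hP.2⟩ hc
    refine hg (hP.1 (Module.mem_annihilator.2 ?_))
    rintro ⟨_, x, hx, rfl⟩
    exact Subtype.ext ((Submodule.Quotient.mk_eq_zero _).2 (hN.smul_mem_bdy i x hx))
  obtain ⟨k, hk⟩ := Ideal.exists_pow_le_of_le_radical_of_fg hr (IsNoetherian.noetherian _)
  exact congrArg _ (val_eq_length_mul Q hQ h hk).2.2
end Dev

/-- Lengths do not change along a local map that is onto on residue fields. -/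
theorem length_eq_of_residue {A : Type*} {B : Type*} [CommRing A] [IsLocalRing A] [CommRing B]
    [IsLocalRing B] [Algebra A B] [IsLocalHom (algebraMap A B)]
    (hres : ∀ b : B, ∃ a : A, b - algebraMap A B a ∈ maximalIdeal B) (M : Type*) [AddCommGroup M]
    [Module A M] [Module B M] [IsScalarTower A B M] :
    Module.length A M = Module.length B M := Gen2.length_residue hres M

theorem mlen_eq_of_residue {A : Type*} {B : Type*} [CommRing A] [IsLocalRing A] [CommRing B]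
    [IsLocalRing B] [Algebra A B] [IsLocalHom (algebraMap A B)]
    (hres : ∀ b : B, ∃ a : A, b - algebraMap A B a ∈ maximalIdeal B) (M : Type*) [AddCommGroup M]
    [Module A M] [Module B M] [IsScalarTower A B M] {ι : Type} [Fintype ι] (D : Matrix ι ι B)
    (dg : ι → ℕ) (i : ℤ) : mlen A D dg M i = mlen B D dg M i := Gen2.mlen_residue hres M D dg i

end Vale.Agent.P177
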