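import Vale.Agent.P177.Defs
import Vale.Agent.P202.CM

/-! P177 module Sop: choices of parameters. -/

namespace Vale.Agent.P177

open Vale.Agent.P202 IsLocalRing

universe u

variable {R : Type u} [CommRing R] [IsLocalRing R] [IsNoetherianRing R]

namespace SopAux

omit [IsLocalRing R] [IsNoetherianRing R] in
theorem dim_le_of_min {J : Ideal R} {n : WithBot ℕ∞}
    (h : ∀ Q ∈ J.minimalPrimes, ringKrullDim (R ⧸ Q) ≤ n) : ringKrullDim (R ⧸ J) ≤ n := by
  rw [ringKrullDim_quotient]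
  refine iSup_le fun p => ?_
  have h0 : J ≤ p.head.1.asIdeal := p.head.2
  obtain ⟨Q, hQ, hle⟩ := Ideal.exists_minimalPrimes_le h0
  refine le_trans ?_ (h Q hQ)
  rw [ringKrullDim_quotient]
  let q : LTSeries (PrimeSpectrum.zeroLocus (R := R) Q) :=
    ⟨p.length, fun i => ⟨(p i).1, hle.trans (p.head_le i)⟩, fun i => p.step i⟩
  exact Order.LTSeries.length_le_krullDim q

omit [IsLocalRing R] [IsNoetherianRing R] in
theorem dim_sup_le_of_avoid {J : Ideal R} {n : ℕ} (hd : ringKrullDim (R ⧸ J) ≤ (n + 1 : ℕ))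
    {c : R} (hc : ∀ Q ∈ J.minimalPrimes, ringKrullDim (R ⧸ Q) ≤ n ∨ c ∉ Q) :
    ringKrullDim (R ⧸ (J ⊔ Ideal.span {c})) ≤ n := by
  refine dim_le_of_min fun Q' hQ' => ?_
  have := hQ'.1.1
  obtain ⟨Q, hQ, hle⟩ := Ideal.exists_minimalPrimes_le (le_sup_left.trans hQ'.1.2)
  rcases hc Q hQ with h | h
  · exact (afDim_le hle).trans h
  · have := hQ.1.1
    have hlt : Q < Q' := lt_of_le_of_ne hle fun e =>
      h (e ▸ hQ'.1.2 (Ideal.mem_sup_right (Ideal.mem_span_singleton_self c)))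
    have h1 := ((afDim_succ_le hlt).trans (afDim_le hQ.1.2)).trans hd
    rw [Nat.cast_succ] at h1
    exact ENat.WithBot.add_le_add_one_right_iff.1 h1

omit [IsLocalRing R] in
theorem exists_ass {I : Ideal R} {c r : R} (h : c * r ∈ I) (hr : r ∉ I) :
    ∃ Q, IsAssociatedPrime Q (R ⧸ I) ∧ I ≤ Q ∧ c ∈ Q := by
  have h0 : Ideal.Quotient.mk I r ≠ 0 := fun e => hr (Ideal.Quotient.eq_zero_iff_mem.1 e)
  obtain ⟨Q, hQ, hle⟩ := exists_le_isAssociatedPrime_of_isNoetherianRing R _ h0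
  have key : ∀ a, a * r ∈ I → a ∈ Q := fun a ha => hle (by
    rw [Submodule.mem_colon_singleton, Submodule.mem_bot]
    exact Ideal.Quotient.eq_zero_iff_mem.2 ha)
  exact ⟨Q, hQ, fun a ha => key a (I.mul_mem_right r ha), key c h⟩

omit [IsLocalRing R] [IsNoetherianRing R] in
theorem ofList_ofFn {n : ℕ} (x : Fin n → R) :
    Ideal.ofList (List.ofFn x) = Ideal.span (Set.range x) := by
  refine congrArg Ideal.span (Set.ext fun r => ?_)
  simp [List.mem_ofFn]

omit [IsLocalRing R] [IsNoetherianRing R] in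
theorem dim_bot : ringKrullDim (R ⧸ (⊥ : Ideal R)) = ringKrullDim R :=
  RingEquiv.ringKrullDim (RingEquiv.quotientBot R)

end SopAux

open SopAux CMAux

omit [IsLocalRing R] in
/-- Simultaneous parameters inside `P` (prime avoidance: at each step avoid the finitely many
primes over `J ν + (h)` of maximal dimension). -/
theorem exists_sop_in {N : Type} [Finite N] (P : Ideal R) (J : N → Ideal R) (n : N → ℕ) (b : ℕ)
    (h1 : ∀ ν, ringKrullDim (R ⧸ J ν) ≤ (n ν + b : ℕ))
    (h2 : ∀ ν, ringKrullDim (R ⧸ (J ν ⊔ P)) ≤ n ν) :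
    ∃ h : Fin b → R, (∀ j, h j ∈ P) ∧
      ∀ ν, ringKrullDim (R ⧸ (J ν ⊔ Ideal.span (Set.range h))) ≤ n ν := by
  induction b generalizing J with
  | zero => exact ⟨Fin.elim0, fun j => j.elim0, fun ν => (afDim_le le_sup_left).trans (h1 ν)⟩
  | succ b ih =>
    let S : Set (Ideal R) :=
      ⋃ ν, {Q | Q ∈ (J ν).minimalPrimes ∧ ¬ ringKrullDim (R ⧸ Q) ≤ (n ν + b : ℕ)}
    have hfin : S.Finite := Set.finite_iUnion fun ν =>
      (Ideal.finite_minimalPrimes_of_isNoetherianRing R (J ν)).subset fun Q hQ => hQ.1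
    have hav : ¬ ((P : Set R) ⊆ ⋃ Q ∈ S, (Q : Set R)) := by
      intro hsub
      obtain ⟨Q, hQ, hle⟩ := (Ideal.subset_union_prime_finite hfin ⊥ ⊥
        (f := fun p : Ideal R => p) (fun p hp _ _ => by
          obtain ⟨ν, hν⟩ := Set.mem_iUnion.1 hp
          exact hν.1.1.1)).1 hsub
      obtain ⟨ν, hν⟩ := Set.mem_iUnion.1 hQ
      refine hν.2 (((afDim_le (sup_le hν.1.1.2 hle)).trans (h2 ν)).trans ?_)
      exact_mod_cast Nat.le_add_right _ _
    obtain ⟨c, hc, hnc⟩ := Set.not_subset.1 hav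
    obtain ⟨h, hP, hh⟩ := ih (fun ν => J ν ⊔ Ideal.span {c})
      (fun ν => dim_sup_le_of_avoid (h1 ν) fun Q hQ => by
        by_contra hcon
        rw [not_or, not_not] at hcon
        exact hnc (Set.mem_biUnion (Set.mem_iUnion.2 ⟨ν, hQ, hcon.1⟩) hcon.2))
      (fun ν => (afDim_le (sup_le_sup_right le_sup_left P)).trans (h2 ν))
    refine ⟨Fin.cons c h, fun j => Fin.cases hc hP j, fun ν => (afDim_le ?_).trans (hh ν)⟩
    rw [Fin.range_cons, Ideal.span_insert, sup_assoc]

theorem dim_le_zero_iff {J : Ideal R} :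
    ringKrullDim (R ⧸ J) ≤ (0 : ℕ) ↔ ∃ N : ℕ, maximalIdeal R ^ N ≤ J := by
  constructor
  · intro h
    obtain ⟨y, hy, h1⟩ := exists_isSop_quotient J h
    rw [List.length_eq_zero_iff] at hy
    subst hy
    simpa using (isSop_quotient_iff.1 h1).2
  · intro h
    exact dim_le_of_isSop (y := []) (isSop_quotient_iff.2 ⟨by simp, by simpa using h⟩)

theorem dim_eq_of_reg {x : List R} (hx : RingTheory.Sequence.IsWeaklyRegular R x)
    (hm : Ideal.ofList x = maximalIdeal R) : ringKrullDim R = x.length := by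
  have h1 : ∀ a ∈ x, a ∈ maximalIdeal R := fun a ha => hm ▸ Ideal.subset_span ha
  refine le_antisymm ?_ ?_
  · rw [← Module.supportDim_self_eq_ringKrullDim]
    exact (HS.isSop_of_le (N := 1) h1 (by rw [pow_one, hm]) R).supportDim_le
  · obtain ⟨P, hP⟩ := associatedPrimes.nonempty R R
    exact (length_le_dim x R hx h1 P hP).trans (ringKrullDim_quotient_le P)

theorem exists_dim_nat {J : Ideal R} (hJ : J ≠ ⊤) : ∃ a : ℕ, ringKrullDim (R ⧸ J) = a := by
  have := Ideal.Quotient.nontrivial_iff.2 hJ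
  have h1 : ringKrullDim (R ⧸ J) ≠ ⊥ := fun e => by
    have h2 := ringKrullDim_nonneg_of_nontrivial (R := R ⧸ J)
    rw [e] at h2
    exact absurd h2 (by simp)
  have h2 : ringKrullDim (R ⧸ J) ≠ ⊤ :=
    ((ringKrullDim_quotient_le J).trans_lt ringKrullDim_lt_top).ne
  obtain ⟨a, ha⟩ := WithBot.ne_bot_iff_exists.1 h1
  have h3 : a ≠ ⊤ := fun e => h2 (by rw [← ha, e]; rfl)
  obtain ⟨b, rfl⟩ := ENat.ne_top_iff_exists.1 h3
  exact ⟨b, ha.symm⟩

/-- In a Cohen-Macaulay ring of dimension `d`, a part of a system of parameters is regular and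
extends to a regular sequence of length `d`. -/
theorem exists_reg_extend {w : List R} (hw : RingTheory.Sequence.IsWeaklyRegular R w)
    (hwm : ∀ r ∈ w, r ∈ maximalIdeal R) {h : List R} (hm : ∀ r ∈ h, r ∈ maximalIdeal R) {a : ℕ}
    (hl : h.length + a = w.length) (hd : ringKrullDim (R ⧸ Ideal.ofList h) ≤ a) :
    ∃ s : List R, s.length = a ∧ (∀ r ∈ s, r ∈ maximalIdeal R) ∧
      RingTheory.Sequence.IsWeaklyRegular R (h ++ s) ∧
      RingTheory.Sequence.IsWeaklyRegular (R ⧸ Ideal.ofList h) s := by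
  obtain ⟨s, hs, h1⟩ := exists_isSop_quotient _ hd
  obtain ⟨h2, N, hN⟩ := isSop_quotient_iff.1 h1
  have h3 : IsSop R (h ++ s) := HS.isSop_of_le (N := N)
    (fun r hr => (List.mem_append.1 hr).elim (hm r) (h2 r)) (by rwa [Ideal.ofList_append]) R
  have h4 := cm (h ++ s) R w hw hwm h3 (by rw [List.length_append, hs, hl])
  refine ⟨s, hs, h2, h4, ?_⟩
  have h5 := ((RingTheory.Sequence.isWeaklyRegular_append_iff R h s).1 h4).2
  have e : (Ideal.ofList h • ⊤ : Submodule R R) = Ideal.ofList h := by simp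
  exact ((Submodule.quotEquivOfEq _ _ e).isWeaklyRegular_congr s).1 h5

/-- In a Cohen-Macaulay quotient a parameter is a nonzero divisor. -/
theorem regular_of_dim_lt {I : Ideal R} {s : List R}
    (hs : RingTheory.Sequence.IsWeaklyRegular (R ⧸ I) s) (hm : ∀ r ∈ s, r ∈ maximalIdeal R)
    {c : R} (hc : ringKrullDim (R ⧸ (I ⊔ Ideal.span {c})) < s.length) :
    ∀ r, c * r ∈ I → r ∈ I := by
  intro r hr
  by_contra hn
  obtain ⟨Q, hQ, h1, h2⟩ := exists_ass hr hn
  exact absurd hc (not_lt.2 ((length_le_dim s _ hs hm Q hQ).trans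
    (afDim_le (sup_le h1 ((Ideal.span_singleton_le_iff_mem Q).2 h2)))))

omit [IsLocalRing R] [IsNoetherianRing R] in
theorem dim_sup_le_of_regular {I : Ideal R} {a : ℕ} (hd : ringKrullDim (R ⧸ I) ≤ (a + 1 : ℕ))
    {c : R} (hc : ∀ r, c * r ∈ I → r ∈ I) :
    ringKrullDim (R ⧸ (I ⊔ Ideal.span {c})) ≤ a := by
  refine dim_sup_le_of_avoid hd fun Q hQ => Or.inr fun h => ?_
  obtain ⟨y, hy, h1⟩ := Ideal.exists_mul_mem_of_mem_minimalPrimes hQ h
  exact hy (hc y h1)

/-- A nonzero submodule of a Cohen-Macaulay module has full dimension. -/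
theorem subsingleton_of_supportDim_lt {M N : Type u} [AddCommGroup M] [Module R M]
    [Module.Finite R M] [AddCommGroup N] [Module R N] {s : List R}
    (hs : RingTheory.Sequence.IsWeaklyRegular M s) (hm : ∀ r ∈ s, r ∈ maximalIdeal R)
    (f : N →ₗ[R] M) (hf : Function.Injective f) (hd : Module.supportDim R N < s.length) :
    Subsingleton N := by
  by_contra hN
  rw [not_subsingleton_iff_nontrivial] at hN
  have := Module.Finite.of_injective f hf
  obtain ⟨P, hP⟩ := associatedPrimes.nonempty R N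
  have h1 := length_le_dim s M hs hm P (hP.map_of_injective f hf)
  rw [Module.supportDim_eq_ringKrullDim_quotient_annihilator] at hd
  refine absurd hd (not_lt.2 (h1.trans (afDim_le ?_)))
  obtain ⟨-, y, rfl⟩ := isAssociatedPrime_iff.1 hP
  intro r hr
  simpa using Module.mem_annihilator.1 hr y

/-- Splitting off the `P`-primary component of a Cohen-Macaulay quotient: take the contraction
`q` of `I R_P`, `z ∉ P` with `z q ⊆ I`, and `w ∈ q` outside the other associated primes. -/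
theorem exists_split_elt {I P : Ideal R} [P.IsPrime] (hIP : I ≤ P) {s : List R}
    (hs : RingTheory.Sequence.IsWeaklyRegular (R ⧸ I) s) (hm : ∀ r ∈ s, r ∈ maximalIdeal R)
    (hd : ringKrullDim (R ⧸ I) ≤ s.length) (hP : ringKrullDim (R ⧸ P) = s.length) :
    ∃ z w : R, z * w ∈ I ∧ z ∉ P ∧ (∀ r, (z + w) * r ∈ I → r ∈ I) ∧
      ∃ k : ℕ, P ^ k ≤ I.colon {z} := by
  have hp : P.IsPrime := inferInstance
  let q : Ideal R :=
    { carrier := {r | ∃ u, u ∉ P ∧ u * r ∈ I}
      zero_mem' := ⟨1, hp.one_notMem, by simp⟩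
      add_mem' := by
        rintro a b ⟨u, hu, ha⟩ ⟨v, hv, hb⟩
        refine ⟨u * v, fun h => (hp.mem_or_mem h).elim hu hv, ?_⟩
        rw [show u * v * (a + b) = v * (u * a) + u * (v * b) by ring]
        exact I.add_mem (I.mul_mem_left _ ha) (I.mul_mem_left _ hb)
      smul_mem' := by
        rintro c a ⟨u, hu, ha⟩
        refine ⟨u, hu, ?_⟩
        rw [smul_eq_mul, mul_left_comm]
        exact I.mul_mem_left _ ha }
  have hqP : q ≤ P := fun r ⟨u, hu, h⟩ => (hp.mem_or_mem (hIP h)).resolve_left hu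
  obtain ⟨z, hz, hzq⟩ : ∃ z, z ∉ P ∧ ∀ r ∈ q, z * r ∈ I := by
    have key : ∀ K : Ideal R, K.FG → K ≤ q → ∃ z, z ∉ P ∧ ∀ r ∈ K, z * r ∈ I := by
      intro K hK
      refine Submodule.fg_induction
        (motive := fun K _ => K ≤ q → ∃ z, z ∉ P ∧ ∀ r ∈ K, z * r ∈ I) ?_ ?_ K hK
      · intro x hx
        obtain ⟨u, hu, h⟩ := hx (Submodule.mem_span_singleton_self x)
        refine ⟨u, hu, fun r hr => ?_⟩
        obtain ⟨c, rfl⟩ := Submodule.mem_span_singleton.1 hr
        rw [smul_eq_mul, mul_left_comm]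
        exact I.mul_mem_left _ h
      · intro A B _ _ hA hB h
        obtain ⟨u, hu, h1⟩ := hA (le_sup_left.trans h)
        obtain ⟨v, hv, h2⟩ := hB (le_sup_right.trans h)
        refine ⟨u * v, fun h => (hp.mem_or_mem h).elim hu hv, fun r hr => ?_⟩
        obtain ⟨a, ha, b, hb, rfl⟩ := Submodule.mem_sup.1 hr
        rw [show u * v * (a + b) = v * (u * a) + u * (v * b) by ring]
        exact I.add_mem (I.mul_mem_left _ (h1 a ha)) (I.mul_mem_left _ (h2 b hb))
    exact key q (IsNoetherian.noetherian q) le_rfl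
  have hrad : P ≤ q.radical := by
    intro x hx
    by_contra hcon
    have hdis : Disjoint (I : Set R) (↑(P.primeCompl ⊔ Submonoid.powers x) : Set R) := by
      rw [Set.disjoint_left]
      intro r hr hr'
      obtain ⟨u, hu, _, ⟨k, rfl⟩, rfl⟩ := Submonoid.mem_sup.1 hr'
      exact hcon ⟨k, u, hu, hr⟩
    obtain ⟨Q, hQ, hIQ, hd'⟩ := Ideal.exists_le_prime_disjoint _ _ hdis
    have hQP : Q ≤ P := fun r hr => by
      by_contra h
      exact Set.disjoint_left.1 hd' hr (Submonoid.mem_sup_left (S := P.primeCompl) h)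
    rw [afEq_of_le hd hIQ hP hQP] at hd'
    exact Set.disjoint_left.1 hd' hx (Submonoid.mem_sup_right (Submonoid.mem_powers x))
  obtain ⟨k, hk⟩ := Ideal.exists_pow_le_of_le_radical_of_fg hrad (IsNoetherian.noetherian P)
  have hav : ¬ ((q : Set R) ⊆ ⋃ Q ∈ associatedPrimes R (R ⧸ I) \ {P}, (Q : Set R)) := by
    intro hsub
    obtain ⟨Q, hQ, hle⟩ := (Ideal.subset_union_prime_finite
      ((associatedPrimes.finite R (R ⧸ I)).sdiff) ⊥ ⊥
      (f := fun p : Ideal R => p) (fun p hp _ _ => hp.1.isPrime)).1 hsub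
    have h1 : P < Q := lt_of_le_of_ne (hQ.1.isPrime.le_of_pow_le (hk.trans hle)) (Ne.symm hQ.2)
    have h2 := (add_le_add_left (length_le_dim s _ hs hm Q hQ.1) 1).trans (afDim_succ_le h1)
    rw [hP] at h2
    have h3 : s.length + 1 ≤ s.length := by exact_mod_cast h2
    omega
  obtain ⟨w, hw, hnw⟩ := Set.not_subset.1 hav
  refine ⟨z, w, hzq w hw, hz, fun r hr => ?_, k, fun r hr => ?_⟩
  · by_contra hn
    obtain ⟨Q, hQ, h1, h2⟩ := exists_ass hr hn
    by_cases e : Q = P
    · subst e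
      exact hz ((Q.add_mem_iff_left (hqP hw)).1 h2)
    · have h3 : w ∉ Q := fun h => hnw (Set.mem_biUnion (x := Q) ⟨hQ, e⟩ h)
      have h4 := (hQ.isPrime.mem_or_mem (h1 (hzq w hw))).resolve_right h3
      exact h3 ((Q.add_mem_iff_right h4).1 h2)
  · rw [Submodule.mem_colon_singleton, smul_eq_mul, mul_comm]
    exact hzq r (hk hr)

/-- A prime that meets `V(I)` only in the closed point is minimal over a regular sequence of
length at least `a` (take `c = d - dim R / Q` and `exists_sop_in`). -/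
theorem exists_regseq {d a : ℕ} {I : Ideal R} (hd : CIData d a I) (Q : Ideal R) [Q.IsPrime]
    (hQ : ∃ N : ℕ, maximalIdeal R ^ N ≤ I ⊔ Q) :
    ∃ (c : ℕ) (x : Fin c → R), a ≤ c ∧ c ≤ d ∧
      RingTheory.Sequence.IsWeaklyRegular R (List.ofFn x) ∧
      Q ∈ (Ideal.span (Set.range x)).minimalPrimes := by
  have hp : Q.IsPrime := inferInstance
  obtain ⟨w, hwl, hw, hwm⟩ := hd.reg
  obtain ⟨g, hgl, hg⟩ := hd.gen
  obtain ⟨e, he⟩ := exists_dim_nat hp.ne_top
  have h1 : ringKrullDim (R ⧸ Q) ≤ g.length :=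
    dim_le_of_isSop (isSop_quotient_iff.2 ⟨fun r hr => hd.le (hg ▸ Ideal.subset_span hr), by
      rwa [hg, sup_comm]⟩)
  rw [he] at h1
  have h2 : e ≤ g.length := by exact_mod_cast h1
  obtain ⟨x, hx, hdim⟩ := exists_sop_in (N := Unit) Q (fun _ => ⊥) (fun _ => e) (d - e)
    (fun _ => by rw [dim_bot, dim_eq_of_reg hw hwm, hwl, show e + (d - e) = d by omega])
    (fun _ => (afDim_le le_sup_right).trans he.le)
  have h3 : ringKrullDim (R ⧸ Ideal.span (Set.range x)) ≤ e :=
    (afDim_le (sup_le bot_le le_rfl)).trans (hdim ())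
  have h4 : Ideal.span (Set.range x) ≤ Q := Ideal.span_le.2 (Set.range_subset_iff.2 hx)
  obtain ⟨s, -, -, h5, -⟩ := exists_reg_extend hw (fun r hr => hwm ▸ Ideal.subset_span hr)
    (h := List.ofFn x) (a := e)
    (fun r hr => le_maximalIdeal hp.ne_top (h4 (ofList_ofFn x ▸ Ideal.subset_span hr)))
    (by rw [List.length_ofFn]; omega) (by rwa [ofList_ofFn])
  refine ⟨d - e, x, by omega, by omega,
    ((RingTheory.Sequence.isWeaklyRegular_append_iff R _ s).1 h5).1, ⟨hp, h4⟩, ?_⟩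
  rintro q ⟨hq, h6⟩ h7
  exact (afEq_of_le h3 h6 he h7).ge

/-- Growth of lengths for a module of small dimension. -/
theorem exists_length_pow_le_of_dim {M : Type u} [AddCommGroup M] [Module R M]
    [Module.Finite R M] {a : ℕ} {y : Fin (a + 1) → R} (hy : IsSop M (List.ofFn y))
    (hd : Module.supportDim R M ≤ a) : ∃ K : ℕ, ∀ t : ℕ, 0 < t →
      Module.length R (M ⧸ (Ideal.span (Set.range fun j => y j ^ t) • ⊤ : Submodule R M)) ≤
        (K * t ^ a : ℕ) := by
  obtain ⟨K, hK⟩ := exists_length_pow_le hy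
  rw [mult_eq_zero_of_supportDim_lt hy (hd.trans_lt (by
    rw [List.length_ofFn]
    exact_mod_cast Nat.lt_succ_self a)), List.length_ofFn] at hK
  refine ⟨⌈K⌉₊, fun t ht => ?_⟩
  have h1 := hK t ht
  have h2 := (hy.pow ht).length_ne_top
  rw [List.map_ofFn, ofList_ofFn] at h1 h2
  obtain ⟨l, hl⟩ := ENat.ne_top_iff_exists.1 h2
  have ht' : (0 : ℝ) < t := by exact_mod_cast ht
  rw [← hl, ENat.toNat_natCast, Int.cast_zero, mul_zero, zero_add, pow_succ', mul_left_comm] at h1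
  have h3 := (le_of_mul_le_mul_left h1 ht').trans
    (mul_le_mul_of_nonneg_right (Nat.le_ceil K) (by positivity))
  refine le_of_eq_of_le hl.symm ?_
  exact_mod_cast h3

end Vale.Agent.P177
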