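import Vale.Agent.P177.Delta
import Vale.Agent.P177.Sop
import Vale.Agent.P177.Gen
import Vale.Agent.P202.FactorA
import Vale.Agent.P177.DLevelAuxT
import Vale.Agent.P177.DLevelAux2

/-! P177 module DLevel: the truncated delta envelope. -/

namespace Vale.Agent.P177

open Vale.Agent.P202 IsLocalRing

universe u

/-- The `k`-th truncated delta envelope of `T / (f, H)`. -/
structure DLevel (p : ℕ) (T : Type u) [CommRing T] [IsLocalRing T] {ι : Type} {a : ℕ} (f : T)
    (H : ι → T) (s : Fin a → T) (z w : T) (k : ℕ) where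
  Δ : Type u
  [cr : CommRing Δ]
  [loc : IsLocalRing Δ]
  [noeth : IsNoetherianRing Δ]
  Φ : T →+* Δ
  fin : Φ.Finite
  res : ∀ b : Δ, ∃ c : T, b - Φ c ∈ maximalIdeal Δ
  reg : RingTheory.Sequence.IsWeaklyRegular Δ ((p : Δ) :: Φ f :: List.ofFn fun l => Φ (s l))
  hH : ∀ i, Φ (H i) ∈ Ideal.span {Φ f}
  ρ : ℕ
  ρ_pos : 0 < ρ
  gen : ∃ v : Fin ρ → Δ, ∀ b : Δ, ∃ (n : ℕ) (c : Fin ρ → T),
    (p : Δ) ^ n * b - ∑ i, Φ (c i) * v i ∈ Ideal.span {Φ f}
  count : Module.length Δ (Δ ⧸ (Ideal.span {(p : Δ), Φ f} ⊔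
      Ideal.span (Set.range fun l => Φ (s l)))) =
    ρ * Module.length T (T ⧸ (Ideal.span {(p : T), f} ⊔ Ideal.span (Set.range H) ⊔
      Ideal.span (Set.range s)))
  α : Δ
  β : Δ
  hα : α ^ p ^ k = Φ z
  hβ : β ^ p ^ k = Φ w
  hαβ : α * β ∈ Ideal.span {(p : Δ), Φ f} ^ k

attribute [instance] DLevel.cr DLevel.loc DLevel.noeth

/-- The triangular lemma: `mult (g₁, …) = p * mult (y₁, g₂, …)`. -/
theorem length_triangular {K : Type u} [Field K] {τ : Type} [Fintype τ] {p : ℕ} (hp : 0 < p)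
    (rk : τ → ℕ) (g u : τ → MvPowerSeries τ K) (hu : ∀ j, IsUnit (u j))
    (hg : ∀ j, g j - u j * MvPowerSeries.X j ^ p ∈
      Ideal.span ((fun l => MvPowerSeries.X l) '' {l | rk l < rk j})) :
    Module.length (MvPowerSeries τ K) (MvPowerSeries τ K ⧸ Ideal.span (Set.range g)) =
      (p ^ Fintype.card τ : ℕ) := by
  classical
  have h := (DLT.tri hp rk g u hu hg _ Finset.univ rfl fun _ _ _ _ => Finset.mem_univ _).2
  rwa [show (fun l => if l ∈ Finset.univ then g l else MvPowerSeries.X l) = g from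
    funext fun l => if_pos (Finset.mem_univ l)] at h

variable {p : ℕ} [Fact p.Prime] {W : Type u} [CommRing W] [IsDomain W]
  [IsDiscreteValuationRing W] {σ ι : Type} [Fintype σ] [Fintype ι]

/-- The monomials with exponents `< p ^ M` generate the power series ring over the image of the
`M`-th iterate of the Frobenius lift (`span_eq_top_of_complete`; the residue field is perfect). -/
theorem exists_frob_gens (hW : IsCohen p W) [IsAlgClosed (ResidueField W)]
    (E : DRing p (MvPowerSeries σ W)) (M : ℕ) :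
    ∃ v : Fin (p ^ (M * Fintype.card σ)) → MvPowerSeries σ W, ∀ b, ∃ c : Fin _ → MvPowerSeries σ W,
      b = ∑ i, E.φ^[M] (c i) * v i := DLT.frob_gens hW E M

namespace DL

open RingTheory.Sequence MvPowerSeries

variable {T : Type u} [CommRing T] [IsLocalRing T] [IsNoetherianRing T] {M n a : ℕ} {w₀ : List T}
  {F : ℕ → T} {H : ι → T} {r y : ι → ℕ → MvPowerSeries (ι × Fin M) T}

omit [IsNoetherianRing T] in
theorem Rel.tri_len (h : Rel p F H r y) (h2 : Ideal.ofList w₀ = maximalIdeal T) :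
    Module.length (MvPowerSeries (ι × Fin M) T) (MvPowerSeries (ι × Fin M) T ⧸
      ((maximalIdeal T).map C ⊔ Ideal.span (Set.range fun q : ι × Fin M => r q.1 (q.2 + 1)))) =
      (p ^ Fintype.card (ι × Fin M) : ℕ) := by
  rw [← ker_map h2, ← len_map _ map_surj, Ideal.map_span, ← Set.range_comp]
  choose u hu hg using h.tri
  refine length_triangular (Fact.out : p.Prime).pos (fun q => q.2) _
    (fun q => MvPowerSeries.map (residue T) (C (u q.1 q.2))) (fun q => ((hu _ _).map _).map _)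
    fun q => ?_
  rw [← map_X (residue T), ← h.hy, ← map_pow, ← map_mul, Function.comp_apply, ← map_sub]
  refine Ideal.mem_comap.1 <| sup_le (c := Ideal.comap (MvPowerSeries.map (residue T)) _) ?_
    (Ideal.span_le.2 (Set.image_subset_iff.2 fun l hl => ?_)) (hg q.1 q.2)
  · rw [← ker_map h2]
    exact Ideal.ker_le_comap _
  · have hl' : l < M := hl.trans q.2.2
    rw [Set.mem_preimage, SetLike.mem_coe, Ideal.mem_comap, h.hy q.1 ⟨l, hl'⟩, map_X]
    exact Ideal.subset_span ⟨(q.1, ⟨l, hl'⟩), hl, rfl⟩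

theorem Rel.pow_le (h : Rel p F H r y) (h2 : Ideal.ofList w₀ = maximalIdeal T) :
    ∃ N : ℕ, maximalIdeal (MvPowerSeries (ι × Fin M) T) ^ N ≤
      (maximalIdeal T).map C ⊔ Ideal.span (Set.range fun q : ι × Fin M => r q.1 (q.2 + 1)) :=
  pow_le_of_len (h.tri_len h2 ▸ ENat.natCast_ne_top _)

theorem Rel.count (E : DRing p T) {f : T} (h : Rel p (fun j => E.φ^[j] f) H r y)
    (h1 : IsWeaklyRegular T w₀) (h2 : Ideal.ofList w₀ = maximalIdeal T) (hn : w₀.length = n + 1)
    (hp : (p : T) ∈ maximalIdeal T) (hf : f ∈ maximalIdeal T) (hH : ∀ i, H i ∈ maximalIdeal T)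
    {s : Fin a → T} (hs : ∀ l, s l ∈ maximalIdeal T) (hc : Fintype.card ι + a + 1 = n)
    (hN : ∃ N : ℕ, maximalIdeal T ^ N ≤ Ideal.span {(p : T), f} ⊔
      Ideal.span (Set.range H) ⊔ Ideal.span (Set.range s)) :
    IsWeaklyRegular (MvPowerSeries (ι × Fin M) T ⧸ rI r) ((p : MvPowerSeries (ι × Fin M) T) ::
      (f :: List.ofFn s).map fun c => C (E.φ^[M] c)) ∧
    Module.length (MvPowerSeries (ι × Fin M) T) (MvPowerSeries (ι × Fin M) T ⧸ (rI r ⊔
      Ideal.ofList ((p : MvPowerSeries (ι × Fin M) T) ::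
        (f :: List.ofFn s).map fun c => C (E.φ^[M] c)))) =
      (p ^ (M * n) : ℕ) * Module.length T (T ⧸ (Ideal.span {(p : T), f} ⊔
        Ideal.span (Set.range H) ⊔ Ideal.span (Set.range s))) := by
  have := localC (T := T) (ι × Fin M)
  have dp := dp_series (ι × Fin M) h1 h2
  have hJ : Gn (Ideal.span {(p : T), f} ⊔ Ideal.span (Set.range H) ⊔ Ideal.span (Set.range s))
      w₀.length := by
    rw [Ideal.span_insert, show w₀.length = 1 + 1 + Fintype.card ι + Fintype.card (Fin a) by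
      rw [Fintype.card_fin]; omega]
    exact (((gn_one _).sup (gn_one _)).sup (gn_range H)).sup (gn_range s)
  have hm : Ideal.span {(p : T), f} ⊔ Ideal.span (Set.range H) ⊔ Ideal.span (Set.range s) ≤
      maximalIdeal T := by
    simp only [sup_le_iff, Ideal.span_le, Set.insert_subset_iff, Set.singleton_subset_iff,
      Set.range_subset_iff]
    exact ⟨⟨⟨hp, hf⟩, hH⟩, hs⟩
  obtain ⟨k1, k2⟩ := dp.len_flat C (flat_C _ h1 h2) hJ ⟨w₀, rfl, h2⟩ hm hN
    (w := Finset.univ.toList.map fun q : ι × Fin M => r q.1 (q.2 + 1)) (by simp)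
    (by rw [ofList_univ]; exact h.le₁) (by rw [ofList_univ]; exact h.pow_le h2)
  have e1 := h.sup_eq s
  simp only [Function.iterate_zero_apply] at e1
  rw [ofList_univ, ← e1] at k1 k2
  rw [h.tri_len h2] at k2
  have gI : Gn (rI r) (Fintype.card ι + Fintype.card (ι × Fin M)) :=
    (gn_range _).sup (gn_range _)
  have hm' : rI r ⊔ Ideal.span {(p : MvPowerSeries (ι × Fin M) T)} ⊔
      Ideal.ofList ((f :: List.ofFn s).map C) ≤ maximalIdeal _ := by
    rw [e1]
    exact sup_le (Ideal.map_le_iff_le_comap.2 fun c hc => C_mem _ (hm hc)) h.le₁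
  obtain ⟨k0, k3, k4⟩ := dp.len_pow (gI.sup (gn_one _)) (by simp; omega) hm' k1
    (pow_pos (Fact.out : p.Prime).pos M)
  have e2 : rI r ⊔ Ideal.span {(p : MvPowerSeries (ι × Fin M) T)} ⊔
      Ideal.ofList (((f :: List.ofFn s).map C).map (· ^ p ^ M)) = rI r ⊔
      Ideal.ofList ((p : MvPowerSeries (ι × Fin M) T) ::
        (f :: List.ofFn s).map fun c => C (E.φ^[M] c)) := by
    rw [Ideal.ofList_cons, ← sup_assoc, List.map_map]
    refine (sup_congr _ _ fun c _ => Ideal.mem_sup_right ?_).symm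
    have := Ideal.mem_map_of_mem (C (σ := ι × Fin M)) (E.iterate_sub_pow M c)
    rwa [Ideal.map_span, Set.image_singleton, map_natCast, map_sub, map_pow] at this
  rw [e2] at k0 k3 k4
  refine ⟨(dp.quot gI (by simp; omega) k0 k3).1, ?_⟩
  rw [k4, k2, mul_comm (Module.length T _), ← mul_assoc, ← Nat.cast_mul, ← pow_mul, ← pow_add]
  congr 3
  simp only [List.length_map, List.length_cons, List.length_ofFn, Fintype.card_prod,
    Fintype.card_fin, ← hc]
  ring

theorem Rel.finite [IsAdicComplete (maximalIdeal T) T] (h : Rel p F H r y)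
    (h2 : Ideal.ofList w₀ = maximalIdeal T) [IsLocalRing (MvPowerSeries (ι × Fin M) T ⧸ rI r)] :
    (algebraMap T (MvPowerSeries (ι × Fin M) T ⧸ rI r)).Finite ∧
      ∀ b, ∃ c, b - algebraMap T (MvPowerSeries (ι × Fin M) T ⧸ rI r) c ∈ maximalIdeal _ := by
  have e := map_maximalIdeal_of_surjective (Ideal.Quotient.mk (rI r)) Ideal.Quotient.mk_surjective
  have hres : ∀ b, ∃ c, b - algebraMap T (MvPowerSeries (ι × Fin M) T ⧸ rI r) c ∈
      maximalIdeal _ := fun b => by
    obtain ⟨b, rfl⟩ := Ideal.Quotient.mk_surjective b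
    refine ⟨constantCoeff b, e ▸ Ideal.mem_map_of_mem _ (x := b - C (constantCoeff b)) ?_⟩
    rw [maximalIdeal_mvPowerSeries, ← ker_constantCoeff]
    exact Ideal.mem_sup_right (by simp [RingHom.mem_ker])
  have := localC (T := T) (ι × Fin M)
  have := IsLocalHom.of_surjective (Ideal.Quotient.mk (rI r)) Ideal.Quotient.mk_surjective
  have : IsLocalHom (algebraMap T (MvPowerSeries (ι × Fin M) T ⧸ rI r)) :=
    RingHom.isLocalHom_comp (Ideal.Quotient.mk (rI r)) C
  obtain ⟨N, hN⟩ := h.pow_le h2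
  refine ⟨finite_of_complete _ hres (N := N) ?_, hres⟩
  rw [← e, ← Ideal.map_pow]
  refine (Ideal.map_mono hN).trans ?_
  rw [Ideal.map_sup, Ideal.map_map]
  exact sup_le le_rfl (((Ideal.map_mono le_sup_right).trans
    (Ideal.map_quotient_self (rI r)).le).trans bot_le)

theorem main [IsAdicComplete (maximalIdeal T) T] (E : DRing p T) (h1 : IsWeaklyRegular T w₀)
    (h2 : Ideal.ofList w₀ = maximalIdeal T) (hn : w₀.length = n + 1)
    (hp : (p : T) ∈ maximalIdeal T) (𝔵 : Ideal T) (hδ : ∀ g ∈ 𝔵, E.δ g ∈ 𝔵)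
    (htf : ∀ g : T, p * g ∈ 𝔵 → g ∈ 𝔵) (h𝔵 : 𝔵 ≤ maximalIdeal T) {f : T}
    (hf : f ∈ maximalIdeal T) (hu : IsUnit (E.δ f)) (hH : ∀ i, H i ∈ 𝔵) {s : Fin a → T}
    (hs : ∀ l, s l ∈ maximalIdeal T) (hc : Fintype.card ι + a + 1 = n)
    (hN : ∃ N : ℕ, maximalIdeal T ^ N ≤ Ideal.span {(p : T), f} ⊔
      Ideal.span (Set.range H) ⊔ Ideal.span (Set.range s)) {z w : T} (hz : E.φ z = z ^ p)
    (hw : E.φ w = w ^ p) (hzw : z * w ∈ Ideal.span {f} ⊔ Ideal.span (Set.range H))
    (hgen : ∀ M, ∃ v : Fin (p ^ (M * n)) → T, ∀ b, ∃ c : Fin _ → T, b = ∑ i, E.φ^[M] (c i) * v i)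
    (hperf : ∀ M (c : T), ∃ d, c - d ^ p ^ M ∈ maximalIdeal T) (k : ℕ) :
    Nonempty (DLevel p T f H s z w k) := by
  obtain ⟨E', e1, e2, e3⟩ := exists_dRing_poly E ι
  obtain ⟨m, hm⟩ : ∃ m, m = p ^ k * k := ⟨_, rfl⟩
  obtain ⟨M, hM⟩ : ∃ M, M = m + k := ⟨_, rfl⟩
  have h := rel (M := M) E E' e1 e2 e3 𝔵 hδ htf h𝔵 hp hf hu hH
  set g : ι → MvPolynomial (ι × ℕ) T := fun i =>
    MvPolynomial.C f * MvPolynomial.X (i, 0) - MvPolynomial.C (H i) with hg
  set r : ι → ℕ → MvPowerSeries (ι × Fin M) T := fun i j => ev M (E'.δ^[j] (g i)) with hr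
  have : Nontrivial (MvPowerSeries (ι × Fin M) T ⧸ rI r) :=
    Ideal.Quotient.nontrivial_iff.2 (ne_top_of_le_ne_top (maximalIdeal.isMaximal _).ne_top h.le)
  have := IsLocalRing.of_surjective' (Ideal.Quotient.mk (rI r)) Ideal.Quotient.mk_surjective
  obtain ⟨c1, c2⟩ := h.count E h1 h2 hn hp hf (fun i => h𝔵 (hH i)) hs hc hN
  obtain ⟨f1, f2⟩ := h.finite h2
  obtain ⟨v, hv⟩ := hgen M
  let π : MvPolynomial (ι × ℕ) T →ₐ[T] MvPowerSeries (ι × Fin M) T ⧸ rI r :=
    (Ideal.Quotient.mkₐ T (rI r)).comp (ev M)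
  have hπ : ∀ j ≤ M, ∀ x ∈ KK E' g j, π x = 0 := fun j hj x hx => by
    refine (Ideal.span_le (I := RingHom.ker π)).2 ?_ hx
    rintro _ ⟨i, l, hl, rfl⟩
    exact Ideal.Quotient.eq_zero_iff_mem.2 (mem_rI r i (hl.trans hj))
  have hC : ∀ j c, E'.φ^[j] (MvPolynomial.C c) = MvPolynomial.C (E.φ^[j] c) := fun j c =>
    Function.Semiconj.iterate_right (f := MvPolynomial.C) (fun c => (e1 c).symm) j c |>.symm
  have hπC : ∀ c, π (MvPolynomial.C c) = algebraMap T _ c := π.commutes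
  have hloc := isLocalHom_of_finite _ f1
  have hpow : ∀ {x : T}, E.φ x = x ^ p → (algebraMap T (MvPowerSeries (ι × Fin M) T ⧸ rI r)
      (x ^ p ^ m)) ^ p ^ k = algebraMap T _ (E.φ^[M] x) := fun {x} hx => by
    have : ∀ j, E.φ^[j] x = x ^ p ^ j := fun j => by
      induction j with
      | zero => simp
      | succ j ih => rw [Function.iterate_succ_apply', ih, map_pow, hx, ← pow_mul, pow_succ']
    rw [this, ← map_pow, ← pow_mul, ← pow_add, ← hM]
  refine ⟨{ Δ := MvPowerSeries (ι × Fin M) T ⧸ rI r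
            Φ := (algebraMap T _).comp (E.φ ^ M)
            fin := f1.comp ?_, res := fun b => ?_, reg := ?_, hH := fun i => ?_
            ρ := p ^ (M * n), ρ_pos := pow_pos (Fact.out : p.Prime).pos _
            gen := ⟨fun i => algebraMap T _ (v i), fun b => ?_⟩, count := ?_
            α := algebraMap T _ (z ^ p ^ m), β := algebraMap T _ (w ^ p ^ m)
            hα := hpow hz, hβ := hpow hw, hαβ := ?_ }⟩
  · exact finite_of_gens _ v hv
  · obtain ⟨c, hc⟩ := f2 b
    obtain ⟨d, hd⟩ := hperf M c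
    refine ⟨d, ?_⟩
    have k1 : c - E.φ^[M] d ∈ maximalIdeal T := by
      rw [← sub_sub_sub_cancel_right c _ (d ^ p ^ M)]
      exact sub_mem hd ((Ideal.span_singleton_le_iff_mem _).2 hp (E.iterate_sub_pow M d))
    have k2 := add_mem hc (map_nonunit (algebraMap T (MvPowerSeries (ι × Fin M) T ⧸ rI r)) _ k1)
    rwa [map_sub, sub_add_sub_cancel] at k2
  · have := (isWeaklyRegular_map_algebraMap_iff (MvPowerSeries (ι × Fin M) T ⧸ rI r) _ _).2 c1
    rw [List.map_cons, List.map_cons, List.map_cons, List.map_map, List.map_ofFn,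
      map_natCast] at this
    exact this
  · have k1 := hπ M le_rfl _ (KK_iter E' g i M)
    rw [hg, ← RingHom.coe_pow, map_sub, map_mul, RingHom.coe_pow, hC, hC, map_sub, map_mul, hπC,
      hπC, sub_eq_zero] at k1
    exact Ideal.mem_span_singleton'.2 ⟨_, (mul_comm _ _).trans k1⟩
  · have := RingHom.finite_algebraMap.1 f1
    obtain ⟨j, c, hc⟩ := h.gen (g := E.φ^[M] f) (fun j hj => E.p_mem_span hp hf hu hj) b
    obtain ⟨d, rfl⟩ := hv c
    refine ⟨j, d, ?_⟩
    simp only [map_sum, map_mul] at hc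
    exact hc
  · rw [← c2, ← len_mk (rI r), Ideal.map_ofList, List.map_cons, List.map_cons, List.map_cons,
      List.map_map, List.map_ofFn, map_natCast, Ideal.ofList_cons, Ideal.ofList_cons, ofList_ofFn,
      Ideal.span_insert, sup_assoc]
    rfl
  · obtain ⟨_, ha, _, hb, e⟩ := Submodule.mem_sup.1 hzw
    obtain ⟨c, rfl⟩ := Ideal.mem_span_singleton'.1 ha
    obtain ⟨b, rfl⟩ := Ideal.mem_span_range_iff_exists_fun.1 hb
    have h0 : MvPolynomial.C f * (MvPolynomial.C c + ∑ i, MvPolynomial.C (b i) *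
        MvPolynomial.X (i, 0)) - MvPolynomial.C (z * w) ∈ KK E' g 0 := by
      have : MvPolynomial.C f * (MvPolynomial.C c + ∑ i, MvPolynomial.C (b i) *
          MvPolynomial.X (i, 0)) - MvPolynomial.C (z * w) = ∑ i, MvPolynomial.C (b i) * g i := by
        simp only [← e, hg, map_add, map_mul, map_sum, mul_add, mul_sub, Finset.mul_sum,
          Finset.sum_sub_distrib, mul_left_comm (MvPolynomial.C f)]
        ring
      rw [this]
      exact Ideal.sum_mem _ fun i _ => Ideal.mul_mem_left _ _ (KK_iter E' g i 0)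
    have ht : E.δ (z * w) = 0 := E.tf _ (by
      have := E.spec (z * w)
      rw [map_mul, hz, hw, mul_pow] at this
      exact left_eq_add.1 this)
    have hmem : ∀ c ∈ maximalIdeal T, MvPolynomial.C c ∈ (maximalIdeal _).comap π := fun c hc => by
      rw [Ideal.mem_comap, hπC]
      exact map_nonunit _ c hc
    obtain ⟨u, k1, k2⟩ := E'.pow_mem_prod ((maximalIdeal _).comap π)
      (map_natCast (MvPolynomial.C (σ := ι × ℕ) (R := T)) p ▸ hmem _ hp) (hmem _ hf)
      (e2 f ▸ (hu.map _).map _) (by rw [e2, ht, map_zero]) (KK E' g)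
      (fun j x hx => ⟨(KK_step E' g j hx).1, (KK_step E' g j hx).2.1⟩) h0 m
    have k3 := E'.prod_mem_pow (MvPolynomial.C f) (n := m) (c := k) (N := k) (by omega)
    have k4 : IsUnit (π u) := by
      by_contra hu'
      rw [Ideal.Quotient.eq_zero_iff_mem.2 (show u ∈ (maximalIdeal _).comap π from hu'),
        isUnit_zero_iff, Ideal.Quotient.zero_eq_one_iff] at k1
      exact Ideal.comap_ne_top _ (maximalIdeal.isMaximal _).ne_top k1
    obtain ⟨x, hx, x', hx', k5⟩ := Submodule.mem_sup.1 k2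
    have k6 := Ideal.mem_map_of_mem π ((Ideal.span_singleton_le_iff_mem _).2 k3 hx)
    have k7 := congrArg π k5
    rw [map_add, hπ m (by omega) _ hx', add_zero, map_mul, map_pow, hπC] at k7
    rw [k7, Ideal.map_pow, Ideal.map_span, Set.image_pair, map_natCast, ← hM, hC, hπC,
      Ideal.unit_mul_mem_iff_mem _ k4] at k6
    rw [← map_mul, ← mul_pow, map_pow]
    exact k6

end DL

/-- Let `T = W[[σ]]`, `M = k + p ^ k * k`, `S = T[[ι × Fin M]]`, `ev : T[y i j] → S` killing
`y i j` for `j ≥ M`, `Δ = S / (ev (r i j), j ≤ M)`, `Φ = φ^[M]` followed by `T → Δ`,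
`α = X z ^ p ^ (M - k)`, `ρ = p ^ (M * card σ)`. The elements `ev (r i j)`, `p`, `φ^[M] f`,
`φ^[M] (s l)` form a system of parameters of the Cohen-Macaulay ring `S` (`relation_shape`).
Count: modulo `p` and the relations `mult (f ^ p ^ M, s ^ p ^ M) = p ^ (M (a + 1)) mult (f, s)`
(`mult_pow`), and `S / (p, f, s, r) = C[[y]] / (tails)` with `C = T / (p, f, H, s)` Artinian
(`mult_quotient_map`, `length_triangular`). -/
theorem exists_dLevel (hW : IsCohen p W) [IsAlgClosed (ResidueField W)] {a : ℕ}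
    {f : MvPowerSeries σ W} (hf : MvPowerSeries.constantCoeff f = p)
    {H : ι → MvPowerSeries σ W} (hH : ∀ i, MvPowerSeries.constantCoeff (H i) = 0)
    {s : Fin a → MvPowerSeries σ W} (hs : ∀ l, s l ∈ maximalIdeal _)
    (hc : Fintype.card ι + a + 1 = Fintype.card σ)
    (hN : ∃ N : ℕ, maximalIdeal (MvPowerSeries σ W) ^ N ≤ Ideal.span {(p : MvPowerSeries σ W), f} ⊔
      Ideal.span (Set.range H) ⊔ Ideal.span (Set.range s)) {z w : σ}
    (hzw : MvPowerSeries.X z * MvPowerSeries.X w ∈ Ideal.span {f} ⊔ Ideal.span (Set.range H))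
    (k : ℕ) : Nonempty (DLevel p (MvPowerSeries σ W) f H s (MvPowerSeries.X z)
      (MvPowerSeries.X w) k) := by
  obtain ⟨E, φ₀, -, e2, e3, e4⟩ := exists_dRing_series hW σ
  have := hW.complete
  have := isAdicComplete_mvPowerSeries (σ := σ) (V := W)
  refine DL.main E (FacA.reg_vars hW _ (Finset.nodup_toList Finset.univ))
    (FacA.ofList_vars hW _ (by simp)) (by simp) (FacA.p_mem hW σ)
    (RingHom.ker MvPowerSeries.constantCoeff) e3 (fun g hg => ?_) ?_ ?_ (e4 f hf) hH hs hc hN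
    (e2 z) (e2 w) hzw (exists_frob_gens hW E) (fun M c => ?_) k
  · rw [RingHom.mem_ker, map_mul, map_natCast] at hg
    exact (mul_eq_zero.1 hg).resolve_left hW.ne_zero
  · rw [maximalIdeal_mvPowerSeries, ker_constantCoeff]
    exact le_sup_right
  · intro hu
    have := hu.map MvPowerSeries.constantCoeff
    rw [hf] at this
    exact hW.mem_max this
  · obtain ⟨x, hx⟩ := IsAlgClosed.exists_pow_nat_eq (residue W (MvPowerSeries.constantCoeff c))
      (pow_pos (Fact.out : p.Prime).pos M)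
    obtain ⟨d, rfl⟩ := residue_surjective x
    refine ⟨MvPowerSeries.C d, fun hu => ?_⟩
    have := (hu.map MvPowerSeries.constantCoeff).map (residue W)
    simp [hx] at this

end Vale.Agent.P177
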