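import Vale.Agent.P202.HomKos
import Vale.Agent.P202.Resolution

/-! P177: all basic definitions (additive functionals, matrix complexes, weights, resolutions). -/

namespace Vale.Agent.P177

open Vale.Agent.P202 IsLocalRing Polynomial

universe u

/-- A real valued function on a Serre class of modules, additive on short exact sequences. -/
structure AddFun (T : Type u) [CommRing T] where
  mem : (M : Type u) → [AddCommGroup M] → [Module T M] → Prop
  val : (M : Type u) → [AddCommGroup M] → [Module T M] → ℝ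
  mem_zero : ∀ (M : Type u) [AddCommGroup M] [Module T M], Subsingleton M → mem M
  mem_inj : ∀ (M N : Type u) [AddCommGroup M] [Module T M] [AddCommGroup N] [Module T N]
    (f : M →ₗ[T] N), Function.Injective f → mem N → mem M
  mem_surj : ∀ (M N : Type u) [AddCommGroup M] [Module T M] [AddCommGroup N] [Module T N]
    (f : M →ₗ[T] N), Function.Surjective f → mem M → mem N
  mem_ext : ∀ (M : Type u) [AddCommGroup M] [Module T M] (N : Submodule T M),
    mem N → mem (M ⧸ N) → mem M
  val_equiv : ∀ (M N : Type u) [AddCommGroup M] [Module T M] [AddCommGroup N] [Module T N],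
    (M ≃ₗ[T] N) → mem M → val M = val N
  val_add : ∀ (M : Type u) [AddCommGroup M] [Module T M] (N : Submodule T M),
    mem M → val M = val N + val (M ⧸ N)

/-- The ordinary length. -/
noncomputable def lenFun (T : Type u) [CommRing T] : AddFun T where
  mem M _ _ := Module.length T M ≠ ⊤
  val M _ _ := ((Module.length T M).toNat : ℝ)
  mem_zero M _ _ h := by rw [Module.length_eq_zero]; exact ENat.zero_ne_top
  mem_inj M N _ _ _ _ f hf h := ne_top_of_le_ne_top h (Module.length_le_of_injective f hf)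
  mem_surj M N _ _ _ _ f hf h := ne_top_of_le_ne_top h (Module.length_le_of_surjective f hf)
  mem_ext M _ _ N h1 h2 := by
    rw [Module.length_eq_add_of_exact N.subtype N.mkQ N.subtype_injective N.mkQ_surjective
      (LinearMap.exact_subtype_mkQ N)]
    exact WithTop.add_ne_top.2 ⟨h1, h2⟩
  val_equiv M N _ _ _ _ e _ := by rw [e.length_eq]
  val_add M _ _ N h := by
    have e := Module.length_eq_add_of_exact N.subtype N.mkQ N.subtype_injective N.mkQ_surjective
      (LinearMap.exact_subtype_mkQ N)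
    rw [e] at h ⊢
    have h' := WithTop.add_ne_top.1 h
    rw [ENat.toNat_add h'.1 h'.2, Nat.cast_add]

namespace AddFun
variable {T : Type u} [CommRing T] (δ : AddFun T) {M : Type u} [AddCommGroup M] [Module T M]
  {M' : Type u} [AddCommGroup M'] [Module T M']

/-- The subquotient `(P ⊔ Q) / Q` lies in the class. -/
def rm (P Q : Submodule T M) : Prop := δ.mem (P.map Q.mkQ)
/-- The value on the subquotient `(P ⊔ Q) / Q`. -/
noncomputable def rv (P Q : Submodule T M) : ℝ := δ.val (P.map Q.mkQ)

/-- Kernel and cokernel lie in the class. -/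
def IndOK (f : M →ₗ[T] M') : Prop := δ.mem (LinearMap.ker f) ∧ δ.mem (M' ⧸ LinearMap.range f)
/-- The index of a map. -/
noncomputable def ind (f : M →ₗ[T] M') : ℝ :=
  δ.val (M' ⧸ LinearMap.range f) - δ.val (LinearMap.ker f)

/-- Kernel and cokernel of the map `P / Q → P' / Q'` induced by `φ` lie in the class. -/
def IndOKP (φ : M →ₗ[T] M') (P Q : Submodule T M) (P' Q' : Submodule T M') : Prop :=
  δ.rm (P ⊓ Q'.comap φ) Q ∧ δ.rm P' (Q' ⊔ P.map φ)
/-- The index of the map `P / Q → P' / Q'` induced by `φ`. -/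
noncomputable def indP (φ : M →ₗ[T] M') (P Q : Submodule T M) (P' Q' : Submodule T M') : ℝ :=
  δ.rv P' (Q' ⊔ P.map φ) - δ.rv (P ⊓ Q'.comap φ) Q

variable {B : Type*} [CommRing B] [Algebra T B] [Module B M] [IsScalarTower T B M]

/-- The `i`-th homology lies in the class. -/
def hm (d : M →ₗ[B] M) (A A' : ℤ → Submodule T M) (i : ℤ) : Prop :=
  δ.rm (cyc d A A' i) (bdy d A A' i)
/-- The value on the `i`-th homology. -/
noncomputable def hv (d : M →ₗ[B] M) (A A' : ℤ → Submodule T M) (i : ℤ) : ℝ :=
  δ.rv (cyc d A A' i) (bdy d A A' i)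
/-- All homology lies in the class and almost all of it vanishes. -/
structure FinH (d : M →ₗ[B] M) (A A' : ℤ → Submodule T M) : Prop where
  hm : ∀ i, δ.hm d A A' i
  fin : {i | ¬ cyc d A A' i ≤ bdy d A A' i}.Finite
/-- The Euler characteristic. -/
noncomputable def eul (d : M →ₗ[B] M) (A A' : ℤ → Submodule T M) : ℝ :=
  ∑ᶠ i, (sgn i : ℝ) * δ.hv d A A' i
end AddFun

/-- The map `P / Q → P' / Q'` induced by `φ`. -/
def qmap {T : Type*} [CommRing T] {M M' : Type*} [AddCommGroup M] [Module T M] [AddCommGroup M']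
    [Module T M'] (φ : M →ₗ[T] M') {P Q : Submodule T M} {P' Q' : Submodule T M'}
    (hP : ∀ x ∈ P, φ x ∈ P') (hQ : ∀ x ∈ Q, φ x ∈ Q') : P.map Q.mkQ →ₗ[T] P'.map Q'.mkQ :=
  (Q.mapQ Q' φ fun x hx => hQ x hx).restrict fun _ hx => by
    obtain ⟨x, hx, rfl⟩ := hx
    exact ⟨φ x, hP x hx, rfl⟩

section MC
variable {ι ι' : Type} [Fintype ι] [Fintype ι']

/-- Natural number degrees as integers. -/
def zd (dg : ι → ℕ) : ι → ℤ := fun a => (dg a : ℤ)

/-- The differential of a matrix complex with coefficients in `V`. -/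
abbrev cx {B : Type*} [CommRing B] (D : Matrix ι ι B) (dg : ι → ℕ) (V : Type*) [AddCommGroup V]
    [Module B V] : (ι → V) →ₗ[B] (ι → V) := tot D (zd dg) (0 : V →ₗ[B] V)

/-- Vectors of degree `i` with entries in `P`. -/
abbrev fam {T : Type*} [CommRing T] {V : Type*} [AddCommGroup V] [Module T V] (dg : ι → ℕ)
    (P : Submodule T V) : ℤ → Submodule T (ι → V) := totFam (zd dg) fun _ => conc P

/-- The `T`-length of the `i`-th homology of a matrix complex with coefficients in `V`. -/
noncomputable def mlen (T : Type*) [CommRing T] {B : Type*} [CommRing B] [Algebra T B]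
    (D : Matrix ι ι B) (dg : ι → ℕ) (V : Type*) [AddCommGroup V] [Module B V] [Module T V]
    [IsScalarTower T B V] (i : ℤ) : ℕ∞ :=
  hl (cx D dg V) (fam dg (⊤ : Submodule T V)) (fam dg (⊥ : Submodule T V)) i

/-- The homology of a matrix complex with coefficients in `V` lies in the class. -/
def AddFun.MFin {T : Type u} [CommRing T] (δ : AddFun T) {B : Type*} [CommRing B] [Algebra T B]
    (D : Matrix ι ι B) (dg : ι → ℕ) (V : Type u) [AddCommGroup V] [Module B V] [Module T V]
    [IsScalarTower T B V] : Prop :=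
  δ.FinH (cx D dg V) (fam dg (⊤ : Submodule T V)) (fam dg (⊥ : Submodule T V))

/-- The Euler characteristic of a matrix complex with coefficients in `V`. -/
noncomputable def AddFun.meul {T : Type u} [CommRing T] (δ : AddFun T) {B : Type*} [CommRing B]
    [Algebra T B] (D : Matrix ι ι B) (dg : ι → ℕ) (V : Type u) [AddCommGroup V] [Module B V]
    [Module T V] [IsScalarTower T B V] : ℝ :=
  δ.eul (cx D dg V) (fam dg (⊤ : Submodule T V)) (fam dg (⊥ : Submodule T V))

variable {A : Type*} [CommRing A]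

/-- A rectangular matrix lowering the degree by `k`. -/
def IsHomR (F : Matrix ι' ι A) (dg' : ι' → ℕ) (dg : ι → ℕ) (k : ℤ) : Prop :=
  ∀ a b, F a b ≠ 0 → (dg b : ℤ) = dg' a + k

/-- Homotopy equivalence of matrix complexes. -/
def MHEq [DecidableEq ι] [DecidableEq ι'] (D : Matrix ι ι A) (dg : ι → ℕ) (D' : Matrix ι' ι' A)
    (dg' : ι' → ℕ) : Prop :=
  ∃ (F : Matrix ι' ι A) (G : Matrix ι ι' A) (H : Matrix ι ι A) (H' : Matrix ι' ι' A),
    IsHomR F dg' dg 0 ∧ IsHomR G dg dg' 0 ∧ IsHomR H dg dg (-1) ∧ IsHomR H' dg' dg' (-1) ∧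
    F * D = D' * F ∧ G * D' = D * G ∧ G * F - 1 = D * H + H * D ∧ F * G - 1 = D' * H' + H' * D'

/-- The scalar `g` is null-homotopic. -/
def NullHtp [DecidableEq ι] (D : Matrix ι ι A) (dg : ι → ℕ) (g : A) : Prop :=
  ∃ H : Matrix ι ι A, IsHomR H dg dg (-1) ∧ D * H + H * D = g • (1 : Matrix ι ι A)

/-- The complex is contractible near the prime `x`. -/
def NullAt [DecidableEq ι] (D : Matrix ι ι A) (dg : ι → ℕ) (x : PrimeSpectrum A) : Prop :=
  ∃ g, g ∉ x.asIdeal ∧ NullHtp D dg g

/-- The dimension of the `i`-th homology of the fibre at the prime `x`. -/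
noncomputable def hk (D : Matrix ι ι A) (dg : ι → ℕ) (x : PrimeSpectrum A) (i : ℤ) : ℕ∞ :=
  mlen x.asIdeal.ResidueField (D.map (algebraMap A x.asIdeal.ResidueField)) dg
    x.asIdeal.ResidueField i

/-- The fibre at `x` is exact in all degrees `≥ j`. -/
def GoodAt (D : Matrix ι ι A) (dg : ι → ℕ) (x : PrimeSpectrum A) (j : ℕ) : Prop :=
  ∀ i : ℤ, (j : ℤ) ≤ i → hk D dg x i = 0

/-- The expected rank of the `j`-th differential. -/
def sAlt (dg : ι → ℕ) (j : ℕ) : ℤ := ∑ b, if j ≤ dg b then (-1) ^ (dg b - j) else 0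

/-- The mapping cone of `F : D → D'`. -/
def coneM (D : Matrix ι ι A) (D' : Matrix ι' ι' A) (F : Matrix ι' ι A) :
    Matrix (ι ⊕ ι') (ι ⊕ ι') A := Matrix.fromBlocks (-D) 0 F D'
/-- The degrees of the mapping cone. -/
def coneDg (dg : ι → ℕ) (dg' : ι' → ℕ) : ι ⊕ ι' → ℕ := Sum.elim (fun a => dg a + 1) dg'

/-- The two term complex `A → A ^ c` given by a column vector. -/
def twoM {c : ℕ} (y : Fin c → A) : Matrix (Option (Fin c)) (Option (Fin c)) A
  | some j, none => y j
  | _, _ => 0
/-- The degrees of the two term complex. -/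
def twoDg (c : ℕ) : Option (Fin c) → ℕ
  | none => 1
  | some _ => 0

/-- The Koszul complex plus a free module of rank `c - 1` in degree zero. -/
def kpM {c : ℕ} (x : Fin c → A) :
    Matrix (Finset (Fin c) ⊕ Fin (c - 1)) (Finset (Fin c) ⊕ Fin (c - 1)) A :=
  Matrix.fromBlocks (kos x) 0 0 0
/-- The degrees of `kpM`. -/
def kpDg (c : ℕ) : Finset (Fin c) ⊕ Fin (c - 1) → ℕ := Sum.elim Finset.card fun _ => 0
end MC

section Weights
variable {R : Type u} [CommRing R] {ι ι' : Type} [Fintype ι]

/-- Degree bounds for a matrix of polynomials. -/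
def Wt (w' : ι' → ℕ) (w : ι → ℕ) (D : Matrix ι' ι R[X]) : Prop :=
  ∀ a b, D a b ≠ 0 → (D a b).natDegree + w b ≤ w' a

/-- Evaluation at `(x, s)` of the homogenisation of formal degree `n`. -/
def hev {R' : Type*} [CommRing R'] (φ : R →+* R') (x s : R') (n : ℕ) (f : R[X]) : R' :=
  ∑ i ∈ Finset.range (n + 1), φ (f.coeff i) * x ^ i * s ^ (n - i)

/-- Evaluation at `(x, s)` of the homogenisation of a weighted matrix. -/
def grM {R' : Type*} [CommRing R'] (φ : R →+* R') (x s : R') (w' : ι' → ℕ) (w : ι → ℕ)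
    (D : Matrix ι' ι R[X]) : Matrix ι' ι R' :=
  fun a b => if w b ≤ w' a then hev φ x s (w' a - w b) (D a b) else 0

/-- The fibre at infinity. -/
def leadM (w : ι → ℕ) (D : Matrix ι ι R[X]) : Matrix ι ι R := grM (RingHom.id R) 1 0 w w D

/-- The fibre at zero. -/
noncomputable def ev0M (D : Matrix ι ι R[X]) : Matrix ι ι R := D.map (evalRingHom 0)

/-- The `n`-th strand. -/
noncomputable def stFam (dg w : ι → ℕ) (n : ℕ) : ℤ → Submodule R (ι → R[X]) :=
  fun i => fam dg ⊤ i ⊓ Submodule.pi Set.univ fun b => degreeLT R (n + w b)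

/-- The `n`-th strand multiplied by `v`. -/
noncomputable def vFam (dg w : ι → ℕ) (v : R[X]) (n : ℕ) : ℤ → Submodule R (ι → R[X]) :=
  fun i => (stFam dg w n i).map ((LinearMap.lsmul R[X] (ι → R[X]) v).restrictScalars R)

/-- The cokernel of `v` on the strands has homology in the class. -/
def AddFun.IFin (δ : AddFun R) (D : Matrix ι ι R[X]) (dg w : ι → ℕ) (v : R[X]) (e n : ℕ) : Prop :=
  δ.FinH (cx D dg R[X]) (stFam dg w (n + e)) (vFam dg w v n)

/-- The Euler characteristic of the cokernel of `v` on the strands. -/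
noncomputable def AddFun.Iv (δ : AddFun R) (D : Matrix ι ι R[X]) (dg w : ι → ℕ) (v : R[X])
    (e n : ℕ) : ℝ := δ.eul (cx D dg R[X]) (stFam dg w (n + e)) (vFam dg w v n)
end Weights

section Points
variable {R : Type u} [CommRing R] [IsLocalRing R]

/-- Finite modules whose support meets `V(I)` at most in the closed point. -/
def InA (I : Ideal R) (V : Type u) [AddCommGroup V] [Module R V] : Prop :=
  Module.Finite R V ∧ ∃ N : ℕ, maximalIdeal R ^ N ≤ I ⊔ Module.annihilator R V

/-- Points of the punctured spectrum of `R / I`. -/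
def UPt (I : Ideal R) (x : PrimeSpectrum R) : Prop := I ≤ x.asIdeal ∧ x.asIdeal ≠ maximalIdeal R

/-- Points of the affine line over the punctured spectrum of `R / I`. -/
def XPt (I : Ideal R) (x : PrimeSpectrum R[X]) : Prop :=
  I.map C ≤ x.asIdeal ∧ x.asIdeal.comap C ≠ maximalIdeal R

/-- Property (F): the index of an endomorphism only depends on it modulo `I`. -/
def PropF (I : Ideal R) (δ : AddFun R) : Prop :=
  ∀ (V : Type u) [AddCommGroup V] [Module R V] [Module.Finite R V] (φ φ' : V →ₗ[R] V),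
    φ - φ' ∈ (I • ⊤ : Submodule R (V →ₗ[R] V)) → δ.IndOK φ → δ.IndOK φ' → δ.ind φ = δ.ind φ'

/-- Property (K): vanishing on complete intersections in finite free local algebras. -/
def PropK (a : ℕ) (δ : AddFun R) : Prop :=
  ∀ (R' : Type u) [CommRing R'] [IsLocalRing R'] [Algebra R R'] [Module.Finite R R']
    [Module.Free R R'] (y : List R'), y.length = a → (∀ t ∈ y, t ∈ maximalIdeal R') →
    δ.mem (R' ⧸ Ideal.ofList y) → δ.val (R' ⧸ Ideal.ofList y) = 0

/-- The ring theoretic hypotheses of the K-lemma: `R` is regular of dimension `d`, and `R / I` is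
a complete intersection of dimension `a`. -/
structure CIData (d a : ℕ) (I : Ideal R) : Prop where
  reg : ∃ x : List R, x.length = d ∧ RingTheory.Sequence.IsWeaklyRegular R x ∧
    Ideal.ofList x = maximalIdeal R
  gen : ∃ h : List R, h.length + a = d ∧ Ideal.ofList h = I
  le : I ≤ maximalIdeal R
  dim : ringKrullDim (R ⧸ I) ≤ a
  pos : 1 ≤ a

/-- The hypotheses of the K-lemma on the functional. -/
structure KHyp (a p : ℕ) (I : Ideal R) (δ : AddFun R) : Prop where
  prime : p.Prime
  pm : (p : R) ∈ maximalIdeal R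
  mem_iff : ∀ (V : Type u) [AddCommGroup V] [Module R V], δ.mem V ↔ InA I V
  propF : PropF I δ
  propK : PropK a δ
end Points

section Res
variable (R : Type u) [CommRing R]

/-- A finite free complex with augmentation to `X`, exact in the degrees `0 < i < N`. -/
structure PResol (X : Type u) [AddCommGroup X] [Module R X] (N : ℕ∞) where
  ι : Type
  [fin : Fintype ι]
  [dec : DecidableEq ι]
  dg : ι → ℕ
  D : Matrix ι ι R
  mc : IsMC D (zd dg)
  ex : ∀ i : ℕ, 0 < i → (i : ℕ∞) < N → ∀ v : ι → R, Res.Sp (zd dg) i v → D.mulVec v = 0 →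
    ∃ w, Res.Sp (zd dg) (i + 1) w ∧ v = D.mulVec w
  ε : (ι → R) →ₗ[R] X
  surj : Function.Surjective ε
  ker : ∀ v, ε v = 0 ↔ ∃ w, Res.Sp (zd dg) 1 w ∧ ∀ a, dg a = 0 → v a = D.mulVec w a

attribute [instance] PResol.fin PResol.dec

/-- A finite free resolution. -/
abbrev Resol (X : Type u) [AddCommGroup X] [Module R X] := PResol R X ⊤

/-- Every finite module has a finite free resolution of length at most `d`. -/
def HasRes (d : ℕ) : Prop := ∀ (X : Type u) [AddCommGroup X] [Module R X] [Module.Finite R X],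
  ∃ F : Resol R X, ∀ a, F.dg a ≤ d

open Classical in
/-- Serre's intersection multiplicity, computed with a finite free resolution of `X`. -/
noncomputable def chi (X : Type u) [AddCommGroup X] [Module R X] (V : Type u) [AddCommGroup V]
    [Module R V] : ℝ :=
  if h : Nonempty (Resol R X) then (lenFun R).meul h.some.D h.some.dg V else 0

/-- The two finite modules meet at most in the closed point. -/
def Meets [IsLocalRing R] (X : Type u) [AddCommGroup X] [Module R X] (V : Type u)
    [AddCommGroup V] [Module R V] : Prop :=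
  Module.Finite R X ∧ Module.Finite R V ∧
    ∃ N : ℕ, maximalIdeal R ^ N ≤ Module.annihilator R X ⊔ Module.annihilator R V
end Res

end Vale.Agent.P177
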