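import Vale.Agent.P177.Defs
import Vale.Agent.P202.CohenRing

/-! P177 module Delta: rings with a Frobenius lift, and the universal delta envelope. -/

namespace Vale.Agent.P177

open Vale.Agent.P202 IsLocalRing

universe u

/-- A Frobenius lift `φ` with its `p`-derivation `δ` on a `p`-torsion free ring. -/
structure DRing (p : ℕ) (P : Type u) [CommRing P] where
  φ : P →+* P
  δ : P → P
  spec : ∀ g, φ g = g ^ p + p * δ g
  tf : ∀ g : P, p * g = 0 → g = 0

namespace DRing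
variable {p : ℕ} [Fact p.Prime] {P : Type u} [CommRing P] (E : DRing p P)

omit [Fact p.Prime] in
include E in
theorem cancel {a b : P} (h : p * a = p * b) : a = b :=
  sub_eq_zero.1 (E.tf _ (by rw [mul_sub, h, sub_self]))

omit [Fact p.Prime] in
theorem mul_δ (a : P) : p * E.δ a = E.φ a - a ^ p := by rw [E.spec]; ring

theorem δ_mul (a b : P) : E.δ (a * b) = E.δ a * b ^ p + E.φ a * E.δ b := by
  apply E.cancel
  have h1 := E.mul_δ a
  have h2 := E.mul_δ b
  rw [E.mul_δ, map_mul, mul_pow]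
  linear_combination (-b ^ p) * h1 - E.φ a * h2

theorem δ_add_eq (a b : P) : E.δ (a + b) = E.δ a + E.δ b -
    ∑ k ∈ Finset.Ioo 0 p, a ^ k * b ^ (p - k) * (p.choose k / p : ℕ) := by
  apply E.cancel
  have h1 := E.mul_δ a
  have h2 := E.mul_δ b
  rw [E.mul_δ, map_add, add_pow_prime_eq' (Fact.out : p.Prime)]
  linear_combination -h1 - h2

theorem δ_add (a b : P) : E.δ (a + b) - E.δ a - E.δ b ∈ Ideal.span {a * b} := by
  obtain ⟨r, hr⟩ := exists_add_pow_prime_eq (Fact.out : p.Prime) a b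
  refine Ideal.mem_span_singleton'.2 ⟨-r, E.cancel ?_⟩
  have h1 := E.mul_δ a
  have h2 := E.mul_δ b
  have h3 := E.mul_δ (a + b)
  rw [map_add, hr] at h3
  linear_combination h1 + h2 - h3

theorem δ_add' : ∃ κ : ℤ, ∀ a b : P,
    E.δ (a + b) - E.δ a - E.δ b - κ * b ^ p ∈ Ideal.span {a + b} := by
  refine ⟨-∑ k ∈ Finset.Ioo 0 p, (-1 : ℤ) ^ k * (p.choose k / p : ℕ), fun a b => ?_⟩
  have e : E.δ (a + b) - E.δ a - E.δ b -
      ((-∑ k ∈ Finset.Ioo 0 p, (-1 : ℤ) ^ k * (p.choose k / p : ℕ) : ℤ) : P) * b ^ p =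
      -∑ k ∈ Finset.Ioo 0 p, (a ^ k - (-b) ^ k) * (b ^ (p - k) * (p.choose k / p : ℕ)) := by
    rw [E.δ_add_eq, Int.cast_neg, Int.cast_sum, neg_mul, Finset.sum_mul]
    have : ∑ k ∈ Finset.Ioo 0 p, (a ^ k - (-b) ^ k) * (b ^ (p - k) * (p.choose k / p : ℕ)) =
        ∑ k ∈ Finset.Ioo 0 p, a ^ k * b ^ (p - k) * (p.choose k / p : ℕ) -
          ∑ k ∈ Finset.Ioo 0 p, (((-1) ^ k * (p.choose k / p : ℕ) : ℤ) : P) * b ^ p := by
      rw [← Finset.sum_sub_distrib]
      refine Finset.sum_congr rfl fun k hk => ?_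
      have hb : b ^ p = b ^ k * b ^ (p - k) := by
        rw [← pow_add, Nat.add_sub_cancel' (Finset.mem_Ioo.1 hk).2.le]
      rw [Int.cast_mul, Int.cast_natCast, Int.cast_pow, Int.cast_neg, Int.cast_one, neg_pow b, hb]
      ring
    rw [this]
    ring
  rw [e]
  refine neg_mem (Ideal.sum_mem _ fun k _ => Ideal.mul_mem_right _ _ ?_)
  rw [Ideal.mem_span_singleton, ← sub_neg_eq_add]
  exact sub_dvd_pow_sub_pow _ _ _

theorem δ_φ (a : P) : E.δ (E.φ a) = E.φ (E.δ a) := by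
  apply E.cancel
  rw [E.mul_δ, ← map_pow, ← map_sub, ← E.mul_δ, map_mul, map_natCast]

theorem δ_iterate (j : ℕ) (a : P) : E.δ (E.φ^[j] a) = E.φ^[j] (E.δ a) := by
  induction j with
  | zero => rfl
  | succ j ih => rw [Function.iterate_succ_apply', Function.iterate_succ_apply', E.δ_φ, ih]

theorem δ_zero : E.δ 0 = 0 := by
  apply E.cancel
  rw [E.mul_δ, map_zero, zero_pow (Fact.out : p.Prime).ne_zero, sub_zero, mul_zero]

theorem δ_p : E.δ p = 1 - (p : P) ^ (p - 1) := by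
  apply E.cancel
  rw [E.mul_δ, map_natCast, mul_sub, mul_one, ← pow_succ',
    Nat.sub_add_cancel (Fact.out : p.Prime).one_le]

theorem φ_mem {J : Ideal P} {a : P} (h1 : a ∈ J) (h2 : E.δ a ∈ J) : E.φ a ∈ J := by
  rw [E.spec]
  exact add_mem (Ideal.pow_mem_of_mem _ h1 _ (Fact.out : p.Prime).pos) (Ideal.mul_mem_left _ _ h2)

theorem φ_mem' {J : Ideal P} (hp : (p : P) ∈ J) {a : P} (h1 : a ∈ J) : E.φ a ∈ J := by
  rw [E.spec]
  exact add_mem (Ideal.pow_mem_of_mem _ h1 _ (Fact.out : p.Prime).pos) (Ideal.mul_mem_right _ _ hp)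

theorem iterate_mem {J : Ideal P} (hp : (p : P) ∈ J) {a : P} (h1 : a ∈ J) (j : ℕ) :
    E.φ^[j] a ∈ J := by
  induction j with
  | zero => exact h1
  | succ j ih => rw [Function.iterate_succ_apply']; exact E.φ_mem' hp ih

theorem δ_add_mem {J : Ideal P} {a b : P} (h : a ∈ J) (h1 : E.δ a ∈ J) (h2 : E.δ b ∈ J) :
    E.δ (a + b) ∈ J := by
  obtain ⟨r, hr⟩ := Ideal.mem_span_singleton'.1 (E.δ_add a b)
  have e : E.δ (a + b) = E.δ a + E.δ b + a * (b * r) := by linear_combination -hr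
  rw [e]
  exact add_mem (add_mem h1 h2) (Ideal.mul_mem_right _ _ h)

theorem good_span {s : Set P} {J : Ideal P} (h : ∀ g ∈ s, g ∈ J ∧ E.δ g ∈ J) :
    ∀ a ∈ Ideal.span s, a ∈ J ∧ E.δ a ∈ J := by
  intro a ha
  induction ha using Submodule.span_induction with
  | mem g hg => exact h g hg
  | zero => exact ⟨zero_mem _, by rw [E.δ_zero]; exact zero_mem _⟩
  | add a b _ _ h1 h2 => exact ⟨add_mem h1.1 h2.1, E.δ_add_mem h1.1 h1.2 h2.2⟩
  | smul c a _ h1 =>
    rw [smul_eq_mul, mul_comm]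
    refine ⟨Ideal.mul_mem_right _ _ h1.1, ?_⟩
    rw [E.δ_mul]
    exact add_mem (Ideal.mul_mem_right _ _ h1.2) (Ideal.mul_mem_right _ _ (E.φ_mem h1.1 h1.2))

theorem good_sup {A B J : Ideal P} (hA : ∀ g ∈ A, g ∈ J ∧ E.δ g ∈ J)
    (hB : ∀ g ∈ B, g ∈ J ∧ E.δ g ∈ J) : ∀ g ∈ A ⊔ B, g ∈ J ∧ E.δ g ∈ J := by
  intro g hg
  obtain ⟨a, ha, b, hb, rfl⟩ := Submodule.mem_sup.1 hg
  exact ⟨add_mem (hA a ha).1 (hB b hb).1, E.δ_add_mem (hA a ha).1 (hA a ha).2 (hB b hb).2⟩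

theorem δ_mem_span {s s' : Set P} (h : ∀ g ∈ s, g ∈ Ideal.span s' ∧ E.δ g ∈ Ideal.span s')
    {a : P} (ha : a ∈ Ideal.span s) : E.δ a ∈ Ideal.span s' ∧ E.φ a ∈ Ideal.span s' :=
  ⟨(E.good_span h a ha).2, E.φ_mem (E.good_span h a ha).1 (E.good_span h a ha).2⟩

omit [Fact p.Prime] in
theorem mk_φ {J : Ideal P} (hp : (p : P) ∈ J) (a : P) :
    Ideal.Quotient.mk J (E.φ a) = Ideal.Quotient.mk J a ^ p := by
  rw [← map_pow, Ideal.Quotient.eq, ← E.mul_δ]
  exact Ideal.mul_mem_right _ _ hp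

omit [Fact p.Prime] in
theorem mk_iterate {J : Ideal P} (hp : (p : P) ∈ J) (j : ℕ) (a : P) :
    Ideal.Quotient.mk J (E.φ^[j] a) = Ideal.Quotient.mk J a ^ p ^ j := by
  induction j with
  | zero => simp
  | succ j ih => rw [Function.iterate_succ_apply', E.mk_φ hp, ih, ← pow_mul, ← pow_succ]

theorem iterate_sub_pow (j : ℕ) (a : P) : E.φ^[j] a - a ^ p ^ j ∈ Ideal.span {(p : P)} := by
  rw [← Ideal.Quotient.eq, map_pow]
  exact E.mk_iterate (Ideal.mem_span_singleton_self _) j a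

theorem iterate_shape [IsLocalRing P] (hp : (p : P) ∈ maximalIdeal P) {g : P}
    (hg : g ∈ maximalIdeal P) (hu : IsUnit (E.δ g)) (n : ℕ) :
    ∃ u r, IsUnit u ∧ r ∈ maximalIdeal P ∧ E.φ^[n + 1] g = p * u + g * r := by
  have h2 := (Fact.out : p.Prime).two_le
  have hgp : g ^ p = g * g ^ (p - 1) := by rw [← pow_succ', Nat.sub_add_cancel (by omega)]
  have hg1 : g ^ (p - 1) ∈ maximalIdeal P := Ideal.pow_mem_of_mem _ hg _ (by omega)
  induction n with
  | zero =>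
    refine ⟨E.δ g, g ^ (p - 1), hu, hg1, ?_⟩
    rw [zero_add, Function.iterate_one, E.spec, hgp, add_comm]
  | succ n ih =>
    obtain ⟨u, r, h1, h3, h4⟩ := ih
    refine ⟨E.φ u + E.δ g * E.φ r, g ^ (p - 1) * E.φ r, ?_, Ideal.mul_mem_right _ _ hg1, ?_⟩
    · by_contra hn
      have h5 : E.φ u + E.δ g * E.φ r ∈ maximalIdeal P := hn
      have h6 := sub_mem h5 (Ideal.mul_mem_left _ (E.δ g) (E.φ_mem' hp h3))
      rw [add_sub_cancel_right] at h6
      exact h6 (h1.map E.φ)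
    · rw [Function.iterate_succ_apply', h4, map_add, map_mul, map_mul, map_natCast, E.spec g, hgp]
      ring

/-- In a local ring, `p ∈ (φ^i f, φ^j f)` for a distinguished element `f` and `i < j`. -/
theorem p_mem_span [IsLocalRing P] (hp : (p : P) ∈ maximalIdeal P) {f : P}
    (hf : f ∈ maximalIdeal P) (hu : IsUnit (E.δ f)) {i j : ℕ} (hij : i < j) :
    (p : P) ∈ Ideal.span {E.φ^[i] f, E.φ^[j] f} := by
  obtain ⟨n, rfl⟩ : ∃ n, j = n + 1 + i := ⟨j - i - 1, by omega⟩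
  have h1 : IsUnit (E.δ (E.φ^[i] f)) := by
    rw [E.δ_iterate, ← RingHom.coe_pow]
    exact hu.map _
  obtain ⟨u, r, ⟨u, rfl⟩, _, h4⟩ := E.iterate_shape hp (E.iterate_mem hp hf i) h1 n
  rw [Function.iterate_add_apply, h4]
  refine Ideal.mem_span_pair.2 ⟨-(r * (u⁻¹ : Pˣ)), (u⁻¹ : Pˣ), ?_⟩
  linear_combination (p : P) * u.inv_mul

theorem key_step (m : Ideal P) (hp : (p : P) ∈ m) {K K' : Ideal P}
    (hK : ∀ g ∈ K, g ∈ K' ∧ E.δ g ∈ K') {F x ε θ : P} (hF : F ∈ m)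
    (hu : IsUnit (Ideal.Quotient.mk m (E.δ F))) (hε : IsUnit (Ideal.Quotient.mk m ε))
    (hθ : IsUnit (Ideal.Quotient.mk m θ)) (h : ε * x ^ p + θ * F * E.δ x ∈ K) :
    ∃ ε' θ', IsUnit (Ideal.Quotient.mk m ε') ∧ IsUnit (Ideal.Quotient.mk m θ') ∧
      ε' * E.δ x ^ p + θ' * E.φ F * E.δ (E.δ x) ∈ K' := by
  have h2 := (Fact.out : p.Prime).two_le
  obtain ⟨κ, hκ⟩ := E.δ_add'
  obtain ⟨G, hG⟩ : ∃ G, G = θ * F - ε * p := ⟨_, rfl⟩
  have e : ε * x ^ p + θ * F * E.δ x = ε * E.φ x + G * E.δ x := by rw [hG, E.spec x]; ring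
  rw [e] at h
  obtain ⟨h3, h4⟩ := hK _ h
  obtain ⟨c, hc⟩ := Ideal.mem_span_singleton'.1 (hκ (ε * E.φ x) (G * E.δ x))
  obtain ⟨c', hc'⟩ := sub_dvd_pow_sub_pow (ε * E.φ x) (-G * E.δ x) p
  have hφG : E.φ G = E.φ θ * E.φ F - E.φ ε * p := by
    rw [hG, map_sub, map_mul, map_mul, map_natCast]
  have hp0 : Ideal.Quotient.mk m (p : P) = 0 := Ideal.Quotient.eq_zero_iff_mem.2 hp
  have hF0 : Ideal.Quotient.mk m F = 0 := Ideal.Quotient.eq_zero_iff_mem.2 hF
  have hG0 : Ideal.Quotient.mk m G = 0 := by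
    rw [hG, map_sub, map_mul, map_mul, hp0, hF0, mul_zero, mul_zero, sub_zero]
  refine ⟨ε ^ p * (E.φ ε + E.δ G + κ * G ^ p) + E.δ ε * (-G) ^ p, ε ^ p * E.φ θ, ?_, ?_, ?_⟩
  · obtain ⟨r, hr⟩ := Ideal.mem_span_singleton'.1 (E.δ_add G (ε * p))
    have e1 : G + ε * p = θ * F := by rw [hG]; ring
    rw [e1, E.δ_mul, E.δ_mul, E.δ_p] at hr
    have e2 : E.φ ε + E.δ G = E.φ θ * E.δ F + (E.δ θ * F ^ p - E.δ ε * (p : P) ^ p +
        E.φ ε * (p : P) ^ (p - 1) - r * (G * (ε * p))) := by linear_combination hr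
    rw [e2]
    simp only [map_add, map_mul, map_sub, map_pow, map_neg, hp0, hF0, hG0, neg_zero,
      zero_pow (by omega : p ≠ 0), zero_pow (by omega : p - 1 ≠ 0), mul_zero, add_zero, sub_zero,
      E.mk_φ hp]
    exact (hε.pow p).mul ((hθ.pow p).mul hu)
  · rw [map_mul, map_pow, E.mk_φ hp]
    exact (hε.pow p).mul (hθ.pow p)
  · have e3 : (ε ^ p * (E.φ ε + E.δ G + κ * G ^ p) + E.δ ε * (-G) ^ p) * E.δ x ^ p +
        ε ^ p * E.φ θ * E.φ F * E.δ (E.δ x) =
        ε ^ p * E.δ (ε * E.φ x + G * E.δ x) -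
          (ε ^ p * c + E.δ ε * c') * (ε * E.φ x + G * E.δ x) := by
      rw [E.δ_mul, E.δ_mul, E.δ_φ, E.spec (E.δ x), hφG, mul_pow] at hc
      rw [mul_pow, mul_pow] at hc'
      linear_combination ε ^ p * hc - E.δ ε * hc'
    rw [e3]
    exact sub_mem (Ideal.mul_mem_left _ _ h4) (Ideal.mul_mem_left _ _ h3)

theorem key_ind (m : Ideal P) (hp : (p : P) ∈ m) {f t u : P} (hf : f ∈ m)
    (hu : IsUnit (Ideal.Quotient.mk m (E.δ f))) (ht : E.δ t = 0) (K : ℕ → Ideal P)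
    (hK : ∀ j, ∀ g ∈ K j, g ∈ K (j + 1) ∧ E.δ g ∈ K (j + 1)) (h0 : f * u - t ∈ K 0) (j : ℕ) :
    ∃ ε θ, IsUnit (Ideal.Quotient.mk m ε) ∧ IsUnit (Ideal.Quotient.mk m θ) ∧
      ε * E.δ^[j] u ^ p + θ * E.φ^[j + 1] f * E.δ (E.δ^[j] u) ∈ K (j + 1) := by
  induction j with
  | zero =>
    refine ⟨E.δ f, 1, hu, by rw [map_one]; exact isUnit_one, ?_⟩
    have h1 := E.δ_add_mem (b := t) (hK 0 _ h0).1 (hK 0 _ h0).2 (by rw [ht]; exact zero_mem _)
    rw [sub_add_cancel, E.δ_mul] at h1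
    simpa using h1
  | succ j ih =>
    obtain ⟨ε, θ, h1, h2, h3⟩ := ih
    rw [Function.iterate_succ_apply' E.δ, Function.iterate_succ_apply' E.φ (j + 1)]
    refine E.key_step m hp (hK (j + 1)) (E.iterate_mem hp hf _) ?_ h1 h2 h3
    rw [E.δ_iterate, E.mk_iterate hp]
    exact hu.pow _

/-- The key divisibility. With `u (j + 1) = δ (u j)` one shows by induction that
`ε * u j ^ p + θ * φ^[j+1] f * u (j + 1) ∈ K (j + 1)` for some `ε, θ` that are units modulo `m`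
(start: `δ (f u - t) ≡ δ (f u)` modulo `f u - t`; step: apply `δ`, use `δ_add'`, multiply by
`ε ^ p` and substitute). -/
theorem pow_mem_prod (m : Ideal P) (hp : (p : P) ∈ m) {f t u : P} (hf : f ∈ m)
    (hu : IsUnit (Ideal.Quotient.mk m (E.δ f))) (ht : E.δ t = 0) (K : ℕ → Ideal P)
    (hK : ∀ j, ∀ g ∈ K j, g ∈ K (j + 1) ∧ E.δ g ∈ K (j + 1)) (h0 : f * u - t ∈ K 0) (n : ℕ) :
    ∃ s, IsUnit (Ideal.Quotient.mk m s) ∧ s * t ^ p ^ n ∈
      Ideal.span {∏ j ∈ Finset.range (n + 1), E.φ^[j] f ^ p ^ (n - j)} ⊔ K n := by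
  have key : ∃ s c, IsUnit (Ideal.Quotient.mk m s) ∧ s * t ^ p ^ n -
      c * (∏ j ∈ Finset.range (n + 1), E.φ^[j] f ^ p ^ (n - j)) * E.δ^[n] u ∈ K n := by
    induction n with
    | zero =>
      refine ⟨1, 1, by rw [map_one]; exact isUnit_one, ?_⟩
      simpa using neg_mem h0
    | succ n ih =>
      obtain ⟨s, c, h1, h2⟩ := ih
      obtain ⟨ε, θ, h3, _, h5⟩ := E.key_ind m hp hf hu ht K hK h0 n
      have e : ∏ j ∈ Finset.range (n + 1 + 1), E.φ^[j] f ^ p ^ (n + 1 - j) =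
          (∏ j ∈ Finset.range (n + 1), E.φ^[j] f ^ p ^ (n - j)) ^ p * E.φ^[n + 1] f := by
        rw [Finset.prod_range_succ, Nat.sub_self, pow_zero, pow_one, ← Finset.prod_pow]
        congr 1
        refine Finset.prod_congr rfl fun j hj => ?_
        rw [← pow_mul, ← pow_succ, Nat.sub_add_comm (Nat.lt_succ_iff.1 (Finset.mem_range.1 hj))]
      rw [e, Function.iterate_succ_apply' E.δ, pow_succ, pow_mul]
      generalize ∏ j ∈ Finset.range (n + 1), E.φ^[j] f ^ p ^ (n - j) = Q at *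
      obtain ⟨r, hr⟩ := sub_dvd_pow_sub_pow (s * t ^ p ^ n) (c * Q * E.δ^[n] u) p
      refine ⟨ε * s ^ p, -(c ^ p * θ), ?_, ?_⟩
      · rw [map_mul, map_pow]
        exact h3.mul (h1.pow p)
      · have h6 := add_mem (Ideal.mul_mem_left _ (ε * r) (hK n _ h2).1)
          (Ideal.mul_mem_left _ (c ^ p * Q ^ p) h5)
        convert h6 using 1
        rw [mul_pow, mul_pow, mul_pow] at hr
        linear_combination ε * hr
  obtain ⟨s, c, h1, h2⟩ := key
  refine ⟨s, h1, ?_⟩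
  generalize ∏ j ∈ Finset.range (n + 1), E.φ^[j] f ^ p ^ (n - j) = Q at *
  have e : s * t ^ p ^ n = c * E.δ^[n] u * Q + (s * t ^ p ^ n - c * Q * E.δ^[n] u) := by ring
  rw [e]
  exact add_mem (Ideal.mem_sup_left (Ideal.mul_mem_left _ _ (Ideal.mem_span_singleton_self _)))
    (Ideal.mem_sup_right h2)

theorem sup_pow_le (I J : Ideal P) (k : ℕ) : (I ⊔ J) ^ k ≤ I ⊔ J ^ k := by
  induction k with
  | zero => simp
  | succ k ih =>
    rw [pow_succ, pow_succ]
    refine (Ideal.mul_mono_left ih).trans ?_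
    rw [Ideal.sup_mul, Ideal.mul_sup (J ^ k)]
    exact sup_le (Ideal.mul_le_left.trans le_sup_left)
      (sup_le (Ideal.mul_le_right.trans le_sup_left) le_sup_right)

/-- Each factor is `f ^ p ^ n` modulo `p`. -/
theorem prod_mem_pow (f : P) {n c N : ℕ} (h : p ^ c * N ≤ n + 1) :
    ∏ j ∈ Finset.range (n + 1), E.φ^[j] f ^ p ^ (n - j) ∈
      Ideal.span {(p : P), E.φ^[n + c] f} ^ N := by
  have h1 : ∀ j ∈ Finset.range (n + 1), E.φ^[j] f ^ p ^ (n - j) ∈
      Ideal.span {(p : P)} ⊔ Ideal.span {f ^ p ^ n} := by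
    intro j hj
    have h2 : E.φ^[j] f ^ p ^ (n - j) - f ^ p ^ n ∈ Ideal.span {(p : P)} := by
      rw [← Ideal.Quotient.eq, map_pow, map_pow, E.mk_iterate (Ideal.mem_span_singleton_self _),
        ← pow_mul, ← pow_add, Nat.add_sub_cancel' (Nat.lt_succ_iff.1 (Finset.mem_range.1 hj))]
    have h3 := add_mem (Ideal.mem_sup_left h2)
      (Ideal.mem_sup_right (S := Ideal.span {(p : P)}) (Ideal.mem_span_singleton_self (f ^ p ^ n)))
    rwa [sub_add_cancel] at h3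
  have h2 := Ideal.prod_mem_prod h1
  rw [Finset.prod_const, Finset.card_range] at h2
  have h3 := Ideal.pow_le_pow_right h h2
  rw [pow_mul] at h3
  refine Ideal.pow_right_mono ((sup_pow_le _ _ _).trans (sup_le ?_ ?_)) N h3
  · exact Ideal.span_mono (by simp)
  · rw [Ideal.span_singleton_pow, Ideal.span_singleton_le_iff_mem, ← pow_mul, ← pow_add]
    obtain ⟨r, hr⟩ := Ideal.mem_span_singleton'.1 (E.iterate_sub_pow (n + c) f)
    exact Ideal.mem_span_pair.2 ⟨-r, 1, by linear_combination -hr⟩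
end DRing

section Env
variable {p : ℕ} [Fact p.Prime] {W : Type u} [CommRing W] [IsDomain W]
  [IsDiscreteValuationRing W] {σ ι : Type} [Finite σ]

theorem exists_frobLift' (hV : IsCohen p W) (σ : Type) [Finite σ] :
    ∃ (φ : MvPowerSeries σ W →+* MvPowerSeries σ W) (φ₀ : W →+* W),
      (∀ c, φ (MvPowerSeries.C c) = MvPowerSeries.C (φ₀ c)) ∧
      (∀ s, φ (MvPowerSeries.X s) = MvPowerSeries.X s ^ p) ∧
      (∀ g, φ g - g ^ p ∈ Ideal.span {(p : MvPowerSeries σ W)}) ∧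
      ∀ g, MvPowerSeries.constantCoeff (φ g) = φ₀ (MvPowerSeries.constantCoeff g) := by
  have hp0 : p ≠ 0 := (Fact.out : p.Prime).ne_zero
  have hc := hV.complete
  have hk := CoR.charP_residue p W hV.mem_max
  obtain ⟨φ₀, hφ₀⟩ := hV.exists_lift hV.mem_max (residue W) residue_surjective
    ((frobenius (ResidueField W) p).comp (residue W))
  have hA := isAdicComplete_mvPowerSeries (σ := σ) (V := W)
  have hX : ∀ i : σ, (MvPowerSeries.X i : MvPowerSeries σ W) ∈ maximalIdeal _ := fun i => by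
    rw [maximalIdeal_mvPowerSeries]
    exact Ideal.mem_sup_right (Ideal.subset_span ⟨i, rfl⟩)
  obtain ⟨φ, hφC, hφX⟩ := exists_evalHom (S := MvPowerSeries σ W) (MvPowerSeries.C.comp φ₀)
    (fun i => MvPowerSeries.X i ^ p) fun i => Ideal.pow_mem_of_mem _ (hX i) p (by omega)
  have hφC' : ∀ x, φ (MvPowerSeries.C x) = MvPowerSeries.C (φ₀ x) := RingHom.congr_fun hφC
  refine ⟨φ, φ₀, hφC', hφX, fun g => ?_, fun g => ?_⟩
  · have hpm : Ideal.span {(p : MvPowerSeries σ W)} ≤ maximalIdeal _ := by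
      rw [Ideal.span_singleton_le_iff_mem, maximalIdeal_mvPowerSeries,
        ← map_natCast (MvPowerSeries.C (σ := σ) (R := W))]
      exact Ideal.mem_sup_left (Ideal.mem_map_of_mem _ hV.mem_max)
    have hnt : Nontrivial (MvPowerSeries σ W ⧸ Ideal.span {(p : MvPowerSeries σ W)}) :=
      Ideal.Quotient.nontrivial_iff.2 (ne_top_of_le_ne_top (maximalIdeal.isMaximal _).ne_top hpm)
    have hl := IsLocalRing.of_surjective' (Ideal.Quotient.mk
      (Ideal.span {(p : MvPowerSeries σ W)})) Ideal.Quotient.mk_surjective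
    have hch : CharP (MvPowerSeries σ W ⧸ Ideal.span {(p : MvPowerSeries σ W)}) p :=
      CoR.charP_of_eq_zero p _ (by
        rw [← map_natCast (Ideal.Quotient.mk _), Ideal.Quotient.eq_zero_iff_mem]
        exact Ideal.mem_span_singleton_self _)
    have key := evalHom_ext ((Ideal.Quotient.mk (Ideal.span {(p : MvPowerSeries σ W)})).comp φ)
      ((frobenius _ p).comp (Ideal.Quotient.mk _)) (RingHom.ext fun x => ?_) (fun i => ?_)
      (fun i => ?_)
    · have := RingHom.congr_fun key g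
      rw [RingHom.comp_apply, RingHom.comp_apply, frobenius_def, ← map_pow] at this
      exact Ideal.Quotient.eq.1 this
    · simp only [RingHom.comp_apply, hφC', frobenius_def]
      rw [← map_pow, ← map_pow, Ideal.Quotient.eq, ← map_sub]
      have h1 : φ₀ x - x ^ p ∈ maximalIdeal W := by
        rw [← residue_eq_zero_iff, map_sub, sub_eq_zero, map_pow]
        exact RingHom.congr_fun hφ₀ x
      rw [hV.max, Ideal.mem_span_singleton'] at h1
      obtain ⟨b, hb⟩ := h1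
      rw [← hb, map_mul, map_natCast]
      exact Ideal.mul_mem_left _ _ (Ideal.mem_span_singleton_self _)
    · simp only [RingHom.comp_apply, hφX, frobenius_def, map_pow]
    · rw [RingHom.comp_apply, hφX,
        ← map_maximalIdeal_of_surjective (Ideal.Quotient.mk _) Ideal.Quotient.mk_surjective]
      exact Ideal.mem_map_of_mem _ (Ideal.pow_mem_of_mem _ (hX i) p (by omega))
  · have key := evalHom_ext (MvPowerSeries.constantCoeff.comp φ)
      (φ₀.comp MvPowerSeries.constantCoeff) (RingHom.ext fun x => ?_) (fun i => ?_) (fun i => ?_)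
    · exact RingHom.congr_fun key g
    · simp only [RingHom.comp_apply, hφC', MvPowerSeries.constantCoeff_C]
    · simp only [RingHom.comp_apply, hφX, map_pow, MvPowerSeries.constantCoeff_X, zero_pow hp0,
        map_zero]
    · simp only [RingHom.comp_apply, hφX, map_pow, MvPowerSeries.constantCoeff_X, zero_pow hp0,
        Ideal.zero_mem]

/-- The Frobenius lift with `X ↦ X ^ p` on a power series ring over a Cohen ring. -/
theorem exists_dRing_series (hW : IsCohen p W) (σ : Type) [Finite σ] :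
    ∃ (E : DRing p (MvPowerSeries σ W)) (φ₀ : W →+* W),
      (∀ c, E.φ (MvPowerSeries.C c) = MvPowerSeries.C (φ₀ c)) ∧
      (∀ s, E.φ (MvPowerSeries.X s) = MvPowerSeries.X s ^ p) ∧
      (∀ g : MvPowerSeries σ W, MvPowerSeries.constantCoeff g = 0 →
        MvPowerSeries.constantCoeff (E.δ g) = 0) ∧
      ∀ g : MvPowerSeries σ W, MvPowerSeries.constantCoeff g = p → IsUnit (E.δ g) := by
  have h2 := (Fact.out : p.Prime).two_le
  obtain ⟨φ, φ₀, h1, h3, h4, h5⟩ := exists_frobLift' hW σ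
  choose δ hδ using fun g => Ideal.mem_span_singleton'.1 (h4 g)
  have hp := hW.ne_zero
  have hδ0 : ∀ g, (p : W) * MvPowerSeries.constantCoeff (δ g) =
      φ₀ (MvPowerSeries.constantCoeff g) - MvPowerSeries.constantCoeff g ^ p := by
    intro g
    rw [← h5, ← map_pow, ← map_sub, ← hδ, map_mul, map_natCast, mul_comm]
  refine ⟨⟨φ, δ, fun g => by linear_combination -hδ g, fun g hg => ?_⟩, φ₀, h1, h3,
    fun g hg => ?_, fun g hg => ?_⟩
  · ext m
    have h6 := congrArg (MvPowerSeries.coeff m) hg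
    rw [← map_natCast (MvPowerSeries.C (σ := σ) (R := W)), MvPowerSeries.coeff_C_mul,
      map_zero] at h6
    rw [map_zero]
    exact (mul_eq_zero.1 h6).resolve_left hp
  · have h6 := hδ0 g
    rw [hg, map_zero, zero_pow (by omega), sub_zero] at h6
    exact (mul_eq_zero.1 h6).resolve_left hp
  · have h6 := hδ0 g
    rw [hg, map_natCast] at h6
    have h7 : MvPowerSeries.constantCoeff (δ g) = 1 - (p : W) ^ (p - 1) := by
      apply mul_left_cancel₀ hp
      rw [h6, mul_sub, mul_one, ← pow_succ', Nat.sub_add_cancel (by omega)]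
    change IsUnit (δ g)
    rw [MvPowerSeries.isUnit_iff_constantCoeff, h7]
    exact isUnit_one_sub_self_of_mem_nonunits _
      (Ideal.pow_mem_of_mem (maximalIdeal W) hW.mem_max _ (by omega))

/-- The free extension. -/
theorem exists_dRing_poly {T : Type u} [CommRing T] (E : DRing p T) (ι : Type) :
    ∃ E' : DRing p (MvPolynomial (ι × ℕ) T),
      (∀ c, E'.φ (MvPolynomial.C c) = MvPolynomial.C (E.φ c)) ∧
      (∀ c, E'.δ (MvPolynomial.C c) = MvPolynomial.C (E.δ c)) ∧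
      ∀ i j, E'.δ (MvPolynomial.X (i, j)) = MvPolynomial.X (i, j + 1) := by
  obtain ⟨φ, hC, hX⟩ : ∃ φ : MvPolynomial (ι × ℕ) T →+* MvPolynomial (ι × ℕ) T,
      (∀ c, φ (MvPolynomial.C c) = MvPolynomial.C (E.φ c)) ∧
      ∀ i j, φ (MvPolynomial.X (i, j)) =
        MvPolynomial.X (i, j) ^ p + (p : MvPolynomial (ι × ℕ) T) * MvPolynomial.X (i, j + 1) :=
    ⟨MvPolynomial.eval₂Hom (MvPolynomial.C.comp E.φ)
      fun x => MvPolynomial.X x ^ p + (p : MvPolynomial (ι × ℕ) T) * MvPolynomial.X (x.1, x.2 + 1),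
      fun c => by rw [MvPolynomial.eval₂Hom_C, RingHom.comp_apply],
      fun i j => by rw [MvPolynomial.eval₂Hom_X']⟩
  have hC' : ∀ c, φ (MvPolynomial.C c) =
      MvPolynomial.C c ^ p + (p : MvPolynomial (ι × ℕ) T) * MvPolynomial.C (E.δ c) := by
    intro c
    rw [hC, E.spec, map_add, map_pow, map_mul, map_natCast]
  have hex : ∀ g, ∃ d, φ g = g ^ p + p * d := by
    intro g
    induction g using MvPolynomial.induction_on with
    | C c => exact ⟨_, hC' c⟩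
    | add a b ha hb =>
      obtain ⟨d, hd⟩ := ha
      obtain ⟨e, he⟩ := hb
      obtain ⟨r, hr⟩ := exists_add_pow_prime_eq (Fact.out : p.Prime) a b
      exact ⟨d + e - a * b * r, by rw [map_add, hd, he, hr]; ring⟩
    | mul_X a x ha =>
      obtain ⟨d, hd⟩ := ha
      obtain ⟨i, j⟩ := x
      exact ⟨d * MvPolynomial.X (i, j) ^ p + φ a * MvPolynomial.X (i, j + 1), by
        rw [map_mul, hX, hd]; ring⟩
  choose δ hδ using hex
  have htf : ∀ g : MvPolynomial (ι × ℕ) T, p * g = 0 → g = 0 := by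
    intro g hg
    ext m
    have h6 := congrArg (MvPolynomial.coeff m) hg
    rw [← map_natCast (MvPolynomial.C (σ := ι × ℕ) (R := T)), MvPolynomial.coeff_C_mul] at h6
    exact E.tf _ h6
  refine ⟨⟨φ, δ, hδ, htf⟩, hC, fun c => ?_, fun i j => ?_⟩
  · refine DRing.cancel ⟨φ, δ, hδ, htf⟩ ?_
    exact add_left_cancel ((hδ _).symm.trans (hC' c))
  · refine DRing.cancel ⟨φ, δ, hδ, htf⟩ ?_
    exact add_left_cancel ((hδ _).symm.trans (hX i j))

theorem δ_mem_adjoin {T A : Type u} [CommRing T] [CommRing A] [Algebra T A] (E' : DRing p A)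
    (h : ∀ c, ∃ c', E'.δ (algebraMap T A c) = algebraMap T A c') {s : Set A} {B : Subalgebra T A}
    (hs : ∀ g ∈ s, g ∈ B ∧ E'.δ g ∈ B) : ∀ g ∈ Algebra.adjoin T s, g ∈ B ∧ E'.δ g ∈ B := by
  intro g hg
  induction hg using Algebra.adjoin_induction with
  | mem g hg => exact hs g hg
  | algebraMap c =>
    obtain ⟨c', hc⟩ := h c
    rw [hc]
    exact ⟨B.algebraMap_mem _, B.algebraMap_mem _⟩
  | add a b _ _ ha hb =>
    refine ⟨add_mem ha.1 hb.1, ?_⟩
    rw [E'.δ_add_eq]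
    exact sub_mem (add_mem ha.2 hb.2) (sum_mem fun k _ =>
      mul_mem (mul_mem (pow_mem ha.1 _) (pow_mem hb.1 _)) (natCast_mem _ _))
  | mul a b _ _ ha hb =>
    refine ⟨mul_mem ha.1 hb.1, ?_⟩
    rw [E'.δ_mul, E'.spec a]
    exact add_mem (mul_mem ha.2 (pow_mem hb.1 _))
      (mul_mem (add_mem (pow_mem ha.1 _) (mul_mem (natCast_mem _ _) ha.2)) hb.2)

theorem relation_gen {T A : Type u} [CommRing T] [CommRing A] [Algebra T A] (E : DRing p T)
    (E' : DRing p A) (y : ℕ → A)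
    (h1 : ∀ c, E'.φ (algebraMap T A c) = algebraMap T A (E.φ c))
    (h2 : ∀ c, E'.δ (algebraMap T A c) = algebraMap T A (E.δ c))
    (h3 : ∀ j, E'.δ (y j) = y (j + 1)) (N : Ideal A) (hN : ∀ g ∈ N, g ∈ N ∧ E'.δ g ∈ N) (f : T)
    (H : T) (hH : algebraMap T A H ∈ N) (j : ℕ) :
    ∃ g : A, E'.δ^[j] (algebraMap T A f * y 0 - algebraMap T A H) =
        algebraMap T A (E.φ^[j] f) * y j + g ∧
      g ∈ Algebra.adjoin T (y '' {l | l < j}) ∧ g ∈ N ⊔ Ideal.span (y '' {l | l < j}) ∧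
      E'.δ g ∈ N ⊔ Ideal.span (y '' {l | l < j}) ⊔ Ideal.span {(p : A) * y j} ∧
      ∀ j', j = j' + 1 → g - algebraMap T A (E.δ (E.φ^[j'] f)) * y j' ^ p ∈
        N ⊔ Ideal.span (y '' {l | l < j'}) ⊔ Ideal.span {(p : A) * y j'} := by
  have hp2 := (Fact.out : p.Prime).two_le
  induction j with
  | zero =>
    refine ⟨-algebraMap T A H, sub_eq_add_neg _ _, neg_mem (Subalgebra.algebraMap_mem _ _),
      Ideal.mem_sup_left (neg_mem hH),
      Ideal.mem_sup_left (Ideal.mem_sup_left (hN _ (neg_mem hH)).2), fun j' h => by omega⟩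
  | succ j ih =>
    obtain ⟨g, e, ha, hb, hc, -⟩ := ih
    obtain ⟨S, hS⟩ : ∃ S, S = ∑ k ∈ Finset.Ioo 0 p,
      (algebraMap T A (E.φ^[j] f) * y j) ^ k * g ^ (p - k) * (p.choose k / p : ℕ) := ⟨_, rfl⟩
    have hmono : y '' {l | l < j} ⊆ y '' {l | l < j + 1} :=
      Set.image_mono fun l (hl : l < j) => Nat.lt_succ_of_lt hl
    have hyj : y j ∈ y '' {l | l < j + 1} := ⟨j, Nat.lt_succ_self j, rfl⟩
    have hadj := δ_mem_adjoin E' (fun c => ⟨_, h2 c⟩) (s := y '' {l | l < j})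
      (B := Algebra.adjoin T (y '' {l | l < j + 1})) (by
        rintro _ ⟨l, hl, rfl⟩
        rw [h3]
        exact ⟨Algebra.subset_adjoin (hmono ⟨l, hl, rfl⟩),
          Algebra.subset_adjoin ⟨l + 1, Nat.succ_lt_succ hl, rfl⟩⟩) g ha
    have hSm : S ∈ N ⊔ Ideal.span (y '' {l | l < j}) := by
      rw [hS]
      refine Ideal.sum_mem _ fun k hk => Ideal.mul_mem_right _ _ (Ideal.mul_mem_left _ _ ?_)
      exact Ideal.pow_mem_of_mem _ hb _ (by have := (Finset.mem_Ioo.1 hk).2; omega)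
    have hc' : E'.δ g - S ∈ N ⊔ Ideal.span (y '' {l | l < j}) ⊔ Ideal.span {(p : A) * y j} :=
      sub_mem hc (Ideal.mem_sup_left hSm)
    obtain ⟨I, hI⟩ : ∃ I, I = N ⊔ Ideal.span (y '' {l | l < j + 1}) := ⟨_, rfl⟩
    have hNI : N ≤ I := hI ▸ le_sup_left
    have hyI : ∀ l, l < j + 1 → y l ∈ I := fun l hl =>
      hI ▸ Ideal.mem_sup_right (Ideal.subset_span ⟨l, hl, rfl⟩)
    have hyjI := hyI j (Nat.lt_succ_self j)
    have hφy : E'.φ (y j) ∈ I ⊔ Ideal.span {(p : A) * y (j + 1)} := by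
      rw [E'.spec, h3]
      exact add_mem (Ideal.mem_sup_left (Ideal.pow_mem_of_mem _ hyjI _ (by omega)))
        (Ideal.mem_sup_right (Ideal.mem_span_singleton_self _))
    have hgood : ∀ J : Ideal A, I ≤ J → E'.δ ((p : A) * y j) ∈ J → E'.δ (y j ^ p) ∈ J →
        algebraMap T A (E.δ (E.φ^[j] f)) * y j ^ p + (E'.δ g - S) ∈ J ∧
        E'.δ (algebraMap T A (E.δ (E.φ^[j] f)) * y j ^ p + (E'.δ g - S)) ∈ J := by
      intro J hJ k1 k2
      refine E'.good_sup (A := Ideal.span {y j ^ p}) (E'.good_span ?_)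
        (E'.good_sup (E'.good_sup (fun a h => ⟨hJ (hNI h), hJ (hNI (hN a h).2)⟩)
          (E'.good_span ?_)) (E'.good_span ?_)) _
        (add_mem (Ideal.mem_sup_left (Ideal.mul_mem_left _ _ (Ideal.mem_span_singleton_self _)))
          (Ideal.mem_sup_right hc'))
      · rintro _ rfl
        exact ⟨hJ (Ideal.pow_mem_of_mem _ hyjI _ (by omega)), k2⟩
      · rintro _ ⟨l, hl, rfl⟩
        rw [h3]
        exact ⟨hJ (hyI l (Nat.lt_succ_of_lt hl)), hJ (hyI (l + 1) (Nat.succ_lt_succ hl))⟩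
      · rintro _ rfl
        exact ⟨hJ (Ideal.mul_mem_left _ _ hyjI), k1⟩
    refine ⟨algebraMap T A (E.δ (E.φ^[j] f)) * y j ^ p + (E'.δ g - S), ?_, ?_, ?_, ?_, ?_⟩
    · rw [Function.iterate_succ_apply', e, E'.δ_add_eq, ← hS, E'.δ_mul, h1, h2, h3,
        Function.iterate_succ_apply']
      ring
    · refine add_mem (mul_mem (Subalgebra.algebraMap_mem _ _)
        (pow_mem (Algebra.subset_adjoin hyj) _)) (sub_mem hadj.2 ?_)
      rw [hS]
      exact sum_mem fun k _ => mul_mem (mul_mem (pow_mem (mul_mem (Subalgebra.algebraMap_mem _ _)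
        (Algebra.subset_adjoin hyj)) _) (pow_mem hadj.1 _)) (natCast_mem _ _)
    · rw [← hI]
      refine add_mem (Ideal.mul_mem_left _ _ (Ideal.pow_mem_of_mem _ hyjI _ (by omega))) ?_
      refine (sup_le (sup_le hNI ?_) ?_ : _ ≤ I) hc'
      · rw [Ideal.span_le]
        rintro _ ⟨l, hl, rfl⟩
        exact hyI l (Nat.lt_succ_of_lt hl)
      · rw [Ideal.span_singleton_le_iff_mem]
        exact Ideal.mul_mem_left _ _ hyjI
    · rw [← hI]
      refine (hgood _ le_sup_left ?_ ?_).2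
      · rw [E'.δ_mul, map_natCast, h3]
        exact add_mem (Ideal.mem_sup_left (Ideal.mul_mem_left _ _
          (Ideal.pow_mem_of_mem _ hyjI _ (by omega))))
          (Ideal.mem_sup_right (Ideal.mem_span_singleton_self _))
      · have e1 : y j ^ p = y j * y j ^ (p - 1) := by
          rw [← pow_succ', Nat.sub_add_cancel (by omega)]
        rw [e1, E'.δ_mul]
        exact add_mem (Ideal.mem_sup_left (Ideal.mul_mem_left _ _ (Ideal.pow_mem_of_mem _
          (Ideal.pow_mem_of_mem _ hyjI _ (by omega)) _ (by omega))))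
          (Ideal.mul_mem_right _ _ hφy)
    · intro j' hj
      obtain rfl : j = j' := by omega
      rw [add_sub_cancel_left]
      exact hc'

/-- The relations `r i j = δ^[j] (f * y i 0 - H i)` and their shape. Here `𝔵` is an ideal of `T`
with `δ 𝔵 ⊆ 𝔵` and `T / 𝔵` torsion free. Invariant for the last claim: the tail `g i (j + 1)` lies
in `(𝔵, y i l (l < j)) + (y i j ^ 2, p * y i j)`, and `δ` maps this ideal into
`(𝔵, y i l (l ≤ j)) + (p * y i (j + 1))`. -/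
theorem relation_shape {T : Type u} [CommRing T] (E : DRing p T)
    (E' : DRing p (MvPolynomial (ι × ℕ) T))
    (h1 : ∀ c, E'.φ (MvPolynomial.C c) = MvPolynomial.C (E.φ c))
    (h2 : ∀ c, E'.δ (MvPolynomial.C c) = MvPolynomial.C (E.δ c))
    (h3 : ∀ i j, E'.δ (MvPolynomial.X (i, j)) = MvPolynomial.X (i, j + 1))
    (𝔵 : Ideal T) (hδ : ∀ g ∈ 𝔵, E.δ g ∈ 𝔵) (htf : ∀ g : T, p * g ∈ 𝔵 → g ∈ 𝔵) (f : T)
    (H : T) (hH : H ∈ 𝔵) (i : ι) (j : ℕ) :
    ∃ g : MvPolynomial (ι × ℕ) T,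
      E'.δ^[j] (MvPolynomial.C f * MvPolynomial.X (i, 0) - MvPolynomial.C H) =
        MvPolynomial.C (E.φ^[j] f) * MvPolynomial.X (i, j) + g ∧
      g ∈ Algebra.adjoin T ((fun l => MvPolynomial.X (i, l)) '' {l | l < j}) ∧
      g ∈ 𝔵.map MvPolynomial.C ⊔ Ideal.span ((fun l => MvPolynomial.X (i, l)) '' {l | l < j}) ∧
      ∀ j', j = j' + 1 →
        g - MvPolynomial.C (E.δ (E.φ^[j'] f)) * MvPolynomial.X (i, j') ^ p ∈
          𝔵.map MvPolynomial.C ⊔ Ideal.span ((fun l => MvPolynomial.X (i, l)) '' {l | l < j'}) ⊔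
            Ideal.span {(p : MvPolynomial (ι × ℕ) T) * MvPolynomial.X (i, j')} := by
  obtain ⟨g, k1, k2, k3, -, k4⟩ := relation_gen E E' (fun l => MvPolynomial.X (i, l)) h1 h2 (h3 i)
    (𝔵.map MvPolynomial.C) (E'.good_span (by
      rintro _ ⟨c, hc, rfl⟩
      rw [h2]
      exact ⟨Ideal.mem_map_of_mem _ hc, Ideal.mem_map_of_mem _ (hδ c hc)⟩)) f H
    (Ideal.mem_map_of_mem _ hH) j
  exact ⟨g, k1, k2, k3, k4⟩
end Env

end Vale.Agent.P177
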