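import Vale.Agent.P177.Chi
import Vale.Agent.P177.Sop
import Vale.Agent.P202.FrobFlat
import Vale.Agent.P202.Cohen

/-! P177 module EqCharAuxA: reduction to the diagonal over a field. -/

namespace Vale.Agent.P177.EqA

open Vale.Agent.P202 IsLocalRing TensorProduct RingTheory.Sequence

universe u

theorem X_mem_max {D : Type u} [CommRing D] [IsLocalRing D] {σ : Type} [Finite σ] (i : σ) :
    (MvPowerSeries.X i : MvPowerSeries σ D) ∈ maximalIdeal (MvPowerSeries σ D) := by
  rw [maximalIdeal_mvPowerSeries]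
  exact Ideal.mem_sup_right (Ideal.subset_span ⟨i, rfl⟩)

theorem C_mem_max {D : Type u} [CommRing D] [IsLocalRing D] {σ : Type} [Finite σ] {r : D}
    (hr : r ∈ maximalIdeal D) :
    (MvPowerSeries.C r : MvPowerSeries σ D) ∈ maximalIdeal (MvPowerSeries σ D) := by
  rw [maximalIdeal_mvPowerSeries]
  exact Ideal.mem_sup_left (Ideal.mem_map_of_mem _ hr)

theorem sub_C_eval_mem {D : Type u} [CommRing D] [IsLocalRing D] [IsNoetherianRing D] {σ : Type}
    [Finite σ] (ev : MvPowerSeries σ D →+* D) (hC : ∀ r, ev (MvPowerSeries.C r) = r)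
    (hX : ∀ i, ev (MvPowerSeries.X i) ∈ maximalIdeal D) (g : MvPowerSeries σ D) :
    g - MvPowerSeries.C (ev g) ∈ Ideal.span (Set.range fun i =>
      MvPowerSeries.C (ev (MvPowerSeries.X i)) - (MvPowerSeries.X i : MvPowerSeries σ D)) := by
  obtain ⟨J, hJ⟩ : ∃ J : Ideal (MvPowerSeries σ D), J = Ideal.span (Set.range fun i =>
      MvPowerSeries.C (ev (MvPowerSeries.X i)) - (MvPowerSeries.X i : MvPowerSeries σ D)) :=
    ⟨_, rfl⟩
  rw [← hJ]
  have hle : J ≤ maximalIdeal _ := by
    rw [hJ, Ideal.span_le]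
    rintro _ ⟨i, rfl⟩
    exact Ideal.sub_mem _ (C_mem_max (hX i)) (X_mem_max i)
  have hne : J ≠ ⊤ := fun h => (maximalIdeal.isMaximal _).ne_top (top_le_iff.1 (h ▸ hle))
  have := Ideal.Quotient.nontrivial_iff.2 hne
  have : IsLocalRing (MvPowerSeries σ D ⧸ J) :=
    IsLocalRing.of_surjective' (Ideal.Quotient.mk J) Ideal.Quotient.mk_surjective
  have key : Ideal.Quotient.mk J =
      (Ideal.Quotient.mk J).comp ((MvPowerSeries.C (σ := σ) (R := D)).comp ev) := by
    refine evalHom_ext _ _ ?_ (fun i => ?_) fun i => ?_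
    · ext r
      simp [hC]
    · refine (Ideal.Quotient.eq.2 ?_).symm
      rw [hJ]
      exact Ideal.subset_span ⟨i, rfl⟩
    · rw [← map_maximalIdeal_of_surjective (Ideal.Quotient.mk J) Ideal.Quotient.mk_surjective]
      exact Ideal.mem_map_of_mem _ (X_mem_max i)
  exact Ideal.Quotient.eq.1 (DFunLike.congr_fun key g)

theorem ofList_ofFn' {A : Type u} [CommRing A] {d : ℕ} (y : Fin d → A) :
    Ideal.ofList (List.ofFn y) = Ideal.span (Set.range y) := by
  rw [Ideal.ofList]
  congr 1
  ext r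
  simp [List.mem_ofFn']

theorem reg_X (D : Type u) [CommRing D] (d : ℕ) :
    IsWeaklyRegular (MvPowerSeries (Fin d) D)
      (List.ofFn fun i : Fin d => (MvPowerSeries.X i : MvPowerSeries (Fin d) D)) := by
  have h := isWeaklyRegular_X_append (List.finRange d) (List.nodup_finRange d)
    (IsWeaklyRegular.nil D D)
  rw [List.map_nil, List.append_nil] at h
  rwa [List.ofFn_eq_map]

theorem reg_mvPowerSeries_field (K : Type u) [Field K] (d : ℕ) :
    IsWeaklyRegular (MvPowerSeries (Fin d) K)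
      (List.ofFn fun i : Fin d => (MvPowerSeries.X i : MvPowerSeries (Fin d) K)) ∧
    Ideal.ofList (List.ofFn fun i : Fin d => (MvPowerSeries.X i : MvPowerSeries (Fin d) K)) =
      maximalIdeal _ := by
  refine ⟨reg_X K d, ?_⟩
  rw [ofList_ofFn', maximalIdeal_mvPowerSeries, IsLocalRing.maximalIdeal_eq_bot, Ideal.map_bot,
    bot_sup_eq]

/-- The diagonal is cut out by a regular sequence. -/
theorem reg_diag {D : Type u} [CommRing D] [IsLocalRing D] [IsNoetherianRing D]
    [IsAdicComplete (maximalIdeal D) D] {d : ℕ} {x : Fin d → D} (hx : ∀ i, x i ∈ maximalIdeal D) :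
    IsWeaklyRegular (MvPowerSeries (Fin d) D) (List.ofFn fun i : Fin d =>
      MvPowerSeries.C (x i) - (MvPowerSeries.X i : MvPowerSeries (Fin d) D)) := by
  have := isAdicComplete_mvPowerSeries (σ := Fin d) (V := D)
  obtain ⟨τ, h1, h2⟩ := exists_evalHom (MvPowerSeries.C (σ := Fin d) (R := D))
    (fun i => MvPowerSeries.C (x i) - (MvPowerSeries.X i : MvPowerSeries (Fin d) D))
    fun i => Ideal.sub_mem _ (C_mem_max (hx i)) (X_mem_max i)
  have h1' : ∀ r, τ (MvPowerSeries.C r) = MvPowerSeries.C r := DFunLike.congr_fun h1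
  have h3 : RingHom.id _ = τ.comp τ := by
    refine evalHom_ext _ _ ?_ (fun i => ?_) fun i => X_mem_max i
    · refine RingHom.ext fun r => ?_
      simp [h1']
    · simp [h2, h1']
  have h4 : ∀ g, τ (τ g) = g := fun g => (DFunLike.congr_fun h3 g).symm
  let e : MvPowerSeries (Fin d) D ≃+ MvPowerSeries (Fin d) D :=
    { toFun := τ, invFun := τ, left_inv := h4, right_inv := h4, map_add' := map_add τ }
  refine (AddEquiv.isWeaklyRegular_congr (e := e) ?_).1 (reg_X D d)
  rw [List.ofFn_eq_map, List.ofFn_eq_map, List.forall₂_map_left_iff, List.forall₂_map_right_iff,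
    List.forall₂_same]
  intro i _ z
  change τ (MvPowerSeries.X i * z) = _ * τ z
  rw [map_mul, h2]

/-- The abstract reduction to the diagonal. -/
theorem pair_abstract {R A : Type u} [CommRing R] [IsLocalRing R] [IsNoetherianRing R]
    [CommRing A] [IsLocalRing A] [IsNoetherianRing A] (φ : R →+* A) (hφ : φ.Flat)
    [IsLocalHom φ] {d : ℕ} (hR : HasRes R d) {P Q : Ideal R} (hP : P ≠ ⊤)
    (hM : Meets R (R ⧸ P) (R ⧸ Q)) (ev : A →+* R ⧸ P) (hev : ev.comp φ = Ideal.Quotient.mk P)
    {y : List A} (hy : IsWeaklyRegular A y) (hker : RingHom.ker ev = Ideal.ofList y)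
    (hlen : y.length = d) {a b : ℕ} (ha : ringKrullDim (A ⧸ (maximalIdeal R).map φ) = a)
    (hb : ringKrullDim (R ⧸ Q) = b) :
    (a + b < d → chi R (R ⧸ P) (R ⧸ Q) = 0) ∧ (a + b = d → 0 < chi R (R ⧸ P) (R ⧸ Q)) := by
  let _ : Algebra R A := φ.toAlgebra
  have : Module.Flat R A := hφ
  have : IsLocalHom (algebraMap R A) := ‹IsLocalHom φ›
  have hev' : ∀ r, ev (φ r) = Ideal.Quotient.mk P r := DFunLike.congr_fun hev
  have hs : Function.Surjective ev := fun z => by
    obtain ⟨r, rfl⟩ := Ideal.Quotient.mk_surjective z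
    exact ⟨φ r, hev' r⟩
  have := Ideal.Quotient.nontrivial_iff.2 hP
  have hym : Ideal.ofList y ≤ maximalIdeal A := by
    rw [← hker]
    exact le_maximalIdeal (RingHom.ker_ne_top ev)
  have hdec : ∀ g : A, ∃ r : R, g - φ r ∈ Ideal.ofList y := fun g => by
    obtain ⟨r, hr⟩ := Ideal.Quotient.mk_surjective (ev g)
    refine ⟨r, ?_⟩
    rw [← hker, RingHom.mem_ker, map_sub, hev', hr, sub_self]
  have hmax : maximalIdeal A ≤ (maximalIdeal R).map φ ⊔ Ideal.ofList y := fun g hg => by
    obtain ⟨r, hr⟩ := hdec g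
    have h1 : φ r ∈ maximalIdeal A := by
      have := Ideal.sub_mem _ hg (hym hr)
      rwa [sub_sub_cancel] at this
    have h2 : r ∈ maximalIdeal R := fun hu => h1 (hu.map φ)
    rw [show g = φ r + (g - φ r) by ring]
    exact Submodule.add_mem_sup (Ideal.mem_map_of_mem _ h2) hr
  have hsop : IsSop (A ⊗[R] (R ⧸ Q)) y := by
    obtain ⟨N, hN⟩ := meets_quot_iff.1 hM
    refine isSop_iff_ann.2 ⟨fun t ht => hym (Ideal.subset_span ht), N, ?_⟩
    refine (Ideal.pow_right_mono hmax N).trans ?_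
    have h1 : ((maximalIdeal R).map φ ⊔ Ideal.ofList y) ^ N ≤
        ((maximalIdeal R).map φ) ^ N ⊔ Ideal.ofList y := by
      clear hN
      induction N with
      | zero => simp
      | succ n ih =>
        rw [pow_succ, pow_succ]
        refine (Ideal.mul_mono_left ih).trans ?_
        rw [Ideal.sup_mul, Ideal.mul_sup]
        exact sup_le (sup_le le_sup_left (le_sup_of_le_right Ideal.mul_le_right))
          (le_sup_of_le_right Ideal.mul_le_left)
    refine h1.trans (sup_le ?_ le_sup_right)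
    rw [← Ideal.map_pow]
    refine (Ideal.map_mono hN).trans ?_
    rw [Ideal.map_sup]
    refine sup_le (le_sup_of_le_right ?_) (le_sup_of_le_left ?_)
    · rw [← hker, Ideal.map_le_iff_le_comap]
      intro r hr
      rw [Ideal.mem_comap, RingHom.mem_ker, hev', Ideal.Quotient.eq_zero_iff_mem.2 hr]
    · rw [Ideal.map_le_iff_le_comap]
      intro r hr
      rw [Ideal.mem_comap, Module.mem_annihilator]
      intro z
      change algebraMap R A r • z = 0
      rw [algebraMap_smul]
      induction z using TensorProduct.induction_on with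
      | zero => rw [smul_zero]
      | add z w hz hw => rw [smul_add, hz, hw, add_zero]
      | tmul g q =>
        rw [← TensorProduct.tmul_smul, Algebra.smul_def, Ideal.Quotient.algebraMap_eq,
          Ideal.Quotient.eq_zero_iff_mem.2 hr, zero_mul, TensorProduct.tmul_zero]
  have hchi : chi R (R ⧸ P) (R ⧸ Q) = (mult (A ⊗[R] (R ⧸ Q)) y : ℝ) := by
    let ε : A →ₐ[R] R ⧸ P := { ev with commutes' := hev' }
    have e : (R ⧸ P) ≃ₗ[R] A ⧸ Ideal.ofList y :=
      ((Ideal.quotientKerAlgEquivOfSurjective (f := ε) hs).symm.trans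
        (Ideal.quotientEquivAlgOfEq R hker)).toLinearEquiv
    rw [chi_symm hR hM, chi_congr hR hM.symm (LinearEquiv.refl R _) e]
    exact chi_eq_mult hR A (fun g => (hdec g).imp fun r hr => hym hr) hy hsop
  obtain ⟨z, hz, hz'⟩ := exists_isSop_quotient Q hb.le
  obtain ⟨w, hw, hw'⟩ := exists_isSop_quotient ((maximalIdeal R).map φ) ha.le
  obtain ⟨k1, k2⟩ := mult_append_baseChange (Λ' := A) hz' hw'
  have hl : (z.map (algebraMap R A) ++ w).length = a + b := by
    rw [List.length_append, List.length_map, hz, hw, add_comm]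
  have hdim : Module.supportDim A (A ⊗[R] (R ⧸ Q)) = (a + b : ℕ) := by
    refine le_antisymm (hl ▸ k1.supportDim_le) (not_lt.1 fun hlt => ?_)
    have h0 := mult_eq_zero_of_supportDim_lt k1 (hl ▸ hlt)
    rw [k2] at h0
    exact (mul_pos (mult_pos Q hz' (hz ▸ hb)) (mult_pos _ hw' (hw ▸ ha))).ne' h0
  rw [hchi]
  refine ⟨fun h => ?_, fun h => ?_⟩
  · rw [mult_eq_zero_of_supportDim_lt hsop (by rw [hdim, hlen]; exact_mod_cast h), Int.cast_zero]
  · exact_mod_cast mult_pos_of_supportDim hsop (by rw [hdim, hlen, h])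

theorem pairThm_field (K : Type u) [Field K] (d : ℕ) : PairThm (MvPowerSeries (Fin d) K) d := by
  intro P Q a b hP _ hM ha hb
  have := Ideal.Quotient.nontrivial_iff.2 hP.ne_top
  have : IsLocalRing (MvPowerSeries (Fin d) K ⧸ P) :=
    IsLocalRing.of_surjective' (Ideal.Quotient.mk P) Ideal.Quotient.mk_surjective
  have : IsAdicComplete (maximalIdeal K) K := by
    rw [IsLocalRing.maximalIdeal_eq_bot]
    infer_instance
  have := isAdicComplete_mvPowerSeries (σ := Fin d) (V := K)
  have := isAdicComplete_of_surjective (Ideal.Quotient.mk P) Ideal.Quotient.mk_surjective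
  have hx : ∀ i : Fin d, Ideal.Quotient.mk P (MvPowerSeries.X i) ∈ maximalIdeal _ := fun i => by
    rw [← map_maximalIdeal_of_surjective (Ideal.Quotient.mk P) Ideal.Quotient.mk_surjective]
    exact Ideal.mem_map_of_mem _ (X_mem_max i)
  obtain ⟨f, hf⟩ : ∃ f : K →+* MvPowerSeries (Fin d) K ⧸ P,
      f = (Ideal.Quotient.mk P).comp MvPowerSeries.C := ⟨_, rfl⟩
  obtain ⟨ev, h1, h2⟩ := exists_evalHom (RingHom.id (MvPowerSeries (Fin d) K ⧸ P)) _ hx
  have h1' : ∀ r, ev (MvPowerSeries.C r) = r := DFunLike.congr_fun h1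
  obtain ⟨r1, r2⟩ := reg_mvPowerSeries_field K d
  have hR := hasRes_of_reg r1 r2
  rw [List.length_ofFn] at hR
  have hmap : (maximalIdeal (MvPowerSeries (Fin d) K)).map (MvPowerSeries.map (σ := Fin d) f) =
      Ideal.span (Set.range MvPowerSeries.X) := by
    rw [← r2, ofList_ofFn', Ideal.map_span, ← Set.range_comp]
    congr 2
    funext i
    exact MvPowerSeries.map_X f i
  have : IsLocalHom (MvPowerSeries.map (σ := Fin d) f) := by
    refine isLocalHom_of_map_le ?_
    rw [hmap, Ideal.span_le]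
    rintro _ ⟨i, rfl⟩
    exact X_mem_max i
  refine pair_abstract (MvPowerSeries.map (σ := Fin d) f) (flat_mvPowerSeries_map_of_field f _)
    hR hP.ne_top hM ev ?_ (reg_diag hx) ?_ (List.length_ofFn ..) ?_ hb
  · refine evalHom_ext _ _ ?_ (fun i => ?_) fun i => ?_
    · refine RingHom.ext fun r => ?_
      rw [RingHom.comp_apply, RingHom.comp_apply, MvPowerSeries.map_C, h1', hf]
    · rw [RingHom.comp_apply, MvPowerSeries.map_X, h2]
    · rw [RingHom.comp_apply, MvPowerSeries.map_X, h2]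
      exact hx i
  · rw [ofList_ofFn']
    refine le_antisymm (fun g hg => ?_) (Ideal.span_le.2 ?_)
    · have h3 := sub_C_eval_mem ev h1' (fun i => h2 i ▸ hx i) g
      rw [RingHom.mem_ker.1 hg, map_zero, sub_zero] at h3
      simpa only [h2] using h3
    · rintro _ ⟨i, rfl⟩
      rw [SetLike.mem_coe, RingHom.mem_ker, map_sub, h1', h2, sub_self]
  · rw [hmap, ← ker_constantCoeff, ← ha]
    exact ringKrullDim_eq_of_ringEquiv (RingHom.quotientKerEquivOfSurjective fun v =>
      ⟨MvPowerSeries.C v, MvPowerSeries.constantCoeff_C v⟩)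

end Vale.Agent.P177.EqA
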