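import Vale.Agent.P177.MC

/-! P177: auxiliary lemmas for the change of rings along a hypersurface. -/

namespace Vale.Agent.P177.EqB

open Vale.Agent.P202 Vale.Agent.P177

universe u

section Gen
variable {B : Type*} [CommRing B] {M : Type*} [AddCommGroup M] [Module B M] {ι : Type} [Fintype ι]
  {D : Matrix ι ι B} {deg : ι → ℤ} {d : M →ₗ[B] M} {L L' L'' : ℤ → Submodule B M}

/-- Homology of the total complex with constant coefficients. -/
noncomputable def th (D : Matrix ι ι B) (deg : ι → ℤ) (d : M →ₗ[B] M) (L L' : ℤ → Submodule B M)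
    (i : ℤ) : ℕ∞ :=
  hl (tot D deg d) (totFam deg fun _ => L) (totFam deg fun _ => L') i

theorem totPair (hD : IsMC D deg) (h : IsPair d L L') :
    IsTotPair D deg d (fun _ => L) (fun _ => L') :=
  ⟨hD.homog, fun a b x => by rw [hD.sq, Matrix.zero_apply, zero_smul], h.dd, fun _ => h,
    fun _ _ _ _ hx => Submodule.smul_mem _ _ hx, fun _ _ _ _ hx => Submodule.smul_mem _ _ hx⟩

theorem th_eq_zero (hD : IsMC D deg) (h : IsPair d L L') {i : ℤ}
    (h0 : ∀ a, hl d L L' (i - deg a) = 0) : th D deg d L L' i = 0 :=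
  le_antisymm ((hl_tot_le (totPair hD h) i).trans
    (le_of_eq (Finset.sum_eq_zero fun a _ => h0 a))) bot_le

theorem th_quot (hD : IsMC D deg) (h : IsPair d L L') (h' : IsPair d L' L'') {i : ℤ}
    (h1 : th D deg d L' L'' i = 0) (h2 : th D deg d L' L'' (i - 1) = 0) :
    th D deg d L L'' i = th D deg d L L' i := by
  have a := hl_le_add (totPair hD h).isPair (totPair hD h').isPair i
  have b := hl_quot_le (totPair hD h).isPair (totPair hD h').isPair i
  unfold th at *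
  rw [h1, add_zero] at a
  rw [h2, add_zero] at b
  exact le_antisymm a b

theorem th_sub (hD : IsMC D deg) (h : IsPair d L L') (h' : IsPair d L' L'') {i : ℤ}
    (h1 : th D deg d L L' i = 0) (h2 : th D deg d L L' (i + 1) = 0) :
    th D deg d L L'' i = th D deg d L' L'' i := by
  have a := hl_le_add (totPair hD h).isPair (totPair hD h').isPair i
  have b := hl_sub_le (totPair hD h).isPair (totPair hD h').isPair i
  unfold th at *
  rw [h1, zero_add] at a
  rw [h2, add_zero] at b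
  exact le_antisymm a b

theorem th_iso {M' : Type*} [AddCommGroup M'] [Module B M'] {d' : M' →ₗ[B] M'}
    {C C' : ℤ → Submodule B M'} {φ : M →ₗ[B] M'} {ε : ℤˣ} {k : ℤ} (hD : IsMC D deg)
    (h : IsPair d L L') (h' : IsPair d' C C') (e : PairIso d L L' d' C C' φ ε k) (i : ℤ) :
    th D deg d L L' i = th D deg d' C C' (i + k) :=
  (PairIso.tot hD.homog hD.homog (fun _ => e) fun a b j _ x _ => by
    rw [map_smul, sub_self]
    exact zero_mem _).hl_eq (totPair hD h).isPair (totPair hD h').isPair i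

omit [Fintype ι] in
theorem mem_top {dg : ι → ℕ} {i : ℤ} {v : ι → B} :
    v ∈ fam dg (⊤ : Submodule B B) i ↔ Res.Sp (zd dg) i v :=
  mem_fam.trans ⟨fun h a ha => (h a).2 ha, fun h a => ⟨fun _ => trivial, h a⟩⟩

omit [Fintype ι] in
theorem mem_bot {dg : ι → ℕ} {i : ℤ} {v : ι → M} :
    v ∈ fam dg (⊥ : Submodule B M) i ↔ v = 0 := by
  rw [fam_bot, Submodule.mem_bot]

theorem sp_mulVec {dg : ι → ℕ} (hD : IsMC D (zd dg)) {i : ℤ} {w : ι → B}
    (hw : Res.Sp (zd dg) (i + 1) w) : Res.Sp (zd dg) i (D.mulVec w) := by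
  have h := (isPair_top_bot (T := B) (V := B) hD).top (i + 1) w (mem_top.2 hw)
  rw [cx_eq_mulVec, add_sub_cancel_right] at h
  exact mem_top.1 h

theorem mulVec_mulVec_zero {dg : ι → ℕ} (hD : IsMC D (zd dg)) (w : ι → B) :
    D.mulVec (D.mulVec w) = 0 := by
  rw [Matrix.mulVec_mulVec, hD.sq, Matrix.zero_mulVec]

omit [Fintype ι] in
theorem sp_neg {dg : ι → ℕ} {i : ℤ} (hi : i < 0) {v : ι → B} (hv : Res.Sp (zd dg) i v) : v = 0 :=
  funext fun a => hv a (by have : (0 : ℤ) ≤ zd dg a := Int.natCast_nonneg _; omega)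

theorem mlen_restrict {T : Type*} [CommRing T] [Algebra T B] [Module T M] [IsScalarTower T B M]
    (hs : Function.Surjective (algebraMap T B)) (dg : ι → ℕ) (i : ℤ) :
    mlen T D dg M i = mlen B D dg M i := by
  unfold mlen hl
  rw [← rl_restrictScalars hs]
  congr 1
  · ext v
    rw [Submodule.restrictScalars_mem, mem_cyc', mem_cyc', mem_fam, mem_fam]
    rfl
  · ext v
    rw [Submodule.restrictScalars_mem, mem_bdy', mem_bdy']
    simp only [mem_fam]
    rfl
end Gen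

section Aug
variable {B : Type u} [CommRing B] {X : Type u} [AddCommGroup X] [Module B X] {N : ℕ∞}
  (F : PResol B X N)

/-- The kernel of the augmentation. -/
def kf : ℤ → Submodule B (F.ι → B) := fun j => fam F.dg ⊤ j ⊓ LinearMap.ker F.ε

variable {F}

theorem mem_kf {j : ℤ} {v : F.ι → B} : v ∈ kf F j ↔ Res.Sp (zd F.dg) j v ∧ F.ε v = 0 :=
  and_congr mem_top Iff.rfl

theorem eps_of_ne {j : ℤ} (hj : j ≠ 0) {v : F.ι → B} (hv : Res.Sp (zd F.dg) j v) : F.ε v = 0 :=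
  (F.ker v).2 ⟨0, fun _ _ => rfl, fun a ha => by
    rw [Matrix.mulVec_zero]
    exact hv a (by simp only [zd, ha]; exact_mod_cast hj.symm)⟩

theorem eps_mulVec {j : ℤ} {w : F.ι → B} (hw : Res.Sp (zd F.dg) (j + 1) w) :
    F.ε (F.D.mulVec w) = 0 := by
  by_cases hj : j = 0
  · subst hj
    exact (F.ker _).2 ⟨w, hw, fun _ _ => rfl⟩
  · exact eps_of_ne hj (sp_mulVec F.mc hw)

theorem exists_of_eps {v : F.ι → B} (hv : Res.Sp (zd F.dg) 0 v) (h : F.ε v = 0) :
    ∃ w, Res.Sp (zd F.dg) 1 w ∧ v = F.D.mulVec w := by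
  obtain ⟨w, hw, e⟩ := (F.ker v).1 h
  refine ⟨w, hw, funext fun a => ?_⟩
  by_cases ha : F.dg a = 0
  · exact e a ha
  · have ha' : zd F.dg a ≠ 0 := by simp only [zd]; exact_mod_cast ha
    rw [hv a ha', sp_mulVec F.mc (i := 0) hw a ha']

theorem exists_sp_zero (y : X) : ∃ v, Res.Sp (zd F.dg) 0 v ∧ F.ε v = y := by
  obtain ⟨v, rfl⟩ := F.surj y
  refine ⟨fun a => if F.dg a = 0 then v a else 0, fun a ha => if_neg fun h => ha (by
    simp only [zd, h]; rfl), ?_⟩
  rw [← sub_eq_zero, ← map_sub]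
  exact (F.ker _).2 ⟨0, fun _ _ => rfl, fun a ha => by
    rw [Matrix.mulVec_zero, Pi.sub_apply, if_pos ha, sub_self, Pi.zero_apply]⟩

variable (F)

theorem isFam_kf : IsFam (cx F.D F.dg B) (kf F) := fun i x hx => by
  rw [cx_eq_mulVec]
  have h : Res.Sp (zd F.dg) (i - 1 + 1) x := by rw [sub_add_cancel]; exact (mem_kf.1 hx).1
  exact mem_kf.2 ⟨sp_mulVec F.mc h, eps_mulVec h⟩

theorem pair_top_kf : IsPair (cx F.D F.dg B) (fam F.dg ⊤) (kf F) :=
  ⟨(isPair_top_bot (T := B) F.mc).dd, (isPair_top_bot (T := B) F.mc).top, isFam_kf F,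
    fun _ => inf_le_left⟩

theorem pair_kf_bot : IsPair (cx F.D F.dg B) (kf F) (fam F.dg ⊥) :=
  ⟨(isPair_top_bot (T := B) F.mc).dd, isFam_kf F, (isPair_top_bot (T := B) F.mc).bot,
    fun i => by rw [fam_bot]; exact bot_le⟩

theorem hl_kf {j : ℤ} (hj : ∀ m : ℕ, (m : ℤ) = j → (m : ℕ∞) < N) :
    hl (cx F.D F.dg B) (kf F) (fam F.dg ⊥) j = 0 := by
  refine hl_eq_zero_iff.2 fun x hx h0 => ?_
  rw [mem_bot, cx_eq_mulVec] at h0
  obtain ⟨hx1, hx2⟩ := mem_kf.1 hx
  have key : ∃ w, Res.Sp (zd F.dg) (j + 1) w ∧ x = F.D.mulVec w := by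
    rcases lt_trichotomy j 0 with h | h | h
    · exact ⟨0, fun _ _ => rfl, by rw [sp_neg h hx1, Matrix.mulVec_zero]⟩
    · subst h
      exact exists_of_eps hx1 hx2
    · obtain ⟨m, rfl⟩ := Int.eq_ofNat_of_zero_le h.le
      exact F.ex m (by exact_mod_cast h) (hj m rfl) x hx1 h0
  obtain ⟨w, hw, e⟩ := key
  by_cases h1 : j + 1 = 0
  · exact ⟨0, zero_mem _, by rw [map_zero, sub_zero, mem_bot]; exact sp_neg (by omega) hx1⟩
  · exact ⟨w, mem_kf.2 ⟨hw, eps_of_ne h1 hw⟩, by rw [mem_bot, cx_eq_mulVec, ← e, sub_self]⟩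

theorem pairIso_aug : PairIso (cx F.D F.dg B) (fam F.dg (⊤ : Submodule B B)) (kf F)
    (0 : X →ₗ[B] X) (conc ⊤) (conc ⊥) F.ε 1 0 := by
  have hb : ∀ i, conc (⊥ : Submodule B X) i = ⊥ := fun i => ite_self _
  refine ⟨fun i x hx => ?_, fun i x hx => ?_, fun i y hy => ?_, fun i x hx h => ?_,
    fun i x hx => ?_⟩
  · rw [add_zero]
    by_cases hi : i = 0
    · subst hi
      exact trivial
    · rw [eps_of_ne hi (mem_top.1 hx)]
      exact zero_mem _
  · rw [(mem_kf.1 hx).2]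
    exact zero_mem _
  · rw [add_zero] at hy
    by_cases hi : i = 0
    · subst hi
      obtain ⟨v, hv, rfl⟩ := exists_sp_zero (F := F) y
      exact ⟨v, mem_top.2 hv, by rw [sub_self]; exact zero_mem _⟩
    · refine ⟨0, zero_mem _, ?_⟩
      rw [map_zero, sub_zero, hb]
      simpa only [conc, if_neg hi] using hy
  · rw [hb] at h
    exact mem_kf.2 ⟨mem_top.1 hx, h⟩
  · rw [LinearMap.zero_apply, smul_zero, sub_zero, cx_eq_mulVec,
      eps_mulVec (j := i - 1) (by rw [sub_add_cancel]; exact mem_top.1 hx)]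
    exact zero_mem _

variable {ι : Type} [Fintype ι] {D : Matrix ι ι B} {dg : ι → ℕ}

theorem th_top_kf (hD : IsMC D (zd dg)) (i : ℤ) :
    th D (zd dg) (cx F.D F.dg B) (fam F.dg ⊤) (kf F) i = mlen B D dg X i := by
  have h := th_iso hD (pair_top_kf F) ⟨fun _ => rfl, isFam_conc _, isFam_conc _, fun i => by
    rw [show conc (⊥ : Submodule B X) i = ⊥ from ite_self _]; exact bot_le⟩ (pairIso_aug F) i
  rw [add_zero] at h
  exact h

theorem th_top_bot (hD : IsMC D (zd dg)) {i : ℕ} (hi : (i : ℕ∞) < N) :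
    th D (zd dg) (cx F.D F.dg B) (fam F.dg ⊤) (fam F.dg ⊥) i = mlen B D dg X i := by
  have h : ∀ j : ℤ, j ≤ i → th D (zd dg) (cx F.D F.dg B) (kf F) (fam F.dg ⊥) j = 0 :=
    fun j hj => th_eq_zero hD (pair_kf_bot F) fun a => hl_kf F fun m hm =>
      lt_of_le_of_lt (by
        have : (0 : ℤ) ≤ zd dg a := Int.natCast_nonneg _
        exact_mod_cast (show m ≤ i by omega)) hi
  rw [th_quot hD (pair_top_kf F) (pair_kf_bot F) (h _ le_rfl) (h _ (by omega)), th_top_kf F hD]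

theorem th_swap {κ : Type} [Fintype κ] {E : Matrix κ κ B} {eg : κ → ℕ} (hD : IsMC D (zd dg))
    (hE : IsMC E (zd eg)) (i : ℤ) :
    th D (zd dg) (cx E eg B) (fam eg ⊤) (fam eg ⊥) i =
      th E (zd eg) (cx D dg B) (fam dg ⊤) (fam dg ⊥) i :=
  (hl_tot_swap (L := fun _ _ => conc ⊤) (L' := fun _ _ => conc ⊥) hD.homog hE.homog
    (totPair hD (isPair_top_bot hE)).isPair).2 i

/-- Truncation: cycles in degree one. -/
def zf : ℤ → Submodule B (F.ι → B) := fun j =>
  fam F.dg ⊤ j ⊓ (⨅ _ : j = 1, LinearMap.ker F.D.mulVecLin) ⊓ ⨅ _ : j = 0, ⊥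

/-- Truncation: boundaries in degree one. -/
def bf : ℤ → Submodule B (F.ι → B) := fun j =>
  fam F.dg ⊤ j ⊓ (⨅ _ : j = 1, (fam F.dg ⊤ 2).map F.D.mulVecLin) ⊓ ⨅ _ : j = 0, ⊥

variable {F}

theorem mem_zf {j : ℤ} {v : F.ι → B} : v ∈ zf F j ↔
    Res.Sp (zd F.dg) j v ∧ (j = 1 → F.D.mulVec v = 0) ∧ (j = 0 → v = 0) := by
  simp only [zf, Submodule.mem_inf, mem_top, Submodule.mem_iInf, LinearMap.mem_ker,
    Matrix.mulVecLin_apply, Submodule.mem_bot, and_assoc]

theorem mem_bf {j : ℤ} {v : F.ι → B} : v ∈ bf F j ↔ Res.Sp (zd F.dg) j v ∧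
    (j = 1 → ∃ w, Res.Sp (zd F.dg) 2 w ∧ F.D.mulVec w = v) ∧ (j = 0 → v = 0) := by
  simp only [bf, Submodule.mem_inf, mem_top, Submodule.mem_iInf, Submodule.mem_map,
    Matrix.mulVecLin_apply, Submodule.mem_bot, and_assoc]

variable (F)

theorem isFam_zf : IsFam (cx F.D F.dg B) (zf F) := fun i x hx => by
  rw [cx_eq_mulVec]
  obtain ⟨h1, h2, -⟩ := mem_zf.1 hx
  exact mem_zf.2 ⟨sp_mulVec F.mc (by rw [sub_add_cancel]; exact h1),
    fun _ => mulVec_mulVec_zero F.mc x, fun h => h2 (by omega)⟩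

theorem isFam_bf : IsFam (cx F.D F.dg B) (bf F) := fun i x hx => by
  rw [cx_eq_mulVec]
  obtain ⟨h1, h2, -⟩ := mem_bf.1 hx
  refine mem_bf.2 ⟨sp_mulVec F.mc (by rw [sub_add_cancel]; exact h1), fun h => ⟨x, ?_, rfl⟩,
    fun h => ?_⟩
  · rwa [show i = 2 by omega] at h1
  · obtain ⟨w, -, rfl⟩ := h2 (by omega)
    exact mulVec_mulVec_zero F.mc w

theorem pair_kf_zf : IsPair (cx F.D F.dg B) (kf F) (zf F) :=
  ⟨(isPair_top_bot (T := B) F.mc).dd, isFam_kf F, isFam_zf F, fun i x hx => by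
    obtain ⟨h1, -, h3⟩ := mem_zf.1 hx
    refine mem_kf.2 ⟨h1, ?_⟩
    by_cases hi : i = 0
    · rw [h3 hi, map_zero]
    · exact eps_of_ne hi h1⟩

theorem pair_zf_bf : IsPair (cx F.D F.dg B) (zf F) (bf F) :=
  ⟨(isPair_top_bot (T := B) F.mc).dd, isFam_zf F, isFam_bf F, fun i x hx => by
    obtain ⟨h1, h2, h3⟩ := mem_bf.1 hx
    refine mem_zf.2 ⟨h1, fun h => ?_, h3⟩
    obtain ⟨w, -, rfl⟩ := h2 h
    exact mulVec_mulVec_zero F.mc w⟩

theorem pair_bf_bot : IsPair (cx F.D F.dg B) (bf F) (fam F.dg ⊥) :=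
  ⟨(isPair_top_bot (T := B) F.mc).dd, isFam_bf F, (isPair_top_bot (T := B) F.mc).bot,
    fun i => by rw [fam_bot]; exact bot_le⟩

theorem hl_kf_zf (j : ℤ) : hl (cx F.D F.dg B) (kf F) (zf F) j = 0 := by
  refine hl_eq_zero_iff.2 fun x hx h0 => ?_
  obtain ⟨hx1, hx2⟩ := mem_kf.1 hx
  by_cases hj : j = 0
  · subst hj
    obtain ⟨w, hw, e⟩ := exists_of_eps hx1 hx2
    exact ⟨w, mem_kf.2 ⟨hw, eps_of_ne one_ne_zero hw⟩, by
      rw [cx_eq_mulVec, ← e, sub_self]; exact zero_mem _⟩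
  · refine ⟨0, zero_mem _, ?_⟩
    rw [map_zero, sub_zero]
    rw [cx_eq_mulVec] at h0
    exact mem_zf.2 ⟨hx1, fun h => (mem_zf.1 h0).2.2 (by omega), fun h => absurd h hj⟩

theorem hl_bf (hex : ∀ j : ℤ, 2 ≤ j → ∀ v, Res.Sp (zd F.dg) j v → F.D.mulVec v = 0 →
      ∃ w, Res.Sp (zd F.dg) (j + 1) w ∧ v = F.D.mulVec w) (j : ℤ) :
    hl (cx F.D F.dg B) (bf F) (fam F.dg ⊥) j = 0 := by
  refine hl_eq_zero_iff.2 fun x hx h0 => ?_
  obtain ⟨h1, h2, h3⟩ := mem_bf.1 hx
  rw [mem_bot, cx_eq_mulVec] at h0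
  by_cases hj : j ≤ 0
  · refine ⟨0, zero_mem _, ?_⟩
    rw [map_zero, sub_zero, mem_bot]
    exact hj.lt_or_eq.elim (fun h => sp_neg h h1) h3
  · have key : ∃ w, Res.Sp (zd F.dg) (j + 1) w ∧ x = F.D.mulVec w := by
      by_cases hj1 : j = 1
      · subst hj1
        obtain ⟨w, hw, e⟩ := h2 rfl
        exact ⟨w, hw, e.symm⟩
      · exact hex j (by omega) x h1 h0
    obtain ⟨w, hw, e⟩ := key
    exact ⟨w, mem_bf.2 ⟨hw, fun h => absurd h (by omega), fun h => absurd h (by omega)⟩, by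
      rw [mem_bot, cx_eq_mulVec, ← e, sub_self]⟩
end Aug

section Bar
variable {A B : Type u} [CommRing A] [CommRing B] [Algebra A B] {V : Type u} [AddCommGroup V]
  [Module B V] [Module A V] [IsScalarTower A B V] {ι : Type} [Fintype ι] {g : A}

/-- Reduction of vectors. -/
def red (B : Type u) [CommRing B] [Algebra A B] (v : ι → A) : ι → B :=
  fun a => algebraMap A B (v a)

theorem red_mulVec (D : Matrix ι ι A) (v : ι → A) :
    (D.map (algebraMap A B)).mulVec (red B v) = red B (D.mulVec v) :=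
  funext fun a => (RingHom.map_mulVec (algebraMap A B) D v a).symm

omit [Fintype ι]

theorem red_sub (v w : ι → A) : red B (v - w) = red B v - red B w :=
  funext fun a => map_sub (algebraMap A B) (v a) (w a)

theorem red_zero : red B (0 : ι → A) = 0 := funext fun _ => map_zero (algebraMap A B)

theorem red_sp {dg : ι → ℕ} {i : ℤ} {v : ι → A} (hv : Res.Sp (zd dg) i v) :
    Res.Sp (zd dg) i (red B v) := fun a ha => by rw [red, hv a ha, map_zero]

theorem exists_red (hs : Function.Surjective (algebraMap A B)) {dg : ι → ℕ} {i : ℤ} {v : ι → B}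
    (hv : Res.Sp (zd dg) i v) : ∃ w : ι → A, Res.Sp (zd dg) i w ∧ red B w = v := by
  choose s hs using hs
  refine ⟨fun a => if zd dg a = i then s (v a) else 0, fun a ha => if_neg ha, funext fun a => ?_⟩
  by_cases ha : zd dg a = i
  · rw [red, if_pos ha, hs]
  · rw [red, if_neg ha, map_zero, hv a ha]

theorem map_g (hk : RingHom.ker (algebraMap A B) = Ideal.span {g}) : algebraMap A B g = 0 :=
  RingHom.mem_ker.1 (hk ▸ Ideal.mem_span_singleton_self g)

theorem red_g (hk : RingHom.ker (algebraMap A B) = Ideal.span {g}) (v : ι → A) :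
    red B (g • v) = 0 := funext fun a => by
  rw [red, Pi.smul_apply, smul_eq_mul, map_mul, map_g hk, zero_mul, Pi.zero_apply]

theorem g_smul (hk : RingHom.ker (algebraMap A B) = Ideal.span {g}) (y : V) : g • y = 0 := by
  rw [← algebraMap_smul B, map_g hk, zero_smul]

theorem cancel_g (hg : ∀ r, g * r = 0 → r = 0) {v : ι → A} (h : g • v = 0) : v = 0 :=
  funext fun a => hg _ (congrFun h a)

theorem exists_of_red (hg : ∀ r, g * r = 0 → r = 0)
    (hk : RingHom.ker (algebraMap A B) = Ideal.span {g}) {dg : ι → ℕ} {i : ℤ} {v : ι → A}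
    (hv : Res.Sp (zd dg) i v) (h : red B v = 0) : ∃ u, Res.Sp (zd dg) i u ∧ v = g • u := by
  have h1 : ∀ a, ∃ u, v a = g * u := fun a =>
    Ideal.mem_span_singleton.1 (hk ▸ RingHom.mem_ker.2 (congrFun h a))
  choose u hu using h1
  exact ⟨u, fun a ha => hg _ (by rw [← hu, hv a ha]), funext hu⟩

variable (G : Resol A V)

theorem eps_red (v : G.ι → A) :
    Fintype.linearCombination B (fun a => G.ε (Pi.single a 1)) (red B v) = G.ε v := by
  rw [Fintype.linearCombination_apply]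
  conv_rhs => rw [pi_eq_sum_univ' v, map_sum]
  exact Finset.sum_congr rfl fun a _ => by rw [red, algebraMap_smul, map_smul]

/-- The reduction of a resolution modulo `g` is a presentation. -/
@[reducible] def bar (hs : Function.Surjective (algebraMap A B)) (hg : ∀ r, g * r = 0 → r = 0)
    (hk : RingHom.ker (algebraMap A B) = Ideal.span {g}) : PResol B V 1 where
  ι := G.ι
  dg := G.dg
  D := G.D.map (algebraMap A B)
  mc := isMC_map G.mc _
  ex i h0 h1 := absurd (show i < 1 by exact_mod_cast h1) (by omega)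
  ε := Fintype.linearCombination B fun a => G.ε (Pi.single a 1)
  surj y := by
    obtain ⟨v, rfl⟩ := G.surj y
    exact ⟨red B v, eps_red G v⟩
  ker v := by
    obtain ⟨v, rfl⟩ : ∃ w : G.ι → A, red B w = v :=
      ⟨fun a => (hs (v a)).choose, funext fun a => (hs (v a)).choose_spec⟩
    rw [eps_red]
    constructor
    · intro h
      obtain ⟨w, hw, e⟩ := (G.ker v).1 h
      exact ⟨red B w, red_sp hw, fun a ha => by rw [red_mulVec, red, red, e a ha]⟩
    · rintro ⟨w, hw, e⟩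
      obtain ⟨w, hw', rfl⟩ := exists_red hs hw
      rw [red_mulVec] at e
      obtain ⟨u, -, hu⟩ := exists_of_red (B := B) hg hk (dg := G.dg) (i := 0)
        (v := fun a => if G.dg a = 0 then v a - G.D.mulVec w a else 0)
        (fun a ha => if_neg fun h => ha (by simp only [zd, h]; rfl)) (funext fun a => by
          by_cases ha : G.dg a = 0
          · rw [red, if_pos ha, map_sub]
            exact sub_eq_zero.2 (e a ha)
          · rw [red, if_neg ha, map_zero, Pi.zero_apply])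
      have h1 : G.ε (v - g • u) = 0 := (G.ker _).2 ⟨w, hw', fun a ha => by
        rw [← hu, Pi.sub_apply, if_pos ha, sub_sub_cancel]⟩
      rwa [map_sub, map_smul, g_smul (B := B) hk, sub_zero] at h1

theorem ex_res {j : ℤ} (hj : 0 < j) {v : G.ι → A} (hv : Res.Sp (zd G.dg) j v)
    (h : G.D.mulVec v = 0) : ∃ w, Res.Sp (zd G.dg) (j + 1) w ∧ v = G.D.mulVec w := by
  obtain ⟨m, rfl⟩ := Int.eq_ofNat_of_zero_le hj.le
  exact G.ex m (by exact_mod_cast hj) (ENat.natCast_lt_top m) v hv h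

theorem exists_htp (hk : RingHom.ker (algebraMap A B) = Ideal.span {g}) :
    ∃ H : Matrix G.ι G.ι A, (∀ v, Res.Sp (zd G.dg) 1 (H.mulVec v)) ∧
      (∀ j v, j ≠ 0 → Res.Sp (zd G.dg) j v → H.mulVec v = 0) ∧
      ∀ v, Res.Sp (zd G.dg) 0 v → G.D.mulVec (H.mulVec v) = g • v := by
  have h1 : ∀ b, ∃ w, Res.Sp (zd G.dg) 1 w ∧ (zd G.dg b ≠ 0 → w = 0) ∧
      (zd G.dg b = 0 → G.D.mulVec w = g • Pi.single b 1) := fun b => by
    by_cases hb : zd G.dg b = 0
    · obtain ⟨w, hw, e⟩ := exists_of_eps (F := G) (v := g • Pi.single b 1) (fun a ha => by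
        rw [Pi.smul_apply, Pi.single_eq_of_ne (fun h : a = b => ha (h ▸ hb)), smul_zero])
        (by rw [map_smul, g_smul (B := B) hk])
      exact ⟨w, hw, fun h => absurd hb h, fun _ => e.symm⟩
    · exact ⟨0, fun _ _ => rfl, fun _ => rfl, fun h => absurd h hb⟩
  choose w h1 h2 h3 using h1
  have e : ∀ v : G.ι → A, (Matrix.of fun a b => w b a).mulVec v = ∑ b, v b • w b := fun v =>
    funext fun a => by
      rw [Finset.sum_apply]
      exact Finset.sum_congr rfl fun b _ => mul_comm _ _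
  refine ⟨Matrix.of fun a b => w b a, fun v a ha => ?_, fun j v hj hv => ?_, fun v hv => ?_⟩
  · rw [e, Finset.sum_apply]
    exact Finset.sum_eq_zero fun b _ => by rw [Pi.smul_apply, h1 b a ha, smul_zero]
  · rw [e]
    refine Finset.sum_eq_zero fun b _ => ?_
    by_cases hb : zd G.dg b = 0
    · rw [hv b (by omega), zero_smul]
    · rw [h2 b hb, smul_zero]
  · rw [e, Matrix.mulVec_sum]
    conv_rhs => rw [pi_eq_sum_univ' v, Finset.smul_sum]
    refine Finset.sum_congr rfl fun b _ => ?_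
    by_cases hb : zd G.dg b = 0
    · rw [Matrix.mulVec_smul, h3 b hb, smul_comm]
    · rw [hv b hb, zero_smul, zero_smul, Matrix.mulVec_zero, smul_zero]

variable (hs : Function.Surjective (algebraMap A B)) (hg : ∀ r, g * r = 0 → r = 0)
  (hk : RingHom.ker (algebraMap A B) = Ideal.span {g})

theorem bar_ex (j : ℤ) (hj : 2 ≤ j) (v : G.ι → B) (hv : Res.Sp (zd G.dg) j v)
    (h : (bar G hs hg hk).D.mulVec v = 0) :
    ∃ w, Res.Sp (zd G.dg) (j + 1) w ∧ v = (bar G hs hg hk).D.mulVec w := by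
  obtain ⟨x, hx, rfl⟩ := exists_red hs hv
  obtain ⟨u, hu, e⟩ := exists_of_red hg hk
    (sp_mulVec G.mc (i := j - 1) (by rw [sub_add_cancel]; exact hx))
    ((red_mulVec G.D x).symm.trans h)
  have h1 : G.D.mulVec u = 0 := cancel_g hg (by
    rw [← Matrix.mulVec_smul, ← e, mulVec_mulVec_zero G.mc])
  obtain ⟨s, hs', rfl⟩ := ex_res G (by omega) hu h1
  rw [sub_add_cancel] at hs'
  obtain ⟨w, hw, e'⟩ := ex_res G (j := j) (v := x - g • s) (by omega)
    (fun a ha => by rw [Pi.sub_apply, Pi.smul_apply, hx a ha, hs' a ha, smul_zero, sub_zero])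
    (by rw [Matrix.mulVec_sub, Matrix.mulVec_smul, e, sub_self])
  refine ⟨red B w, red_sp hw, Eq.trans ?_ (red_mulVec G.D w).symm⟩
  rw [← e', red_sub, red_g hk, sub_zero]

theorem exists_pairIso : ∃ φ, PairIso (cx (bar G hs hg hk).D G.dg B)
    (fam G.dg (⊤ : Submodule B B)) (kf (bar G hs hg hk)) (cx (bar G hs hg hk).D G.dg B)
    (zf (bar G hs hg hk)) (bf (bar G hs hg hk)) φ 1 1 := by
  obtain ⟨H, h1, h2, h3⟩ := exists_htp G hk
  have hD : ∀ v, (bar G hs hg hk).D.mulVec (red B v) = red B (G.D.mulVec v) := red_mulVec G.D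
  have hH : ∀ v, (H.map (algebraMap A B)).mulVecLin (red B v) = red B (H.mulVec v) := red_mulVec H
  have hsp : ∀ {i : ℤ} {x y : G.ι → A}, Res.Sp (zd G.dg) i x → Res.Sp (zd G.dg) i y →
      Res.Sp (zd G.dg) i (x - y) := fun hx hy a ha => by
    rw [Pi.sub_apply, hx a ha, hy a ha, sub_zero]
  have hb : ∀ w, Res.Sp (zd G.dg) 1 w →
      red B (H.mulVec (G.D.mulVec w)) ∈ bf (bar G hs hg hk) 1 := fun w hw => by
    obtain ⟨u, hu, e⟩ := ex_res G (j := 1) (v := H.mulVec (G.D.mulVec w) - g • w) one_pos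
      (hsp (h1 _) fun a ha => by rw [Pi.smul_apply, hw a ha, smul_zero])
      (by rw [Matrix.mulVec_sub, h3 _ (sp_mulVec G.mc (i := 0) hw), Matrix.mulVec_smul, sub_self])
    refine mem_bf.2 ⟨red_sp (h1 _), fun _ => ⟨red B u, red_sp hu, ?_⟩, fun h => absurd h one_ne_zero⟩
    rw [hD, ← e, red_sub, red_g hk, sub_zero]
  refine ⟨(H.map (algebraMap A B)).mulVecLin, fun i x hx => ?_, fun i x hx => ?_,
    fun i y hy => ?_, fun i x hx h => ?_, fun i x hx => ?_⟩
  · obtain ⟨x, hx', rfl⟩ := exists_red hs (mem_top.1 hx)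
    rw [hH]
    by_cases hi : i = 0
    · subst hi
      exact mem_zf.2 ⟨red_sp (h1 x), fun _ => by rw [hD, h3 x hx', red_g hk],
        fun h => absurd h one_ne_zero⟩
    · rw [h2 i x hi hx', red_zero]
      exact zero_mem _
  · by_cases hi : i = 0
    · subst hi
      obtain ⟨w, hw, rfl⟩ := exists_of_eps (mem_kf.1 hx).1 (mem_kf.1 hx).2
      obtain ⟨w, hw', rfl⟩ := exists_red hs hw
      rw [hD, hH]
      exact hb w hw'
    · obtain ⟨x, hx', rfl⟩ := exists_red hs (mem_kf.1 hx).1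
      rw [hH, h2 i x hi hx', red_zero]
      exact zero_mem _
  · obtain ⟨y1, y2, y3⟩ := mem_zf.1 hy
    by_cases hi : i = 0
    · subst hi
      obtain ⟨z, hz, rfl⟩ := exists_red hs y1
      obtain ⟨u, hu, e⟩ := exists_of_red hg hk (sp_mulVec G.mc (i := 0) hz)
        ((hD z).symm.trans (y2 rfl))
      obtain ⟨s, hs', e'⟩ := ex_res G (j := 1) (v := z - H.mulVec u) one_pos (hsp hz (h1 u))
        (by rw [Matrix.mulVec_sub, h3 u hu, e, sub_self])
      refine ⟨red B u, mem_top.2 (red_sp hu), ?_⟩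
      rw [hH, ← red_sub]
      exact mem_bf.2 ⟨red_sp (hsp hz (h1 u)), fun _ => ⟨red B s, red_sp hs', by rw [hD, ← e']⟩,
        fun h => absurd h one_ne_zero⟩
    · refine ⟨0, zero_mem _, ?_⟩
      rw [map_zero, sub_zero]
      exact mem_bf.2 ⟨y1, fun h => absurd h (by omega), y3⟩
  · by_cases hi : i = 0
    · subst hi
      obtain ⟨x, hx', rfl⟩ := exists_red hs (mem_top.1 hx)
      rw [hH] at h
      obtain ⟨u, hu, e⟩ := (mem_bf.1 h).2.1 rfl
      obtain ⟨u, hu', rfl⟩ := exists_red hs hu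
      obtain ⟨s, hs', e'⟩ := exists_of_red (B := B) hg hk
        (hsp (h1 x) (sp_mulVec G.mc (i := 1) hu')) (by rw [red_sub, ← e, hD, sub_self])
      have h4 : x - G.D.mulVec s = 0 := cancel_g hg (by
        rw [smul_sub, ← Matrix.mulVec_smul, ← e', Matrix.mulVec_sub, mulVec_mulVec_zero G.mc,
          h3 x hx', sub_zero, sub_self])
      refine mem_kf.2 ⟨red_sp hx', (eps_red G x).trans ?_⟩
      rw [sub_eq_zero.1 h4]
      exact eps_mulVec (j := 0) hs'
    · exact mem_kf.2 ⟨mem_top.1 hx, eps_of_ne hi (mem_top.1 hx)⟩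
  · obtain ⟨x, hx', rfl⟩ := exists_red hs (mem_top.1 hx)
    rw [one_smul, cx_eq_mulVec, cx_eq_mulVec, hH, hD, hD, hH, add_sub_cancel_right]
    have hx1 := sp_mulVec G.mc (i := i - 1) (by rw [sub_add_cancel]; exact hx')
    by_cases hi : i = 0
    · subst hi
      rw [h3 x hx', red_g hk, h2 _ _ (by omega) hx1, red_zero, sub_zero]
      exact zero_mem _
    · rw [h2 i x hi hx', Matrix.mulVec_zero, red_zero, sub_zero]
      by_cases hi1 : i = 1
      · subst hi1
        exact hb x hx'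
      · rw [h2 _ _ (by omega) hx1, red_zero]
        exact zero_mem _

theorem th_kf_bot {κ : Type} [Fintype κ] {D : Matrix κ κ B} {dg : κ → ℕ} (hD : IsMC D (zd dg))
    (i : ℤ) : th D (zd dg) (cx (bar G hs hg hk).D G.dg B) (kf (bar G hs hg hk)) (fam G.dg ⊥) i =
      mlen B D dg V (i - 1) := by
  obtain ⟨φ, hφ⟩ := exists_pairIso G hs hg hk
  have p1 := pair_kf_zf (bar G hs hg hk)
  have p2 := pair_zf_bf (bar G hs hg hk)
  have p3 := pair_bf_bot (bar G hs hg hk)
  have e1 := th_sub hD p1 (p2.trans p3) (i := i) (th_eq_zero hD p1 fun _ => hl_kf_zf _ _)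
    (th_eq_zero hD p1 fun _ => hl_kf_zf _ _)
  have e2 := th_quot hD p2 p3 (i := i)
    (th_eq_zero hD p3 fun _ => hl_bf _ (bar_ex G hs hg hk) _)
    (th_eq_zero hD p3 fun _ => hl_bf _ (bar_ex G hs hg hk) _)
  have e3 := th_iso hD (pair_top_kf (bar G hs hg hk)) p2 hφ (i - 1)
  rw [sub_add_cancel] at e3
  exact e1.trans (e2.trans (e3.symm.trans (th_top_kf _ hD _)))

include hs hg hk in
/-- The change of rings long exact sequence. -/
theorem les {X : Type u} [AddCommGroup X] [Module B X] [Module A X] [IsScalarTower A B X]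
    {N : ℕ∞} (F : PResol B X N) : ∃ α β γ : ℤ → ℕ∞,
      (∀ i : ℕ, (i : ℕ∞) < N → mlen A G.D G.dg X i = α i + β i) ∧
      (∀ i, mlen B F.D F.dg V i = β i + γ i) ∧
      ∀ i, mlen B F.D F.dg V (i - 1) = γ (i + 1) + α i := by
  obtain ⟨α, β, γ, h1, h2, h3, -⟩ := exists_les
    (totPair F.mc (pair_top_kf (bar G hs hg hk))).isPair
    (totPair F.mc (pair_kf_bot (bar G hs hg hk))).isPair
  refine ⟨α, β, γ, fun i hi => Eq.trans ?_ (h1 i),
    fun i => (th_top_kf (bar G hs hg hk) F.mc i).symm.trans (h2 i),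
    fun i => (th_kf_bot G hs hg hk F.mc i).symm.trans (h3 i)⟩
  have m := (bar G hs hg hk).mc
  refine Eq.trans ?_ ((th_swap F.mc m i).trans (th_top_bot F m hi)).symm
  rw [← mlen_restrict hs]
  exact mlen_congr G.mc m (LinearEquiv.refl A X) (fun a b x => (algebraMap_smul B _ x).symm) i
end Bar

theorem arith {a t α β γ : ℤ → ℕ∞} {n : ℕ} (h1 : ∀ i : ℕ, i ≤ n + 1 → a i = α i + β i)
    (h2 : ∀ i, t i = β i + γ i) (h3 : ∀ i, t (i - 1) = γ (i + 1) + α i)
    (h4 : ∀ i < 0, t i = 0) (h5 : ∀ i : ℕ, a i ≠ ⊤) (h6 : a (n + 1 : ℕ) = 0) :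
    ∑ i ∈ Finset.range (n + 1), (-1 : ℝ) ^ i * ((a i).toNat : ℝ) =
      (-1 : ℝ) ^ (n + 1) * (((t (n + 1 : ℕ)).toNat : ℝ) - ((t n).toNat : ℝ)) := by
  have key : ∀ m : ℕ, m ≤ n + 1 → γ m ≠ ⊤ ∧ t (m - 1) ≠ ⊤ ∧
      ∑ i ∈ Finset.range m, (-1 : ℝ) ^ i * ((a i).toNat : ℝ) =
        (-1 : ℝ) ^ m * (((γ m).toNat : ℝ) - ((t (m - 1)).toNat : ℝ)) := by
    intro m hm
    induction m with
    | zero =>
      have e := h3 (-1)
      rw [h4 _ (by omega)] at e
      have e' : γ ((0 : ℕ) : ℤ) = 0 := (add_eq_zero.1 e.symm).1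
      rw [e', h4 _ (by omega)]
      simp
    | succ m ih =>
      obtain ⟨i1, i2, i3⟩ := ih (by omega)
      have a1 := h1 m (by omega)
      have a2 := h2 m
      have a3 := h3 m
      obtain ⟨b1, b2⟩ := WithTop.add_ne_top.1 (a1 ▸ h5 m)
      obtain ⟨b3, -⟩ := WithTop.add_ne_top.1 (a3 ▸ i2)
      rw [Nat.cast_succ, add_sub_cancel_right, Finset.sum_range_succ, i3, a1, a2, a3,
        ENat.toNat_add b1 b2, ENat.toNat_add b2 i1, ENat.toNat_add b3 b1]
      refine ⟨b3, WithTop.add_ne_top.2 ⟨b2, i1⟩, ?_⟩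
      push_cast
      ring
  have e := h1 (n + 1) le_rfl
  rw [h6] at e
  rw [(key (n + 1) le_rfl).2.2, h2 (n + 1 : ℕ), (add_eq_zero.1 e.symm).2, zero_add, Nat.cast_succ,
    add_sub_cancel_right]

end Vale.Agent.P177.EqB
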