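import Vale.Agent.P177.Chi
import Vale.Agent.P177.Sop
import Vale.Agent.P202.FrobFlat
import Vale.Agent.P202.Cohen
import Vale.Agent.P177.EqCharAuxA
import Vale.Agent.P177.EqCharAuxB

/-! P177 module EqChar: reduction to the diagonal for power series rings over a field, and the
case of two modules over a common hypersurface. -/

namespace Vale.Agent.P177

open Vale.Agent.P202 IsLocalRing TensorProduct

universe u

section A
/-- The kernel of an evaluation map. -/
theorem sub_C_eval_mem {D : Type u} [CommRing D] [IsLocalRing D] [IsNoetherianRing D] {σ : Type}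
    [Finite σ] (ev : MvPowerSeries σ D →+* D) (hC : ∀ r, ev (MvPowerSeries.C r) = r)
    (hX : ∀ i, ev (MvPowerSeries.X i) ∈ maximalIdeal D) (g : MvPowerSeries σ D) :
    g - MvPowerSeries.C (ev g) ∈ Ideal.span (Set.range fun i =>
      MvPowerSeries.C (ev (MvPowerSeries.X i)) - (MvPowerSeries.X i : MvPowerSeries σ D)) :=
  EqA.sub_C_eval_mem ev hC hX g

theorem reg_mvPowerSeries_field (K : Type u) [Field K] (d : ℕ) :
    RingTheory.Sequence.IsWeaklyRegular (MvPowerSeries (Fin d) K)
      (List.ofFn fun i : Fin d => (MvPowerSeries.X i : MvPowerSeries (Fin d) K)) ∧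
    Ideal.ofList (List.ofFn fun i : Fin d => (MvPowerSeries.X i : MvPowerSeries (Fin d) K)) =
      maximalIdeal _ := EqA.reg_mvPowerSeries_field K d

/-- Serre's theorem in equal characteristic. With `D = R / P`, `A = D[[x']]` is flat over `R`
(`flat_mvPowerSeries_map_of_field`), `y i = C (x i) - X i` is a regular sequence with `A / y = D`,
so `chi (R / Q) D = mult (A ⊗ R / Q) y` (`chi_eq_mult`), and `A ⊗ R / Q` has dimension `a + b`
(`mult_append_baseChange`, `supportDim_le_of_isSop`). -/
theorem pairThm_field (K : Type u) [Field K] (d : ℕ) : PairThm (MvPowerSeries (Fin d) K) d :=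
  EqA.pairThm_field K d
end A

section B
variable {A B : Type u} [CommRing A] [IsLocalRing A] [IsNoetherianRing A] [CommRing B]
  [Algebra A B] {X V : Type u} [AddCommGroup X] [Module B X] [Module A X] [IsScalarTower A B X]
  [AddCommGroup V] [Module B V] [Module A V] [IsScalarTower A B V]

/-- Change of rings for a hypersurface `B = A / g`. Let `G` be an `A`-resolution of `V`; `G ⊗ B`
has homology `V` in degrees `0` and `1`. The long exact sequence of `F ⊗ (G ⊗ B)` reads
`Tor^B_(i-1) → Tor^A_i → Tor^B_i → Tor^B_(i-2)`. -/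
theorem chi_hypersurface {d : ℕ} (hA : HasRes A d) (hs : Function.Surjective (algebraMap A B))
    {g : A} (hg : ∀ r, g * r = 0 → r = 0)
    (hk : RingHom.ker (algebraMap A B) = Ideal.span {g}) (h : Meets A X V) {N n : ℕ}
    (F : PResol B X N) (hn : d ≤ n) (hN : n + 3 < N) :
    chi A X V = (-1 : ℝ) ^ (n + 1) * (((mlen B F.D F.dg V (n + 1 : ℕ)).toNat : ℝ) -
      ((mlen B F.D F.dg V n).toNat : ℝ)) := by
  have := h.2.1
  obtain ⟨G, hG⟩ := hA V
  obtain ⟨α, β, γ, h1, h2, h3⟩ := EqB.les G hs hg hk F
  have hf := h.symm.mfin G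
  obtain ⟨m1, m2⟩ := meul_lenFun (T := A) (D := G.D) (V := X) fun a => (hG a).trans hn
  rw [chi_symm hA h, chi_eq G hf, m2]
  exact EqB.arith (a := mlen A G.D G.dg X) (t := mlen B F.D F.dg V)
    (fun i hi => h1 i (by exact_mod_cast (show i < N by omega))) h2 h3
    (fun i hi => mlen_eq_zero_of_forall_ne fun a => by omega) (m1.1 hf)
    (mlen_eq_zero_of_forall_ne fun a => by have := hG a; omega)

omit [IsNoetherianRing A] in
theorem meets_of_surj {A' : Type u} [CommRing A'] [IsLocalRing A'] [Algebra A' B]
    [Module A' X] [IsScalarTower A' B X] [Module A' V] [IsScalarTower A' B V]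
    (hs : Function.Surjective (algebraMap A B)) (hs' : Function.Surjective (algebraMap A' B))
    (h : Meets A X V) : Meets A' X V := by
  obtain ⟨hX, hV, N, hN⟩ := h
  have := Module.Finite.of_surjective (Algebra.linearMap A' B) hs'
  have := Module.Finite.of_restrictScalars_finite A B X
  have := Module.Finite.of_restrictScalars_finite A B V
  refine ⟨Module.Finite.trans B X, Module.Finite.trans B V, N, ?_⟩
  have h1 : (maximalIdeal A').map (algebraMap A' B) ≤ (maximalIdeal A).map (algebraMap A B) := by
    refine Ideal.map_le_iff_le_comap.2 fun x hx => ?_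
    obtain ⟨y, hy⟩ := hs (algebraMap A' B x)
    rw [Ideal.mem_comap, ← hy]
    by_cases hu : IsUnit y
    · rcases subsingleton_or_nontrivial B with hB | hB
      · rw [Subsingleton.elim (algebraMap A B y) 0]
        exact zero_mem _
      · have := IsLocalHom.of_surjective (algebraMap A' B) hs'
        exact absurd ((isUnit_map_iff (algebraMap A' B) x).1 (hy ▸ hu.map _)) hx
    · exact Ideal.mem_map_of_mem _ hu
  intro r hr
  have h2 : algebraMap A' B r ∈ (maximalIdeal A ^ N).map (algebraMap A B) := by
    rw [Ideal.map_pow]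
    refine Ideal.pow_right_mono h1 N ?_
    rw [← Ideal.map_pow]
    exact Ideal.mem_map_of_mem _ hr
  obtain ⟨y, hy, e⟩ := (Ideal.mem_map_iff_of_surjective _ hs).1 h2
  obtain ⟨y₁, hy₁, y₂, hy₂, rfl⟩ := Submodule.mem_sup.1 (hN hy)
  obtain ⟨r₁, e₁⟩ := hs' (algebraMap A B y₁)
  refine Submodule.mem_sup.2 ⟨r₁, Module.mem_annihilator.2 fun x => ?_, r - r₁,
    Module.mem_annihilator.2 fun x => ?_, add_sub_cancel _ _⟩
  · rw [← algebraMap_smul B, e₁, algebraMap_smul]
    exact Module.mem_annihilator.1 hy₁ x
  · rw [← algebraMap_smul B, map_sub, e₁, ← e, map_add, add_sub_cancel_left, algebraMap_smul]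
    exact Module.mem_annihilator.1 hy₂ x

theorem chi_both {A' : Type u} [CommRing A'] [IsLocalRing A'] [IsNoetherianRing A'] [Algebra A' B]
    [Module A' X] [IsScalarTower A' B X] [Module A' V] [IsScalarTower A' B V] {d d' : ℕ}
    (hA : HasRes A d) (hs : Function.Surjective (algebraMap A B)) {g : A}
    (hg : ∀ r, g * r = 0 → r = 0) (hk : RingHom.ker (algebraMap A B) = Ideal.span {g})
    (hA' : HasRes A' d') (hs' : Function.Surjective (algebraMap A' B)) {g' : A'}
    (hg' : ∀ r, g' * r = 0 → r = 0) (hk' : RingHom.ker (algebraMap A' B) = Ideal.span {g'})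
    (h : Meets A X V) : Meets A' X V ∧ chi A X V = chi A' X V := by
  have h' := meets_of_surj hs hs' h
  have := h.1
  have := Module.Finite.of_restrictScalars_finite A B X
  have := isNoetherianRing_of_surjective A B _ hs
  obtain ⟨F⟩ := exists_pResol (R := B) (X := X) (max d d' + 4)
  exact ⟨h', (chi_hypersurface hA hs hg hk h F (le_max_left d d') (by omega)).trans
    (chi_hypersurface hA' hs' hg' hk' h' F (le_max_right d d') (by omega)).symm⟩
end B

end Vale.Agent.P177
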