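import Vale.Agent.P177.Defs

/-! P177 module GenPos: general position arguments. -/

namespace Vale.Agent.P177

open IsLocalRing Polynomial

universe u

/-- The value of a vector at a prime. -/
noncomputable def evAt {A : Type u} [CommRing A] {κ : Type} (x : PrimeSpectrum A) (v : κ → A) :
    κ → x.asIdeal.ResidueField := fun k => algebraMap A _ (v k)

/-- The rank at `x` of a family of vectors. -/
noncomputable def rkAt {A : Type u} [CommRing A] {κ ρ : Type} (x : PrimeSpectrum A)
    (v : ρ → κ → A) : ℕ :=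
  Module.finrank x.asIdeal.ResidueField
    (Submodule.span x.asIdeal.ResidueField (Set.range fun r => evAt x (v r)))

/-- Avoidance: a module over a local ring with infinite residue field is not a finite union of
cosets of proper submodules (Neumann's lemma, `AddSubgroup.exists_finiteIndex_of_leftCoset_cover`
or its multiplicative version). -/
theorem exists_avoid {R : Type u} [CommRing R] [IsLocalRing R] [Infinite (ResidueField R)]
    {Γ : Type*} [AddCommGroup Γ] [Module R Γ] [Module.Finite R Γ] {κ : Type*} [Finite κ]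
    (N : κ → Submodule R Γ) (hN : ∀ k, N k ≠ ⊤) (g : κ → Γ) : ∃ γ, ∀ k, γ - g k ∉ N k := by
  by_contra hcon
  push Not at hcon
  have := Fintype.ofFinite κ
  obtain ⟨k, -, hk⟩ := AddSubgroup.exists_finiteIndex_of_leftCoset_cover (s := Finset.univ)
    (H := fun k => (N k).toAddSubgroup) (g := g) (Set.eq_univ_of_forall fun γ => by
      obtain ⟨k, hk⟩ := hcon γ
      exact Set.mem_biUnion (Finset.mem_coe.2 (Finset.mem_univ k)) ⟨γ - g k, hk, by simp⟩)
  have : Finite (Γ ⧸ N k) := AddSubgroup.finite_quotient_of_finiteIndex (H := (N k).toAddSubgroup)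
  obtain ⟨x, hx⟩ : ∃ x, x ∉ N k := by
    by_contra h
    push Not at h
    exact hN k (Submodule.eq_top_iff'.2 h)
  obtain ⟨a, b, hab, h⟩ := Finite.exists_ne_map_eq_of_infinite fun c : ResidueField R =>
    (N k).mkQ ((residue_surjective c).choose • x)
  have h1 := (residue_surjective a).choose_spec
  have h2 := (residue_surjective b).choose_spec
  rw [Submodule.mkQ_apply, Submodule.mkQ_apply, Submodule.Quotient.eq, ← sub_smul] at h
  refine hx (((N k).smul_mem_iff_of_isUnit ?_).1 h)
  rw [← residue_ne_zero_iff_isUnit, map_sub, h1, h2]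
  exact sub_ne_zero.2 hab

theorem gp_pick {K V ρ : Type*} [Field K] [AddCommGroup V] [Module K V] [Finite ρ] (w : ρ → V)
    {t : ℕ} (h : t ≤ Module.finrank K (Submodule.span K (Set.range w))) :
    ∃ e : Fin t → ρ, LinearIndependent K fun i => w (e i) := by
  have := Module.Finite.span_of_finite K (Set.finite_range w)
  obtain ⟨f, h1, -, h2⟩ := Submodule.exists_fun_fin_finrank_span_eq K (Set.range w)
  choose e he using h1
  refine ⟨fun i => e (Fin.castLE h i), ?_⟩
  simp only [he]
  exact h2.comp _ (Fin.castLE_injective h)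

theorem gp_minor {K κ ρ : Type*} [Field K] [Fintype κ] [Finite ρ] (w : ρ → κ → K) (t : ℕ) :
    t ≤ Module.finrank K (Submodule.span K (Set.range w)) ↔
      ∃ (e : Fin t → ρ) (f : Fin t → κ), (Matrix.of fun i j => w (e i) (f j)).det ≠ 0 := by
  constructor
  · intro h
    obtain ⟨e, he⟩ := gp_pick w h
    have h1 := LinearIndependent.rank_matrix (M := Matrix.of fun i => w (e i)) he
    rw [Matrix.rank_eq_finrank_span_cols, Fintype.card_fin] at h1
    obtain ⟨f, hf⟩ := gp_pick _ h1.ge
    exact ⟨e, f, ((Matrix.isUnit_iff_isUnit_det _).1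
      (Matrix.linearIndependent_cols_iff_isUnit.1 hf)).ne_zero⟩
  · rintro ⟨e, f, h⟩
    have h1 := Matrix.rank_of_isUnit _ ((Matrix.isUnit_iff_isUnit_det _).2 h.isUnit)
    have h2 := Matrix.rank_submatrix_le (Matrix.of w) e f
    rw [Matrix.rank_eq_finrank_span_row (Matrix.of w)] at h2
    rw [Fintype.card_fin] at h1
    exact h1.ge.trans h2

theorem gp_closed {A : Type u} [CommRing A] {κ ρ : Type} [Fintype κ] [Finite ρ] (v : ρ → κ → A)
    (t : ℕ) : ∃ K : Ideal A, ∀ x : PrimeSpectrum A, K ≤ x.asIdeal ↔ rkAt x v ≤ t := by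
  refine ⟨Ideal.span (Set.range fun q : (Fin (t + 1) → ρ) × (Fin (t + 1) → κ) =>
    (Matrix.of fun i j => v (q.1 i) (q.2 j)).det), fun x => ?_⟩
  rw [Ideal.span_le, Set.range_subset_iff, ← not_lt, ← Nat.succ_le_iff, rkAt, gp_minor]
  push Not
  rw [Prod.forall]
  refine forall₂_congr fun e f => ?_
  rw [SetLike.mem_coe, ← Ideal.algebraMap_residueField_eq_zero, RingHom.map_det]
  rfl

theorem gp_finite {A : Type u} [CommRing A] [IsNoetherianRing A] {J : Ideal A}
    {X : Set (PrimeSpectrum A)} (hJ : ∀ x ∈ X, J ≤ x.asIdeal)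
    (hX : ∀ x ∈ X, ∀ x' : PrimeSpectrum A, J ≤ x'.asIdeal → x' ≤ x → x' ∈ X)
    {h : PrimeSpectrum A → ℕ} (hh : ∀ x ∈ X, ∀ x' ∈ X, x' < x → h x' < h x)
    {κ ρ : Type} [Fintype κ] [Finite ρ] (v : ρ → κ → A) {s n : ℕ}
    (hv : ∀ x ∈ X, s ≤ rkAt x v ∨ n ≤ rkAt x v + h x) :
    {x ∈ X | rkAt x v < s ∧ rkAt x v + h x = n}.Finite := by
  choose K hK using gp_closed v
  refine ((Set.finite_lt_nat s).biUnion fun t _ => ((J ⊔ K t).finite_minimalPrimes_of_isNoetherianRing
    A).preimage (f := PrimeSpectrum.asIdeal) fun _ _ _ _ h => PrimeSpectrum.ext h).subset ?_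
  rintro x ⟨hx, h1, h2⟩
  refine Set.mem_biUnion h1 ⟨⟨x.2, sup_le (hJ x hx) ((hK _ x).2 le_rfl)⟩, fun y hy hle => ?_⟩
  by_contra hne
  have h3 := hX x hx ⟨y, hy.1⟩ (le_sup_left.trans hy.2) hle
  have h4 := hh x hx _ h3 (lt_of_le_not_ge hle hne)
  have h5 := (hK _ ⟨y, hy.1⟩).1 (le_sup_right.trans hy.2)
  have h6 := hv _ h3
  omega

/-- The general position lemma. The strata are indexed by `ν`; `X ν` is a set of primes
containing `J ν`, stable under generisation inside `V(J ν)`; `h ν` is a strictly monotone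
codimension function. -/
theorem genPos {N : Type} [Finite N] (A : N → Type u) [∀ ν, CommRing (A ν)]
    [∀ ν, IsNoetherianRing (A ν)] (J : ∀ ν, Ideal (A ν)) (X : ∀ ν, Set (PrimeSpectrum (A ν)))
    (hJ : ∀ ν, ∀ x ∈ X ν, J ν ≤ x.asIdeal)
    (hX : ∀ ν, ∀ x ∈ X ν, ∀ x' : PrimeSpectrum (A ν), J ν ≤ x'.asIdeal → x' ≤ x → x' ∈ X ν)
    (h : ∀ ν, PrimeSpectrum (A ν) → ℕ)
    (hh : ∀ ν, ∀ x ∈ X ν, ∀ x' ∈ X ν, x' < x → h ν x' < h ν x)
    {κ ρ : Type} [Fintype κ] [Fintype ρ] (s : ℕ)
    (E : ∀ ν (x : PrimeSpectrum (A ν)),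
      Submodule x.asIdeal.ResidueField (κ → x.asIdeal.ResidueField))
    (hE : ∀ ν, ∀ x ∈ X ν, Module.finrank x.asIdeal.ResidueField (E ν x) = s)
    (Ch : ρ → Type u) (row : ∀ ν r, Ch r → κ → A ν)
    (hrow : ∀ ν r γ, ∀ x ∈ X ν, evAt x (row ν r γ) ∈ E ν x)
    (oracle : ∀ (r : ρ) (F : Set (Σ ν, PrimeSpectrum (A ν))), F.Finite → (∀ z ∈ F, z.2 ∈ X z.1) →
      ∀ W : ∀ ν (x : PrimeSpectrum (A ν)),
        Submodule x.asIdeal.ResidueField (κ → x.asIdeal.ResidueField),
      (∀ z ∈ F, W z.1 z.2 < E z.1 z.2) → ∃ γ : Ch r, ∀ z ∈ F, evAt z.2 (row z.1 r γ) ∉ W z.1 z.2) :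
    ∃ γ : ∀ r, Ch r, ∀ ν,
      (∀ x ∈ X ν, rkAt x (fun r => row ν r (γ r)) ≤ s ∧
        (s ≤ rkAt x (fun r => row ν r (γ r)) ∨
          Fintype.card ρ ≤ rkAt x (fun r => row ν r (γ r)) + h ν x)) ∧
      {x ∈ X ν | rkAt x (fun r => row ν r (γ r)) < s ∧
        rkAt x (fun r => row ν r (γ r)) + h ν x = Fintype.card ρ}.Finite := by
  classical
  have hle : ∀ (γ : ∀ r, Ch r) (S : Set ρ) ν, ∀ x ∈ X ν, Submodule.span x.asIdeal.ResidueField
      ((fun r => evAt x (row ν r (γ r))) '' S) ≤ E ν x := fun γ S ν x hx => by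
    rw [Submodule.span_le]
    rintro _ ⟨r, -, rfl⟩
    exact hrow ν r _ x hx
  have hrk : ∀ (γ : ∀ r, Ch r) (S : Set ρ) ν (x : PrimeSpectrum (A ν)),
      rkAt x (fun r : S => row ν r (γ r)) = Module.finrank x.asIdeal.ResidueField
        (Submodule.span x.asIdeal.ResidueField ((fun r => evAt x (row ν r (γ r))) '' S)) :=
    fun γ S ν x => by rw [rkAt, Set.image_eq_range]
  have key : ∀ S : Finset ρ, ∃ γ : ∀ r, Ch r, ∀ ν, ∀ x ∈ X ν,
      s ≤ rkAt x (fun r : (S : Set ρ) => row ν r (γ r)) ∨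
        S.card ≤ rkAt x (fun r : (S : Set ρ) => row ν r (γ r)) + h ν x := by
    intro S
    induction S using Finset.induction_on with
    | empty =>
      exact ⟨fun r => (oracle r ∅ Set.finite_empty (by simp) E (by simp)).choose,
        fun ν x _ => Or.inr (by simp)⟩
    | insert r S hr ih =>
      obtain ⟨γ, hγ⟩ := ih
      obtain ⟨c, hc⟩ := oracle r (⋃ ν, Sigma.mk ν '' {x ∈ X ν |
          rkAt x (fun r : (S : Set ρ) => row ν r (γ r)) < s ∧
            rkAt x (fun r : (S : Set ρ) => row ν r (γ r)) + h ν x = S.card})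
        (Set.finite_iUnion fun ν => (gp_finite (hJ ν) (hX ν) (hh ν) _ (hγ ν)).image _)
        (by
          rintro z hz
          obtain ⟨ν, x, hx, rfl⟩ := Set.mem_iUnion.1 hz
          exact hx.1)
        (fun ν x => Submodule.span _ ((fun r => evAt x (row ν r (γ r))) '' (S : Set ρ)))
        (by
          rintro z hz
          obtain ⟨ν, x, hx, rfl⟩ := Set.mem_iUnion.1 hz
          refine lt_of_le_of_ne (hle γ S ν x hx.1) fun e => hx.2.1.ne ?_
          rw [hrk, ← hE ν x hx.1]
          exact congrArg (fun W : Submodule _ _ => Module.finrank _ W) e)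
      refine ⟨Function.update γ r c, fun ν x hx => ?_⟩
      have e : (fun r' => evAt x (row ν r' (Function.update γ r c r'))) '' (insert r S : Finset ρ)
          = insert (evAt x (row ν r c)) ((fun r' => evAt x (row ν r' (γ r'))) '' (S : Set ρ)) := by
        rw [Finset.coe_insert, Set.image_insert_eq, Function.update_self]
        congr 1
        refine Set.image_congr fun r' hr' => ?_
        rw [Function.update_of_ne (ne_of_mem_of_not_mem hr' hr)]
      have h1 := hγ ν x hx
      have h2 := hc ⟨ν, x⟩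
      rw [hrk, e, Finset.card_insert_of_notMem hr]
      have h3 : Submodule.span x.asIdeal.ResidueField ((fun r' => evAt x (row ν r' (γ r'))) ''
          (S : Set ρ)) ≤ Submodule.span _ (insert (evAt x (row ν r c))
            ((fun r' => evAt x (row ν r' (γ r'))) '' (S : Set ρ))) :=
        Submodule.span_mono (Set.subset_insert _ _)
      have h4 := Submodule.finrank_mono h3
      rw [← hrk] at h4
      by_cases h5 : rkAt x (fun r : (S : Set ρ) => row ν r (γ r)) < s ∧
          rkAt x (fun r : (S : Set ρ) => row ν r (γ r)) + h ν x = S.card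
      · have h6 := Submodule.finrank_lt_finrank_of_lt (lt_of_le_of_ne h3 fun e' =>
          h2 (Set.mem_iUnion.2 ⟨ν, x, ⟨hx, h5⟩, rfl⟩)
            (e' ▸ Submodule.subset_span (Set.mem_insert _ _)))
        rw [← hrk] at h6
        omega
      · omega
  obtain ⟨γ, hγ⟩ := key Finset.univ
  have e : ∀ ν (x : PrimeSpectrum (A ν)), rkAt x (fun r : ((Finset.univ : Finset ρ) : Set ρ) =>
      row ν r (γ r)) = rkAt x (fun r => row ν r (γ r)) := fun ν x => by
    rw [hrk, Finset.coe_univ, Set.image_univ, rkAt]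
  simp only [e, Finset.card_univ] at hγ
  refine ⟨γ, fun ν => ⟨fun x hx => ⟨?_, hγ ν x hx⟩, gp_finite (hJ ν) (hX ν) (hh ν) _ (hγ ν)⟩⟩
  rw [← e, hrk, ← hE ν x hx]
  exact Submodule.finrank_mono (hle γ _ ν x hx)

theorem gp_map_lt {A B : Type*} [CommRing A] [CommRing B] {φ : A →+* B}
    (hφ : Function.Surjective φ) {x y : Ideal A} [x.IsPrime] [y.IsPrime] (hx : RingHom.ker φ ≤ x)
    (h : x < y) : (x.map φ).height + 1 ≤ (y.map φ).height := by
  have := Ideal.map_isPrime_of_surjective hφ hx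
  have := Ideal.map_isPrime_of_surjective hφ (hx.trans h.le)
  refine Ideal.height_add_one_le_of_lt_of_isPrime (lt_of_le_not_ge (Ideal.map_mono h.le) fun e => ?_)
  rw [Ideal.map_le_iff_le_comap, Ideal.comap_map_of_surjective _ hφ,
    ← RingHom.ker_eq_comap_bot, sup_eq_left.2 hx] at e
  exact h.not_ge e

attribute [local instance] Polynomial.algebra Polynomial.isLocalization in
theorem gp_height_le {S : Type*} [CommRing S] [IsNoetherianRing S] (P : Ideal S[X]) [P.IsPrime] :
    P.height ≤ (P.comap C).height + 1 := by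
  have disj : Disjoint ((P.comap C).primeCompl.map C : Set S[X]) P :=
    Set.disjoint_left.2 fun a ⟨b, hb⟩ ha => hb.1 (by rwa [← hb.2] at ha)
  have h1 := IsLocalization.height_map_of_disjoint (S := (Localization.AtPrime (P.comap C))[X])
    (Submonoid.map C (P.comap C).primeCompl) P disj
  have := IsLocalization.isPrime_of_isPrime_disjoint (Submonoid.map C (P.comap C).primeCompl)
    (Localization.AtPrime (P.comap C))[X] P ‹_› disj
  have h2 := Ideal.height_le_ringKrullDim_of_isPrime
    (I := P.map (algebraMap S[X] (Localization.AtPrime (P.comap C))[X]))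
  rw [h1, Polynomial.ringKrullDim_of_isNoetherianRing,
    IsLocalization.AtPrime.ringKrullDim_eq_height (P.comap C)] at h2
  exact_mod_cast h2

section Height
variable {R : Type u} [CommRing R] [IsLocalRing R] [IsNoetherianRing R] {I : Ideal R} {a : ℕ}

omit [IsNoetherianRing R] in
theorem gp_bound (hd : ringKrullDim (R ⧸ I) ≤ a) {p : Ideal R} [p.IsPrime] (h1 : I ≤ p)
    (h2 : p ≠ maximalIdeal R) : (p.map (Ideal.Quotient.mk I)).height + 1 ≤ a := by
  have h3 : p < maximalIdeal R := lt_of_le_of_ne (le_maximalIdeal Ideal.IsPrime.ne_top') h2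
  have := Ideal.isPrime_map_quotientMk_of_isPrime (h1.trans h3.le)
  have h4 := (Ideal.height_le_ringKrullDim_of_isPrime
    (I := (maximalIdeal R).map (Ideal.Quotient.mk I))).trans hd
  exact (gp_map_lt Ideal.Quotient.mk_surjective (by rwa [Ideal.mk_ker]) h3).trans
    (by exact_mod_cast h4)

theorem gp_toNat {x y : ℕ∞} (h : x + 1 ≤ y) (hy : y ≠ ⊤) : x.toNat < y.toNat := by
  lift y to ℕ using hy
  lift x to ℕ using fun e => by simp [e] at h
  exact_mod_cast h

/-- Codimension function on the punctured spectrum of `R / I`. -/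
theorem exists_height_U (hd : ringKrullDim (R ⧸ I) ≤ a) : ∃ h : PrimeSpectrum R → ℕ,
    (∀ x, UPt I x → h x < a) ∧ ∀ x x', UPt I x → UPt I x' → x' < x → h x' < h x := by
  refine ⟨fun x => (x.asIdeal.map (Ideal.Quotient.mk I)).height.toNat,
    fun x hx => gp_toNat (gp_bound hd hx.1 hx.2) (ENat.natCast_ne_top a), fun x x' hx hx' h => ?_⟩
  refine gp_toNat (gp_map_lt Ideal.Quotient.mk_surjective (by rw [Ideal.mk_ker]; exact hx'.1) h)
    fun e => ?_
  simpa [e] using gp_bound hd hx.1 hx.2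

/-- Codimension function on the affine line over the punctured spectrum. -/
theorem exists_height_X (hd : ringKrullDim (R ⧸ I) ≤ a) : ∃ h : PrimeSpectrum R[X] → ℕ,
    (∀ x, XPt I x → h x ≤ a) ∧ ∀ x x', XPt I x → XPt I x' → x' < x → h x' < h x := by
  have hs : Function.Surjective (mapRingHom (Ideal.Quotient.mk I)) :=
    map_surjective _ Ideal.Quotient.mk_surjective
  have hk : RingHom.ker (mapRingHom (Ideal.Quotient.mk I)) = I.map C := by
    rw [ker_mapRingHom, Ideal.mk_ker]
  have key : ∀ x, XPt I x → (x.asIdeal.map (mapRingHom (Ideal.Quotient.mk I))).height ≤ a := by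
    intro x hx
    have h1 := hk ▸ hx.1
    have := Ideal.map_isPrime_of_surjective hs h1
    refine (gp_height_le _).trans (le_of_eq_of_le ?_
      (gp_bound hd (Ideal.map_le_iff_le_comap.1 hx.1) hx.2))
    rw [← Ideal.map_comap_of_surjective _ Ideal.Quotient.mk_surjective (Ideal.comap C _),
      Ideal.comap_comap, ← mapRingHom_comp_C, ← Ideal.comap_comap,
      Ideal.comap_map_of_surjective _ hs, ← RingHom.ker_eq_comap_bot, sup_eq_left.2 h1]
  refine ⟨fun x => (x.asIdeal.map (mapRingHom (Ideal.Quotient.mk I))).height.toNat,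
    fun x hx => ENat.toNat_le_of_le_natCast (key x hx), fun x x' hx hx' h => ?_⟩
  exact gp_toNat (gp_map_lt hs (hk ▸ hx'.1) h) (ne_top_of_le_ne_top (ENat.natCast_ne_top a) (key x hx))

/-- A point that is maximal on the affine line over the punctured spectrum contains a primitive
polynomial. -/
theorem exists_primitive_of_max {x : PrimeSpectrum R[X]} (hx : XPt I x)
    (hmax : ∀ x', XPt I x' → x ≤ x' → x' = x) :
    ∃ f ∈ x.asIdeal, f ∉ (maximalIdeal R).map C := by
  by_contra hcon
  push Not at hcon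
  have hX : (X : R[X]) ∉ (maximalIdeal R).map C := fun h =>
    (maximalIdeal.isMaximal R).ne_top ((Ideal.eq_top_iff_one _).2
      (by simpa using Ideal.mem_map_C_iff.1 h 1))
  have hX' : (X : R[X]) ∈ (maximalIdeal R).comap (evalRingHom 0) := by simp
  obtain ⟨q, h1, h2, h3⟩ := PrimeSpectrum.exist_mem_one_of_mem_two (p₀ := x)
    (p₁ := ⟨(maximalIdeal R).map C, Ideal.isPrime_map_C_of_isPrime⟩)
    (p₂ := ⟨(maximalIdeal R).comap (evalRingHom 0), inferInstance⟩)
    (lt_of_le_of_ne hcon fun e => hx.2 (by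
      rw [e]
      exact ((maximalIdeal.isMaximal R).eq_of_le Ideal.IsPrime.ne_top' Ideal.le_comap_map).symm))
    (lt_of_le_not_ge (Ideal.map_le_iff_le_comap.2 fun c hc => by simpa using hc)
      fun e => hX (e hX')) hX'
  refine h2.ne' (hmax q ⟨hx.1.trans h2.le, fun e => h3.not_ge fun f hf => ?_⟩ h2.le)
  rw [← X_mul_divX_add f]
  refine add_mem (Ideal.mul_mem_right _ _ h1) ?_
  rw [← Ideal.mem_comap, e, coeff_zero_eq_eval_zero]
  exact hf

/-- A primitive polynomial takes a unit value. -/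
theorem exists_isUnit_eval [Infinite (ResidueField R)] {f : R[X]}
    (hf : f ∉ (maximalIdeal R).map C) : ∃ l : R, IsUnit (f.eval l) := by
  by_contra hcon
  push Not at hcon
  refine hf (Ideal.mem_map_C_iff.2 fun n => ?_)
  have h : f.map (residue R) = 0 := Polynomial.funext fun c => by
    obtain ⟨l, rfl⟩ := residue_surjective c
    rw [eval_map_apply, eval_zero, residue_eq_zero_iff]
    exact hcon l
  rw [← residue_eq_zero_iff, ← coeff_map, h, coeff_zero]
end Height

end Vale.Agent.P177
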