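import Vale.Agent.P177.TDef

/-! P177 module Hop: compound matrices (Cauchy-Binet) and the calculus of simplicial operators. -/

namespace Vale.Agent.P177

open Vale.Agent.P202

variable {A : Type*} [CommRing A]

section Cmp
variable {c : ℕ} {J J' J'' : Type}

theorem enum_mem (S : PS c J) (i : Fin c) : enum S i ∈ S.1 :=
  ((S.1.equivFinOfCardEq S.2).symm i).2
theorem enum_injective (S : PS c J) : Function.Injective (enum S) :=
  Subtype.val_injective.comp (S.1.equivFinOfCardEq S.2).symm.injective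
theorem exists_enum (S : PS c J) {x : J} (hx : x ∈ S.1) : ∃ i, enum S i = x :=
  ⟨S.1.equivFinOfCardEq S.2 ⟨x, hx⟩, by rw [enum, Equiv.symm_apply_apply]⟩

theorem HopAux.det_rows [Fintype J'] (M : Matrix (Fin c) J' A) (N : Matrix J' (Fin c) A) :
    (M * N).det = ∑ g : Fin c → J', (∏ i, M i (g i)) * (N.submatrix g id).det := by
  rw [← Matrix.det_transpose, Matrix.det_apply']
  simp only [Matrix.transpose_apply, Matrix.mul_apply, Fintype.prod_sum, Finset.mul_sum]
  rw [Finset.sum_comm]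
  refine Finset.sum_congr rfl fun g _ => ?_
  rw [← Matrix.det_transpose, Matrix.det_apply', Finset.mul_sum]
  refine Finset.sum_congr rfl fun σ _ => ?_
  simp only [Matrix.transpose_apply, Matrix.submatrix_apply, id, Finset.prod_mul_distrib]
  ring

theorem HopAux.binet [Fintype J'] [DecidableEq J'] (M : Matrix (Fin c) J' A)
    (N : Matrix J' (Fin c) A) : (M * N).det =
      ∑ S : PS c J', (M.submatrix id (enum S)).det * (N.submatrix (enum S) id).det := by
  have h1 : ∀ S : PS c J', (M.submatrix id (enum S)).det * (N.submatrix (enum S) id).det =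
      ∑ g : Fin c → J', if ∀ i, g i ∈ S.1 then (∏ i, M i (g i)) * (N.submatrix g id).det
        else 0 := by
    intro S
    rw [← Matrix.det_mul, HopAux.det_rows]
    refine Fintype.sum_of_injective (fun τ : Fin c → Fin c => enum S ∘ τ)
      (enum_injective S).comp_left _ _ (fun g hg => if_neg fun h => hg ?_) fun τ => ?_
    · choose τ hτ using fun i => exists_enum S (h i)
      exact ⟨τ, funext hτ⟩
    · exact (if_pos fun i => enum_mem S (τ i)).symm
  simp only [h1]
  rw [HopAux.det_rows, Finset.sum_comm]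
  refine Finset.sum_congr rfl fun g _ => ?_
  by_cases hg : Function.Injective g
  · have hc : (Finset.univ.image g).card = c := by
      rw [Finset.card_image_of_injective _ hg, Finset.card_univ, Fintype.card_fin]
    rw [Finset.sum_eq_single (⟨_, hc⟩ : PS c J'), if_pos fun i =>
      Finset.mem_image_of_mem g (Finset.mem_univ i)]
    · refine fun S _ hS => if_neg fun h => hS (Subtype.ext ?_)
      exact (Finset.eq_of_subset_of_card_le (Finset.image_subset_iff.2 fun i _ => h i)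
        (S.2.trans hc.symm).le).symm
    · exact fun h => absurd (Finset.mem_univ _) h
  · obtain ⟨i, j, h1, h2⟩ := Function.not_injective_iff.1 hg
    have h0 : (N.submatrix g id).det = 0 :=
      Matrix.det_zero_of_row_eq h2 (funext fun k => congrArg (N · k) h1)
    simp only [h0, mul_zero, ite_self, Finset.sum_const_zero]

/-- Cauchy-Binet. -/
theorem cmp_mul [Fintype J'] [DecidableEq J'] (X : Matrix J'' J' A) (Y : Matrix J' J A) :
    cmp c (X * Y) = cmp c X * cmp c Y := by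
  ext S' S
  exact HopAux.binet (X.submatrix (enum S') id) (Y.submatrix id (enum S))
theorem cmp_map {A' : Type*} [CommRing A'] (f : A →+* A') (X : Matrix J' J A) :
    (cmp c X).map f = cmp c (X.map f) := by
  ext S' S
  exact f.map_det _
theorem cmp_congr {X Y : Matrix J' J A} {S' : PS c J'} {S : PS c J}
    (h : ∀ x' ∈ S'.1, ∀ x ∈ S.1, X x' x = Y x' x) : cmp c X S' S = cmp c Y S' S :=
  congrArg Matrix.det (Matrix.ext fun i j => h _ (enum_mem S' i) _ (enum_mem S j))
theorem cmp_eq_zero_of_row {X : Matrix J' J A} {S' : PS c J'} {S : PS c J} {x' : J'}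
    (hx : x' ∈ S'.1) (h : ∀ x ∈ S.1, X x' x = 0) : cmp c X S' S = 0 := by
  obtain ⟨i, rfl⟩ := exists_enum S' hx
  exact Matrix.det_eq_zero_of_row_eq_zero i fun j => h _ (enum_mem S j)
theorem cmp_diagonal [DecidableEq J] (w : J → A) :
    cmp c (Matrix.diagonal w) = Matrix.diagonal fun S : PS c J => ∏ x ∈ S.1, w x := by
  ext S' S
  by_cases h : S' = S
  · subst h
    rw [Matrix.diagonal_apply_eq, cmp, Matrix.submatrix_diagonal _ _ (enum_injective S'),
      Matrix.det_diagonal, ← Finset.prod_coe_sort S'.1]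
    exact (S'.1.equivFinOfCardEq S'.2).symm.prod_comp fun x => w x
  · rw [Matrix.diagonal_apply_ne _ h]
    have h1 : ¬ S'.1 ⊆ S.1 := fun h1 =>
      h (Subtype.ext (Finset.eq_of_subset_of_card_le h1 (S.2.trans S'.2.symm).le))
    obtain ⟨x, hx, hx'⟩ := Finset.not_subset.1 h1
    exact cmp_eq_zero_of_row hx fun y hy => Matrix.diagonal_apply_ne _ fun e => hx' (e ▸ hy)
theorem cmp_one [DecidableEq J] : cmp c (1 : Matrix J J A) = 1 := by
  rw [← Matrix.diagonal_one, cmp_diagonal]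
  simp only [Finset.prod_const_one, Matrix.diagonal_one]
end Cmp

section Hop
variable {m : ℕ} {B B' B'' : Type} [Fintype B] [Fintype B'] [Fintype B''] [DecidableEq B]
  [DecidableEq B'] {dg : B → ℕ} {dg' : B' → ℕ} {dg'' : B'' → ℕ} {D : Matrix B B A}
  {D' : Matrix B' B' A} {D'' : Matrix B'' B'' A}

/-- A monotone map to `{0, 1}`. -/
def IsEps (ε : Fin (m + 1) → ℕ) : Prop := Monotone ε ∧ ∀ i, ε i ≤ 1

namespace HopAux
open Matrix

/-- The bracket of a monotone map and a vector. -/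
noncomputable def br (D' : Matrix B' B' A) (μ : Fin (m + 1) → ℕ) (y : B' → A) (x' : SJ m dg') :
    A := (if ∀ i, (x'.η i : ℕ) = μ i then y x'.b else 0) +
    (if ∀ i, (x'.η i : ℕ) + 1 = μ i then (D' *ᵥ y) x'.b else 0)

/-- Homogeneous vectors. -/
def Hg (dg : B → ℕ) (k : ℤ) (y : B → A) : Prop := ∀ b, y b ≠ 0 → (dg b : ℤ) = k

/-- All values in `[1, k]` are attained. -/
def Big (μ : Fin (m + 1) → ℕ) (k : ℕ) : Prop := ∀ v, 1 ≤ v → v ≤ k → ∃ i, μ i = v

omit [DecidableEq B] [DecidableEq B'] [Fintype B'] in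
theorem Hg.mulVec {k j : ℤ} {y : B → A} (hy : Hg dg k y) {F : Matrix B' B A}
    (hF : IsHomR F dg' dg j) : Hg dg' (k - j) (F *ᵥ y) := by
  intro a ha
  obtain ⟨b, _, hb⟩ := Finset.exists_ne_zero_of_sum_ne_zero ha
  have h1 := hF a b (left_ne_zero_of_mul hb)
  have h2 := hy b (right_ne_zero_of_mul hb)
  omega

omit [Fintype B] [Fintype B'] [DecidableEq B] [DecidableEq B'] in
theorem hg_col {j : ℤ} {F : Matrix B' B A} (hF : IsHomR F dg' dg j) (b : B) :
    Hg dg' (dg b - j) fun a => F a b := fun a ha => by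
  have := hF a b ha
  omega

omit [Fintype B] [DecidableEq B] in
theorem zero_mem (x : SJ m dg) : ∃ i, (x.η i : ℕ) = 0 := (x.rng 0).2 (Nat.zero_le _)

omit [Fintype B] [DecidableEq B] in
theorem le_dg (x : SJ m dg) (i : Fin (m + 1)) : (x.η i : ℕ) ≤ dg x.b := (x.rng _).1 ⟨i, rfl⟩

omit [DecidableEq B] [DecidableEq B'] in
theorem br_lin (μ : Fin (m + 1) → ℕ) (Y : Matrix B' B A) (y : B → A) (x' : SJ m dg') :
    ∑ b, br D' μ (fun a => Y a b) x' * y b = br D' μ (Y *ᵥ y) x' := by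
  simp only [br, add_mul, Finset.sum_add_distrib, mulVec_mulVec]
  congr 1 <;> split_ifs
  · rfl
  · simp only [zero_mul, Finset.sum_const_zero]
  · rfl
  · simp only [zero_mul, Finset.sum_const_zero]

omit [DecidableEq B'] in
theorem br_zero (μ : Fin (m + 1) → ℕ) (x' : SJ m dg') : br D' μ 0 x' = 0 := by
  simp [br]

omit [DecidableEq B'] in
theorem br_small (hD' : IsMC D' (zd dg')) {μ : Fin (m + 1) → ℕ} {k : ℕ} {y : B' → A}
    (hy : Hg dg' k y) (h : ¬ Big μ k) (x' : SJ m dg') : br D' μ y x' = 0 := by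
  have h1 : (if ∀ i, (x'.η i : ℕ) = μ i then y x'.b else 0) = 0 :=
    ite_eq_right_iff.2 fun e => by_contra fun h0 => h fun v _ hv => by
      have := hy _ h0
      obtain ⟨i, hi⟩ := (x'.rng v).2 (by omega)
      exact ⟨i, (e i).symm.trans hi⟩
  have h2 : (if ∀ i, (x'.η i : ℕ) + 1 = μ i then (D' *ᵥ y) x'.b else 0) = 0 :=
    ite_eq_right_iff.2 fun e => by_contra fun h0 => h fun v h1 hv => by
      have := hy.mulVec (dg' := dg') hD'.homog _ h0
      obtain ⟨i, hi⟩ := (x'.rng (v - 1)).2 (by omega)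
      exact ⟨i, by have := e i; omega⟩
  rw [br, h1, h2, add_zero]

omit [DecidableEq B'] in
theorem sum_eta {μ : Fin (m + 1) → ℕ} {k : ℕ} (hμ : Monotone μ)
    (ho : ∀ v, (∃ i, μ i = v) ↔ v ≤ k) {z : B' → A} (hz : Hg dg' k z)
    (G : (Fin (m + 1) → ℕ) → B' → A) :
    ∑ x' : SJ m dg', G (fun i => x'.η i) x'.b * (if ∀ i, (x'.η i : ℕ) = μ i then z x'.b else 0) =
      ∑ b, G μ b * z b := by
  have hk : k + 1 ≤ m + 1 := by
    have h1 : Finset.range (k + 1) ⊆ Finset.univ.image μ := fun v hv => by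
      obtain ⟨i, hi⟩ := (ho v).2 (Nat.lt_succ_iff.1 (Finset.mem_range.1 hv))
      exact Finset.mem_image.2 ⟨i, Finset.mem_univ i, hi⟩
    have h2 := (Finset.card_le_card h1).trans Finset.card_image_le
    rwa [Finset.card_range, Finset.card_univ, Fintype.card_fin] at h2
  have he : ∀ x' : SJ m dg', G (fun i => x'.η i) x'.b *
      (if ∀ i, (x'.η i : ℕ) = μ i then z x'.b else 0) ≠ 0 → ∀ i, (x'.η i : ℕ) = μ i :=
    fun x' h => by_contra fun e => h (by rw [if_neg e, mul_zero])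
  refine Finset.sum_bij_ne_zero (fun x' _ _ => x'.b) (fun _ _ _ => Finset.mem_univ _)
    (fun x _ hx y _ hy e => SJ.ext' (funext fun i => Fin.ext
      ((he x hx i).trans (he y hy i).symm)) e) (fun b _ hb => ?_) fun x' _ hx => ?_
  · have h1 := hz b (right_ne_zero_of_mul hb)
    refine ⟨⟨fun i => ⟨μ i, lt_of_le_of_lt ((ho _).1 ⟨i, rfl⟩) hk⟩, b, hμ, fun v => ?_⟩,
      Finset.mem_univ _, ?_, rfl⟩
    · rw [show dg' b = k by omega]
      exact ho v
    · rwa [if_pos fun _ => rfl]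
  · rw [if_pos (he x' hx), funext (he x' hx)]

omit [DecidableEq B'] in
theorem sum_br_one {μ : Fin (m + 1) → ℕ} {k : ℕ} (hμ : Monotone μ) (hk : ∀ i, μ i ≤ k)
    (hb : Big μ k) (h0 : ∃ i, μ i = 0) {y : B' → A} (hy : Hg dg' k y)
    (G : (Fin (m + 1) → ℕ) → B' → A) :
    ∑ x' : SJ m dg', G (fun i => x'.η i) x'.b * br D' μ y x' = ∑ b, G μ b * y b := by
  rw [← sum_eta hμ (fun v => ⟨fun ⟨i, hi⟩ => hi ▸ hk i, fun hv => ?_⟩) hy G]
  · obtain ⟨j, hj⟩ := h0
    refine Finset.sum_congr rfl fun x' _ => ?_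
    rw [br, if_neg (c := ∀ i, (x'.η i : ℕ) + 1 = μ i) fun e => by have := e j; omega, add_zero]
  · rcases Nat.eq_zero_or_pos v with rfl | h
    · exact h0
    · exact hb v h hv

omit [DecidableEq B'] in
theorem br_pos {μ : Fin (m + 1) → ℕ} (h1 : ∀ i, 1 ≤ μ i) (y : B' → A) (x' : SJ m dg') :
    br D' μ y x' = if ∀ i, (x'.η i : ℕ) = μ i - 1 then (D' *ᵥ y) x'.b else 0 := by
  obtain ⟨j, hj⟩ := zero_mem x'
  rw [br, if_neg fun e => by have := e j; have := h1 j; omega, zero_add]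
  exact if_congr (forall_congr' fun i => by have := h1 i; omega) rfl rfl

omit [DecidableEq B'] in
theorem sum_br_two (hD' : IsMC D' (zd dg')) {μ : Fin (m + 1) → ℕ} {k : ℕ} (hμ : Monotone μ)
    (hk : ∀ i, μ i ≤ k) (hb : Big μ k) (h1 : ∀ i, 1 ≤ μ i) {y : B' → A} (hy : Hg dg' k y)
    (G : (Fin (m + 1) → ℕ) → B' → A) :
    ∑ x' : SJ m dg', G (fun i => x'.η i) x'.b * br D' μ y x' =
      ∑ b, G (fun i => μ i - 1) b * (D' *ᵥ y) b := by
  have hk1 : 1 ≤ k := (h1 0).trans (hk 0)
  simp only [br_pos h1]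
  refine sum_eta (k := k - 1) (fun i j h => Nat.sub_le_sub_right (hμ h) 1)
    (fun v => ⟨fun ⟨i, hi⟩ => by have := hk i; omega, fun hv => ?_⟩) ?_ G
  · obtain ⟨i, hi⟩ := hb (v + 1) (by omega) (by omega)
    exact ⟨i, by omega⟩
  · rw [Nat.cast_sub hk1]
    exact hy.mulVec (dg' := dg') hD'.homog

omit [DecidableEq B'] in
/-- The key lemma. -/
theorem pull_br (hD' : IsMC D' (zd dg')) (hD'' : IsMC D'' (zd dg'')) {F' : Matrix B'' B' A}
    (hF' : IsHomR F' dg'' dg' 0) (hc : F' * D' = D'' * F') (θ : Fin (m + 1) → Fin (m + 1))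
    {μ : Fin (m + 1) → ℕ} {k : ℕ} (hμ : Monotone μ) (hk : ∀ i, μ i ≤ k) {y : B' → A}
    (hy : Hg dg' k y) (x'' : SJ m dg'') :
    ∑ x', pull m dg' dg'' D'' θ F' x'' x' * br D' μ y x' =
      br D'' (fun i => μ (θ i)) (F' *ᵥ y) x'' := by
  by_cases hb : Big μ k
  · by_cases h0 : ∃ i, μ i = 0
    · exact (sum_br_one hμ hk hb h0 hy
        fun ν b => br D'' (fun i => ν (θ i)) (fun a => F' a b) x'').trans (br_lin _ _ _ _)
    · have h1 : ∀ i, 1 ≤ μ i := fun i => Nat.pos_of_ne_zero fun e => h0 ⟨i, e⟩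
      refine ((sum_br_two hD' hμ hk hb h1 hy
        fun ν b => br D'' (fun i => ν (θ i)) (fun a => F' a b) x'').trans
          (br_lin _ _ _ _)).trans ?_
      rw [br_pos fun i => h1 (θ i), br, mulVec_mulVec, hc, mulVec_mulVec, ← Matrix.mul_assoc,
        hD''.sq, Matrix.zero_mul, zero_mulVec, Pi.zero_apply, ite_self, add_zero, mulVec_mulVec]
  · have hy' : Hg dg'' k (F' *ᵥ y) := by simpa only [sub_zero] using hy.mulVec hF'
    rw [br_small hD'' hy' fun h => hb fun v h1 h2 => (h v h1 h2).elim fun i hi => ⟨_, hi⟩]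
    simp only [br_small hD' hy hb, mul_zero, Finset.sum_const_zero]

omit [DecidableEq B] [DecidableEq B'] in
theorem hop_br (hD : IsMC D (zd dg)) (hD' : IsMC D' (zd dg')) {S : Matrix B' B A}
    (hS : IsHomR S dg' dg (-1)) (θ : Fin (m + 1) → Fin (m + 1)) {ε : Fin (m + 1) → ℕ}
    (hε : ∀ i, ε i ≤ 1) {μ : Fin (m + 1) → ℕ} {k : ℕ} (hμ : Monotone μ) (hk : ∀ i, μ i ≤ k)
    {y : B → A} (hy : Hg dg k y) (x' : SJ m dg') :
    ∑ x, (brM m dg dg' D' (fun η i => ε i * (η (θ i) + 1)) S x' x +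
      brM m dg dg' D' (fun η i => ε i * η (θ i)) (S * D) x' x) * br D μ y x =
      br D' (fun i => ε i * (μ (θ i) + 1)) (S *ᵥ y) x' +
        br D' (fun i => ε i * μ (θ i)) ((S * D) *ᵥ y) x' := by
  have y1 : Hg dg' (k + 1 : ℕ) (S *ᵥ y) := by
    simpa only [sub_neg_eq_add, Nat.cast_add, Nat.cast_one] using hy.mulVec hS
  have y2 : Hg dg' k ((S * D) *ᵥ y) := by
    simpa only [sub_neg_eq_add, sub_add_cancel, mulVec_mulVec] using
      (hy.mulVec (dg' := dg) hD.homog).mulVec hS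
  have he : ∀ i t v, 1 ≤ v → ε i * t = v → t = v := fun i t v h1 h2 => by
    rcases Nat.le_one_iff_eq_zero_or_eq_one.1 (hε i) with h | h <;> rw [h] at h2 <;> omega
  by_cases hb : Big μ k
  · by_cases h0 : ∃ i, μ i = 0
    · refine (sum_br_one hμ hk hb h0 hy fun ν b =>
        br D' (fun i => ε i * (ν (θ i) + 1)) (fun a => S a b) x' +
        br D' (fun i => ε i * ν (θ i)) (fun a => (S * D) a b) x').trans ?_
      simp only [add_mul, Finset.sum_add_distrib, br_lin]
    · have h1 : ∀ i, 1 ≤ μ i := fun i => Nat.pos_of_ne_zero fun e => h0 ⟨i, e⟩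
      refine (sum_br_two hD hμ hk hb h1 hy fun ν b =>
        br D' (fun i => ε i * (ν (θ i) + 1)) (fun a => S a b) x' +
        br D' (fun i => ε i * ν (θ i)) (fun a => (S * D) a b) x').trans ?_
      simp only [add_mul, Finset.sum_add_distrib, br_lin, mulVec_mulVec, Matrix.mul_assoc, hD.sq,
        Matrix.mul_zero, zero_mulVec, br_zero, Nat.sub_add_cancel (h1 _)]
      rw [br_small hD' y1 fun h => ?_, add_comm]
      obtain ⟨i, hi⟩ := h 1 le_rfl (by omega)
      have := he i _ 1 le_rfl hi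
      have := h1 (θ i)
      omega
  · rw [br_small hD' y1 fun h => hb fun v h1 h2 => ?_,
      br_small hD' y2 fun h => hb fun v h1 h2 => ?_]
    · simp only [br_small hD hy hb, mul_zero, Finset.sum_const_zero, add_zero]
    · obtain ⟨i, hi⟩ := h v h1 h2
      exact ⟨_, he i _ v h1 hi⟩
    · obtain ⟨i, hi⟩ := h (v + 1) (by omega) (by omega)
      exact ⟨θ i, by have := he i _ _ (by omega) hi; omega⟩

omit [Fintype B] in
theorem hom_one : IsHomR (1 : Matrix B B A) dg dg 0 := fun a b h => by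
  by_cases e : a = b
  · rw [e, add_zero]
  · exact absurd (Matrix.one_apply_ne e) h

omit [Fintype B] [DecidableEq B] in
theorem mono_eta (x : SJ m dg) {θ : Fin (m + 1) → Fin (m + 1)} (hθ : Monotone θ) :
    Monotone fun i => (x.η (θ i) : ℕ) := fun _ _ h => x.mono (hθ h)

omit [DecidableEq B'] in
theorem br_row {μ : Fin (m + 1) → ℕ} (y : B' → A) {x' : SJ m dg'} {i i' : Fin (m + 1)}
    (h : μ i = μ i') (hx : x'.η i ≠ x'.η i') : br D' μ y x' = 0 := by
  rw [br, if_neg fun e => hx (Fin.ext (by rw [e, e, h])),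
    if_neg fun e => hx (Fin.ext (by have := e i; have := e i'; omega)), add_zero]

end HopAux

open HopAux

theorem pull_id_diagonal (w : B → A) :
    pull m dg dg D id (Matrix.diagonal w) = Matrix.diagonal fun x => w x.b := by
  ext x' x
  obtain ⟨j, hj⟩ := zero_mem x
  rw [pull, brM, if_neg (c := ∀ i, (x'.η i : ℕ) + 1 = _) fun e => by
    have := e j; simp only [id] at this; omega, add_zero]
  by_cases h : x' = x
  · subst h
    rw [Matrix.diagonal_apply_eq, Matrix.diagonal_apply_eq]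
    exact if_pos fun _ => rfl
  · rw [Matrix.diagonal_apply_ne _ h]
    exact ite_eq_right_iff.2 fun e => Matrix.diagonal_apply_ne _ fun e' =>
      h (SJ.ext' (funext fun i => Fin.ext (e i)) e')
theorem pull_id_one : pull m dg dg D id 1 = 1 := by
  rw [← Matrix.diagonal_one, pull_id_diagonal, Matrix.diagonal_one]
theorem pull_map {A' : Type*} [CommRing A'] (f : A →+* A') (θ : Fin (m + 1) → Fin (m + 1))
    (F : Matrix B' B A) :
    (pull m dg dg' D' θ F).map f = pull m dg dg' (D'.map f) θ (F.map f) := by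
  ext x' x
  simp only [pull, brM, Matrix.map_apply, map_add, apply_ite f, map_zero, ← Matrix.map_mul]
/-- Functoriality of the Dold-Kan construction. -/
theorem pull_mul (hD' : IsMC D' (zd dg')) (hD'' : IsMC D'' (zd dg'')) {F' : Matrix B'' B' A}
    {F : Matrix B' B A} (hF' : IsHomR F' dg'' dg' 0) (hF : IsHomR F dg' dg 0)
    (hc : F' * D' = D'' * F') {θ θ' : Fin (m + 1) → Fin (m + 1)} (hθ : Monotone θ)
    (hθ' : Monotone θ') :
    pull m dg' dg'' D'' θ' F' * pull m dg dg' D' θ F = pull m dg dg'' D'' (θ ∘ θ') (F' * F) := by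
  ext x'' x
  exact pull_br hD' hD'' hF' hc θ' (mono_eta x hθ) (fun i => le_dg x _)
    (by simpa only [sub_zero] using hg_col hF x.b) x''
theorem pull_mul_hop (hD : IsMC D (zd dg)) (hD' : IsMC D' (zd dg')) {F S : Matrix B' B A}
    (hF : IsHomR F dg' dg 0) (hS : IsHomR S dg' dg (-1)) {θ θ' : Fin (m + 1) → Fin (m + 1)}
    (hθ : Monotone θ) (hθ' : Monotone θ') {ε : Fin (m + 1) → ℕ} (hε : IsEps ε) :
    pull m dg' dg' D' θ' 1 * hop m dg dg' D D' θ ε F S =
      hop m dg dg' D D' (θ ∘ θ') (ε ∘ θ') F S := by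
  have hc : 1 * D' = D' * 1 := by rw [Matrix.one_mul, Matrix.mul_one]
  rw [hop, hop, Matrix.mul_sub, Matrix.mul_sub, pull_mul hD' hD' hom_one hF hc hθ hθ',
    Matrix.one_mul]
  have hle : ∀ i t, ε i * t ≤ t := fun i t => mul_le_of_le_one_left (Nat.zero_le t) (hε.2 i)
  congr 1
  · congr 1
    ext x'' x
    have := pull_br hD' hD' hom_one hc θ' (μ := fun i => ε i * (x.η (θ i) + 1)) (k := dg x.b + 1)
      (fun _ _ h => Nat.mul_le_mul (hε.1 h) (Nat.succ_le_succ (mono_eta x hθ h)))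
      (fun i => (hle _ _).trans (Nat.succ_le_succ (le_dg x _)))
      (by simpa only [sub_neg_eq_add, Nat.cast_add, Nat.cast_one] using hg_col hS x.b) x''
    rwa [Matrix.one_mulVec] at this
  · ext x'' x
    have := pull_br hD' hD' hom_one hc θ' (μ := fun i => ε i * x.η (θ i)) (k := dg x.b)
      (fun _ _ h => Nat.mul_le_mul (hε.1 h) (mono_eta x hθ h))
      (fun i => (hle _ _).trans (le_dg x _)) (y := S.mulVec fun a => D a x.b)
      (by simpa only [sub_neg_eq_add, sub_add_cancel] using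
        (hg_col (dg' := dg) hD.homog x.b).mulVec hS) x''
    rwa [Matrix.one_mulVec] at this
theorem hop_mul_pull (hD : IsMC D (zd dg)) (hD' : IsMC D' (zd dg')) {F S : Matrix B' B A}
    (hF : IsHomR F dg' dg 0) (hS : IsHomR S dg' dg (-1)) (hc : F * D = D' * F)
    {θ θ' : Fin (m + 1) → Fin (m + 1)} (hθ : Monotone θ) (hθ' : Monotone θ')
    {ε : Fin (m + 1) → ℕ} (hε : IsEps ε) :
    hop m dg dg' D D' θ ε F S * pull m dg dg D θ' 1 = hop m dg dg' D D' (θ' ∘ θ) ε F S := by
  rw [hop, hop, sub_sub, sub_sub, Matrix.sub_mul, pull_mul hD hD' hF hom_one hc hθ' hθ,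
    Matrix.mul_one]
  congr 1
  ext x' x
  have e : ∀ Y : Matrix B' B A, (Y.mulVec fun a => (1 : Matrix B B A) a x.b) = fun a => Y a x.b :=
    fun Y => funext fun a => congrFun (congrFun (Matrix.mul_one Y) a) x.b
  have := hop_br hD hD' hS θ hε.2 (mono_eta x hθ') (fun i => le_dg x _)
    (by simpa only [sub_zero] using hg_col hom_one x.b) x'
  rwa [e, e] at this
theorem hop_eps_zero (hD : IsMC D (zd dg)) (hD' : IsMC D' (zd dg')) {F S : Matrix B' B A}
    (hS : IsHomR S dg' dg (-1)) (θ : Fin (m + 1) → Fin (m + 1)) :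
    hop m dg dg' D D' θ (fun _ => 0) F S = pull m dg dg' D' θ F := by
  ext x' x
  have h0 : (∀ i, (x'.η i : ℕ) = 0) → ∀ b, S x'.b b = 0 := fun e b => by_contra fun h => by
    have h1 := hS _ _ h
    obtain ⟨i, hi⟩ := (x'.rng _).2 le_rfl
    have := e i
    omega
  have h1 : (if ∀ i, (x'.η i : ℕ) = 0 then S x'.b x.b else 0) = 0 :=
    ite_eq_right_iff.2 fun e => h0 e _
  have h2 : (if ∀ i, (x'.η i : ℕ) = 0 then (S * D) x'.b x.b else 0) = 0 :=
    ite_eq_right_iff.2 fun e => by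
      simp only [Matrix.mul_apply, h0 e, zero_mul, Finset.sum_const_zero]
  simp only [hop, brM, Matrix.sub_apply, zero_mul, h1, h2, Nat.succ_ne_zero, forall_const,
    if_false, add_zero, sub_zero]
theorem hop_eps_one (hD : IsMC D (zd dg)) (hD' : IsMC D' (zd dg')) {F S : Matrix B' B A}
    (hS : IsHomR S dg' dg (-1)) {θ : Fin (m + 1) → Fin (m + 1)} (hθ : Monotone θ) :
    hop m dg dg' D D' θ (fun _ => 1) F S = pull m dg dg' D' θ (F - D' * S - S * D) := by
  ext x' x
  obtain ⟨j, hj⟩ := zero_mem x'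
  have h1 : ¬ ∀ i, (x'.η i : ℕ) = x.η (θ i) + 1 := fun e => by
    have := e j
    omega
  simp only [hop, pull, brM, Matrix.sub_apply, one_mul, if_neg h1, Nat.add_right_cancel_iff,
    Matrix.mul_sub, ← Matrix.mul_assoc, hD'.sq, Matrix.zero_mul, Matrix.zero_apply]
  split_ifs <;> ring
theorem hop_S_zero (θ : Fin (m + 1) → Fin (m + 1)) (ε : Fin (m + 1) → ℕ) (F : Matrix B' B A) :
    hop m dg dg' D D' θ ε F 0 = pull m dg dg' D' θ F := by
  ext x' x
  simp only [hop, brM, Matrix.sub_apply, Matrix.zero_mul, Matrix.mul_zero, Matrix.zero_apply,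
    ite_self, add_zero, sub_zero]
/-- Row principle: no jump where both `θ` (after the column simplex) and `ε` are constant. -/
theorem hop_row_zero {F S : Matrix B' B A} {θ : Fin (m + 1) → Fin (m + 1)}
    {ε : Fin (m + 1) → ℕ} {x' : SJ m dg'} {x : SJ m dg} {i i' : Fin (m + 1)}
    (hθ : x.η (θ i) = x.η (θ i')) (hε : ε i = ε i') (hx : x'.η i ≠ x'.η i') :
    hop m dg dg' D D' θ ε F S x' x = 0 := by
  have h1 : pull m dg dg' D' θ F x' x = 0 :=
    br_row (μ := fun i => x.η (θ i)) (fun a => F a x.b) (by simp only [hθ]) hx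
  have h2 : brM m dg dg' D' (fun η i => ε i * (η (θ i) + 1)) S x' x = 0 :=
    br_row (μ := fun i => ε i * (x.η (θ i) + 1)) (fun a => S a x.b) (by simp only [hθ, hε]) hx
  have h3 : brM m dg dg' D' (fun η i => ε i * η (θ i)) (S * D) x' x = 0 :=
    br_row (μ := fun i => ε i * x.η (θ i)) (fun a => (S * D) a x.b) (by simp only [hθ, hε]) hx
  rw [hop, Matrix.sub_apply, Matrix.sub_apply, h1, h2, h3, sub_zero, sub_zero]
/-- Column principle. -/
theorem hop_col_congr {F S : Matrix B' B A} {θ θ' : Fin (m + 1) → Fin (m + 1)}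
    {ε : Fin (m + 1) → ℕ} {x' : SJ m dg'} {x : SJ m dg} (h : ∀ i, x.η (θ i) = x.η (θ' i)) :
    hop m dg dg' D D' θ ε F S x' x = hop m dg dg' D D' θ' ε F S x' x := by
  simp only [hop, pull, brM, Matrix.sub_apply, h]
end Hop

end Vale.Agent.P177
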