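import Vale.Agent.P177.Core

/-! P177 module Ind: indices of maps, indices on homology, Koszul multiplicativity. -/

namespace Vale.Agent.P177

open Vale.Agent.P202

universe u

namespace AddFun
variable {T : Type u} [CommRing T] {δ : AddFun T} {M : Type u} [AddCommGroup M] [Module T M]
  {M' : Type u} [AddCommGroup M'] [Module T M'] {M'' : Type u} [AddCommGroup M''] [Module T M'']

theorem ia_split {A B C : Submodule T M} (hCB : C ≤ B) (hBA : B ≤ A) :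
    δ.rm A C ↔ δ.rm A B ∧ δ.rm B C :=
  ⟨fun h => ⟨rm_mono le_rfl hCB h, rm_mono hBA le_rfl h⟩, fun h => rm_trans h.1 h.2⟩

/-- The six term exact sequence of a composition. -/
theorem ia_six (f : M →ₗ[T] M') (g : M' →ₗ[T] M'') :
    ∃ (pb pc pe : Prop) (b c e : ℝ),
      (δ.mem (LinearMap.ker (g ∘ₗ f)) ↔ pb ∧ δ.mem (LinearMap.ker f)) ∧
      (δ.mem (LinearMap.ker g) ↔ pc ∧ pb) ∧
      (δ.mem (M' ⧸ LinearMap.range f) ↔ pe ∧ pc) ∧
      (δ.mem (M'' ⧸ LinearMap.range (g ∘ₗ f)) ↔ δ.mem (M'' ⧸ LinearMap.range g) ∧ pe) ∧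
      (δ.mem (LinearMap.ker (g ∘ₗ f)) →
        δ.val (LinearMap.ker (g ∘ₗ f)) = b + δ.val (LinearMap.ker f)) ∧
      (δ.mem (LinearMap.ker g) → δ.val (LinearMap.ker g) = c + b) ∧
      (δ.mem (M' ⧸ LinearMap.range f) → δ.val (M' ⧸ LinearMap.range f) = e + c) ∧
      (δ.mem (M'' ⧸ LinearMap.range (g ∘ₗ f)) →
        δ.val (M'' ⧸ LinearMap.range (g ∘ₗ f)) = δ.val (M'' ⧸ LinearMap.range g) + e) := by
  have l1 : LinearMap.ker f ≤ LinearMap.ker (g ∘ₗ f) := LinearMap.ker_le_ker_comp f g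
  have l2 : LinearMap.range (g ∘ₗ f) ≤ LinearMap.range g := LinearMap.range_comp_le_range f g
  have eb := rv_eq_of_map (δ := δ) f (P := LinearMap.ker (g ∘ₗ f)) (Q := LinearMap.ker f)
    (P' := LinearMap.ker g ⊓ LinearMap.range f) (Q' := ⊥)
    (fun x hx => ⟨hx, x, rfl⟩) (fun x hx => hx.2)
    (by
      rintro _ ⟨hy, x, rfl⟩
      exact ⟨x, hy, by simp⟩)
    (fun x _ hx => hx)
  have ec := rv_eq_of_map (δ := δ) LinearMap.id (P := LinearMap.ker g)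
    (Q := LinearMap.ker g ⊓ LinearMap.range f) (P' := LinearMap.ker g ⊔ LinearMap.range f)
    (Q' := LinearMap.range f) (fun x hx => Submodule.mem_sup_left hx) (fun x hx => hx.2.2)
    (fun y hy => by
      obtain ⟨a, ha, b, hb, rfl⟩ := Submodule.mem_sup.1 hy
      exact ⟨a, ha, by simpa using hb⟩)
    (fun x hx hx' => ⟨hx, hx'⟩)
  have ee := rv_eq_of_map (δ := δ) g (P := ⊤) (Q := LinearMap.ker g ⊔ LinearMap.range f)
    (P' := LinearMap.range g) (Q' := LinearMap.range (g ∘ₗ f)) (fun x _ => ⟨x, rfl⟩)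
    (fun x hx => by
      obtain ⟨a, ha, _, ⟨b, rfl⟩, rfl⟩ := Submodule.mem_sup.1 hx.2
      exact ⟨b, by rw [map_add, LinearMap.mem_ker.1 ha, zero_add]; rfl⟩)
    (by
      rintro _ ⟨x, rfl⟩
      exact ⟨x, trivial, by simp⟩)
    (by
      rintro x - ⟨y, hy⟩
      refine Submodule.mem_sup.2 ⟨x - f y, ?_, f y, ⟨y, rfl⟩, sub_add_cancel _ _⟩
      rw [LinearMap.mem_ker, map_sub, ← hy]
      exact sub_self _)
  have s1 := ia_split (δ := δ) (bot_le : ⊥ ≤ LinearMap.ker f) l1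
  have s2 := ia_split (δ := δ) (bot_le : ⊥ ≤ LinearMap.ker g ⊓ LinearMap.range f) inf_le_left
  have s3 := ia_split (δ := δ) (le_sup_right : _ ≤ LinearMap.ker g ⊔ LinearMap.range f) le_top
  have s4 := ia_split (δ := δ) l2 le_top
  rw [(δ.rm_bot _).1, (δ.rm_bot (LinearMap.ker f)).1] at s1
  rw [(δ.rm_bot _).1, ← eb.1] at s2
  rw [(δ.rm_top _).1, ← ec.1] at s3
  rw [(δ.rm_top _).1, (δ.rm_top (LinearMap.range g)).1, ← ee.1] at s4
  refine ⟨_, _, _, δ.rv (LinearMap.ker (g ∘ₗ f)) (LinearMap.ker f),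
    δ.rv (LinearMap.ker g) (LinearMap.ker g ⊓ LinearMap.range f),
    δ.rv ⊤ (LinearMap.ker g ⊔ LinearMap.range f), s1, s2, s3, s4, fun h => ?_, fun h => ?_,
    fun h => ?_, fun h => ?_⟩
  · rw [← (δ.rm_bot _).2 h, rv_add bot_le l1 ((δ.rm_bot _).1.2 h), (δ.rm_bot _).2 (s1.1 h).2]
  · rw [← (δ.rm_bot _).2 h, rv_add bot_le inf_le_left ((δ.rm_bot _).1.2 h), eb.2 (s2.1 h).2]
  · rw [← (δ.rm_top _).2 h, rv_add le_sup_right le_top ((δ.rm_top _).1.2 h), ec.2 (s3.1 h).2]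
  · rw [← (δ.rm_top _).2 h, rv_add l2 le_top ((δ.rm_top _).1.2 h), ee.2 (s4.1 h).2,
      (δ.rm_top _).2 (s4.1 h).1]

theorem ind_of_mem (f : M →ₗ[T] M') (h : δ.mem M) (h' : δ.mem M') :
    δ.IndOK f ∧ δ.ind f = δ.val M' - δ.val M := by
  refine ⟨⟨δ.mem_inj _ _ _ (LinearMap.ker f).subtype_injective h,
    δ.mem_surj _ _ _ (LinearMap.range f).mkQ_surjective h'⟩, ?_⟩
  rw [ind, δ.val_add M (LinearMap.ker f) h, δ.val_add M' (LinearMap.range f) h',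
    δ.val_equiv _ _ f.quotKerEquivRange (δ.mem_surj _ _ _ (LinearMap.ker f).mkQ_surjective h)]
  ring
theorem ind_of_bijective {f : M →ₗ[T] M'} (h : Function.Bijective f) :
    δ.IndOK f ∧ δ.ind f = 0 := by
  have h1 : Subsingleton (LinearMap.ker f) := by
    rw [LinearMap.ker_eq_bot.2 h.1]
    infer_instance
  have h2 : Subsingleton (M' ⧸ LinearMap.range f) := by
    rw [LinearMap.range_eq_top.2 h.2]
    infer_instance
  refine ⟨⟨δ.mem_zero _ h1, δ.mem_zero _ h2⟩, ?_⟩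
  rw [ind, δ.val_zero h1, δ.val_zero h2, sub_zero]
theorem ind_comp {f : M →ₗ[T] M'} {g : M' →ₗ[T] M''} (hf : δ.IndOK f) (hg : δ.IndOK g) :
    δ.IndOK (g ∘ₗ f) ∧ δ.ind (g ∘ₗ f) = δ.ind g + δ.ind f := by
  obtain ⟨pb, pc, pe, b, c, e, h1, h2, h3, h4, v1, v2, v3, v4⟩ := ia_six (δ := δ) f g
  have a1 := h1.2 ⟨(h2.1 hg.1).2, hf.1⟩
  have a2 := h4.2 ⟨hg.2, (h3.1 hf.2).1⟩
  refine ⟨⟨a1, a2⟩, ?_⟩
  rw [ind, ind, ind, v1 a1, v2 hg.1, v3 hf.2, v4 a2]
  ring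
theorem IndOK.of_comp_left {f : M →ₗ[T] M'} {g : M' →ₗ[T] M''} (hgf : δ.IndOK (g ∘ₗ f))
    (hg : δ.IndOK g) : δ.IndOK f := by
  obtain ⟨pb, pc, pe, b, c, e, h1, h2, h3, h4, -⟩ := ia_six (δ := δ) f g
  exact ⟨(h1.1 hgf.1).2, h3.2 ⟨(h4.1 hgf.2).2, (h2.1 hg.1).1⟩⟩
theorem IndOK.of_comp_right {f : M →ₗ[T] M'} {g : M' →ₗ[T] M''} (hgf : δ.IndOK (g ∘ₗ f))
    (hf : δ.IndOK f) : δ.IndOK g := by
  obtain ⟨pb, pc, pe, b, c, e, h1, h2, h3, h4, -⟩ := ia_six (δ := δ) f g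
  exact ⟨h2.2 ⟨(h3.1 hf.2).2, (h1.1 hgf.1).1⟩, (h4.1 hgf.2).1⟩
theorem ind_pow {f : M →ₗ[T] M} (hf : δ.IndOK f) (n : ℕ) :
    δ.IndOK (f ^ n) ∧ δ.ind (f ^ n) = n * δ.ind f := by
  induction n with
  | zero =>
    have := ind_of_bijective (δ := δ) (f := f ^ 0) (by rw [pow_zero]; exact Function.bijective_id)
    exact ⟨this.1, by rw [this.2]; simp⟩
  | succ n ih =>
    have := ind_comp hf ih.1
    rw [← Module.End.mul_eq_comp, ← pow_succ] at this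
    exact ⟨this.1, by rw [this.2, ih.2]; push_cast; ring⟩
theorem indP_eq_ind_qmap (φ : M →ₗ[T] M') {P Q : Submodule T M} {P' Q' : Submodule T M'}
    (hP : ∀ x ∈ P, φ x ∈ P') (hQ : ∀ x ∈ Q, φ x ∈ Q') :
    (δ.IndOKP φ P Q P' Q' ↔ δ.IndOK (qmap φ hP hQ)) ∧
      (δ.IndOKP φ P Q P' Q' → δ.indP φ P Q P' Q' = δ.ind (qmap φ hP hQ)) := by
  have e1 := δ.rm_iff_of_surj (P := P ⊓ Q'.comap φ) (Q := Q) (M' := LinearMap.ker (qmap φ hP hQ))
    (LinearMap.codRestrict _ (LinearMap.codRestrict (P.map Q.mkQ)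
      (Q.mkQ ∘ₗ (P ⊓ Q'.comap φ).subtype) fun x => ⟨x.1, x.2.1, rfl⟩) fun x =>
        Subtype.ext ((Submodule.Quotient.mk_eq_zero Q').2 x.2.2))
    (by
      rintro ⟨⟨_, x, hx, rfl⟩, h⟩
      exact ⟨⟨x, hx, (Submodule.Quotient.mk_eq_zero Q').1 (congrArg Subtype.val h)⟩, rfl⟩)
    (fun x => ⟨fun h => (Submodule.Quotient.mk_eq_zero Q).1
        (congrArg Subtype.val (congrArg Subtype.val h)),
      fun h => Subtype.ext (Subtype.ext ((Submodule.Quotient.mk_eq_zero Q).2 h))⟩)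
  have e2 := δ.rm_iff_of_surj (P := P') (Q := Q' ⊔ P.map φ)
    (M' := P'.map Q'.mkQ ⧸ LinearMap.range (qmap φ hP hQ))
    ((LinearMap.range (qmap φ hP hQ)).mkQ ∘ₗ LinearMap.codRestrict (P'.map Q'.mkQ)
      (Q'.mkQ ∘ₗ P'.subtype) fun x => ⟨x.1, x.2, rfl⟩)
    (by
      intro y
      obtain ⟨⟨_, x, hx, rfl⟩, rfl⟩ := (LinearMap.range (qmap φ hP hQ)).mkQ_surjective y
      exact ⟨⟨x, hx⟩, rfl⟩)
    (fun x => by
      refine (Submodule.Quotient.mk_eq_zero _).trans ⟨?_, fun h => ?_⟩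
      · rintro ⟨⟨_, y, hy, rfl⟩, h⟩
        have h1 : φ y - x.1 ∈ Q' := (Submodule.Quotient.eq Q').1 (congrArg Subtype.val h)
        exact Submodule.mem_sup.2 ⟨-(φ y - x.1), neg_mem h1, φ y, ⟨y, hy, rfl⟩, by abel⟩
      · obtain ⟨a, ha, _, ⟨y, hy, rfl⟩, e⟩ := Submodule.mem_sup.1 h
        refine ⟨⟨Q.mkQ y, y, hy, rfl⟩, Subtype.ext ((Submodule.Quotient.eq Q').2 ?_)⟩
        show φ y - x.1 ∈ Q'
        rw [← e, sub_add_cancel_right]
        exact neg_mem ha)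
  refine ⟨and_congr e1.1 e2.1, fun h => ?_⟩
  rw [indP, ind, e1.2 (e1.1.1 h.1), e2.2 (e2.1.1 h.2)]

theorem ia_qmap_comp (φ : M →ₗ[T] M') (ψ : M' →ₗ[T] M'') {P Q : Submodule T M}
    {P' Q' : Submodule T M'} {P'' Q'' : Submodule T M''}
    (hP : ∀ x ∈ P, φ x ∈ P') (hQ : ∀ x ∈ Q, φ x ∈ Q')
    (hP' : ∀ x ∈ P', ψ x ∈ P'') (hQ' : ∀ x ∈ Q', ψ x ∈ Q'') :
    qmap (ψ ∘ₗ φ) (fun x hx => hP' _ (hP x hx)) (fun x hx => hQ' _ (hQ x hx)) =
      qmap ψ hP' hQ' ∘ₗ qmap φ hP hQ := by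
  refine LinearMap.ext ?_
  rintro ⟨_, x, hx, rfl⟩
  rfl

theorem ia_comp {φ : M →ₗ[T] M'} {ψ : M' →ₗ[T] M''} {P Q : Submodule T M}
    {P' Q' : Submodule T M'} {P'' Q'' : Submodule T M''}
    (hP : ∀ x ∈ P, φ x ∈ P') (hQ : ∀ x ∈ Q, φ x ∈ Q')
    (hP' : ∀ x ∈ P', ψ x ∈ P'') (hQ' : ∀ x ∈ Q', ψ x ∈ Q'')
    (h : δ.IndOKP φ P Q P' Q') (h' : δ.IndOKP ψ P' Q' P'' Q'') :
    δ.IndOKP (ψ ∘ₗ φ) P Q P'' Q'' ∧
      δ.indP (ψ ∘ₗ φ) P Q P'' Q'' = δ.indP ψ P' Q' P'' Q'' + δ.indP φ P Q P' Q' := by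
  have e := indP_eq_ind_qmap (δ := δ) (ψ ∘ₗ φ) (fun x hx => hP' _ (hP x hx))
    (fun x hx => hQ' _ (hQ x hx))
  have e1 := indP_eq_ind_qmap (δ := δ) φ hP hQ
  have e2 := indP_eq_ind_qmap (δ := δ) ψ hP' hQ'
  have c := ind_comp (e1.1.1 h) (e2.1.1 h')
  rw [ia_qmap_comp φ ψ hP hQ hP' hQ'] at e
  exact ⟨e.1.2 c.1, by rw [e.2 (e.1.2 c.1), c.2, e1.2 h, e2.2 h']⟩

theorem ia_of_comp_right {φ : M →ₗ[T] M'} {ψ : M' →ₗ[T] M''} {P Q : Submodule T M}
    {P' Q' : Submodule T M'} {P'' Q'' : Submodule T M''}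
    (hP : ∀ x ∈ P, φ x ∈ P') (hQ : ∀ x ∈ Q, φ x ∈ Q')
    (hP' : ∀ x ∈ P', ψ x ∈ P'') (hQ' : ∀ x ∈ Q', ψ x ∈ Q'')
    (h : δ.IndOKP (ψ ∘ₗ φ) P Q P'' Q'') (h' : δ.IndOKP φ P Q P' Q') :
    δ.IndOKP ψ P' Q' P'' Q'' := by
  have e := indP_eq_ind_qmap (δ := δ) (ψ ∘ₗ φ) (fun x hx => hP' _ (hP x hx))
    (fun x hx => hQ' _ (hQ x hx))
  rw [ia_qmap_comp φ ψ hP hQ hP' hQ'] at e
  exact (indP_eq_ind_qmap ψ hP' hQ').1.2
    (IndOK.of_comp_right (e.1.1 h) ((indP_eq_ind_qmap φ hP hQ).1.1 h'))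

theorem ia_iso {φ : M →ₗ[T] M'} {P Q : Submodule T M} {P' Q' : Submodule T M'}
    (h3 : ∀ y ∈ P', ∃ x ∈ P, y - φ x ∈ Q') (h4 : ∀ x ∈ P, φ x ∈ Q' → x ∈ Q) :
    δ.IndOKP φ P Q P' Q' ∧ δ.indP φ P Q P' Q' = 0 := by
  have a1 := δ.rm_of_le (P := P ⊓ Q'.comap φ) (Q := Q) fun x hx => h4 x hx.1 hx.2
  have a2 := δ.rm_of_le (P := P') (Q := Q' ⊔ P.map φ) fun y hy => by
    obtain ⟨x, hx, hxy⟩ := h3 y hy
    exact Submodule.mem_sup.2 ⟨_, hxy, φ x, ⟨x, hx, rfl⟩, sub_add_cancel _ _⟩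
  exact ⟨⟨a1.1, a2.1⟩, by rw [indP, a1.2, a2.2, sub_zero]⟩

theorem ia_shift (s : Finset ℤ) (w : ℤ → ℝ) (h0 : ∀ i, i ∉ s → w i = 0)
    (h1 : ∀ i, i ∉ s → w (i + 1) = 0) :
    ∑ i ∈ s, (sgn i : ℝ) * w (i + 1) = -∑ i ∈ s, (sgn i : ℝ) * w i := by
  rw [← finsum_eq_sum_of_support_subset (f := fun i => (sgn i : ℝ) * w (i + 1)) (s := s)
      (fun i hi => by by_contra hn; exact hi (by simp [h1 i hn])),
    ← finsum_eq_sum_of_support_subset (f := fun i => (sgn i : ℝ) * w i) (s := s)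
      (fun i hi => by by_contra hn; exact hi (by simp [h0 i hn])),
    ← finsum_neg_distrib,
    ← finsum_comp_equiv (Equiv.addRight (1 : ℤ)) (f := fun i => -((sgn i : ℝ) * w i))]
  refine finsum_congr fun i => ?_
  rw [Equiv.coe_addRight, sgn_succ]
  push_cast
  ring

section Les
variable {B : Type*} [CommRing B] [Algebra T B] [Module B M] [IsScalarTower T B M]
  {d : M →ₗ[B] M} {A A' A'' : ℤ → Submodule T M}

theorem ia_inf_eq (h : IsPair d A A') (h' : IsPair d A' A'') (i : ℤ) :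
    cyc d A A'' i ⊓ bdy d A A' i = cyc d A' A'' i ⊔ bdy d A A'' i := by
  refine le_antisymm (fun x hx => ?_) (sup_le (fun x hx => ⟨mem_cyc.2 ⟨h.le _ (mem_cyc.1 hx).1,
    (mem_cyc.1 hx).2⟩, les_bot_le_bdy (mem_cyc.1 hx).1⟩) fun x hx =>
      ⟨(h.trans h').bdy_le_cyc i hx, ?_⟩)
  · obtain ⟨y, hy, hxy⟩ := mem_bdy.1 hx.2
    refine Submodule.mem_sup.2 ⟨x - d y, mem_cyc.2 ⟨hxy, ?_⟩, d y, les_dy_mem_bdy hy,
      sub_add_cancel _ _⟩
    rw [map_sub, h.dd, sub_zero]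
    exact (mem_cyc.1 hx.1).2
  · obtain ⟨y, hy, hxy⟩ := mem_bdy.1 hx
    exact mem_bdy.2 ⟨y, hy, h'.le _ hxy⟩

theorem ia_sup_eq (h : IsPair d A A') (i : ℤ) :
    bdy d A A' i ⊔ cyc d A A'' i = cyc d A A'' i ⊔ A' i := by
  refine le_antisymm (sup_le (fun x hx => ?_) le_sup_left)
    (sup_le le_sup_right (le_sup_right.trans le_sup_left))
  obtain ⟨y, hy, hxy⟩ := mem_bdy.1 hx
  refine Submodule.mem_sup.2 ⟨d y, mem_cyc.2 ⟨h.les_d hy, ?_⟩, x - d y, hxy, add_sub_cancel _ _⟩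
  rw [h.dd]
  exact zero_mem _

theorem ia_beta (h : IsPair d A A') (h' : IsPair d A' A'') (i : ℤ) :
    (δ.rm (cyc d A A'' i) (cyc d A' A'' i ⊔ bdy d A A'' i) ↔
      δ.rm (cyc d A A'' i ⊔ A' i) (bdy d A A' i)) ∧
    (δ.rm (cyc d A A'' i) (cyc d A' A'' i ⊔ bdy d A A'' i) →
      δ.rv (cyc d A A'' i) (cyc d A' A'' i ⊔ bdy d A A'' i) =
        δ.rv (cyc d A A'' i ⊔ A' i) (bdy d A A' i)) := by
  rw [← ia_inf_eq h h']
  refine rv_eq_of_map LinearMap.id (fun x hx => Submodule.mem_sup_left hx) (fun x hx => hx.2.2)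
    (fun y hy => ?_) fun x hx hx' => ⟨hx, hx'⟩
  obtain ⟨a, ha, b, hb, rfl⟩ := Submodule.mem_sup.1 hy
  exact ⟨a, ha, by rw [LinearMap.id_apply, add_sub_cancel_left]; exact les_bot_le_bdy hb⟩

theorem ia_gamma (h : IsPair d A A') (h' : IsPair d A' A'') (i : ℤ) :
    (δ.rm (cyc d A A' (i + 1)) (cyc d A A'' (i + 1) ⊔ A' (i + 1)) ↔
      δ.rm (cyc d A' A'' i ⊓ bdy d A A'' i) (bdy d A' A'' i)) ∧
    (δ.rm (cyc d A A' (i + 1)) (cyc d A A'' (i + 1) ⊔ A' (i + 1)) →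
      δ.rv (cyc d A A' (i + 1)) (cyc d A A'' (i + 1) ⊔ A' (i + 1)) =
        δ.rv (cyc d A' A'' i ⊓ bdy d A A'' i) (bdy d A' A'' i)) := by
  refine rv_eq_of_map (d.restrictScalars T) (fun x hx => ?_) (fun x hx => ?_)
    (fun y hy => ?_) fun x hx hx' => ?_
  · have hx1 := mem_cyc.1 hx
    rw [add_sub_cancel_right] at hx1
    refine ⟨mem_cyc.2 ⟨hx1.2, ?_⟩, les_dy_mem_bdy hx1.1⟩
    rw [LinearMap.restrictScalars_apply, h.dd]
    exact zero_mem _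
  · obtain ⟨a, ha, b, hb, rfl⟩ := Submodule.mem_sup.1 hx.2
    have ha1 := (mem_cyc.1 ha).2
    rw [add_sub_cancel_right] at ha1
    refine mem_bdy.2 ⟨b, hb, ?_⟩
    rwa [LinearMap.restrictScalars_apply, map_add, add_sub_cancel_right]
  · obtain ⟨x, hx, hxy⟩ := mem_bdy.1 hy.2
    refine ⟨x, mem_cyc.2 ⟨hx, ?_⟩, les_bot_le_bdy hxy⟩
    have := sub_mem (mem_cyc.1 hy.1).1 (h'.le _ hxy)
    rwa [sub_sub_cancel, ← add_sub_cancel_right i 1] at this
  · obtain ⟨y, hy, hxy⟩ := mem_bdy.1 hx'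
    refine Submodule.mem_sup.2 ⟨x - y, mem_cyc.2 ⟨sub_mem (mem_cyc.1 hx).1 (h.le _ hy), ?_⟩, y, hy,
      sub_add_cancel _ _⟩
    rwa [map_sub, add_sub_cancel_right]

/-- The long exact sequence, with the indices of the two natural maps on homology. -/
theorem ia_les (h : IsPair d A A') (h' : IsPair d A' A'') :
    ∃ (pa pb pc : ℤ → Prop) (a b c : ℤ → ℝ),
      (∀ i, (pa i ↔ δ.rm (cyc d A' A'' i) (bdy d A A'' i)) ∧
        a i = δ.rv (cyc d A' A'' i) (bdy d A A'' i)) ∧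
      (∀ i, (pb i ↔ δ.rm (cyc d A A'' i ⊔ A' i) (bdy d A A' i)) ∧
        b i = δ.rv (cyc d A A'' i ⊔ A' i) (bdy d A A' i)) ∧
      (∀ i, c i = δ.rv (cyc d A A' i) (cyc d A A'' i ⊔ A' i)) ∧
      (∀ i, (δ.hm d A A'' i ↔ pb i ∧ pa i) ∧ (δ.hm d A A'' i → δ.hv d A A'' i = b i + a i)) ∧
      (∀ i, (δ.hm d A A' i ↔ pc i ∧ pb i) ∧ (δ.hm d A A' i → δ.hv d A A' i = c i + b i)) ∧
      (∀ i, (δ.hm d A' A'' i ↔ pa i ∧ pc (i + 1)) ∧
        (δ.hm d A' A'' i → δ.hv d A' A'' i = a i + c (i + 1))) ∧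
      (∀ i, (δ.IndOKP LinearMap.id (cyc d A A'' i) (bdy d A A'' i) (cyc d A A' i) (bdy d A A' i) ↔
          pa i ∧ pc i) ∧
        δ.indP LinearMap.id (cyc d A A'' i) (bdy d A A'' i) (cyc d A A' i) (bdy d A A' i) =
          c i - a i) ∧
      (∀ i, (δ.IndOKP LinearMap.id (cyc d A' A'' i) (bdy d A' A'' i) (cyc d A A'' i)
          (bdy d A A'' i) ↔ pc (i + 1) ∧ pb i) ∧
        (pc (i + 1) ∧ pb i → δ.indP LinearMap.id (cyc d A' A'' i) (bdy d A' A'' i) (cyc d A A'' i)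
          (bdy d A A'' i) = b i - c (i + 1))) := by
  have h'' := h.trans h'
  refine ⟨fun i => δ.rm (cyc d A' A'' i) (bdy d A A'' i),
    fun i => δ.rm (cyc d A A'' i ⊔ A' i) (bdy d A A' i),
    fun i => δ.rm (cyc d A A' i) (cyc d A A'' i ⊔ A' i),
    fun i => δ.rv (cyc d A' A'' i) (bdy d A A'' i),
    fun i => δ.rv (cyc d A A'' i ⊔ A' i) (bdy d A A' i),
    fun i => δ.rv (cyc d A A' i) (cyc d A A'' i ⊔ A' i), fun i => ⟨Iff.rfl, rfl⟩,
    fun i => ⟨Iff.rfl, rfl⟩, fun i => rfl, fun i => ?_, fun i => ?_, fun i => ?_, fun i => ?_,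
    fun i => ?_⟩
  · have l1 : cyc d A' A'' i ⊔ bdy d A A'' i ≤ cyc d A A'' i := ia_inf_eq h h' i ▸ inf_le_left
    have s := ia_split (δ := δ) le_sup_right l1
    refine ⟨s.trans (and_congr (ia_beta h h' i).1 (δ.rm_sup _ _).1), fun f => ?_⟩
    rw [hv, rv_add le_sup_right l1 f, (ia_beta h h' i).2 (s.1 f).1, (δ.rm_sup _ _).2]
  · have l1 : bdy d A A' i ≤ cyc d A A'' i ⊔ A' i := ia_sup_eq (A'' := A'') h i ▸ le_sup_left
    have l2 : cyc d A A'' i ⊔ A' i ≤ cyc d A A' i :=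
      sup_le (fun x hx => mem_cyc.2 ⟨(mem_cyc.1 hx).1, h'.le _ (mem_cyc.1 hx).2⟩)
        fun x hx => mem_cyc.2 ⟨h.le _ hx, h.bot _ _ hx⟩
    exact ⟨ia_split l1 l2, fun f => rv_add l1 l2 f⟩
  · have l1 : bdy d A' A'' i ≤ cyc d A' A'' i ⊓ bdy d A A'' i :=
      le_inf (h'.bdy_le_cyc i) fun x hx => by
        obtain ⟨y, hy, hxy⟩ := mem_bdy.1 hx
        exact mem_bdy.2 ⟨y, h.le _ hy, hxy⟩
    have s := ia_split (δ := δ) l1 inf_le_left
    have e := rv_eq_of_map (δ := δ) LinearMap.id (P := cyc d A' A'' i)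
      (Q := cyc d A' A'' i ⊓ bdy d A A'' i) (P' := cyc d A' A'' i) (Q' := bdy d A A'' i)
      (fun x hx => hx) (fun x hx => hx.2.2) (fun y hy => ⟨y, hy, by simp⟩) fun x hx hx' => ⟨hx, hx'⟩
    refine ⟨s.trans (and_congr e.1 (ia_gamma h h' i).1.symm), fun f => ?_⟩
    rw [hv, rv_add l1 inf_le_left f, e.2 (s.1 f).1,
      ← (ia_gamma h h' i).2 ((ia_gamma h h' i).1.2 (s.1 f).2)]
  · rw [IndOKP, indP, Submodule.comap_id, Submodule.map_id, ia_inf_eq h h', ia_sup_eq h,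
      sup_comm (cyc d A' A'' i), sup_comm (bdy d A A'' i), (δ.rm_sup _ _).1, (δ.rm_sup _ _).2]
    exact ⟨Iff.rfl, rfl⟩
  · rw [IndOKP, indP, Submodule.comap_id, Submodule.map_id, sup_comm (bdy d A A'' i)]
    refine ⟨and_congr (ia_gamma h h' i).1.symm (ia_beta h h' i).1, fun f => ?_⟩
    rw [← (ia_gamma h h' i).2 f.1, (ia_beta h h' i).2 ((ia_beta h h' i).1.2 f.2)]

theorem ia_sub (h : IsPair d A A') (h' : IsPair d A' A'') (s : Finset ℤ)
    (hs : ∀ i, i ∉ s → A i ≤ A'' i) (f : ∀ i, δ.hm d A' A'' i) :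
    (∀ i, δ.IndOKP LinearMap.id (cyc d A A'' i) (bdy d A A'' i) (cyc d A A' i) (bdy d A A' i)) ∧
    ∑ i ∈ s, (sgn i : ℝ) *
      δ.indP LinearMap.id (cyc d A A'' i) (bdy d A A'' i) (cyc d A A' i) (bdy d A A' i) =
      -δ.eul d A' A'' := by
  obtain ⟨pa, pb, pc, a, b, c, -, -, ec, -, -, h3, h4, -⟩ := ia_les (δ := δ) h h'
  refine ⟨fun i => (h4 i).1.2 ⟨((h3 i).1.1 (f i)).1, ?_⟩, ?_⟩
  · have := ((h3 (i - 1)).1.1 (f _)).2
    rwa [sub_add_cancel] at this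
  have c0 : ∀ i, i ∉ s → c i = 0 := fun i hi => by
    rw [ec]
    exact (δ.rm_of_le (inf_le_left.trans ((hs i hi).trans ((h'.le i).trans le_sup_right)))).2
  have c1 : ∀ i, i ∉ s → c (i + 1) = 0 := fun i hi => by
    rw [ec]
    refine (δ.rm_of_le fun x hx => Submodule.mem_sup_left (mem_cyc.2 ⟨(mem_cyc.1 hx).1, ?_⟩)).2
    rw [add_sub_cancel_right]
    exact hs i hi (h.les_d (mem_cyc.1 hx).1)
  rw [eul_eq_sum s fun i hi =>
    inf_le_left.trans ((h.le i).trans ((hs i hi).trans le_sup_right))]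
  simp only [fun i => (h4 i).2, fun i => (h3 i).2 (f i), mul_add, mul_sub, Finset.sum_add_distrib,
    Finset.sum_sub_distrib, ia_shift s c c0 c1]
  ring

theorem ia_quot (h : IsPair d A A') (h' : IsPair d A' A'') (s : Finset ℤ)
    (hs : ∀ i, i ∉ s → A i ≤ A'' i) :
    ((∀ i, δ.hm d A A' i) ↔ ∀ i, δ.IndOKP LinearMap.id (cyc d A' A'' i) (bdy d A' A'' i)
      (cyc d A A'' i) (bdy d A A'' i)) ∧
    ((∀ i, δ.hm d A A' i) → ∑ i ∈ s, (sgn i : ℝ) *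
      δ.indP LinearMap.id (cyc d A' A'' i) (bdy d A' A'' i) (cyc d A A'' i) (bdy d A A'' i) =
      δ.eul d A A') := by
  obtain ⟨pa, pb, pc, a, b, c, -, -, ec, -, h2, -, -, h5⟩ := ia_les (δ := δ) h h'
  refine ⟨⟨fun f i => (h5 i).1.2 ⟨((h2 _).1.1 (f _)).1, ((h2 _).1.1 (f _)).2⟩,
    fun f i => (h2 i).1.2 ⟨?_, ((h5 i).1.1 (f i)).2⟩⟩, fun f => ?_⟩
  · have := ((h5 (i - 1)).1.1 (f _)).1
    rwa [sub_add_cancel] at this
  have c0 : ∀ i, i ∉ s → c i = 0 := fun i hi => by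
    rw [ec]
    exact (δ.rm_of_le (inf_le_left.trans ((hs i hi).trans ((h'.le i).trans le_sup_right)))).2
  have c1 : ∀ i, i ∉ s → c (i + 1) = 0 := fun i hi => by
    rw [ec]
    refine (δ.rm_of_le fun x hx => Submodule.mem_sup_left (mem_cyc.2 ⟨(mem_cyc.1 hx).1, ?_⟩)).2
    rw [add_sub_cancel_right]
    exact hs i hi (h.les_d (mem_cyc.1 hx).1)
  rw [eul_eq_sum s fun i hi =>
    inf_le_left.trans ((hs i hi).trans ((h'.le i).trans le_sup_right))]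
  simp only [fun i => (h5 i).2 ⟨((h2 _).1.1 (f _)).1, ((h2 _).1.1 (f _)).2⟩,
    fun i => (h2 i).2 (f i), mul_add, mul_sub, Finset.sum_add_distrib,
    Finset.sum_sub_distrib, ia_shift s c c0 c1]
  ring
end Les

section Cx
variable {B : Type*} [CommRing B] [Algebra T B] [Module B M] [IsScalarTower T B M]
  {B' : Type*} [CommRing B'] [Algebra T B'] [Module B' M'] [IsScalarTower T B' M']
  {d : M →ₗ[B] M} {A : ℤ → Submodule T M} {d' : M' →ₗ[B'] M'} {C : ℤ → Submodule T M'}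

omit [Algebra T B] [IsScalarTower T B M] [Algebra T B'] [IsScalarTower T B' M'] in
theorem ia_pair_im (φ : M →ₗ[T] M') (hA : IsPair d A fun _ => ⊥) (hC : IsPair d' C fun _ => ⊥)
    (hφ : ∀ i, ∀ x ∈ A i, φ x ∈ C i) (hc : ∀ x, φ (d x) = d' (φ x)) :
    IsPair d' C (fun i => (A i).map φ) ∧ IsPair d' (fun i => (A i).map φ) fun _ => ⊥ := by
  have hf : IsFam d' fun i => (A i).map φ := by
    rintro i _ ⟨x, hx, rfl⟩
    exact ⟨d x, hA.top i x hx, hc x⟩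
  refine ⟨⟨hC.dd, hC.top, hf, fun i => ?_⟩, hC.dd, hf, hC.bot, fun _ => bot_le⟩
  rintro _ ⟨x, hx, rfl⟩
  exact hφ i x hx

omit [Algebra T B] [IsScalarTower T B M] [Algebra T B'] [IsScalarTower T B' M'] in
theorem ia_pair_ker (φ : M →ₗ[T] M') (hA : IsPair d A fun _ => ⊥)
    (hc : ∀ x, φ (d x) = d' (φ x)) :
    IsPair d A (fun i => A i ⊓ LinearMap.ker φ) ∧
      IsPair d (fun i => A i ⊓ LinearMap.ker φ) fun _ => ⊥ := by
  have hf : IsFam d fun i => A i ⊓ LinearMap.ker φ := fun i x hx =>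
    ⟨hA.top i x hx.1, by
      show φ (d x) = 0
      rw [hc, LinearMap.mem_ker.1 hx.2, map_zero]⟩
  exact ⟨⟨hA.dd, hA.top, hf, fun _ => inf_le_left⟩, hA.dd, hf, hA.bot, fun _ => bot_le⟩

/-- The complex modulo the kernel and the image complex have the same homology. -/
theorem ia_im (φ : M →ₗ[T] M') (hA : IsPair d A fun _ => ⊥) (hc : ∀ x, φ (d x) = d' (φ x))
    (i : ℤ) :
    (∀ x ∈ cyc d A (fun i => A i ⊓ LinearMap.ker φ) i,
      φ x ∈ cyc d' (fun i => (A i).map φ) (fun _ => ⊥) i) ∧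
    (∀ x ∈ bdy d A (fun i => A i ⊓ LinearMap.ker φ) i,
      φ x ∈ bdy d' (fun i => (A i).map φ) (fun _ => ⊥) i) ∧
    (∀ y ∈ cyc d' (fun i => (A i).map φ) (fun _ => ⊥) i,
      ∃ x ∈ cyc d A (fun i => A i ⊓ LinearMap.ker φ) i,
        y - φ x ∈ bdy d' (fun i => (A i).map φ) (fun _ => ⊥) i) ∧
    (∀ x ∈ cyc d A (fun i => A i ⊓ LinearMap.ker φ) i,
      φ x ∈ bdy d' (fun i => (A i).map φ) (fun _ => ⊥) i →
        x ∈ bdy d A (fun i => A i ⊓ LinearMap.ker φ) i) := by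
  refine ⟨fun x hx => ?_, fun x hx => ?_, fun y hy => ?_, fun x hx hx' => ?_⟩
  · obtain ⟨h1, h2⟩ := mem_cyc.1 hx
    exact mem_cyc.2 ⟨⟨x, h1, rfl⟩, by rw [← hc]; exact h2.2⟩
  · obtain ⟨y, hy, hxy⟩ := mem_bdy.1 hx
    exact mem_bdy.2 ⟨φ y, ⟨y, hy, rfl⟩, by rw [← hc, ← map_sub]; exact hxy.2⟩
  · obtain ⟨⟨x, hx, rfl⟩, h2⟩ := mem_cyc.1 hy
    refine ⟨x, mem_cyc.2 ⟨hx, hA.top i x hx, ?_⟩, by rw [sub_self]; exact zero_mem _⟩
    rw [← hc] at h2
    exact h2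
  · obtain ⟨_, ⟨y, hy, rfl⟩, hxy⟩ := mem_bdy.1 hx'
    rw [← hc, ← map_sub] at hxy
    exact mem_bdy.2 ⟨y, hy, sub_mem (mem_cyc.1 hx).1 (hA.les_d hy), hxy⟩

theorem ia_cyc_mono {A₁ A₂ A₁' A₂' : ℤ → Submodule T M}
    (h : ∀ i, A₁ i ≤ A₂ i) (h' : ∀ i, A₁' i ≤ A₂' i) (i : ℤ) :
    (∀ x ∈ cyc d A₁ A₁' i, (LinearMap.id : M →ₗ[T] M) x ∈ cyc d A₂ A₂' i) ∧
      ∀ x ∈ bdy d A₁ A₁' i, (LinearMap.id : M →ₗ[T] M) x ∈ bdy d A₂ A₂' i := by
  refine ⟨fun x hx => mem_cyc.2 ⟨h _ (mem_cyc.1 hx).1, h' _ (mem_cyc.1 hx).2⟩, fun x hx => ?_⟩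
  obtain ⟨y, hy, hxy⟩ := mem_bdy.1 hx
  exact mem_bdy.2 ⟨y, h _ hy, h' _ hxy⟩

/-- Kernel and cokernel complexes of a chain map versus the indices on homology. -/
theorem eul_ind (φ : M →ₗ[T] M') (hA : IsPair d A fun _ => ⊥) (hC : IsPair d' C fun _ => ⊥)
    (hφ : ∀ i, ∀ x ∈ A i, φ x ∈ C i) (hc : ∀ x, φ (d x) = d' (φ x)) (s : Finset ℤ)
    (hs : ∀ i, i ∉ s → A i = ⊥ ∧ C i = ⊥)
    (hK : δ.FinH d (fun i => A i ⊓ LinearMap.ker φ) fun _ => ⊥)
    (hQ : δ.FinH d' C fun i => (A i).map φ) :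
    (∀ i, δ.IndOKP φ (cyc d A (fun _ => ⊥) i) (bdy d A (fun _ => ⊥) i)
      (cyc d' C (fun _ => ⊥) i) (bdy d' C (fun _ => ⊥) i)) ∧
    δ.eul d' C (fun i => (A i).map φ) - δ.eul d (fun i => A i ⊓ LinearMap.ker φ) (fun _ => ⊥) =
      ∑ i ∈ s, (sgn i : ℝ) * δ.indP φ (cyc d A (fun _ => ⊥) i) (bdy d A (fun _ => ⊥) i)
        (cyc d' C (fun _ => ⊥) i) (bdy d' C (fun _ => ⊥) i) := by
  obtain ⟨p1, p2⟩ := ia_pair_ker φ hA hc
  obtain ⟨q1, q2⟩ := ia_pair_im φ hA hC hφ hc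
  obtain ⟨a1, a2⟩ := ia_sub (δ := δ) p1 p2 s (fun i hi => (hs i hi).1.le) hK.hm
  obtain ⟨b1, b2⟩ := ia_quot (δ := δ) q1 q2 s fun i hi => (hs i hi).2.le
  have key : ∀ i, δ.IndOKP φ (cyc d A (fun _ => ⊥) i) (bdy d A (fun _ => ⊥) i)
      (cyc d' C (fun _ => ⊥) i) (bdy d' C (fun _ => ⊥) i) ∧
      δ.indP φ (cyc d A (fun _ => ⊥) i) (bdy d A (fun _ => ⊥) i)
        (cyc d' C (fun _ => ⊥) i) (bdy d' C (fun _ => ⊥) i) =
      δ.indP LinearMap.id (cyc d' (fun i => (A i).map φ) (fun _ => ⊥) i)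
        (bdy d' (fun i => (A i).map φ) (fun _ => ⊥) i) (cyc d' C (fun _ => ⊥) i)
        (bdy d' C (fun _ => ⊥) i) +
      δ.indP LinearMap.id (cyc d A (fun _ => ⊥) i) (bdy d A (fun _ => ⊥) i)
        (cyc d A (fun i => A i ⊓ LinearMap.ker φ) i)
        (bdy d A (fun i => A i ⊓ LinearMap.ker φ) i) := fun i => by
    obtain ⟨m1, m2, m3, m4⟩ := ia_im φ hA hc i
    have n := ia_cyc_mono (d := d) (fun i => le_refl (A i)) p2.le i
    have n' := ia_cyc_mono (d := d') q1.le (fun _ => le_refl (⊥ : Submodule T M')) i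
    have c0 := ia_iso (δ := δ) m3 m4
    have c1 := ia_comp n.1 n.2 m1 m2 (a1 i) c0.1
    rw [LinearMap.comp_id, c0.2, zero_add] at c1
    have c2 := ia_comp (fun x hx => m1 _ (n.1 x hx)) (fun x hx => m2 _ (n.2 x hx)) n'.1 n'.2 c1.1
      (b1.1 hQ.hm i)
    rwa [LinearMap.id_comp, c1.2] at c2
  refine ⟨fun i => (key i).1, ?_⟩
  simp only [fun i => (key i).2, mul_add, Finset.sum_add_distrib]
  rw [a2, b2 hQ.hm, sub_eq_add_neg]

/-- For an injective chain map the cokernel complex has homology in the class as soon as the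
maps on homology have kernel and cokernel in the class. -/
theorem finH_coker_of_indOKP (φ : M →ₗ[T] M') (hA : IsPair d A fun _ => ⊥)
    (hC : IsPair d' C fun _ => ⊥) (hφ : ∀ i, ∀ x ∈ A i, φ x ∈ C i)
    (hc : ∀ x, φ (d x) = d' (φ x)) (hinj : Function.Injective φ) (s : Finset ℤ)
    (hs : ∀ i, i ∉ s → A i = ⊥ ∧ C i = ⊥)
    (h : ∀ i, δ.IndOKP φ (cyc d A (fun _ => ⊥) i) (bdy d A (fun _ => ⊥) i)
      (cyc d' C (fun _ => ⊥) i) (bdy d' C (fun _ => ⊥) i)) :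
    δ.FinH d' C fun i => (A i).map φ := by
  obtain ⟨q1, q2⟩ := ia_pair_im φ hA hC hφ hc
  have e : (fun i => A i ⊓ LinearMap.ker φ) = fun _ => ⊥ := by
    funext i
    rw [LinearMap.ker_eq_bot.2 hinj, inf_bot_eq]
  refine ⟨(ia_quot (δ := δ) q1 q2 s fun i hi => (hs i hi).2.le).1.2 fun i => ?_,
    s.finite_toSet.subset fun i hi => ?_⟩
  · obtain ⟨m1, m2, m3, m4⟩ := ia_im φ hA hc i
    rw [e] at m1 m2 m3 m4
    have n' := ia_cyc_mono (d := d') q1.le (fun _ => le_refl (⊥ : Submodule T M')) i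
    exact ia_of_comp_right m1 m2 n'.1 n'.2 (h i) (ia_iso m3 m4).1
  · by_contra hn
    exact hi (inf_le_left.trans ((hs i hn).2.le.trans bot_le))
end Cx

section Cone
variable {B : Type*} [CommRing B] [Algebra T B] [Module B M] [IsScalarTower T B M]
  {d : M →ₗ[B] M} {F L : ℤ → Submodule T M}

/-- The data of a mapping cone: `F / L` is `L` shifted through `c`, and the connecting map
is `γ`. -/
structure IaCone (d : M →ₗ[B] M) (F L : ℤ → Submodule T M) (c γ : M →ₗ[T] M) : Prop where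
  pair : IsPair d F L
  c1 : ∀ i, ∀ x ∈ L i, c x ∈ F (i + 1)
  c2 : ∀ i, ∀ y ∈ F (i + 1), ∃ x ∈ L i, y - c x ∈ L (i + 1)
  c3 : ∀ i, ∀ x ∈ L i, c x ∈ L (i + 1) → x = 0
  c4 : ∀ x, d (c x) = γ x - c (d x)
  c5 : ∀ i, ∀ x ∈ L i, γ x ∈ L i

variable {c γ : M →ₗ[T] M}

omit [Algebra T B] [IsScalarTower T B M] in
theorem IaCone.pair' (h : IaCone d F L c γ) : IsPair d L fun _ => ⊥ :=
  ⟨h.pair.dd, h.pair.bot,
    fun i x hx => by rw [(Submodule.mem_bot T).1 hx, map_zero]; exact zero_mem _, fun _ => bot_le⟩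

theorem ia_cone_a (h : IaCone d F L c γ) (i : ℤ) :
    (δ.rm (cyc d L (fun _ => ⊥) i) (bdy d F (fun _ => ⊥) i) ↔ δ.rm (cyc d L (fun _ => ⊥) i)
      (bdy d L (fun _ => ⊥) i ⊔ (cyc d L (fun _ => ⊥) i).map γ)) ∧
    (δ.rm (cyc d L (fun _ => ⊥) i) (bdy d F (fun _ => ⊥) i) →
      δ.rv (cyc d L (fun _ => ⊥) i) (bdy d F (fun _ => ⊥) i) = δ.rv (cyc d L (fun _ => ⊥) i)
        (bdy d L (fun _ => ⊥) i ⊔ (cyc d L (fun _ => ⊥) i).map γ)) := by
  have h' := h.pair'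
  refine rv_eq_of_map LinearMap.id (fun x hx => hx) (fun x hx => ?_)
    (fun y hy => ⟨y, hy, by simp⟩) fun x _ hx => ?_
  · obtain ⟨y, hy, hxy⟩ := mem_bdy.1 hx.2
    obtain ⟨w, hw, hyw⟩ := h.c2 i y hy
    have e : x = d (y - c w) + γ w - c (d w) := by
      rw [map_sub, h.c4, sub_eq_zero.1 ((Submodule.mem_bot T).1 hxy)]
      abel
    have hd : d w = 0 := by
      refine h.c3 (i - 1) _ (h.pair.bot i w hw) ?_
      have := sub_mem (add_mem (h'.les_d hyw) (h.c5 i w hw)) (mem_cyc.1 hx.1).1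
      rw [sub_add_cancel]
      rwa [e, sub_sub_cancel] at this
    rw [hd, map_zero, sub_zero] at e
    exact Submodule.mem_sup.2 ⟨_, les_dy_mem_bdy hyw, γ w,
      ⟨w, mem_cyc.2 ⟨hw, (Submodule.mem_bot T).2 hd⟩, rfl⟩, e.symm⟩
  · obtain ⟨u, hu, _, ⟨w, hw, rfl⟩, e⟩ := Submodule.mem_sup.1 hx
    obtain ⟨y, hy, huy⟩ := mem_bdy.1 hu
    obtain ⟨w1, w2⟩ := mem_cyc.1 hw
    refine mem_bdy.2 ⟨y + c w, add_mem (h.pair.le _ hy) (h.c1 i w w1), ?_⟩
    rw [LinearMap.id_apply] at e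
    rw [map_add, h.c4, (Submodule.mem_bot T).1 w2, map_zero, sub_zero, ← e,
      add_sub_add_right_eq_sub]
    exact huy

theorem ia_cone_b (h : IaCone d F L c γ) (i : ℤ) :
    (δ.rm (cyc d L (fun _ => ⊥) i ⊓ (bdy d L (fun _ => ⊥) i).comap γ) (bdy d L (fun _ => ⊥) i) ↔
      δ.rm (cyc d F (fun _ => ⊥) (i + 1) ⊔ L (i + 1)) (bdy d F L (i + 1))) ∧
    (δ.rm (cyc d L (fun _ => ⊥) i ⊓ (bdy d L (fun _ => ⊥) i).comap γ) (bdy d L (fun _ => ⊥) i) →
      δ.rv (cyc d L (fun _ => ⊥) i ⊓ (bdy d L (fun _ => ⊥) i).comap γ) (bdy d L (fun _ => ⊥) i) =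
        δ.rv (cyc d F (fun _ => ⊥) (i + 1) ⊔ L (i + 1)) (bdy d F L (i + 1))) := by
  have h' := h.pair'
  refine rv_eq_of_map c (fun x hx => ?_) (fun x hx => ?_) (fun y hy => ?_) fun x hx hx' => ?_
  · obtain ⟨w1, w2⟩ := mem_cyc.1 hx.1
    obtain ⟨y, hy, hxy⟩ := mem_bdy.1 (Submodule.mem_comap.1 hx.2)
    refine Submodule.mem_sup.2 ⟨c x - y,
      mem_cyc.2 ⟨sub_mem (h.c1 i x w1) (h.pair.le _ hy), ?_⟩, y, hy, sub_add_cancel _ _⟩
    rw [map_sub, h.c4, (Submodule.mem_bot T).1 w2, map_zero, sub_zero]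
    exact hxy
  · obtain ⟨y, hy, hxy⟩ := mem_bdy.1 hx.2
    refine mem_bdy.2 ⟨-c y, neg_mem (h.c1 _ y hy), ?_⟩
    rw [sub_eq_zero.1 ((Submodule.mem_bot T).1 hxy), map_neg, h.c4, sub_neg_eq_add, add_sub_cancel]
    exact h.c5 _ y hy
  · obtain ⟨z, hz, l, hl, rfl⟩ := Submodule.mem_sup.1 hy
    obtain ⟨z1, z2⟩ := mem_cyc.1 hz
    obtain ⟨w, hw, hzw⟩ := h.c2 i z z1
    have e : d (z - c w) + γ w = c (d w) := by
      rw [map_sub, h.c4, (Submodule.mem_bot T).1 z2]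
      abel
    have hd : d w = 0 := by
      refine h.c3 (i - 1) _ (h.pair.bot i w hw) ?_
      rw [sub_add_cancel, ← e]
      exact add_mem (h'.les_d hzw) (h.c5 i w hw)
    rw [hd, map_zero] at e
    refine ⟨w, ⟨mem_cyc.2 ⟨hw, (Submodule.mem_bot T).2 hd⟩,
      Submodule.mem_comap.2 (mem_bdy.2 ⟨-(z - c w), neg_mem hzw, ?_⟩)⟩, les_bot_le_bdy ?_⟩
    · rw [map_neg, sub_neg_eq_add, add_comm, e]
      exact zero_mem _
    · rw [add_sub_right_comm]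
      exact add_mem hzw hl
  · obtain ⟨y, hy, hxy⟩ := mem_bdy.1 hx'
    obtain ⟨w, hw, hyw⟩ := h.c2 _ y hy
    refine mem_bdy.2 ⟨-w, neg_mem hw, (Submodule.mem_bot T).2 ?_⟩
    rw [map_neg, sub_neg_eq_add]
    refine h.c3 i _ (add_mem (mem_cyc.1 hx.1).1 (h'.les_d hw)) ?_
    have := add_mem (add_mem hxy (h'.les_d hyw)) (h.c5 _ w hw)
    rw [map_sub, h.c4] at this
    have e : c (x + d w) = c x - d y + (d y - (γ w - c (d w))) + γ w := by
      rw [map_add]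
      abel
    rwa [e]

/-- The homology of a mapping cone. -/
theorem ia_cone (h : IaCone d F L c γ) (s : Finset ℤ) (hs : ∀ i, i ∉ s → F i = ⊥) :
    ((∀ i, δ.hm d F (fun _ => ⊥) i) ↔ ∀ i, δ.IndOKP γ (cyc d L (fun _ => ⊥) i)
      (bdy d L (fun _ => ⊥) i) (cyc d L (fun _ => ⊥) i) (bdy d L (fun _ => ⊥) i)) ∧
    ((∀ i, δ.hm d F (fun _ => ⊥) i) → δ.eul d F (fun _ => ⊥) =
      ∑ i ∈ s, (sgn i : ℝ) * δ.indP γ (cyc d L (fun _ => ⊥) i)
        (bdy d L (fun _ => ⊥) i) (cyc d L (fun _ => ⊥) i) (bdy d L (fun _ => ⊥) i)) := by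
  obtain ⟨pa, pb, pc, a, b, -, ea, eb, -, h1, -⟩ := ia_les (δ := δ) h.pair h.pair'
  have e1 := ia_cone_a (δ := δ) h
  have e2 := ia_cone_b (δ := δ) h
  refine ⟨⟨fun f i => ⟨(e2 i).1.2 ((eb _).1.1 ((h1 _).1.1 (f _)).1),
    (e1 i).1.1 ((ea _).1.1 ((h1 _).1.1 (f _)).2)⟩, fun f i => (h1 i).1.2 ⟨?_,
      (ea i).1.2 ((e1 i).1.2 (f i).2)⟩⟩, fun f => ?_⟩
  · have := (eb _).1.2 ((e2 (i - 1)).1.1 (f _).1)
    rwa [sub_add_cancel] at this
  have b0 : ∀ i, i ∉ s → b i = 0 := fun i hi => by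
    rw [(eb i).2]
    exact (δ.rm_of_le (sup_le (inf_le_left.trans ((hs i hi).le.trans bot_le)) le_sup_right)).2
  have k : ∀ i, δ.rv (cyc d L (fun _ => ⊥) i ⊓ (bdy d L (fun _ => ⊥) i).comap γ)
      (bdy d L (fun _ => ⊥) i) = b (i + 1) := fun i => by
    rw [(eb _).2]
    exact (e2 i).2 ((e2 i).1.2 ((eb _).1.1 ((h1 _).1.1 (f _)).1))
  have b1 : ∀ i, i ∉ s → b (i + 1) = 0 := fun i hi => by
    rw [← k]
    exact (δ.rm_of_le (inf_le_left.trans (inf_le_left.trans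
      ((h.pair.le i).trans ((hs i hi).le.trans bot_le))))).2
  have k' : ∀ i, δ.rv (cyc d L (fun _ => ⊥) i)
      (bdy d L (fun _ => ⊥) i ⊔ (cyc d L (fun _ => ⊥) i).map γ) = a i := fun i => by
    rw [(ea _).2]
    exact ((e1 i).2 ((ea _).1.1 ((h1 _).1.1 (f _)).2)).symm
  rw [eul_eq_sum s fun i hi => inf_le_left.trans ((hs i hi).le.trans bot_le)]
  simp only [indP, k, k', fun i => (h1 i).2 (f i), mul_add, mul_sub, Finset.sum_add_distrib,
    Finset.sum_sub_distrib, ia_shift s b b0 b1]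
  ring
end Cone

section Kos
variable {B : Type*} [CommRing B] [Algebra T B] {V : Type u} [AddCommGroup V] [Module B V]
  [Module T V] [IsScalarTower T B V] {J : Type} [Fintype J] [LinearOrder J]

theorem ia_cx {ι : Type} [Fintype ι] (D : Matrix ι ι B) (dg : ι → ℕ) (v : ι → V) :
    cx D dg V v = matAct D v := funext fun a => by rw [cx_apply, matAct_apply]

/-- The vectors supported on the vertices not containing `j`. -/
def iaL (T : Type u) [CommRing T] (V : Type u) [AddCommGroup V] [Module T V] (j : J) :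
    ℤ → Submodule T (Finset J → V) :=
  fun i => fam Finset.card ⊤ i ⊓ Submodule.pi {S | j ∈ S} fun _ => ⊥

omit [Fintype J] [LinearOrder J] in
theorem mem_iaL {j : J} {i : ℤ} {v : Finset J → V} :
    v ∈ iaL T V j i ↔ v ∈ fam Finset.card (⊤ : Submodule T V) i ∧ ∀ S, j ∈ S → v S = 0 := Iff.rfl

/-- Multiplication by a scalar. -/
def iaMul (T : Type u) [CommRing T] [Algebra T B] (W : Type u) [AddCommGroup W] [Module B W]
    [Module T W] [IsScalarTower T B W] (g : B) : W →ₗ[T] W :=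
  (LinearMap.lsmul B W g).restrictScalars T

theorem ia_kos_cone (b : J → B) (j : J) :
    IaCone (cx (kos b) Finset.card V) (fam Finset.card (⊤ : Submodule T V)) (iaL T V j)
      ((matAct (creMat j (1 : B))).restrictScalars T) (iaMul T (Finset J → V) (b j)) := by
  have p : IsPair (cx (kos b) Finset.card V) (fam Finset.card (⊤ : Submodule T V))
      (fam Finset.card ⊥) := isPair_top_bot (isMC_kos b)
  have c1 : ∀ i, ∀ x ∈ iaL T V j i, matAct (creMat j (1 : B)) x ∈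
      fam Finset.card (⊤ : Submodule T V) (i + 1) := by
    intro i x hx
    refine mem_fam.2 fun S => ⟨fun _ => trivial, fun hS => ?_⟩
    rcases ka_cases j S with h | ⟨R, h, rfl⟩
    · exact matAct_creMat_of_notMem j 1 x h
    · rw [matAct_creMat_insert j 1 x h, (mem_fam.1 hx.1 R).2, smul_zero, smul_zero]
      rw [Finset.card_insert_of_notMem h] at hS
      omega
  refine ⟨⟨p.dd, p.top, fun i x hx => ⟨p.top i x hx.1, fun S hS => ?_⟩, fun _ => inf_le_left⟩, c1,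
    fun i y hy => ?_, fun i x hx h => ?_, fun x => ?_, fun i x hx => ⟨?_, fun S hS => ?_⟩⟩
  · show cx (kos b) Finset.card V x S = 0
    rw [ia_cx, matAct_kos_apply]
    refine Finset.sum_eq_zero fun k _ => ?_
    rw [(mem_iaL.1 hx).2 _ (Finset.mem_insert_of_mem hS)]
    simp
  · have hx : (fun R => if j ∈ R then 0 else ksgn j R • y (insert j R)) ∈ iaL T V j i := by
      refine mem_iaL.2 ⟨mem_fam.2 fun R => ⟨fun _ => trivial, fun hR => ?_⟩, fun S hS => if_pos hS⟩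
      by_cases h : j ∈ R
      · exact if_pos h
      · rw [if_neg h, (mem_fam.1 hy _).2, smul_zero]
        rw [Finset.card_insert_of_notMem h]
        omega
    refine ⟨_, hx, mem_iaL.2 ⟨sub_mem hy (c1 i _ hx), fun S hS => ?_⟩⟩
    rcases ka_cases j S with h | ⟨R, h, rfl⟩
    · exact absurd hS h
    · rw [Pi.sub_apply, LinearMap.restrictScalars_apply, matAct_creMat_insert j 1 _ h, if_neg h,
        one_smul, ksgn_smul_smul, sub_self]
  · funext S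
    by_cases hS : j ∈ S
    · exact (mem_iaL.1 hx).2 S hS
    · have := (mem_iaL.1 h).2 _ (Finset.mem_insert_self j S)
      rw [LinearMap.restrictScalars_apply, matAct_creMat_insert j 1 _ hS, one_smul] at this
      rw [← ksgn_smul_smul j S (x S), this, smul_zero]
      rfl
  · have := congrArg (fun D => matAct D x) (kos_mul_creMat b j 1)
    simp only [kos_matAct_add, kos_matAct_mul, matAct_smul_one, one_mul] at this
    rw [ia_cx, ia_cx]
    exact eq_sub_of_add_eq this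
  · refine mem_fam.2 fun S => ⟨fun _ => trivial, fun hS => ?_⟩
    show b j • x S = 0
    rw [(mem_fam.1 hx.1 S).2 hS, smul_zero]
  · show b j • x S = 0
    rw [(mem_iaL.1 hx).2 S hS, smul_zero]

omit [Algebra T B] [IsScalarTower T B V] in
theorem ia_kos_update (b : J → B) (j : J) (g : B) {i : ℤ} {x : Finset J → V}
    (hx : x ∈ iaL T V j i) :
    cx (kos (Function.update b j g)) Finset.card V x = cx (kos b) Finset.card V x := by
  funext S
  rw [ia_cx, ia_cx, matAct_kos_apply, matAct_kos_apply]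
  refine Finset.sum_congr rfl fun k _ => ?_
  by_cases h : k = j
  · rw [h, (mem_iaL.1 hx).2 _ (Finset.mem_insert_self j S), smul_zero, smul_zero (b j)]
  · rw [Function.update_of_ne h]

theorem ia_kos_slot (b : J → B) (j : J) (g : B) :
    (δ.MFin (kos (Function.update b j g)) Finset.card V ↔ ∀ i, δ.IndOKP (iaMul T _ g)
      (cyc (cx (kos b) Finset.card V) (iaL T V j) (fun _ => ⊥) i)
      (bdy (cx (kos b) Finset.card V) (iaL T V j) (fun _ => ⊥) i)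
      (cyc (cx (kos b) Finset.card V) (iaL T V j) (fun _ => ⊥) i)
      (bdy (cx (kos b) Finset.card V) (iaL T V j) (fun _ => ⊥) i)) ∧
    (δ.MFin (kos (Function.update b j g)) Finset.card V →
      δ.meul (kos (Function.update b j g)) Finset.card V =
      ∑ i ∈ Finset.Icc (0 : ℤ) (Fintype.card J), (sgn i : ℝ) * δ.indP (iaMul T _ g)
        (cyc (cx (kos b) Finset.card V) (iaL T V j) (fun _ => ⊥) i)
        (bdy (cx (kos b) Finset.card V) (iaL T V j) (fun _ => ⊥) i)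
        (cyc (cx (kos b) Finset.card V) (iaL T V j) (fun _ => ⊥) i)
        (bdy (cx (kos b) Finset.card V) (iaL T V j) (fun _ => ⊥) i)) := by
  have hs : ∀ i, i ∉ Finset.Icc (0 : ℤ) (Fintype.card J) →
      fam (Finset.card : Finset J → ℕ) (⊤ : Submodule T V) i = ⊥ := by
    intro i hi
    refine eq_bot_iff.2 fun x hx => funext fun S => (mem_fam.1 hx S).2 fun h => hi ?_
    have := Finset.card_le_univ S
    rw [Finset.mem_Icc]
    omega
  have e1 : ∀ i, cyc (cx (kos (Function.update b j g)) Finset.card V) (iaL T V j) (fun _ => ⊥) i =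
      cyc (cx (kos b) Finset.card V) (iaL T V j) (fun _ => ⊥) i := fun i => by
    ext x
    rw [mem_cyc, mem_cyc]
    exact and_congr_right fun hx => by rw [ia_kos_update b j g hx]
  have e2 : ∀ i, bdy (cx (kos (Function.update b j g)) Finset.card V) (iaL T V j) (fun _ => ⊥) i =
      bdy (cx (kos b) Finset.card V) (iaL T V j) (fun _ => ⊥) i := fun i => by
    ext x
    rw [mem_bdy, mem_bdy]
    exact exists_congr fun y => and_congr_right fun hy => by rw [ia_kos_update b j g hy]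
  have c := ia_cone (δ := δ) (ia_kos_cone (V := V) (Function.update b j g) j) _ hs
  simp only [e1, e2, Function.update_self] at c
  have e : fam (Finset.card : Finset J → ℕ) (⊥ : Submodule T V) = fun _ => ⊥ := funext (fam_bot _)
  rw [MFin, meul, e]
  refine ⟨⟨fun f => c.1.1 f.hm, fun f => ⟨c.1.2 f,
    (Finset.Icc (0 : ℤ) (Fintype.card J)).finite_toSet.subset fun i hi => ?_⟩⟩, fun f => c.2 f.hm⟩
  by_contra hn
  exact hi (inf_le_left.trans ((hs i hn).le.trans bot_le))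

/-- Multiplicativity of the Koszul Euler characteristic in one slot. -/
theorem kos_mul (b : J → B) (j : J) (g g' : B)
    (h : δ.MFin (kos (Function.update b j g)) Finset.card V)
    (h' : δ.MFin (kos (Function.update b j g')) Finset.card V) :
    δ.MFin (kos (Function.update b j (g * g'))) Finset.card V ∧
    δ.meul (kos (Function.update b j (g * g'))) Finset.card V =
      δ.meul (kos (Function.update b j g)) Finset.card V +
        δ.meul (kos (Function.update b j g')) Finset.card V := by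
  have k := ia_kos_slot (δ := δ) (V := V) b j
  have e : iaMul T (Finset J → V) (g * g') = iaMul T _ g ∘ₗ iaMul T _ g' :=
    LinearMap.ext fun x => mul_smul g g' x
  have hL : ∀ (t : B) i, ∀ x ∈ iaL T V j i, t • x ∈ iaL T V j i := fun t i x hx => by
    have := (ia_kos_cone (T := T) (V := V) (fun _ => t) j).c5 i x hx
    exact this
  have m1 : ∀ (t : B) i, ∀ x ∈ cyc (cx (kos b) Finset.card V) (iaL T V j) (fun _ => ⊥) i,
      iaMul T _ t x ∈ cyc (cx (kos b) Finset.card V) (iaL T V j) (fun _ => ⊥) i := by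
    intro t i x hx
    refine mem_cyc.2 ⟨hL t i x (mem_cyc.1 hx).1, ?_⟩
    show cx (kos b) Finset.card V (t • x) ∈ _
    rw [map_smul, (Submodule.mem_bot T).1 (mem_cyc.1 hx).2, smul_zero]
    exact zero_mem _
  have m2 : ∀ (t : B) i, ∀ x ∈ bdy (cx (kos b) Finset.card V) (iaL T V j) (fun _ => ⊥) i,
      iaMul T _ t x ∈ bdy (cx (kos b) Finset.card V) (iaL T V j) (fun _ => ⊥) i := by
    intro t i x hx
    obtain ⟨y, hy, hxy⟩ := mem_bdy.1 hx
    refine mem_bdy.2 ⟨t • y, hL t _ y hy, ?_⟩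
    show t • x - _ ∈ _
    rw [map_smul, ← smul_sub, (Submodule.mem_bot T).1 hxy, smul_zero]
    exact zero_mem _
  have c := fun i => ia_comp (m1 g' i) (m2 g' i) (m1 g i) (m2 g i) ((k g').1.1 h' i)
    ((k g).1.1 h i)
  rw [← e] at c
  have f := (k (g * g')).1.2 fun i => (c i).1
  refine ⟨f, ?_⟩
  rw [(k _).2 f, (k _).2 h, (k _).2 h', ← Finset.sum_add_distrib]
  exact Finset.sum_congr rfl fun i _ => by rw [(c i).2, mul_add]

theorem ia_kos_pow (b : J → B) (j : J) (h : δ.MFin (kos b) Finset.card V) (n : ℕ) :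
    δ.MFin (kos (Function.update b j (b j ^ (n + 1)))) Finset.card V ∧
    δ.meul (kos (Function.update b j (b j ^ (n + 1)))) Finset.card V =
      ((n + 1 : ℕ) : ℝ) * δ.meul (kos b) Finset.card V := by
  induction n with
  | zero =>
    rw [zero_add, pow_one, Function.update_eq_self]
    exact ⟨h, by simp⟩
  | succ n ih =>
    have := kos_mul b j _ (b j) ih.1 (by rwa [Function.update_eq_self])
    rw [← pow_succ, ih.2, Function.update_eq_self] at this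
    exact ⟨this.1, by rw [this.2]; push_cast; ring⟩

theorem kos_pow (b : J → B) (h : δ.MFin (kos b) Finset.card V) {t : ℕ} (ht : 0 < t) :
    δ.MFin (kos fun j => b j ^ t) Finset.card V ∧
    δ.meul (kos fun j => b j ^ t) Finset.card V =
      (t : ℝ) ^ Fintype.card J * δ.meul (kos b) Finset.card V := by
  obtain ⟨n, rfl⟩ : ∃ n, t = n + 1 := ⟨t - 1, by omega⟩
  have key : ∀ U : Finset J,
      δ.MFin (kos fun j => if j ∈ U then b j ^ (n + 1) else b j) Finset.card V ∧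
      δ.meul (kos fun j => if j ∈ U then b j ^ (n + 1) else b j) Finset.card V =
        ((n + 1 : ℕ) : ℝ) ^ U.card * δ.meul (kos b) Finset.card V := by
    intro U
    induction U using Finset.induction_on with
    | empty => simpa using h
    | insert j U hj ih =>
      have := ia_kos_pow _ j ih.1 n
      have e : Function.update (fun j => if j ∈ U then b j ^ (n + 1) else b j) j
          ((if j ∈ U then b j ^ (n + 1) else b j) ^ (n + 1)) =
          fun k => if k ∈ insert j U then b k ^ (n + 1) else b k := by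
        funext k
        by_cases hk : k = j
        · rw [hk, Function.update_self, if_neg hj, if_pos (Finset.mem_insert_self _ _)]
        · rw [Function.update_of_ne hk]
          simp [hk]
      rw [e, ih.2] at this
      exact ⟨this.1, by rw [this.2, Finset.card_insert_of_notMem hj, pow_succ]; ring⟩
  simpa only [Finset.mem_univ, if_true, Finset.card_univ] using key Finset.univ
end Kos
end AddFun

end Vale.Agent.P177
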