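import Vale.Agent.P177.Build

/-! P177 module InvAuxA: lemmas for the two term model of a bad point. -/

namespace Vale.Agent.P177.InvA

open Vale.Agent.P202 IsLocalRing Polynomial

universe u

/-- Prime avoidance for two finite sets of primes. -/
theorem interp {A : Type u} [CommRing A] {S T : Set (PrimeSpectrum A)} (hS : S.Finite)
    (hT : T.Finite) (h : ∀ s ∈ S, ∀ t ∈ T, ¬ s ≤ t) :
    ∃ g, (∀ s ∈ S, g ∈ s.asIdeal) ∧ ∀ t ∈ T, g ∉ t.asIdeal := by
  classical
  by_contra hc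
  have h1 : ((hS.toFinset.inf PrimeSpectrum.asIdeal : Ideal A) : Set A) ⊆
      ⋃ t ∈ T, (t.asIdeal : Set A) := by
    intro g hg
    by_contra hg'
    refine hc ⟨g, fun s hs => ?_, fun t ht hgt => hg' (Set.mem_biUnion ht hgt)⟩
    exact (Finset.inf_le (f := PrimeSpectrum.asIdeal) (hS.mem_toFinset.2 hs) :) hg
  rcases T.eq_empty_or_nonempty with rfl | ⟨t₀, -⟩
  · simpa using h1 (Ideal.zero_mem _)
  obtain ⟨t, ht, hle⟩ := (Ideal.subset_union_prime_finite hT t₀ t₀ fun t _ _ _ => t.2).1 h1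
  obtain ⟨s, hs, hst⟩ := t.2.inf_le'.1 hle
  exact h s (hS.mem_toFinset.1 hs) t ht hst

theorem exists_not_mem_of_rk {A : Type u} [CommRing A] {ρ : Type} (x : PrimeSpectrum A)
    (f : ρ → A) (h : 1 ≤ rkAt x fun r (_ : Unit) => f r) : ∃ r, f r ∉ x.asIdeal := by
  by_contra hc
  push Not at hc
  have h0 : Submodule.span x.asIdeal.ResidueField
      (Set.range fun r => evAt x fun _ : Unit => f r) = ⊥ := by
    rw [Submodule.span_eq_bot]
    rintro _ ⟨r, rfl⟩
    funext k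
    exact Ideal.algebraMap_residueField_eq_zero.2 (hc r)
  rw [rkAt, h0, finrank_bot] at h
  omega

variable {R : Type u} [CommRing R] [IsLocalRing R] [IsNoetherianRing R]
  [Infinite (ResidueField R)]

/-- General position for affine families of scalars. -/
theorem gen {N : Type} [Finite N] (J : N → Ideal R[X]) (S : N → Set (PrimeSpectrum R[X]))
    (hJ : ∀ ν, ∀ x ∈ S ν, J ν ≤ x.asIdeal)
    (hS : ∀ ν, ∀ x ∈ S ν, ∀ x' : PrimeSpectrum R[X], J ν ≤ x'.asIdeal → x' ≤ x → x' ∈ S ν)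
    (h : N → PrimeSpectrum R[X] → ℕ) (hh : ∀ ν, ∀ x ∈ S ν, ∀ x' ∈ S ν, x' < x → h ν x' < h ν x)
    {a : ℕ} (hb : ∀ ν, ∀ x ∈ S ν, h ν x ≤ a)
    {Γ : Type u} [AddCommGroup Γ] [Module R Γ] [Module.Finite R Γ]
    (L : N → Γ →ₗ[R] R[X]) (c : N → Fin a → R[X])
    (hsp : ∀ ν, ∀ x ∈ S ν, ∃ γ, L ν γ ∉ x.asIdeal) :
    ∃ γ : Fin a → Γ, ∀ ν, ∃ Z : Set (PrimeSpectrum R[X]), Z.Finite ∧
      (∀ x ∈ Z, x ∈ S ν ∧ h ν x = a) ∧
      ∀ x ∈ S ν, x ∉ Z → ∃ j, c ν j + L ν (γ j) ∉ x.asIdeal := by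
  obtain ⟨γ, hγ⟩ := genPos (N := N) (fun _ => R[X]) J S hJ hS h hh (κ := Unit)
    (ρ := Fin a) 1 (fun _ _ => ⊤) (fun ν x _ => by simp) (fun _ => Γ)
    (fun ν r γ _ => c ν r + L ν γ) (fun _ _ _ _ _ => Submodule.mem_top)
    (fun r F hF hFS W hW => by
      classical
      have := hF.to_subtype
      set M : F → Submodule R Γ := fun z =>
        (z.1.2.asIdeal.restrictScalars R).comap (L z.1.1) with hM
      have hne : ∀ z, M z ≠ ⊤ := fun z hz => by
        obtain ⟨γ, hγ⟩ := hsp z.1.1 z.1.2 (hFS z.1 z.2)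
        have h1 : γ ∈ M z := hz ▸ Submodule.mem_top
        exact hγ h1
      have hg0 : ∀ z : F, ∃ g : Γ, ∀ γ, c z.1.1 r + L z.1.1 γ ∈ z.1.2.asIdeal →
          c z.1.1 r + L z.1.1 g ∈ z.1.2.asIdeal := fun z => by
        by_cases hz : ∃ g, c z.1.1 r + L z.1.1 g ∈ z.1.2.asIdeal
        · exact ⟨hz.choose, fun _ _ => hz.choose_spec⟩
        · exact ⟨0, fun γ hγ => absurd ⟨γ, hγ⟩ hz⟩
      choose g hg0 using hg0
      obtain ⟨γ, hγ⟩ := exists_avoid M hne g
      refine ⟨γ, fun z hz hmem => hγ ⟨z, hz⟩ ?_⟩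
      have h0 : c z.1 r + L z.1 γ ∈ z.2.asIdeal := by
        by_contra hn
        have hn' : algebraMap R[X] z.2.asIdeal.ResidueField (c z.1 r + L z.1 γ) ≠ 0 :=
          fun e => hn (Ideal.algebraMap_residueField_eq_zero.1 e)
        refine (hW z hz).not_ge fun v _ => ?_
        have h3 := Submodule.smul_mem _ (v () * (algebraMap R[X] z.2.asIdeal.ResidueField
          (c z.1 r + L z.1 γ))⁻¹) hmem
        refine (congrArg (· ∈ W z.1 z.2) (funext fun k => ?_)).mp h3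
        exact inv_mul_cancel_right₀ hn' _
      have h1 := Ideal.sub_mem _ h0 (hg0 ⟨z, hz⟩ γ h0)
      rw [add_sub_add_left_eq_sub, ← map_sub] at h1
      exact h1)
  refine ⟨γ, fun ν => ⟨_, (hγ ν).2, fun x hx => ?_, fun x hx hZ => ?_⟩⟩
  · obtain ⟨hx, h1, h2⟩ := hx
    rw [Fintype.card_fin] at h2
    exact ⟨hx, by omega⟩
  · obtain ⟨-, h2⟩ := (hγ ν).1 x hx
    have h5 := hb ν x hx
    refine exists_not_mem_of_rk x (fun r => c ν r + L ν (γ r)) ?_
    by_contra h6
    refine hZ ⟨hx, by omega, ?_⟩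
    rw [Fintype.card_fin] at h2 ⊢
    omega

omit [IsLocalRing R] [Infinite (ResidueField R)] in
/-- A degree that is large enough for an ideal of polynomials. -/
theorem exists_deg (K : Ideal R[X]) (e₀ : ℕ) : ∃ e, e₀ ≤ e ∧
    (∀ x : Ideal R[X], (∃ f ∈ K, f ∉ x) → ∃ f ∈ K.degreeLE e, f ∉ x) ∧
    ∀ p : Ideal R, (∃ n, ∃ f ∈ K, f.natDegree ≤ n ∧ f.coeff n ∉ p) →
      ∃ f ∈ K.degreeLE e, f.coeff e ∉ p := by
  obtain ⟨S, hS⟩ := IsNoetherian.noetherian K
  obtain ⟨N, hN⟩ := monotone_stabilizes_iff_noetherian.2 (inferInstance : IsNoetherian R R)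
    ⟨K.leadingCoeffNth, fun _ _ h => K.leadingCoeffNth_mono h⟩
  refine ⟨max e₀ (max N (S.sup natDegree)), le_max_left _ _, fun x ⟨f, hf, hfx⟩ => ?_,
    fun p ⟨n, f, hf, hn, hp⟩ => ?_⟩
  · by_contra hc
    push Not at hc
    refine hfx ((hS.ge.trans (Submodule.span_le.2 fun s hs => hc s ⟨?_, ?_⟩)) hf)
    · exact mem_degreeLE.2 (degree_le_of_natDegree_le ((Finset.le_sup (f := natDegree) hs).trans
        ((le_max_right _ _).trans (le_max_right _ _))))
    · exact (hS ▸ Submodule.subset_span hs : s ∈ K)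
  · have h1 : f.coeff n ∈ K.leadingCoeffNth n :=
      ⟨f, ⟨mem_degreeLE.2 (degree_le_of_natDegree_le hn), hf⟩, rfl⟩
    have h2 := K.leadingCoeffNth_mono (le_max_left n N) h1
    have h3 : K.leadingCoeffNth N = K.leadingCoeffNth (max n N) := hN _ (le_max_right _ _)
    have h4 : K.leadingCoeffNth N = K.leadingCoeffNth (max e₀ (max N (S.sup natDegree))) :=
      hN _ ((le_max_left _ _).trans (le_max_right _ _))
    rw [← h3, h4] at h2
    obtain ⟨f', hf', he⟩ := h2
    exact ⟨f', hf', fun h => hp (he ▸ h)⟩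

omit [IsLocalRing R] [Infinite (ResidueField R)] in
theorem finite_degreeLE (K : Ideal R[X]) (e : ℕ) : Module.Finite R (K.degreeLE e) := by
  classical
  refine Module.Finite.iff_fg.mpr (Submodule.FG.of_le (T := degreeLE R e) ?_ inf_le_left)
  rw [degreeLE_eq_span_X_pow]
  exact ⟨_, rfl⟩

section
variable {A : Type u} [CommRing A] {ι : Type} [Fintype ι] [DecidableEq ι] {dg : ι → ℕ}

/-- A function whose nonvanishing forces goodness has a power in `m * (y)` locally. -/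
theorem pow_mem {D : Matrix ι ι A} (hD : IsMC D (zd dg)) {x : PrimeSpectrum A} {c : ℕ}
    {y : Fin c → A} (hy : ∀ j, y j ∈ x.asIdeal)
    (h : MHEq (D.map (algebraMap A (Localization.AtPrime x.asIdeal))) dg
      (twoM fun j => algebraMap A (Localization.AtPrime x.asIdeal) (y j)) (twoDg c)) {g : A}
    (hg : ∀ q : PrimeSpectrum A, q ≤ x → g ∉ q.asIdeal → GoodAt D dg q 1) :
    ∃ n, g ^ n ∈ (maximalIdeal (Localization.AtPrime x.asIdeal) * Ideal.span (Set.range
      fun j => algebraMap A (Localization.AtPrime x.asIdeal) (y j))).comap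
        (algebraMap A (Localization.AtPrime x.asIdeal)) := by
  have h1 : algebraMap A (Localization.AtPrime x.asIdeal) g ∈
      (maximalIdeal (Localization.AtPrime x.asIdeal) * Ideal.span (Set.range
      fun j => algebraMap A (Localization.AtPrime x.asIdeal) (y j))).radical := by
    rw [Ideal.radical_eq_sInf, Ideal.mem_sInf]
    rintro Q ⟨hQ, hp⟩
    have hym : ∀ j, algebraMap A (Localization.AtPrime x.asIdeal) (y j) ∈ maximalIdeal _ :=
      fun j => (IsLocalization.AtPrime.to_map_mem_maximal_iff _ x.asIdeal _).2 (hy j)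
    have hyQ : ∀ j, algebraMap A (Localization.AtPrime x.asIdeal) (y j) ∈ Q := fun j =>
      (hp.mul_le.1 hQ).elim (fun h' => h' (hym j)) fun h' => h' (Ideal.subset_span ⟨j, rfl⟩)
    by_contra hgQ
    have h2 := hg (PrimeSpectrum.comap (algebraMap A _) ⟨Q, hp⟩) (fun t ht =>
      (IsLocalization.AtPrime.to_map_mem_maximal_iff (Localization.AtPrime x.asIdeal) x.asIdeal
        _).1 (le_maximalIdeal hp.ne_top ht)) hgQ
    obtain ⟨j, hj⟩ := (goodAt_twoM_iff _ ⟨Q, hp⟩).1 fun i hi => by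
      rw [← h.hk_eq, hk_comap hD]
      exact h2 i hi
    exact hj (hyQ j)
  obtain ⟨n, hn⟩ := h1
  exact ⟨n, by rwa [Ideal.mem_comap, map_pow]⟩

/-- Perturbation by elements of `m * (y)`. -/
theorem mheq_perturb [IsLocalRing A] {c : ℕ} (y ζ : Fin c → A)
    (hζ : ∀ j, ζ j ∈ maximalIdeal A * Ideal.span (Set.range y)) :
    MHEq (twoM y) (twoDg c) (twoM fun j => y j + ζ j) (twoDg c) := by
  have h1 : ∀ j, ∃ m : Fin c → A, (∀ k, m k ∈ maximalIdeal A) ∧ ∑ k, m k * y k = ζ j := by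
    intro j
    obtain ⟨m, hm, he⟩ := (Submodule.mem_ideal_smul_span_iff_exists_sum _ y (ζ j)).1 (hζ j)
    rw [Finsupp.sum_fintype _ _ (by simp)] at he
    exact ⟨m, hm, he⟩
  choose m hm he using h1
  refine mheq_twoM (1 + Matrix.of m) ?_ ?_
  · rw [← residue_ne_zero_iff_isUnit, RingHom.map_det, map_add, map_one]
    have : (residue A).mapMatrix (Matrix.of m) = 0 := by
      ext i j
      exact (residue_eq_zero_iff _).2 (hm i j)
    rw [this, add_zero, Matrix.det_one]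
    exact one_ne_zero
  · funext j
    rw [Matrix.add_mulVec, Matrix.one_mulVec, Pi.add_apply, ← he j]
    rfl
end

variable {ι : Type} [Fintype ι] [DecidableEq ι] {dg w : ι → ℕ} {D : Matrix ι ι R[X]}

omit [IsLocalRing R] [IsNoetherianRing R] [Infinite (ResidueField R)] in
/-- The reflection of a witness for the reflected family. -/
theorem good_of_reflect (hD : IsMC D (zd dg)) (hw : Wt w w D) {g : R[X]} {n j : ℕ}
    (hn : g.natDegree ≤ n)
    (hg : ∀ q : PrimeSpectrum R[X], g ∉ q.asIdeal → GoodAt (grM C 1 X w w D) dg q j)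
    {q : PrimeSpectrum R[X]} (hX : X ∉ q.asIdeal) (hq : hev C 1 X n g ∉ q.asIdeal) :
    GoodAt D dg q j := by
  set φ := algebraMap R[X] q.asIdeal.ResidueField with hφ
  have ht : φ X ≠ 0 := fun e => hX (Ideal.algebraMap_residueField_eq_zero.1 e)
  have hφe : ∀ f : R[X], f.eval₂ (φ.comp C) (φ X) = φ f := fun f => by
    rw [← hom_eval₂, eval₂_C_X]
  set ψ := eval₂RingHom (φ.comp C) (φ X)⁻¹ with hψ
  have hψC : ψ.comp C = φ.comp C := by
    ext r
    simp [hψ]
  have hψX : ψ X = (φ X)⁻¹ := by simp [hψ]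
  have h1 : g ∉ RingHom.ker ψ := fun h0 => by
    refine hq (Ideal.algebraMap_residueField_eq_zero.1 ?_)
    rw [← hφ, map_hev, map_one, ← inv_mul_cancel₀ ht, hev_of_mul _ _ hn]
    exact mul_eq_zero_of_left h0 _
  have h2 := hg ⟨RingHom.ker ψ, RingHom.ker_isPrime ψ⟩ h1
  have h3 : MHEq ((grM C 1 X w w D).map ψ) dg (D.map φ) dg := by
    have hdg : ∀ v : ι → q.asIdeal.ResidueField, IsHomR (Matrix.diagonal v) dg dg 0 := by
      intro v a b hab
      by_cases e : a = b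
      · simp [e]
      · exact absurd (Matrix.diagonal_apply_ne _ e) hab
    refine mheq_of_iso (Matrix.diagonal fun a => φ X ^ w a)
      (Matrix.diagonal fun a => (φ X)⁻¹ ^ w a) (hdg _) (hdg _) ?_ ?_ ?_
    · ext a b
      rw [Matrix.diagonal_mul, Matrix.mul_diagonal, grM_map, hψC, hψX, map_one, Matrix.map_apply]
      by_cases h0 : D a b = 0
      · rw [bd_gr_zero _ _ _ _ _ h0, h0, map_zero, mul_zero, zero_mul]
      · have h4 := hw a b h0
        rw [grM, if_pos (by omega), ← mul_inv_cancel₀ ht, hev_of_mul _ _ (by omega), hφe]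
        obtain ⟨k, hk⟩ : ∃ k, w a = k + w b := ⟨w a - w b, by omega⟩
        rw [hk, Nat.add_sub_cancel, pow_add, inv_pow]
        field_simp
    · rw [Matrix.diagonal_mul_diagonal, ← Matrix.diagonal_one]
      congr 1
      funext a
      rw [← mul_pow, inv_mul_cancel₀ ht, one_pow]
    · rw [Matrix.diagonal_mul_diagonal, ← Matrix.diagonal_one]
      congr 1
      funext a
      rw [← mul_pow, mul_inv_cancel₀ ht, one_pow]
  intro i hi
  rw [hk, ← hφ, ← h3.mlen_eq,
    mlen_eq_hk (isMC_grM C 1 X hD hw) ψ ⟨RingHom.ker ψ, RingHom.ker_isPrime ψ⟩ rfl]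
  exact h2 i hi

end Vale.Agent.P177.InvA
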