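import Vale.Agent.P177.Univ
import Vale.Agent.P177.Gen
import Vale.Agent.P202.LocCrit

/-! P177 module TwoVan: the functional kills the derived exterior power of a two term complex
over a finite free algebra. -/

namespace Vale.Agent.P177

open Vale.Agent.P202 IsLocalRing

universe u

namespace TV

/-- Lifting idempotents in a Henselian pair. -/
theorem lift_idem {S : Type*} [CommRing S] (J : Ideal S) [HenselianRing S J] {e : S}
    (he : e * e - e ∈ J) : ∃ e', IsIdempotentElem e' ∧ e' - e ∈ J := by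
  obtain ⟨e', h1, h2⟩ := HenselianRing.is_henselian (I := J) (Polynomial.X ^ 2 - Polynomial.X)
    (by monicity!) e (by simpa [sq] using he) (by
      refine IsUnit.of_mul_eq_one (Ideal.Quotient.mk J (2 * e - 1)) ?_
      rw [← map_mul, ← map_one (Ideal.Quotient.mk J), Ideal.Quotient.eq]
      have : Polynomial.eval e (Polynomial.derivative (Polynomial.X ^ 2 - Polynomial.X)) *
          (2 * e - 1) - 1 = 4 * (e * e - e) := by
        simp
        ring
      rw [this]
      exact J.mul_mem_left _ he)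
  refine ⟨e', ?_, h2⟩
  have : e' ^ 2 - e' = 0 := by simpa using h1
  rw [IsIdempotentElem, ← sq]
  exact sub_eq_zero.1 this

/-- A quotient splits along an idempotent. -/
theorem split {R S : Type*} [CommRing R] [CommRing S] [Algebra R S] {e : S}
    (he : IsIdempotentElem e) (K : Ideal S) :
    Nonempty ((S ⧸ K) ≃ₗ[R] ((S ⧸ Ideal.span {e}) ⧸ K.map (Ideal.Quotient.mk _)) ×
      ((S ⧸ Ideal.span {1 - e}) ⧸ K.map (Ideal.Quotient.mk _))) := by
  let φ : ∀ f : S, (S ⧸ K) →ₐ[R] (S ⧸ Ideal.span {f}) ⧸ K.map (Ideal.Quotient.mk _) := fun f =>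
    Ideal.quotientMapₐ _ (Ideal.Quotient.mkₐ R (Ideal.span {f})) Ideal.le_comap_map
  have h0 : ∀ f x, φ f (Ideal.Quotient.mk K x) =
    Ideal.Quotient.mk _ (Ideal.Quotient.mk _ x) := fun _ _ => rfl
  have h1 : ∀ f x, φ f (Ideal.Quotient.mk K x) = 0 → ∃ k ∈ K, ∃ c, x = k + c * f := fun f x h => by
    rw [h0, Ideal.Quotient.eq_zero_iff_mem,
      Ideal.mem_map_iff_of_surjective _ Ideal.Quotient.mk_surjective] at h
    obtain ⟨k, hk, h⟩ := h
    obtain ⟨c, hc⟩ := Ideal.mem_span_singleton'.1 (Ideal.Quotient.eq.1 h.symm)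
    exact ⟨k, hk, c, by rw [hc]; ring⟩
  refine ⟨LinearEquiv.ofBijective ((φ e).toLinearMap.prod (φ (1 - e)).toLinearMap) ⟨?_, ?_⟩⟩
  · refine (injective_iff_map_eq_zero _).2 fun x hx => ?_
    obtain ⟨x, rfl⟩ := Ideal.Quotient.mk_surjective x
    obtain ⟨k, hk, c, h2⟩ := h1 e x (congrArg Prod.fst hx)
    obtain ⟨k', hk', c', h3⟩ := h1 (1 - e) x (congrArg Prod.snd hx)
    have : x = (1 - e) * k + e * k' := by
      linear_combination (1 - e) * h2 + e * h3 - (c + c') * he.eq
    rw [Ideal.Quotient.eq_zero_iff_mem, this]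
    exact K.add_mem (K.mul_mem_left _ hk) (K.mul_mem_left _ hk')
  · rintro ⟨a, b⟩
    obtain ⟨a, rfl⟩ := Ideal.Quotient.mk_surjective a
    obtain ⟨a, rfl⟩ := Ideal.Quotient.mk_surjective a
    obtain ⟨b, rfl⟩ := Ideal.Quotient.mk_surjective b
    obtain ⟨b, rfl⟩ := Ideal.Quotient.mk_surjective b
    refine ⟨Ideal.Quotient.mk K ((1 - e) * a + e * b), Prod.ext ?_ ?_⟩
    · refine (h0 e _).trans (congrArg _ (Ideal.Quotient.eq.2 ?_))
      exact Ideal.mem_span_singleton'.2 ⟨b - a, by ring⟩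
    · refine (h0 (1 - e) _).trans (congrArg _ (Ideal.Quotient.eq.2 ?_))
      exact Ideal.mem_span_singleton'.2 ⟨a - b, by ring⟩

end TV

variable {R : Type u} [CommRing R] [IsLocalRing R] [IsNoetherianRing R]
  [IsAdicComplete (maximalIdeal R) R] {I : Ideal R} {δ : AddFun R} {d a p : ℕ}

/-- A finite algebra over a complete local ring is local, trivial, or has a nontrivial
idempotent (lift an idempotent of the Artinian ring `R' / m R'`). -/
theorem local_or_idem (R' : Type u) [CommRing R'] [Algebra R R'] [Module.Finite R R']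
    [Nontrivial R'] : IsLocalRing R' ∨ ∃ e : R', IsIdempotentElem e ∧ e ≠ 0 ∧ e ≠ 1 := by
  obtain ⟨M₁, hM₁⟩ := Ideal.exists_maximal R'
  by_cases hu : ∀ M₂ : Ideal R', M₂.IsMaximal → M₂ = M₁
  · exact Or.inl (IsLocalRing.of_unique_max_ideal ⟨M₁, hM₁, hu⟩)
  right
  push Not at hu
  obtain ⟨M₂, hM₂, hne⟩ := hu
  obtain ⟨x, hx1, hx2⟩ : ∃ x ∈ M₁, x ∉ M₂ :=
    SetLike.not_le_iff_exists.1 fun h => hne (hM₁.eq_of_le hM₂.ne_top h).symm
  have hf : (algebraMap R R').Finite := RingHom.finite_algebraMap.2 inferInstance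
  have hJ1 := LocCritAux.map_le_of_isMaximal _ hf M₁
  have hJ2 := LocCritAux.map_le_of_isMaximal _ hf M₂
  obtain ⟨r, q, hq⟩ := Module.Finite.exists_fin' R R'
  have := Co2.prec_pi (maximalIdeal R) r
  have : IsPrecomplete (maximalIdeal R) R' := Co2.prec_of_surjective _ q hq
  have : IsAdicComplete (maximalIdeal R) R' := ⟨⟩
  have : IsAdicComplete ((maximalIdeal R).map (algebraMap R R')) R' :=
    (IsAdicComplete.map_algebraMap_iff _ _).2 this
  have : IsArtinianRing (R' ⧸ (maximalIdeal R).map (algebraMap R R')) := by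
    let _ := Ideal.Quotient.field (maximalIdeal R)
    have : Module.Finite (R ⧸ maximalIdeal R) (R' ⧸ (maximalIdeal R).map (algebraMap R R')) :=
      Module.Finite.of_restrictScalars_finite R _ _
    exact IsArtinianRing.of_finite (R ⧸ maximalIdeal R) _
  generalize (maximalIdeal R).map (algebraMap R R') = J at *
  obtain ⟨n, y, hy⟩ := IsArtinian.exists_pow_succ_smul_dvd (Ideal.Quotient.mk J x) (1 : R' ⧸ J)
  obtain ⟨y, rfl⟩ := Ideal.Quotient.mk_surjective y
  rw [smul_eq_mul, smul_eq_mul, mul_one] at hy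
  have key : ∀ k, Ideal.Quotient.mk J x ^ (n + k) * Ideal.Quotient.mk J y ^ k =
      Ideal.Quotient.mk J x ^ n := fun k => by
    induction k with
    | zero => simp
    | succ k ih =>
      calc _ = Ideal.Quotient.mk J x ^ k * Ideal.Quotient.mk J y ^ k *
            (Ideal.Quotient.mk J x ^ n.succ * Ideal.Quotient.mk J y) := by
            rw [Nat.succ_eq_add_one]; ring
        _ = _ := by rw [hy]; linear_combination ih
  have h1 : x ^ n * (x ^ (n + 1) * y ^ (n + 1)) - x ^ n ∈ J := by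
    rw [← Ideal.Quotient.eq]
    simp only [map_mul, map_pow]
    rw [← mul_assoc, ← pow_add, key]
  obtain ⟨e, he, he'⟩ := TV.lift_idem J (e := x ^ (n + 1) * y ^ (n + 1)) (by
    have : x ^ (n + 1) * y ^ (n + 1) * (x ^ (n + 1) * y ^ (n + 1)) - x ^ (n + 1) * y ^ (n + 1) =
        x * y ^ (n + 1) * (x ^ n * (x ^ (n + 1) * y ^ (n + 1)) - x ^ n) := by ring
    rw [this]
    exact J.mul_mem_left _ h1)
  refine ⟨e, he, ?_, ?_⟩
  · rintro rfl
    rw [zero_sub, neg_mem_iff] at he'
    have h2 := M₂.sub_mem (M₂.mul_mem_left (x ^ n) (hJ2 he')) (hJ2 h1)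
    rw [sub_sub_cancel] at h2
    exact hx2 (hM₂.isPrime.mem_of_pow_mem n h2)
  · rintro rfl
    have h2 := M₁.add_mem (hJ1 he')
      (M₁.mul_mem_right (y ^ (n + 1)) (M₁.pow_mem_of_mem hx1 (n + 1) n.succ_pos))
    rw [sub_add_cancel] at h2
    exact hM₁.ne_top ((Ideal.eq_top_iff_one _).2 h2)

omit [IsAdicComplete (maximalIdeal R) R] in
theorem TV.local_case (hd : CIData d a I) (h : KHyp a p I δ) (R' : Type u) [CommRing R']
    [IsLocalRing R'] [Algebra R R'] [Module.Finite R R'] [Module.Free R R'] (y : Fin a → R')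
    (hy : δ.mem (R' ⧸ Ideal.span (Set.range y))) (j : ℕ) :
    δ.mem (R' ⧸ Ideal.span (Set.range y) ^ j) ∧
      δ.val (R' ⧸ Ideal.span (Set.range y) ^ j) = 0 := by
  by_cases hm : ∀ i, y i ∈ maximalIdeal R'
  swap
  · push Not at hm
    obtain ⟨i, hi⟩ := hm
    have : Ideal.span (Set.range y) = ⊤ := Ideal.eq_top_of_isUnit_mem _
      (Ideal.subset_span ⟨i, rfl⟩) (notMem_maximalIdeal.1 hi)
    rw [this, Ideal.top_pow]
    exact ⟨δ.mem_zero _ inferInstance, δ.val_zero inferInstance⟩
  have : IsNoetherianRing R' := IsNoetherianRing.of_finite R R'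
  have hf : (algebraMap R R').Finite := RingHom.finite_algebraMap.2 inferInstance
  have hJ := LocCritAux.map_le_of_isMaximal _ hf (maximalIdeal R')
  obtain ⟨x, hx1, hx2, hx3⟩ := hd.reg
  obtain ⟨g, hg1, hg2⟩ := hd.gen
  obtain ⟨K, hK⟩ := exists_pow_le_map_of_finite _ hf
  obtain ⟨-, N, hN⟩ := (h.mem_iff _).1 hy
  have hle : (I ⊔ Module.annihilator R (R' ⧸ Ideal.span (Set.range y))).map (algebraMap R R') ≤
      Ideal.ofList (List.ofFn y ++ g.map (algebraMap R R')) := by
    rw [Ideal.ofList_append, ← Ideal.map_ofList, hg2, HS.ofList_ofFn, Ideal.map_sup]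
    refine sup_le le_sup_right (le_sup_of_le_left (Ideal.map_le_iff_le_comap.2 fun r hr => ?_))
    have := Module.mem_annihilator.1 hr (Ideal.Quotient.mk _ 1)
    rw [Ideal.mem_comap, ← Ideal.Quotient.eq_zero_iff_mem, ← this, Algebra.algebraMap_eq_smul_one]
    rfl
  have hsop : IsSop R' (List.ofFn y ++ g.map (algebraMap R R')) := by
    refine ⟨fun t ht => ?_, K * N, fun r hr => ⟨r, ?_, fun z _ => by simp⟩⟩
    · rcases List.mem_append.1 ht with ht | ht
      · obtain ⟨i, rfl⟩ := (List.mem_ofFn' _ _).1 ht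
        exact hm i
      · obtain ⟨t, ht', rfl⟩ := List.mem_map.1 ht
        exact hJ (Ideal.mem_map_of_mem _ (hd.le (hg2 ▸ Ideal.subset_span ht')))
    · rw [pow_mul] at hr
      have h1 := Ideal.pow_right_mono hK N hr
      rw [← Ideal.map_pow] at h1
      exact hle (Ideal.map_mono hN h1)
  have hreg := isWeaklyRegular_of_isSop (hx2.of_flat (S := R')) (fun t ht => by
    obtain ⟨t, ht', rfl⟩ := List.mem_map.1 ht
    exact hJ (Ideal.mem_map_of_mem _ (hx3 ▸ Ideal.subset_span ht'))) hsop (by simp; omega)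
  have hq := (regAny_of_isWeaklyRegular
    ((RingTheory.Sequence.isWeaklyRegular_append_iff _ _ _).1 hreg).1 hm).quasiReg
  have h0 := h.propK R' (List.ofFn y) List.length_ofFn (fun t ht => by
    obtain ⟨i, rfl⟩ := (List.mem_ofFn' _ _).1 ht
    exact hm i) (by rw [HS.ofList_ofFn]; exact hy)
  rw [HS.ofList_ofFn] at h0
  have h1 := val_quot_pow y hd.pos hq hy j
  rw [h0, mul_zero] at h1
  exact h1

/-- Induction on the rank of `R'`, splitting along idempotents (the factors are finite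
projective, hence free). In the local case either some `y j` is a unit, or `y` followed by the
generators of `I` is a system of parameters of the Cohen-Macaulay ring `R'`, so `y` is regular,
hence quasi-regular, and `val_quot_pow` applies. -/
theorem val_pow_eq_zero (hd : CIData d a I) (h : KHyp a p I δ) (R' : Type u) [CommRing R']
    [Algebra R R'] [Module.Finite R R'] [Module.Free R R'] (y : Fin a → R')
    (hy : δ.mem (R' ⧸ Ideal.span (Set.range y))) (j : ℕ) :
    δ.mem (R' ⧸ Ideal.span (Set.range y) ^ j) ∧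
      δ.val (R' ⧸ Ideal.span (Set.range y) ^ j) = 0 := by
  induction hn : Module.finrank R R' using Nat.strong_induction_on generalizing R' with
  | _ n ih =>
  rcases subsingleton_or_nontrivial R' with hs | hs
  · have := Ideal.Quotient.mk_surjective (I := Ideal.span (Set.range y) ^ j) |>.subsingleton
    exact ⟨δ.mem_zero _ this, δ.val_zero this⟩
  rcases local_or_idem (R := R) R' with hl | ⟨e, he, h0, h1⟩
  · exact TV.local_case hd h R' y hy j
  let E := (AlgEquiv.prodQuotientOfIsIdempotentElem R he he.one_sub (by simp)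
    (by simp [he])).toLinearEquiv
  have : Module.Projective R ((R' ⧸ Ideal.span {e}) × R' ⧸ Ideal.span {1 - e}) := .of_equiv E
  have : Module.Projective R (R' ⧸ Ideal.span {e}) :=
    .of_split (LinearMap.inl R _ (R' ⧸ Ideal.span {1 - e})) (LinearMap.fst R _ _) rfl
  have : Module.Projective R (R' ⧸ Ideal.span {1 - e}) :=
    .of_split (LinearMap.inr R (R' ⧸ Ideal.span {e}) _) (LinearMap.snd R _ _) rfl
  have : Module.Free R (R' ⧸ Ideal.span {e}) := Module.free_of_flat_of_isLocalRing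
  have : Module.Free R (R' ⧸ Ideal.span {1 - e}) := Module.free_of_flat_of_isLocalRing
  have : Nontrivial (R' ⧸ Ideal.span {e}) := Ideal.Quotient.nontrivial_iff.2 fun ht =>
    h1 ((IsIdempotentElem.iff_eq_one_of_isUnit (Ideal.span_singleton_eq_top.1 ht)).1 he)
  have : Nontrivial (R' ⧸ Ideal.span {1 - e}) := Ideal.Quotient.nontrivial_iff.2 fun ht =>
    h0 (sub_eq_self.1
      ((IsIdempotentElem.iff_eq_one_of_isUnit (Ideal.span_singleton_eq_top.1 ht)).1 he.one_sub))
  have hr := E.finrank_eq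
  rw [Module.finrank_prod, hn] at hr
  have p1 := (Module.finrank_pos_iff_of_free R (R' ⧸ Ideal.span {e})).2 inferInstance
  have p2 := (Module.finrank_pos_iff_of_free R (R' ⧸ Ideal.span {1 - e})).2 inferInstance
  have hs : ∀ f : R', (Ideal.span (Set.range y)).map (Ideal.Quotient.mk (Ideal.span {f})) =
      Ideal.span (Set.range fun i => Ideal.Quotient.mk (Ideal.span {f}) (y i)) := fun f => by
    rw [Ideal.map_span, ← Set.range_comp]
    rfl
  obtain ⟨F⟩ := TV.split (R := R) he (Ideal.span (Set.range y))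
  obtain ⟨G⟩ := TV.split (R := R) he (Ideal.span (Set.range y) ^ j)
  rw [Ideal.map_pow, Ideal.map_pow, hs, hs] at G
  rw [hs, hs] at F
  have hy' := (δ.mem_equiv F).1 hy
  obtain ⟨a1, a2⟩ := ih _ (by omega) _ _
    (δ.mem_surj _ _ (LinearMap.fst R _ _) LinearMap.fst_surjective hy') rfl
  obtain ⟨b1, b2⟩ := ih _ (by omega) _ _
    (δ.mem_surj _ _ (LinearMap.snd R _ _) LinearMap.snd_surjective hy') rfl
  obtain ⟨c1, c2⟩ := δ.mem_prod a1 b1
  have c3 := (δ.mem_equiv G).2 c1
  exact ⟨c3, by rw [δ.val_equiv _ _ G c3, c2, a2, b2, add_zero]⟩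

theorem twoTerm_vanish (hd : CIData d a I) (h : KHyp a p I δ) (R' : Type u) [CommRing R']
    [Algebra R R'] [Module.Finite R R'] [Module.Free R R'] (y : Fin a → R')
    (hy : δ.mem (R' ⧸ Ideal.span (Set.range y))) {m n : ℕ} (hn : 1 ≤ n) (hm : n * a < m) :
    δ.MFin (tmat a m (twoDg a) (twoM y)) (tdg a m (twoDg a)) R' ∧
      δ.meul (tmat a m (twoDg a) (twoM y)) (tdg a m (twoDg a)) R' = 0 := by
  have : IsNoetherianRing R' := IsNoetherianRing.of_finite R R'
  obtain ⟨h1, k, h2⟩ := two_data y hd.pos hn hm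
  obtain ⟨N, hN⟩ := univ_eul y (isMC_tmat (isMC_twoM y)) h1 h2
    fun j => (val_pow_eq_zero hd h R' y hy j).1
  obtain ⟨h3, h4⟩ := hN N le_rfl
  refine ⟨h3, h4.trans (Finset.sum_eq_zero fun b _ => ?_)⟩
  rw [(val_pow_eq_zero hd h R' y hy _).2, mul_zero]

end Vale.Agent.P177
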