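import Vale.Agent.P177.Strand
import Vale.Agent.P177.TwoVan
import Vale.Agent.P177.InvAuxA

/-! P177 module Inv: invariance of the Euler characteristic of the derived exterior power in
almost good families. -/

namespace Vale.Agent.P177

open Vale.Agent.P202 IsLocalRing Polynomial

universe u

variable {R : Type u} [CommRing R] [IsLocalRing R] [IsNoetherianRing R] [IsDomain R]
  [Infinite (ResidueField R)] {I : Ideal R} {δ : AddFun R} {d a p : ℕ} {ι : Type} [Fintype ι]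
  [DecidableEq ι] {dg w : ι → ℕ} {D : Matrix ι ι R[X]} {Z : Set (PrimeSpectrum R[X])}

/-- A finite set of closed points of the affine line over the punctured spectrum. -/
structure MaxPts (I : Ideal R) (Z : Set (PrimeSpectrum R[X])) : Prop where
  fin : Z.Finite
  pt : ∀ x ∈ Z, XPt I x
  max : ∀ x ∈ Z, ∀ x', XPt I x' → x ≤ x' → x' = x

/-- The weights of a two term family. -/
def twoW (c e : ℕ) : Option (Fin c) → ℕ
  | none => 0
  | some _ => e

/-- A two term family with finitely many zeros, none of them at infinity. -/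
structure TwoFam (I : Ideal R) {c : ℕ} (e : ℕ) (y : Fin c → R[X])
    (Z : Set (PrimeSpectrum R[X])) : Prop where
  deg : ∀ j, (y j).natDegree ≤ e
  inf : ∀ x, UPt I x → ∃ j, (y j).coeff e ∉ x.asIdeal
  good : ∀ x, XPt I x → x ∉ Z → ∃ j, y j ∉ x.asIdeal

section A
/-- The global two term model of a bad point. Let `y` come from `mheq_two_of_almost`, and let `J`
be the contraction of `(y) R[X]_x`. A witness `g` of goodness at another point (or the reflection
of a witness for the reflected family at a point at infinity) vanishes at every prime inside `x`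
that contains `y`, so a power of `g` lies in `J`. Put `y' = y + ζ` with `ζ j ∈ J ^ 2` of degree
`≤ e` chosen by `genPos` (`κ = Unit`, `s = 1`, strata `XPt \ Z` and `UPt`). -/
theorem exists_two_model (hd : ringKrullDim (R ⧸ I) ≤ a) (h : AlmostGood I dg w D Z)
    (hc : sAlt dg 0 + 1 = a) {x : PrimeSpectrum R[X]} (hx : x ∈ Z) :
    ∃ (e : ℕ) (y : Fin a → R[X]) (Z' : Set (PrimeSpectrum R[X])), MaxPts I Z' ∧ Disjoint Z Z' ∧
      TwoFam I e y (Z ∪ Z') ∧
      MHEq (D.map (algebraMap R[X] (Localization.AtPrime x.asIdeal))) dg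
        ((twoM y).map (algebraMap R[X] (Localization.AtPrime x.asIdeal))) (twoDg a) := by
  obtain ⟨hU, hU1, hU2⟩ := exists_height_U hd
  obtain ⟨hX, hX1, hX2⟩ := exists_height_X hd
  obtain ⟨y, hy, hm⟩ := mheq_two_of_almost h.mc (h.bad x hx).1 (h.bad x hx).2 hc
  obtain ⟨K, hK⟩ : ∃ K, K = (maximalIdeal (Localization.AtPrime x.asIdeal) * Ideal.span (Set.range
      fun j => algebraMap R[X] (Localization.AtPrime x.asIdeal) (y j))).comap
        (algebraMap R[X] (Localization.AtPrime x.asIdeal)) := ⟨_, rfl⟩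
  have hXx : X ∉ x.asIdeal := fun hXx => by
    have h1 := (bd_ev0 h.mc).1 h.zero x ⟨h.pt x hx, hXx⟩ 1 le_rfl
    rw [(h.bad x hx).2] at h1
    exact one_ne_zero h1
  have hA : ∀ x', XPt I x' → x' ∉ Z → ∃ f ∈ K, f ∉ x'.asIdeal := fun x' h1 h2 => by
    obtain ⟨g, hg, H, P, hH, hP, he⟩ := exists_witness h.mc (h.good x' h1 h2)
    obtain ⟨n, hn⟩ := InvA.pow_mem h.mc hy hm fun q _ hq => goodAt_of_witness hH hP he hq
    exact ⟨_, hK ▸ hn, fun h3 => hg (x'.2.mem_of_pow_mem n h3)⟩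
  have hB : ∀ p, UPt I p → ∃ n, ∃ f ∈ K, f.natDegree ≤ n ∧ f.coeff n ∉ p.asIdeal := fun p hp => by
    have hE := isMC_grM C 1 X h.mc h.wt
    obtain ⟨g, hg, H, P, hH, hP, he⟩ := exists_witness hE
      ((bd_ev0 hE).1 (by rw [← bd_lead]; exact h.inf) _ (bd_s0 hp))
    obtain ⟨n, hn⟩ := InvA.pow_mem h.mc hy hm (g := hev C 1 X g.natDegree g) fun q hq hgq =>
      InvA.good_of_reflect h.mc h.wt le_rfl (fun q' hq' => goodAt_of_witness hH hP he hq')
        (fun h3 => hXx (hq h3)) hgq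
    have h1 := natDegree_hev_reflect g.natDegree g
    refine ⟨n * g.natDegree, _, hK ▸ hn, natDegree_pow_le_of_le n h1, fun h3 => hg ?_⟩
    rw [coeff_pow_of_natDegree_le h1] at h3
    have h4 := hev_hev_reflect (RingHom.id R) 1 0 g.natDegree g
    rw [hev_lead, hev_one _ _ le_rfl, RingHom.id_apply] at h4
    have h5 := p.2.mem_of_pow_mem n h3
    rw [h4] at h5
    exact h5
  obtain ⟨e, he0, he1, he2⟩ := InvA.exists_deg K (Finset.univ.sup fun j => (y j).natDegree)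
  have := InvA.finite_degreeLE K e
  obtain ⟨γ, hγ⟩ := InvA.gen (N := Fin 2) ![I.map C, I.map C ⊔ Ideal.span {X}]
    ![{x' | XPt I x' ∧ x' ∉ Z}, bdS0 I]
    (Fin.forall_fin_two.mpr ⟨fun x hx => hx.1.1, fun x hx => bd_s0_le hx⟩)
    (Fin.forall_fin_two.mpr ⟨fun x hx x' h1 h2 => ⟨bd_xgen hx.1 h1 h2, fun h3 =>
      hx.2 (h.max x' h3 x hx.1 h2 ▸ h3)⟩, fun x hx x' => bd_s0_gen hx⟩)
    ![hX, fun x => hU (PrimeSpectrum.comap C x)]
    (Fin.forall_fin_two.mpr ⟨fun x hx x' hx' => hX2 x x' hx.1 hx'.1,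
      fun x hx x' hx' hl => hU2 _ _ (bd_xu hx.1) (bd_xu hx'.1) (bd_s0_lt hx hx' hl)⟩)
    (a := a) (Fin.forall_fin_two.mpr ⟨fun x hx => hX1 x hx.1, fun x hx => (hU1 _ (bd_xu hx.1)).le⟩)
    (Γ := K.degreeLE e)
    ![(K.degreeLE e).subtype, monomial 0 ∘ₗ lcoeff R e ∘ₗ (K.degreeLE e).subtype]
    ![y, fun j => C ((y j).coeff e)]
    (Fin.forall_fin_two.mpr ⟨fun x hx => by
      obtain ⟨f, hf, hf'⟩ := he1 _ (hA x hx.1 hx.2)
      exact ⟨⟨f, hf⟩, hf'⟩, fun x hx => by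
      obtain ⟨f, hf, hf'⟩ := he2 _ (hB _ (bd_xu hx.1))
      exact ⟨⟨f, hf⟩, hf'⟩⟩)
  obtain ⟨Z', hZ1, hZ2, hZ3⟩ := hγ 0
  obtain ⟨Z'', -, hZ2', hZ3'⟩ := hγ 1
  refine ⟨e, fun j => y j + (γ j).1, Z', ⟨hZ1, fun x hx => (hZ2 x hx).1.1,
    fun x hx => bd_max hX1 hX2 (hZ2 x hx).1.1 (hZ2 x hx).2.ge⟩,
    Set.disjoint_right.2 fun x hx => (hZ2 x hx).1.2, ⟨fun j => ?_, fun p hp => ?_,
      fun x' h1 h2 => hZ3 x' ⟨h1, fun h3 => h2 (Or.inl h3)⟩ fun h3 => h2 (Or.inr h3)⟩, ?_⟩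
  · exact natDegree_add_le_of_degree_le
      ((Finset.le_sup (f := fun j => (y j).natDegree) (Finset.mem_univ j)).trans he0)
      (natDegree_le_of_degree_le (mem_degreeLE.1 (γ j).2.1))
  · obtain ⟨j, hj⟩ := hZ3' _ (bd_s0 hp) fun hz => by
      have h1 : hU (PrimeSpectrum.comap C _) = a := (hZ2' _ hz).2
      exact (hU1 _ (bd_xu (bd_s0 hp).1)).ne h1
    refine ⟨j, fun h1 => hj ?_⟩
    change evalRingHom 0 (C ((y j).coeff e) + C ((γ j).1.coeff e)) ∈ p.asIdeal
    rwa [← map_add, coe_evalRingHom, eval_C, ← coeff_add]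
  · rw [twoM_map]
    simp only [map_add]
    refine hm.trans (InvA.mheq_perturb _ _ fun j => ?_)
    have h1 : (γ j).1 ∈ K := (γ j).2.2
    exact Ideal.mem_comap.1 (hK ▸ h1)

/-- Interpolation (prime avoidance, `exists_primitive_of_max`). -/
theorem exists_interp {Z' : Set (PrimeSpectrum R[X])} (h : MaxPts I Z) (h' : MaxPts I Z')
    (hd : Disjoint Z Z') :
    (∃ g ∈ (maximalIdeal R).map (C : R →+* R[X]), (∀ x ∈ Z', g ∈ x.asIdeal) ∧
      ∀ x ∈ Z, g ∉ x.asIdeal) ∧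
    ∃ g' : R[X], g' ∉ (maximalIdeal R).map (C : R →+* R[X]) ∧ (∀ x ∈ Z, g' ∈ x.asIdeal) ∧
      ∀ x ∈ Z', g' ∉ x.asIdeal := by
  obtain ⟨m, hm⟩ : ∃ m : PrimeSpectrum R[X], m.asIdeal = (maximalIdeal R).map C :=
    ⟨⟨_, (Ideal.isPrime_map_C_iff_isPrime _).2 inferInstance⟩, rfl⟩
  constructor
  · obtain ⟨g, h1, h2⟩ := InvA.interp (h'.fin.insert m) h.fin (by
      rintro s (rfl | hs) t ht hle
      · refine (h.pt t ht).2 ((maximalIdeal.isMaximal R).eq_of_le
          (Ideal.comap_ne_top _ t.2.ne_top) (Ideal.map_le_iff_le_comap.1 (hm ▸ hle))).symm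
      · exact Set.disjoint_left.1 hd ht (h'.max s hs t (h.pt t ht) hle ▸ hs))
    exact ⟨g, hm ▸ h1 m (Or.inl rfl), fun x hx => h1 x (Or.inr hx), h2⟩
  · obtain ⟨g, h1, h2⟩ := InvA.interp h.fin (h'.fin.insert m) (by
      rintro s hs t (rfl | ht) hle
      · obtain ⟨f, hf, hf'⟩ := exists_primitive_of_max (h.pt s hs) (h.max s hs)
        exact hf' (hm ▸ hle hf)
      · exact Set.disjoint_left.1 hd (h.max s hs t (h'.pt t ht) hle ▸ hs) ht)
    exact ⟨g, hm ▸ h2 m (Or.inl rfl), h1, fun x hx => h2 x (Or.inr hx)⟩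
end A

section B
variable [IsAdicComplete (maximalIdeal R) R] {c m n : ℕ}

theorem AlmostGood.nullOff (h : AlmostGood I dg w D Z) (hc : sAlt dg 0 + 1 = c)
    (hn : ∀ b, dg b ≤ n) (hm : n * c < m) :
    NullOff I (tdg c m dg) (twt c m dg w) (tmat c m dg D) Z := by
  refine ⟨isMC_tmat h.mc, wt_tmat h.wt, fun x hx => ?_,
    fun x hx hz => nullAt_tmat h.mc hc (h.good x hx hz) hn hm⟩
  rw [leadM, grM_tmat _ _ _ h.wt]
  exact nullAt_tmat (isMC_grM _ _ _ h.mc h.wt) hc (h.inf x hx) hn hm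

theorem invB_sAlt (c : ℕ) : sAlt (twoDg c) 0 + 1 = c := by
  simp [sAlt, Fintype.sum_option, twoDg]

theorem invB_le (hn : 1 ≤ n) : ∀ b, twoDg c b ≤ n
  | none => hn
  | some _ => n.zero_le

theorem invB_grM {S S' : Type u} [CommRing S] [CommRing S'] (φ : S →+* S') (x s : S') (e : ℕ)
    (y : Fin c → S[X]) :
    grM φ x s (twoW c e) (twoW c e) (twoM y) = twoM fun j => hev φ x s e (y j) := by
  ext (_ | i) (_ | j) <;> simp [grM, twoM, twoW, hev_zero]

theorem invB_hev {S K : Type u} [CommRing S] [CommRing K] (φ : S →+* K) (x : K) (n : ℕ)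
    (f : S[X]) : hev φ x 0 n f = φ (f.coeff n) * x ^ n := by
  rw [hev, Finset.sum_range_succ, Finset.sum_eq_zero, Nat.sub_self, pow_zero, mul_one, zero_add]
  intro i hi
  rw [zero_pow (Nat.sub_ne_zero_of_lt (Finset.mem_range.1 hi)), mul_zero]

theorem TwoFam.nullOff {e : ℕ} {y : Fin c → R[X]} (h : TwoFam I e y Z) (hn : 1 ≤ n)
    (hm : n * c < m) : Wt (twoW c e) (twoW c e) (twoM y) ∧
    NullOff I (tdg c m (twoDg c)) (twt c m (twoDg c) (twoW c e)) (tmat c m (twoDg c) (twoM y))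
      Z := by
  have hw : Wt (twoW c e) (twoW c e) (twoM y) := by
    rintro (_ | i) (_ | j) hne
    · exact absurd rfl hne
    · exact absurd rfl hne
    · exact h.deg i
    · exact absurd rfl hne
  refine ⟨hw, isMC_tmat (isMC_twoM y), wt_tmat hw, fun x hx => ?_, fun x hx hz =>
    nullAt_tmat (isMC_twoM y) (invB_sAlt c) ((goodAt_twoM_iff y x).2 (h.good x hx hz))
      (invB_le hn) hm⟩
  rw [leadM, grM_tmat _ _ _ hw, invB_grM]
  refine nullAt_tmat (isMC_twoM _) (invB_sAlt c) ((goodAt_twoM_iff _ x).2 ?_) (invB_le hn) hm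
  simpa only [hev_lead, RingHom.id_apply] using h.inf x hx

/-- `exists_isUnit_eval`, `exists_divisor_algebra`, `grM_tmat`, `twoTerm_vanish`. A prime of `R'`
over a point of `U` either contains `s` (then `x` is a unit there and `hev y` is the leading
coefficient) or gives a point of `XPt` containing `v` (`hev_of_mul`). -/
theorem TwoFam.iv_eq_zero (hd : CIData d a I) (hK : KHyp a p I δ) {e : ℕ} {y : Fin a → R[X]}
    (h : TwoFam I e y Z) (hn : 1 ≤ n) (hm : n * a < m) {v : R[X]} {e' : ℕ} (hv : Av Z e' v)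
    (hp : v ∉ (maximalIdeal R).map (C : R →+* R[X])) (k : ℕ) :
    δ.Iv (tmat a m (twoDg a) (twoM y)) (tdg a m (twoDg a)) (twt a m (twoDg a) (twoW a e)) v e' k
      = 0 := by
  obtain ⟨l, hl⟩ := exists_isUnit_eval hp
  obtain ⟨R', _, _, _, _, x, s, hxs, h0, key⟩ := exists_divisor_algebra hv.deg hl
  obtain ⟨hw, hN⟩ := h.nullOff hn hm
  have hy : δ.mem (R' ⧸ Ideal.span (Set.range fun j => hev (algebraMap R R') x s e (y j))) := by
    rw [hK.mem_iff, inA_iff_local]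
    intro z hz
    by_contra hcon
    push Not at hcon
    obtain ⟨P, hP, _, hPz⟩ := Ideal.exists_ideal_over_prime_of_isIntegral z.asIdeal
      (Ideal.span (Set.range fun j => hev (algebraMap R R') x s e (y j))) fun t ht => by
        by_contra h1
        refine hcon t h1 (Module.mem_annihilator.2 fun q => ?_)
        obtain ⟨q, rfl⟩ := Ideal.Quotient.mk_surjective q
        rw [← algebraMap_smul R']
        exact Ideal.Quotient.eq_zero_iff_mem.2 (Ideal.mul_mem_right q _ ht)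
    let ψ := algebraMap R' P.ResidueField
    have hψ : ∀ t, ψ t = 0 ↔ t ∈ P := fun t => Ideal.algebraMap_residueField_eq_zero
    have hφ : ∀ t, ψ.comp (algebraMap R R') t = 0 ↔ t ∈ z.asIdeal := fun t => by
      rw [← hPz]; exact hψ _
    have h1 : ∀ j, hev (ψ.comp (algebraMap R R')) (ψ x) (ψ s) e (y j) = 0 := fun j => by
      rw [← map_hev]
      exact (hψ _).2 (hP (Ideal.subset_span ⟨j, rfl⟩))
    have h2 : hev (ψ.comp (algebraMap R R')) (ψ x) (ψ s) e' v = 0 := by rw [← map_hev, h0, map_zero]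
    by_cases hs : ψ s = 0
    · obtain ⟨j, hj⟩ := h.inf z hz
      have h3 := h1 j
      rw [hs, invB_hev, mul_eq_zero, hφ] at h3
      have h4 : x ∈ P := (hψ x).1 (eq_zero_of_pow_eq_zero (h3.resolve_left hj))
      refine Ideal.IsPrime.ne_top' (I := P) (top_le_iff.1 (hxs ▸ Ideal.span_le.2 ?_))
      rintro _ (rfl | rfl)
      · exact h4
      · exact (hψ _).1 hs
    · rw [← div_mul_cancel₀ (ψ x) hs] at h1 h2
      let q : PrimeSpectrum R[X] :=
        ⟨RingHom.ker (eval₂RingHom (ψ.comp (algebraMap R R')) (ψ x / ψ s)), RingHom.ker_isPrime _⟩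
      have hq : ∀ t, C t ∈ q.asIdeal ↔ t ∈ z.asIdeal := fun t => by
        rw [← hφ, RingHom.mem_ker, coe_eval₂RingHom, eval₂_C]
      have hq' : ∀ {f : R[X]} {N : ℕ}, f.natDegree ≤ N →
          hev (ψ.comp (algebraMap R R')) (ψ x / ψ s * ψ s) (ψ s) N f = 0 → f ∈ q.asIdeal :=
        fun hf h3 => by
          rw [hev_of_mul _ _ hf] at h3
          exact (mul_eq_zero.1 h3).resolve_right (pow_ne_zero _ hs)
      obtain ⟨j, hj⟩ := h.good q ⟨Ideal.map_le_iff_le_comap.2 fun t ht => (hq t).2 (hz.1 ht),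
        fun e => hz.2 (e ▸ Ideal.ext fun t => (hq t).symm)⟩ fun hz' => hv.av q hz' (hq' hv.deg h2)
      exact hj (hq' (h.deg j) (h1 j))
  obtain ⟨h1, h2⟩ := twoTerm_vanish hd hK R' _ hy hn hm
  rw [← invB_grM, ← grM_tmat _ _ _ hw] at h1 h2
  rw [key δ _ _ _ k hN.mc hN.wt h1, h2]

/-- Changing the divisor at one bad point. With `g, g'` from `exists_interp` put `u = v g + g'`,
`u' = v' g + g'`; use `iv_loc` for the family (`u` versus `v g`) and for the cone of the map to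
the two term model (`u` versus `u'`), and `TwoFam.iv_eq_zero`. -/
theorem AlmostGood.iv_point (hd : CIData d a I) (hK : KHyp a p I δ) (h : AlmostGood I dg w D Z)
    (hc : sAlt dg 0 + 1 = a) (hn : ∀ b, dg b ≤ n) (hn1 : 1 ≤ n) (hm : n * a < m)
    {x₀ : PrimeSpectrum R[X]} (hx : x₀ ∈ Z) {v v' : R[X]} {e : ℕ} (hv : Av Z e v)
    (hv' : Av Z e v') (hvv : ∀ x ∈ Z, x ≠ x₀ → v - v' ∈ x.asIdeal) :
    δ.Iv (tmat a m dg D) (tdg a m dg) (twt a m dg w) v e 0 =
      δ.Iv (tmat a m dg D) (tdg a m dg) (twt a m dg w) v' e 0 := by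
  have NT := h.nullOff hc hn hm
  obtain ⟨e₁, y, Z', hZ', hdis, hy, hq⟩ := exists_two_model hd.dim h hc hx
  obtain ⟨-, NS⟩ := hy.nullOff hn1 hm
  have hq' := hq.tmat (c := a) (isMC_map h.mc _) (isMC_map (isMC_twoM y) _) hn (invB_le hn1) hm
  rw [← tmat_map, ← tmat_map] at hq'
  obtain ⟨F, hF, hFc, hnull⟩ := exists_cone_nullAt NT.mc NS.mc hq'
  obtain ⟨k, hk⟩ := exists_wt_shift F (twt a m dg w) (twt a m (twoDg a) (twoW a e₁))
  have NC := nullOff_cone NT NS hF hFc hk hnull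
  obtain ⟨⟨g, hg, hg1, hg2⟩, g', hg', hg3, hg4⟩ :=
    exists_interp (⟨h.fin, h.pt, h.max⟩ : MaxPts I Z) hZ' hdis
  have Ag : Av Z (g.natDegree + g'.natDegree) g :=
    ⟨fun e => hg2 x₀ hx (e ▸ zero_mem _), Nat.le_add_right _ _, hg2⟩
  have key : ∀ {t : R[X]}, Av Z e t →
      Av (Z ∪ Z') (e + (g.natDegree + g'.natDegree)) (t * g + g') ∧
      δ.Iv (coneM (tmat a m dg D) (tmat a m (twoDg a) (twoM y)) F)
        (coneDg (tdg a m dg) (tdg a m (twoDg a)))
        (Sum.elim (twt a m dg w) fun b => twt a m (twoDg a) (twoW a e₁) b + k) (t * g + g')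
        (e + (g.natDegree + g'.natDegree)) 0 =
      -(δ.Iv (tmat a m dg D) (tdg a m dg) (twt a m dg w) t e 0 +
        δ.Iv (tmat a m dg D) (tdg a m dg) (twt a m dg w) g (g.natDegree + g'.natDegree) 0) := by
    intro t ht
    have h1 : t * g + g' ∉ (maximalIdeal R).map (C : R →+* R[X]) := fun h1 =>
      hg' ((Ideal.add_mem_iff_right _ (Ideal.mul_mem_left _ t hg)).1 h1)
    have h2 : Av Z (e + (g.natDegree + g'.natDegree)) (t * g) :=
      ⟨mul_ne_zero ht.ne Ag.ne, natDegree_mul_le.trans (add_le_add ht.deg Ag.deg),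
        fun x hx h2 => (x.isPrime.mem_or_mem h2).elim (ht.av x hx) (hg2 x hx)⟩
    have h3 : Av (Z ∪ Z') (e + (g.natDegree + g'.natDegree)) (t * g + g') := by
      refine ⟨fun e => h1 (e ▸ zero_mem _), natDegree_add_le_of_degree_le h2.deg (by omega), ?_⟩
      rintro x (hx | hx) h3
      · exact h2.av x hx ((Ideal.add_mem_iff_left _ (hg3 x hx)).1 h3)
      · exact hg4 x hx ((Ideal.add_mem_iff_right _ (Ideal.mul_mem_left _ t (hg1 x hx))).1 h3)
    have h4 : Av Z (e + (g.natDegree + g'.natDegree)) (t * g + g') :=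
      ⟨h3.ne, h3.deg, fun x hx => h3.av x (Or.inl hx)⟩
    refine ⟨h3, ?_⟩
    rw [iv_cone NT.mc NT.wt NS.mc NS.wt hF hFc hk h3.ne h3.deg (NT.ifin hK.mem_iff h4 _)
      (NS.ifin hK.mem_iff h3 _), hy.iv_eq_zero hd hK hn1 hm h3 h1, zero_sub,
      NT.iv_loc hK h.fin h4 h2 fun x hx => by rw [add_sub_cancel_left]; exact hg3 x hx,
      NT.iv_mul hK.mem_iff ht Ag]
  obtain ⟨a1, a2⟩ := key hv
  obtain ⟨b1, b2⟩ := key hv'
  have sub : ∀ x ∈ (Z ∪ (Z ∪ Z')) \ {x₀}, x ∈ Z ∪ Z' := fun x hx => hx.1.elim Or.inl id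
  have h1 := NC.iv_loc hK ((h.fin.union hZ'.fin).subset sub)
    ⟨a1.ne, a1.deg, fun x hx => a1.av x (sub x hx)⟩ ⟨b1.ne, b1.deg, fun x hx => b1.av x (sub x hx)⟩
    fun x hx => by
      rw [add_sub_add_right_eq_sub, ← sub_mul]
      rcases sub x hx with h1 | h1
      · exact Ideal.mul_mem_right _ _ (hvv x h1 hx.2)
      · exact Ideal.mul_mem_left _ _ (hg1 x h1)
  rw [a2, b2] at h1
  exact add_right_cancel (neg_injective h1)

/-- The Euler characteristic of the derived exterior power. -/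
noncomputable def tau (δ : AddFun R) (c m : ℕ) (dg : ι → ℕ) (E : Matrix ι ι R) : ℝ :=
  δ.meul (tmat c m dg E) (tdg c m dg) R

theorem AlmostGood.invB_X (h : AlmostGood I dg w D Z) : Av Z 1 X := by
  refine ⟨X_ne_zero, natDegree_X_le, fun x hx hX => ?_⟩
  have h1 := h.zero (PrimeSpectrum.comap C x)
    ⟨Ideal.map_le_iff_le_comap.1 (h.pt x hx).1, (h.pt x hx).2⟩ 1 le_rfl
  have h2 : PrimeSpectrum.comap (evalRingHom 0) (PrimeSpectrum.comap C x) = x := by
    ext f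
    change C (eval 0 f) ∈ x.asIdeal ↔ _
    rw [← coeff_zero_eq_eval_zero]
    conv_rhs => rw [← f.divX_mul_X_add]
    exact (Ideal.add_mem_iff_right _ (Ideal.mul_mem_left _ _ hX)).symm
  rw [ev0M, hk_comap h.mc, h2, (h.bad x hx).2] at h1
  exact one_ne_zero h1

/-- Invariance. If `Z` is empty use `iv_loc` with `X` and `1`. Otherwise take `e x ∉ x` in all
other points of `Z`, `g = ∑ e x`, and pass from `1 * g` to `X * g` through
`X * (∑ x ∈ A, e x) + ∑ x ∉ A, e x`, one point at a time. (`X` avoids `Z` by `h.zero`.) -/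
theorem AlmostGood.tau_eq (hd : CIData d a I) (hK : KHyp a p I δ) (h : AlmostGood I dg w D Z)
    (hc : sAlt dg 0 + 1 = c) (hZ : Z = ∅ ∨ sAlt dg 0 + 1 = a) (hn : ∀ b, dg b ≤ n) (hn1 : 1 ≤ n)
    (hm : n * c < m) : tau δ c m dg (ev0M D) = tau δ c m dg (leadM w D) := by
  classical
  have NT := h.nullOff hc hn hm
  have AX := h.invB_X
  have A1 : Av Z 1 (1 : R[X]) :=
    ⟨one_ne_zero, by simp, fun x _ => (Ideal.ne_top_iff_one _).1 x.isPrime.ne_top⟩
  rw [tau, tau, ev0M, ← tmat_map, leadM, ← grM_tmat _ _ _ h.wt]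
  refine ((iv_X NT.mc NT.wt 0).2 (NT.ifin hK.mem_iff AX 0)).symm.trans
    (Eq.trans ?_ ((iv_one NT.mc NT.wt 0).2 (NT.ifin hK.mem_iff A1 0)))
  rcases Z.eq_empty_or_nonempty with h0 | ⟨x₁, hx₁⟩
  · exact NT.iv_loc hK h.fin AX A1 fun x hx => absurd (h0 ▸ hx) (Set.notMem_empty x)
  have ha := hZ.resolve_left fun e => absurd (e ▸ hx₁) (Set.notMem_empty x₁)
  obtain rfl : c = a := by exact_mod_cast hc.symm.trans ha
  have h1 : ∀ z, ∃ ε : R[X], z ∈ Z → ε ∉ z.asIdeal ∧ ∀ x ∈ Z, x ≠ z → ε ∈ x.asIdeal := by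
    intro z
    by_cases hz : z ∈ Z
    · have h2 : ∀ x, ∃ f : R[X], f ∉ z.asIdeal ∧ (x ∈ Z → x ≠ z → f ∈ x.asIdeal) := fun x => by
        by_cases hx : x ∈ Z ∧ x ≠ z
        · obtain ⟨f, h1, h2⟩ := SetLike.not_le_iff_exists.1
            fun hle : x.asIdeal ≤ z.asIdeal => hx.2 (h.max x hx.1 z (h.pt z hz) hle).symm
          exact ⟨f, h2, fun _ _ => h1⟩
        · exact ⟨1, A1.av z hz, fun h1 h2 => absurd ⟨h1, h2⟩ hx⟩
      choose f hf hf' using h2
      refine ⟨∏ x ∈ h.fin.toFinset, f x, fun _ => ⟨fun h2 => ?_, fun x hx hne => ?_⟩⟩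
      · obtain ⟨x, -, h3⟩ := Ideal.IsPrime.prod_mem_iff.1 h2
        exact hf x h3
      · exact Ideal.mem_of_dvd _ (Finset.dvd_prod_of_mem f (h.fin.mem_toFinset.2 hx)) (hf' x hx hne)
    · exact ⟨1, fun h => absurd h hz⟩
  choose ε hε using h1
  obtain ⟨N, hN⟩ : ∃ N, ∀ z ∈ h.fin.toFinset, (ε z).natDegree ≤ N :=
    ⟨_, fun z hz => Finset.le_sup (f := fun z => (ε z).natDegree) hz⟩
  have av : ∀ (k : ℕ) (t : PrimeSpectrum R[X] → R[X]), (∀ z, Av Z k (t z)) →
      Av Z (k + N) (∑ z ∈ h.fin.toFinset, t z * ε z) := fun k t ht => by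
    have h1 : ∀ x ∈ Z, ∑ z ∈ h.fin.toFinset, t z * ε z ∉ x.asIdeal := fun x hx h1 => by
      rw [← Finset.add_sum_erase _ _ (h.fin.mem_toFinset.2 hx),
        Ideal.add_mem_iff_left _ (Ideal.sum_mem _ fun z hz => Ideal.mul_mem_left _ _
          ((hε z (h.fin.mem_toFinset.1 (Finset.mem_of_mem_erase hz))).2 x hx
            (Finset.ne_of_mem_erase hz).symm))] at h1
      exact (x.isPrime.mem_or_mem h1).elim ((ht x).av x hx) (hε x hx).1
    exact ⟨fun e => h1 x₁ hx₁ (e ▸ zero_mem _), natDegree_sum_le_of_forall_le _ _ fun z hz =>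
      natDegree_mul_le.trans (add_le_add (ht z).deg (hN z hz)), h1⟩
  have Ag := av 0 (fun _ => 1) fun _ => ⟨one_ne_zero, by simp, A1.av⟩
  simp only [one_mul, zero_add] at Ag
  have av' : ∀ A : Finset (PrimeSpectrum R[X]),
      Av Z (1 + N) (∑ z ∈ h.fin.toFinset, (if z ∈ A then X else 1) * ε z) := fun A =>
    av 1 _ fun z => by split_ifs; exacts [AX, A1]
  have key : ∀ A ⊆ h.fin.toFinset, δ.Iv (tmat c m dg D) (tdg c m dg) (twt c m dg w)
      (∑ z ∈ h.fin.toFinset, (if z ∈ A then X else 1) * ε z) (1 + N) 0 =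
      δ.Iv (tmat c m dg D) (tdg c m dg) (twt c m dg w)
        (1 * ∑ z ∈ h.fin.toFinset, ε z) (1 + N) 0 := by
    intro A hA
    induction A using Finset.induction_on with
    | empty => simp only [Finset.notMem_empty, if_false, one_mul]
    | insert x₀ A _ ih =>
      have hx₀ := h.fin.mem_toFinset.1 (hA (Finset.mem_insert_self _ _))
      refine Eq.trans ?_ (ih ((Finset.subset_insert _ _).trans hA))
      refine h.iv_point hd hK hc hn hn1 hm hx₀ (av' _) (av' _) fun x hx hne => ?_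
      rw [← Finset.sum_sub_distrib]
      refine Ideal.sum_mem _ fun z _ => ?_
      rw [← sub_mul]
      by_cases hz : z = x₀
      · exact Ideal.mul_mem_left _ _ (hz ▸ (hε x₀ hx₀).2 x hx hne)
      · simp only [Finset.mem_insert, hz, false_or, sub_self, zero_mul, zero_mem]
  have h2 := key _ le_rfl
  rw [Finset.sum_congr rfl fun z hz => by rw [if_pos hz], ← Finset.mul_sum,
    NT.iv_mul hK.mem_iff AX Ag, NT.iv_mul hK.mem_iff A1 Ag] at h2
  exact add_right_cancel h2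
end B

end Vale.Agent.P177
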