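import Vale.Agent.P177.KappaAuxA

/-! P177 module Kappa: the generic multiplicity of the derived exterior power of the Koszul
complex plus a free module of rank `c - 1` is `(-1) ^ (c - 1) * (c - 1)!`. Pure combinatorics. -/

namespace Vale.Agent.P177

namespace Kap

open Finset

variable {K : Type*} [CommRing K]

open PowerSeries in
theorem series (d : ℕ) {τ : K} (hτ : τ * τ = 0) : ∃ e : ℕ → K, e 0 = 1 ∧
    (∀ k, e (k + 1) * (k + 1) = ∑ a ∈ antidiagonal k,
      e a.1 * ((-1) ^ a.2 * (τ * (a.2 + 1) ^ (d + 1) + d))) ∧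
    e (d + 1) = (-1) ^ d * d.factorial * τ := by
  let A : K⟦X⟧ := (1 + X) ^ d
  let I : K⟦X⟧ := mk fun i => (-1) ^ i
  let D0 : K⟦X⟧ := mk fun i => (-1) ^ i * (i + 1) ^ d
  let D1 : K⟦X⟧ := mk fun i => (-1) ^ i * (i + 1) ^ (d + 1)
  have hI : (1 + X) * I = 1 := by
    ext (_ | n)
    · simp [I]
    · simp [I, add_mul, coeff_succ_X_mul, pow_succ, coeff_one]
  have hA : d⁄dX K A = C (d : K) * (A * I) := by
    rcases d with _ | d
    · simp [A]
    · simp only [A]
      rw [Derivation.leibniz_pow, pow_succ, mul_assoc, hI]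
      simp
  have hD : d⁄dX K (X * D0) = D1 := by
    ext n
    rw [coeff_derivative, coeff_succ_X_mul]
    simp only [D0, D1, coeff_mk]
    ring
  have hτ' : (C τ : K⟦X⟧) * C τ = 0 := by rw [← map_mul, hτ, map_zero]
  have hE : d⁄dX K (A + C τ * (A * (X * D0)))
      = (A + C τ * (A * (X * D0))) * (C τ * D1 + C (d : K) * I) := by
    rw [map_add, Derivation.leibniz, Derivation.leibniz, hD, hA, derivative_C]
    simp only [smul_eq_mul]
    linear_combination (-(A * (X * D0) * D1)) * hτ'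
  have cA : ∀ n, coeff n A = d.choose n := fun n => by
    have : A = ((1 + Polynomial.X) ^ d : Polynomial K) := by simp [A]
    rw [this, Polynomial.coeff_coe, Polynomial.coeff_one_add_X_pow]
  refine ⟨fun n => coeff n (A + C τ * (A * (X * D0))), by simp [A], fun k => ?_, ?_⟩
  · rw [← coeff_derivative, hE, PowerSeries.coeff_mul]
    refine sum_congr rfl fun a _ => congrArg _ ?_
    simp only [map_add, PowerSeries.coeff_C_mul, D1, I, coeff_mk]
    ring
  · have h := congrFun (fwdDiff_iter_eq_factorial (R := K) (n := d)) 1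
    rw [fwdDiff_iter_eq_sum_shift] at h
    dsimp only
    rw [map_add, cA, Nat.choose_succ_self, Nat.cast_zero, zero_add, PowerSeries.coeff_C_mul,
      mul_left_comm, coeff_succ_X_mul, mul_comm A, PowerSeries.coeff_mul,
      Nat.sum_antidiagonal_eq_sum_range_succ_mk, mul_comm τ, Pi.natCast_apply] at *
    rw [← h, mul_sum]
    refine congrArg (· * τ) (sum_congr rfl fun i hi => ?_)
    have hi' := Nat.lt_succ_iff.1 (mem_range.1 hi)
    obtain ⟨j, rfl⟩ := Nat.exists_eq_add_of_le hi'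
    have : (-1 : K) ^ j * (-1) ^ j = 1 := by rw [← mul_pow]; simp
    simp only [D0, coeff_mk, cA, Nat.add_sub_cancel_left, nsmul_eq_mul, zsmul_eq_mul, mul_one,
      Nat.choose_symm_add (a := i) (b := j)]
    push_cast
    rw [add_comm (1 : K)]
    linear_combination (-((-1) ^ i * ((i : K) + 1) ^ (i + j) * ((i + j).choose j : K))) * this

open Polynomial

/-- Newton identities. -/
theorem newton {J : Type} [Fintype J] (z : J → K) (k : ℕ) :
    (∑ S ∈ powersetCard (k + 1) (univ : Finset J), ∏ x ∈ S, z x) * (k + 1)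
      = ∑ a ∈ antidiagonal k, (∑ S ∈ powersetCard a.1 (univ : Finset J), ∏ x ∈ S, z x) *
          ((-1) ^ a.2 * ∑ x, z x ^ (a.2 + 1)) := by
  have h := congrArg (MvPolynomial.eval z) (MvPolynomial.mul_esymm_eq_sum J K (k + 1))
  rw [sum_filter, Nat.sum_antidiagonal_succ', if_neg (lt_irrefl _), zero_add] at h
  simp only [MvPolynomial.esymm, MvPolynomial.psum, map_mul, map_sum, map_prod, map_pow, map_neg,
    map_one, map_natCast, MvPolynomial.eval_X, apply_ite, map_zero] at h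
  push_cast at h
  rw [mul_comm, h, mul_sum]
  refine sum_congr rfl fun a ha => ?_
  have ha' := mem_antidiagonal.1 ha
  rw [if_pos (by omega), ← ha']
  have : (-1 : K) ^ a.1 * (-1) ^ a.1 = 1 := by rw [← mul_pow]; simp
  generalize ∑ S ∈ powersetCard a.1 (univ : Finset J), ∏ x ∈ S, z x = e
  generalize ∑ x, z x ^ (a.2 + 1) = p
  linear_combination ((-1) ^ a.2 * e * p) * this

theorem exists_bin (iv : ℕ → K) (hiv : ∀ k, iv k * (k + 1) = 1) (j : ℕ) : ∃ β : K[X],
    β.natDegree ≤ j ∧ (∀ n : ℕ, β.eval (n : K) = n.choose j) ∧ β.eval (-1) = (-1) ^ j := by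
  induction j with
  | zero => exact ⟨1, by simp, by simp, by simp⟩
  | succ j ih =>
    obtain ⟨β, h1, h2, h3⟩ := ih
    refine ⟨C (iv j) * (β * (X - C (j : K))), (natDegree_C_mul_le _ _).trans
      (natDegree_mul_le.trans (add_le_add h1 (natDegree_X_sub_C_le _))), fun n => ?_, ?_⟩
    · have h : (n.choose (j + 1) : K) * (j + 1) = n.choose j * (n - j) := by
        rcases Nat.lt_or_ge n j with h | h
        · simp [Nat.choose_eq_zero_of_lt h, Nat.choose_eq_zero_of_lt (Nat.lt_succ_of_lt h)]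
        · rw [← Nat.cast_sub h]
          exact_mod_cast congrArg (Nat.cast : ℕ → K) (Nat.choose_succ_right_eq n j)
      simp only [eval_mul, eval_C, eval_sub, eval_X, h2]
      linear_combination (n.choose (j + 1) : K) * hiv j - iv j * h
    · simp only [eval_mul, eval_C, eval_sub, eval_X, h3]
      linear_combination (-(-1) ^ j) * hiv j

theorem exists_interp (iv : ℕ → K) (hiv : ∀ k, iv k * (k + 1) = 1) {D : ℕ} (p : ℕ → K[X])
    (hp : ∀ i, (p i).natDegree ≤ D) (j : ℕ) : ∃ f : K[X], f.natDegree ≤ j * D ∧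
      ∀ (z : K) (e : ℕ → K), e 0 = 1 →
        (∀ k, e (k + 1) * (k + 1) = ∑ a ∈ antidiagonal k, e a.1 * (p a.2).eval z) →
        f.eval z = e j := by
  induction j using Nat.strong_induction_on with
  | _ j ih =>
    rcases j with _ | k
    · exact ⟨1, by simp, fun z e h _ => by simp [h]⟩
    choose! f h1 h2 using ih
    refine ⟨C (iv k) * ∑ a ∈ antidiagonal k, f a.1 * p a.2, (natDegree_C_mul_le _ _).trans
      (natDegree_sum_le_of_forall_le _ _ fun a ha => ?_), fun z e h0 he => ?_⟩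
    · have ha' := mem_antidiagonal.1 ha
      refine natDegree_mul_le.trans ((add_le_add (h1 a.1 (by omega)) (hp _)).trans ?_)
      rw [← add_one_mul]
      exact Nat.mul_le_mul_right _ (by omega)
    · rw [eval_mul, eval_C, eval_finsetSum, sum_congr rfl (g := fun a => e a.1 * (p a.2).eval z)
        fun a ha => by
          have ha' := mem_antidiagonal.1 ha
          rw [eval_mul, h2 a.1 (by omega) z e h0 he], ← he]
      linear_combination e (k + 1) * hiv k

theorem telescope (f : K → K) (n : ℕ) :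
    ∑ q ∈ range n, (-1) ^ q * (fwdDiff 1)^[q] f 0
      = f (-1) - (-1) ^ n * (fwdDiff 1)^[n] f (-1) := by
  induction n with
  | zero => simp
  | succ n ih =>
    rw [sum_range_succ, ih, Function.iterate_succ_apply', fwdDiff, neg_add_cancel]
    ring

/-- The Euler characteristic of the derived exterior power is computed by Newton identities. -/
theorem euler (iv : ℕ → K) (hiv : ∀ k, iv k * (k + 1) = 1) {B : Type} [Fintype B] {dg : B → ℕ}
    {c m D : ℕ} (hD : ∀ b, dg b ≤ D) (hm : c * D ≤ m) (g : B → K) (e : ℕ → K) (h0 : e 0 = 1)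
    (he : ∀ k, e (k + 1) * (k + 1) = ∑ a ∈ antidiagonal k,
      e a.1 * ((-1) ^ a.2 * ∑ b, (-1) ^ dg b * g b ^ (a.2 + 1))) :
    ∑ y : TI c m dg, (-1 : K) ^ (y.q : ℕ) * ∏ x ∈ y.S.1, g x.b = e c := by
  choose β b1 b2 b3 using exists_bin iv hiv
  obtain ⟨f, f1, f2⟩ := exists_interp iv hiv (D := D)
    (fun i => C ((-1) ^ i) * ∑ b, β (dg b) * C (g b ^ (i + 1))) (fun i =>
      (natDegree_C_mul_le _ _).trans (natDegree_sum_le_of_forall_le _ _ fun b _ =>
        (natDegree_mul_C_le _ _).trans ((b1 _).trans (hD b)))) c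
  simp only [eval_mul, eval_C, eval_finsetSum] at f2
  have key : ∀ U ⊆ Icc 1 m, ∑ S ∈ powersetCard c (univ : Finset (SJ m dg)),
      ∏ x ∈ S, (if jset x.η ⊆ U then g x.b else 0) = f.eval (U.card : K) := by
    intro U hU
    refine (f2 _ (fun j => ∑ S ∈ powersetCard j (univ : Finset (SJ m dg)),
      ∏ x ∈ S, (if jset x.η ⊆ U then g x.b else 0)) (by simp) fun k => ?_).symm
    rw [newton]
    refine sum_congr rfl fun a _ => ?_
    simp only [b2]
    rw [← sum_sj hU fun b => g b ^ (a.2 + 1)]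
    simp only [ite_pow, zero_pow (Nat.succ_ne_zero _)]
  have t := telescope f.eval (m + 1)
  rw [fwdDiff_iter_eq_zero_of_degree_lt (Nat.lt_succ_of_le (f1.trans hm)), Pi.zero_apply, mul_zero,
    sub_zero, f2 (-1) e h0 (by simpa only [b3] using he)] at t
  rw [sum_ti, ← t]
  refine sum_congr rfl fun q hq => congrArg _ ?_
  have hq' : Icc 1 q ⊆ Icc 1 m := Icc_subset_Icc_right (Nat.lt_succ_iff.1 (mem_range.1 hq))
  rw [sum_congr rfl (g := fun U => (fun i : ℕ => (-1 : K) ^ i * f.eval ((q - i : ℕ) : K)) U.card)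
    fun U hU => by
      rw [key _ (sdiff_subset.trans hq'), card_sdiff_of_subset (mem_powerset.1 hU), Nat.card_Icc,
        Nat.add_sub_cancel],
    sum_powerset_apply_card (fun i : ℕ => (-1 : K) ^ i * f.eval ((q - i : ℕ) : K)), Nat.card_Icc, Nat.add_sub_cancel, fwdDiff_iter_eq_sum_shift,
    ← sum_flip]
  refine sum_congr rfl fun i hi => ?_
  have hi' := Nat.lt_succ_iff.1 (mem_range.1 hi)
  rw [Nat.choose_symm hi', Nat.sub_sub_self hi']
  simp only [nsmul_eq_mul, zsmul_eq_mul, zero_add, mul_one]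
  push_cast
  ring

theorem geom {t : K} {c : ℕ} (h : (1 - t) ^ (c + 1) = 0) (k : ℕ) :
    (1 - t ^ k) ^ c = (1 - t) ^ c * (k : K) ^ c := by
  have h1 : (1 - t) ∣ (∑ i ∈ range k, t ^ i) - k := by
    have : (∑ i ∈ range k, t ^ i) - k = ∑ i ∈ range k, (t ^ i - 1) := by simp
    rw [this, ← neg_sub, neg_dvd]
    exact dvd_sum fun i _ => sub_one_dvd_pow_sub_one t i
  obtain ⟨r, hr⟩ := h1.trans (sub_dvd_pow_sub_pow _ _ c)
  rw [← mul_neg_geom_sum, mul_pow]
  linear_combination (1 - t) ^ c * hr + r * h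

theorem dvd_kp {d m : ℕ} (hm : (d + 1) * (d + 1) ≤ m) : ((1 - X) ^ (d + 1 + 1) : ℝ[X]) ∣
    ∑ y : TI (d + 1) m (kpDg (d + 1)), (-1) ^ tdg (d + 1) m (kpDg (d + 1)) y *
      X ^ twt (d + 1) m (kpDg (d + 1)) (kpDg (d + 1)) y
      - C ((-1) ^ d * d.factorial : ℝ) * (1 - X) ^ (d + 1) := by
  rw [← AdjoinRoot.mk_eq_mk]
  have h0 : (1 - AdjoinRoot.root ((1 - X) ^ (d + 1 + 1) : ℝ[X])) ^ (d + 1 + 1) = 0 := by
    have := AdjoinRoot.mk_self (f := ((1 - X) ^ (d + 1 + 1) : ℝ[X]))
    rwa [map_pow, map_sub, map_one, AdjoinRoot.mk_X] at this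
  simp only [map_sum, map_mul, map_pow, map_neg, map_one, map_sub, AdjoinRoot.mk_X, map_natCast]
  generalize AdjoinRoot.root ((1 - X) ^ (d + 1 + 1) : ℝ[X]) = t at h0
  obtain ⟨e, e0, e1, e2⟩ := series d (τ := (1 - t) ^ (d + 1))
    (by linear_combination (1 - t) ^ d * h0)
  rw [← e2, ← euler (fun k => algebraMap ℝ _ ((k + 1 : ℝ)⁻¹)) (fun k => ?_) (dg := kpDg (d + 1))
    (D := d + 1) (fun b => ?_) hm (fun b => t ^ kpDg (d + 1) b) e e0 fun k => ?_]
  · simp only [tdg, twt, prod_pow_eq_pow_sum]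
  · have : ((k : ℝ) + 1)⁻¹ * (k + 1) = 1 := inv_mul_cancel₀ (by positivity)
    simpa using congrArg (algebraMap ℝ (AdjoinRoot ((1 - X) ^ (d + 1 + 1) : ℝ[X]))) this
  · rcases b with b | b
    · exact (card_le_univ b).trans (by simp)
    · exact Nat.zero_le _
  · rw [e1]
    refine sum_congr rfl fun a _ => congrArg _ (congrArg _ ?_)
    have h1 := geom h0 (a.2 + 1)
    have h2 := Fin.sum_pow_mul_eq_add_pow (n := d + 1) (-t ^ (a.2 + 1)) 1
    rw [Fintype.sum_sum_type]
    simp only [kpDg, Sum.elim_inl, Sum.elim_inr, pow_zero, one_pow, mul_one, sum_const, card_univ,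
      Fintype.card_fin, Nat.add_sub_cancel, nsmul_eq_mul] at h2 ⊢
    push_cast at h1
    rw [← h1, sub_eq_neg_add 1 (t ^ (a.2 + 1)), ← h2]
    refine congrArg (· + _) (sum_congr rfl fun s _ => ?_)
    rw [neg_pow, pow_right_comm]

end Kap

open Polynomial in
theorem kappa_ne_zero {c m : ℕ} (hc : 0 < c) (hm : c * c ≤ m) : ∃ N₀ : ℕ, ∀ N ≥ N₀,
    (∑ y : TI c m (kpDg c), (-1 : ℝ) ^ tdg c m (kpDg c) y *
      ((N - twt c m (kpDg c) (kpDg c) y + c - 1).choose c : ℝ)) ≠ 0 := by
  obtain ⟨d, rfl⟩ : ∃ d, c = d + 1 := ⟨c - 1, by omega⟩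
  obtain ⟨r, hr⟩ := Kap.dvd_kp hm
  obtain ⟨M, hM⟩ := Finite.exists_le (twt (d + 1) m (kpDg (d + 1)) (kpDg (d + 1)))
  refine ⟨M + r.natDegree + 2, fun N hN => ?_⟩
  have h1 := PowerSeries.mk_add_choose_mul_one_sub_pow_eq_one ℝ (d + 1)
  have h2 := PowerSeries.mk_one_mul_one_sub_eq_one ℝ
  have h3 := congrArg Polynomial.coeToPowerSeries.ringHom hr
  simp only [map_sum, map_mul, map_pow, map_neg, map_one, map_sub, coeToPowerSeries.ringHom_apply,
    coe_X, coe_C] at h3
  generalize hu : (PowerSeries.mk fun n => ((d + 1 + n).choose (d + 1) : ℝ)) = u at h1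
  have h4 : (∑ y : TI (d + 1) m (kpDg (d + 1)), (-1) ^ tdg (d + 1) m (kpDg (d + 1)) y *
      PowerSeries.X ^ twt (d + 1) m (kpDg (d + 1)) (kpDg (d + 1)) y) * u
      = PowerSeries.C ((-1) ^ d * d.factorial : ℝ) * PowerSeries.mk 1 + (r : PowerSeries ℝ) := by
    simp only [map_mul, map_pow, map_neg, map_one]
    linear_combination u * h3 + ((r : PowerSeries ℝ) + (-1) ^ d * PowerSeries.C (d.factorial : ℝ)
      * PowerSeries.mk 1) * h1 - (-1) ^ d * PowerSeries.C (d.factorial : ℝ) * u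
      * (1 - PowerSeries.X) ^ (d + 1) * h2
  have h5 := congrArg (PowerSeries.coeff (N - 1)) h4
  rw [map_add, PowerSeries.coeff_C_mul, PowerSeries.coeff_mk, Polynomial.coeff_coe,
    coeff_eq_zero_of_natDegree_lt (by omega), add_zero, Pi.one_apply, mul_one, Finset.sum_mul,
    map_sum] at h5
  have h6 : ((-1) ^ d * d.factorial : ℝ) ≠ 0 := by positivity
  rw [← h5] at h6
  refine fun h => h6 (Eq.trans (Finset.sum_congr rfl fun y _ => ?_) h)
  have := hM y
  rw [show (-1 : PowerSeries ℝ) = PowerSeries.C (-1) by simp, ← map_pow, mul_assoc,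
    PowerSeries.coeff_C_mul, PowerSeries.coeff_X_pow_mul', if_pos (by omega), ← hu,
    PowerSeries.coeff_mk]
  congr 3
  omega

end Vale.Agent.P177
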