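import Vale.Agent.P177.Inv
import Vale.Agent.P177.Kappa
import Vale.Agent.P177.Chi
import Vale.Agent.P177.Sop

/-! P177 module KLemma: an additive functional with properties (F) and (K) vanishes. -/

namespace Vale.Agent.P177

open Vale.Agent.P202 IsLocalRing Polynomial TensorProduct

universe u

/-- `univ_eul`, `kp_data`, `val_quot_pow`, `kappa_ne_zero`. -/
theorem kp_meul_ne_zero {A : Type u} [CommRing A] [IsLocalRing A] [IsNoetherianRing A]
    {c m n : ℕ} {x : Fin c → A} (hx : RingTheory.Sequence.IsWeaklyRegular A (List.ofFn x))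
    (hxm : ∀ j, x j ∈ maximalIdeal A)
    (hl : Module.length A (A ⧸ Ideal.span (Set.range x)) ≠ ⊤) (hc : 0 < c) (hn : c ≤ n)
    (hm : n * c < m) : (lenFun A).MFin (tmat c m (kpDg c) (kpM x)) (tdg c m (kpDg c)) A ∧
      (lenFun A).meul (tmat c m (kpDg c) (kpM x)) (tdg c m (kpDg c)) A ≠ 0 := by
  obtain ⟨hF, k, hH⟩ := kp_data x hc hn hm
  have hq : QuasiReg x := (regAny_of_isWeaklyRegular hx hxm).quasiReg
  have hv := val_quot_pow (δ := lenFun A) x hc hq hl
  obtain ⟨N₀, h0⟩ := univ_eul (δ := lenFun A) x (isMC_tmat (isMC_kpM x)) hF hH fun j => (hv j).1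
  obtain ⟨N₁, h1⟩ := kappa_ne_zero (m := m) hc
    ((Nat.mul_le_mul_right c hn).trans hm.le)
  obtain ⟨h2, h3⟩ := h0 (max N₀ N₁) (le_max_left _ _)
  refine ⟨h2, ?_⟩
  rw [h3]
  simp only [fun j => (hv j).2, ← mul_assoc]
  rw [← Finset.sum_mul]
  refine mul_ne_zero (h1 _ (le_max_right _ _)) ?_
  have hne : Ideal.span (Set.range x) ≠ ⊤ := fun h => by
    have : Ideal.span (Set.range x) ≤ maximalIdeal A := Ideal.span_le.2 (by
      rintro _ ⟨j, rfl⟩
      exact hxm j)
    rw [h] at this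
    exact (maximalIdeal.isMaximal A).ne_top (top_le_iff.1 this)
  have := Ideal.Quotient.nontrivial_iff.2 hne
  have h4 := ENat.toNat_pos (Module.length_pos (R := A)
    (M := A ⧸ Ideal.span (Set.range x))).ne' hl
  change ((Module.length A (A ⧸ Ideal.span (Set.range x))).toNat : ℝ) ≠ 0
  exact_mod_cast h4.ne'

namespace KL

theorem sAlt_sum {ι ι' : Type} [Fintype ι] [Fintype ι'] (dg : ι → ℕ) (dg' : ι' → ℕ) (j : ℕ) :
    sAlt (Sum.elim dg dg') j = sAlt dg j + sAlt dg' j := Fintype.sum_sum_type _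

theorem neg_card_le_sAlt {ι : Type} [Fintype ι] (dg : ι → ℕ) (j : ℕ) :
    -(Fintype.card ι : ℤ) ≤ sAlt dg j := by
  have h : ∑ _b : ι, (-1 : ℤ) ≤ sAlt dg j := Finset.sum_le_sum fun b _ => by
    split_ifs
    · rcases neg_one_pow_eq_or ℤ (dg b - j) with h | h <;> omega
    · omega
  simpa using h

theorem sAlt_const {ι : Type} [Fintype ι] {j : ℕ} (hj : 1 ≤ j) : sAlt (fun _ : ι => 0) j = 0 :=
  Finset.sum_eq_zero fun _ _ => if_neg (Nat.not_le.2 hj)

theorem sAlt_kp {c : ℕ} (hc : 0 < c) : sAlt (kpDg c) 0 + 1 = c := by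
  unfold kpDg
  rw [sAlt_sum]
  have h1 : sAlt (Finset.card : Finset (Fin c) → ℕ) 0 = 0 := by
    have := Finset.sum_powerset_neg_one_pow_card_of_nonempty (x := (Finset.univ : Finset (Fin c)))
      ⟨⟨0, hc⟩, Finset.mem_univ _⟩
    simpa [sAlt] using this
  have h2 : sAlt (fun _ : Fin (c - 1) => 0) 0 = (c - 1 : ℕ) := by simp [sAlt]
  rw [h1, h2]
  omega

/-- The degrees of the contractible summands. -/
def nDg (K d : ℕ) : (Fin K × Fin d) ⊕ (Fin K × Fin d) → ℕ :=
  Sum.elim (fun t => t.2) fun t => t.2 + 1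

theorem sAlt_nDg (K : ℕ) {d j : ℕ} (h1 : 1 ≤ j) (h2 : j ≤ d) : sAlt (nDg K d) j = K := by
  unfold nDg
  rw [sAlt_sum, sAlt, sAlt, ← Finset.sum_add_distrib]
  have h : ∀ t : Fin K × Fin d, ((if j ≤ (t.2 : ℕ) then (-1 : ℤ) ^ ((t.2 : ℕ) - j) else 0) +
      if j ≤ (t.2 : ℕ) + 1 then (-1 : ℤ) ^ ((t.2 : ℕ) + 1 - j) else 0) =
      if t.2 = ⟨j - 1, by omega⟩ then 1 else 0 := fun t => by
    by_cases h3 : j ≤ (t.2 : ℕ)
    · rw [if_pos h3, if_pos (by omega), if_neg (fun h => by rw [h] at h3; dsimp only at h3; omega),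
        show (t.2 : ℕ) + 1 - j = (t.2 : ℕ) - j + 1 by omega, pow_succ]
      ring
    · by_cases h4 : j ≤ (t.2 : ℕ) + 1
      · rw [if_neg h3, if_pos h4, if_pos (Fin.ext (by dsimp only; omega)),
          show (t.2 : ℕ) + 1 - j = 0 by omega]
        simp
      · rw [if_neg h3, if_neg h4, if_neg (fun h => by rw [h] at h4; dsimp only at h4; omega)]
        simp
  rw [Finset.sum_congr rfl fun t _ => h t, Fintype.sum_prod_type]
  simp

/-- The contractible summands. -/
def nM (A : Type*) [CommRing A] (K d : ℕ) :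
    Matrix ((Fin K × Fin d) ⊕ (Fin K × Fin d)) ((Fin K × Fin d) ⊕ (Fin K × Fin d)) A :=
  Matrix.fromBlocks 0 1 0 0

theorem isMC_nM (A : Type*) [CommRing A] (K d : ℕ) : IsMC (nM A K d) (zd (nDg K d)) := by
  refine ⟨by simp [nM, Matrix.fromBlocks_multiply], ?_⟩
  rintro (s | s) (t | t) h
  · simp [nM] at h
  · have h1 : s = t := by
      by_contra h2
      simp [nM, Matrix.one_apply_ne h2] at h
    subst h1
    simp [zd, nDg]
  · simp [nM] at h
  · simp [nM] at h

theorem nullHtp_nM (A : Type*) [CommRing A] (K d : ℕ) : NullHtp (nM A K d) (nDg K d) 1 := by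
  refine ⟨Matrix.fromBlocks 0 0 1 0, ?_, ?_⟩
  · rintro (s | s) (t | t) h
    · simp at h
    · simp at h
    · have h1 : s = t := by
        by_contra h2
        simp [Matrix.one_apply_ne h2] at h
      subst h1
      simp [nDg]
    · simp at h
  · simp [nM, Matrix.fromBlocks_multiply, Matrix.fromBlocks_add]

theorem goodAt_add_free {A : Type u} [CommRing A] {ι κ : Type} [Fintype ι] [DecidableEq ι]
    [Fintype κ] [DecidableEq κ] {D : Matrix ι ι A} {dg : ι → ℕ} {g : A} (h : NullHtp D dg g)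
    {x : PrimeSpectrum A} (hx : g ∉ x.asIdeal) :
    GoodAt (Matrix.fromBlocks D 0 0 (0 : Matrix κ κ A)) (Sum.elim dg fun _ => 0) x 1 := by
  obtain ⟨H, hH, e⟩ := h
  refine goodAt_of_witness (H := Matrix.fromBlocks H 0 0 0)
    (P := Matrix.fromBlocks 0 0 0 (g • 1))
    (IsHomR.blocks hH IsHomR.zero' IsHomR.zero' IsHomR.zero') ?_ ?_ hx
  · rintro (s | s) (t | t) h
    · simp at h
    · simp at h
    · simp at h
    · simp
  · rw [Matrix.fromBlocks_multiply, Matrix.fromBlocks_multiply, Matrix.fromBlocks_add,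
      ← Matrix.fromBlocks_one, Matrix.fromBlocks_smul, sub_eq_add_neg, Matrix.fromBlocks_neg,
      Matrix.fromBlocks_add]
    simp [e]

theorem span_range_map {A B : Type*} [CommRing A] [CommRing B] (f : A →+* B) {c : ℕ}
    (x : Fin c → A) : (Ideal.span (Set.range x)).map f = Ideal.span (Set.range fun j => f (x j)) := by
  rw [Ideal.map_span, ← Set.range_comp]
  rfl

theorem reg_map {A B : Type u} [CommRing A] [CommRing B] [Algebra A B] [Module.Flat A B] {c : ℕ}
    {x : Fin c → A} (hx : RingTheory.Sequence.IsWeaklyRegular A (List.ofFn x)) :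
    RingTheory.Sequence.IsWeaklyRegular B (List.ofFn fun j => algebraMap A B (x j)) := by
  have h := hx.of_flat (S := B)
  rwa [List.map_ofFn] at h

end KL

variable {R : Type u} [CommRing R] [IsLocalRing R] [IsNoetherianRing R] {I : Ideal R}
  {δ : AddFun R} {d a p : ℕ}

/-- The model complex: a resolution `G` of `R / J`, `J` the contraction of `(x) R_Q`, plus a free
module of rank `c - 1` in degree zero, plus many contractible two term complexes `R → R` in the
degrees `(j, j - 1)`, `1 ≤ j ≤ d`. -/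
theorem exists_model_cx (hd : CIData d a I) (Q : Ideal R) [hQ : Q.IsPrime] {c : ℕ}
    {x : Fin c → R} (hac : a ≤ c) (hx : RingTheory.Sequence.IsWeaklyRegular R (List.ofFn x))
    (hmin : Q ∈ (Ideal.span (Set.range x)).minimalPrimes) :
    ∃ (ι : Type) (_ : Fintype ι) (_ : DecidableEq ι) (dg : ι → ℕ) (D : Matrix ι ι R),
      IsMC D (zd dg) ∧ Stab dg a d ∧ sAlt dg 0 + 1 = c ∧
      (∀ q : PrimeSpectrum R, ¬ Q ≤ q.asIdeal → GoodAt D dg q 1) ∧
      MHEq (D.map (algebraMap R (Localization.AtPrime Q))) dg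
        (kpM fun j => algebraMap R (Localization.AtPrime Q) (x j)) (kpDg c) := by
  obtain ⟨w, hw1, hw2, hw3⟩ := hd.reg
  have hR : HasRes R d := hw1 ▸ hasRes_of_reg hw2 hw3
  have hd1 : 1 ≤ d := by
    obtain ⟨h, h1, -⟩ := hd.gen
    have := hd.pos
    omega
  have hc : 0 < c := hd.pos.trans hac
  set A := Localization.AtPrime Q
  set f := algebraMap R A
  set J : Ideal R := ((Ideal.span (Set.range x)).map f).comap f with hJ
  obtain ⟨G, hG⟩ := hR (R ⧸ J)
  have hJm : J.map f = Ideal.span (Set.range fun j => f (x j)) := by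
    rw [← KL.span_range_map]
    exact IsLocalization.map_under Q.primeCompl A _
  have hGK : MHEq (G.D.map f) G.dg (kos fun j => f (x j)) Finset.card := by
    obtain ⟨G', e, h1, h2⟩ := exists_pResol_baseChange G A
    obtain ⟨F, hF⟩ := exists_resol_kos (KL.reg_map (B := A) hx)
    have e' : (A ⊗[R] (R ⧸ J)) ≃ₗ[A] A ⧸ Ideal.span (Set.range fun j => f (x j)) :=
      (Algebra.TensorProduct.quotIdealMapEquivTensorQuot A J).symm.toLinearEquiv ≪≫ₗ
        Submodule.quotEquivOfEq _ _ hJm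
    have h3 : MHEq G'.D G'.dg F.D F.dg := mheq_of_resol (G'.ofEquiv e') F
    rw [h1, h2] at h3
    exact ((mheq_reindex e).trans h3).trans hF
  set K := a + Fintype.card G.ι with hK
  have h0 : MHEq (Matrix.fromBlocks (Matrix.fromBlocks G.D 0 0
      (0 : Matrix (Fin (c - 1)) (Fin (c - 1)) R)) 0 0 (KL.nM R K d))
      (Sum.elim (Sum.elim G.dg fun _ => 0) (KL.nDg K d)) (Matrix.fromBlocks G.D 0 0 0)
      (Sum.elim G.dg fun _ => 0) := mheq_fromBlocks_null (KL.nullHtp_nM R K d)
  have hmc := isMC_fromBlocks (isMC_fromBlocks G.mc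
    (isMC_zero (ι := Fin (c - 1)) (dg := fun _ => 0))) (KL.isMC_nM R K d)
  have h1 : MHEq ((Matrix.fromBlocks (Matrix.fromBlocks G.D 0 0
      (0 : Matrix (Fin (c - 1)) (Fin (c - 1)) R)) 0 0 (KL.nM R K d)).map f)
      (Sum.elim (Sum.elim G.dg fun _ => 0) (KL.nDg K d)) (kpM fun j => f (x j)) (kpDg c) := by
    refine (h0.map f).trans ?_
    rw [Matrix.fromBlocks_map, Matrix.map_zero _ (map_zero f), Matrix.map_zero _ (map_zero f),
      Matrix.map_zero _ (map_zero f)]
    exact hGK.fromBlocks MHEq.refl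
  have h2 : sAlt (Sum.elim (Sum.elim G.dg fun _ : Fin (c - 1) => 0) (KL.nDg K d)) 0 + 1 = c := by
    rw [h1.sAlt_zero (isMC_map hmc f) (isMC_kpM _), KL.sAlt_kp hc]
  have h3 : ∀ j, 1 ≤ j → j ≤ d → (a : ℤ) ≤
      sAlt (Sum.elim (Sum.elim G.dg fun _ : Fin (c - 1) => 0) (KL.nDg K d)) j := fun j j1 j2 => by
    rw [KL.sAlt_sum, KL.sAlt_sum, KL.sAlt_nDg K j1 j2, KL.sAlt_const j1, hK]
    have := KL.neg_card_le_sAlt G.dg j
    push_cast
    omega
  refine ⟨_, inferInstance, inferInstance, _, _, hmc, ⟨?_, fun j j1 j2 => h3 j j1 j2.le,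
    (Int.natCast_nonneg a).trans (h3 d hd1 le_rfl), ?_⟩, h2, fun q hq => ?_, h1⟩
  · rintro ((b | b) | (b | b))
    · exact hG b
    · exact Nat.zero_le _
    · exact b.2.2.le
    · exact b.2.2
  · rw [h2]
    exact_mod_cast hac
  · obtain ⟨g, hg, hgq⟩ := Set.not_subset.1 hq
    have h4 : f g ∈ ((Ideal.span (Set.range x)).map f).radical := by
      rw [IsLocalization.AtPrime.radical_map_of_mem_minimalPrimes A Q _ hmin]
      exact Ideal.mem_map_of_mem _ hg
    obtain ⟨k, hk⟩ := h4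
    have h5 : g ^ k ∈ Module.annihilator R (R ⧸ J) := by
      rw [Ideal.annihilator_quotient, hJ, Ideal.mem_comap, map_pow]
      exact hk
    intro i hi
    rw [h0.hk_eq]
    exact KL.goodAt_add_free (nullHtp_of_resol G h5)
      (fun h => hgq (q.isPrime.mem_of_pow_mem k h)) i hi

variable [IsDomain R] [Infinite (ResidueField R)] [IsAdicComplete (maximalIdeal R) R]

/-- Induction on `j`: good complexes that agree in degrees `≥ j` have the same invariant
(`exists_pencils`, `AlmostGood.tau_eq`); then compare with `exists_split`. -/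
theorem tau_eq_zero (hd : CIData d a I) (hK : KHyp a p I δ) {ι : Type} [Fintype ι]
    [DecidableEq ι] {dg : ι → ℕ} {c m n : ℕ} (hs : Stab dg a n) (hn : 1 ≤ n)
    (hc : sAlt dg 0 + 1 = c) (hm : n * c < m) {D : Matrix ι ι R} (hD : IsMC D (zd dg))
    (hg : GoodU I D dg 1) : tau δ c m dg D = 0 := by
  have key : ∀ j, j ≤ n → ∀ D₁ D₂ : Matrix ι ι R, IsMC D₁ (zd dg) → IsMC D₂ (zd dg) →
      GoodU I D₁ dg 1 → GoodU I D₂ dg 1 → AgreeGe dg (j + 1) D₁ D₂ →
      tau δ c m dg D₁ = tau δ c m dg D₂ := by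
    intro j
    induction j with
    | zero =>
      intro _ D₁ D₂ h₁ h₂ _ _ hag
      have h0 : ∀ E : Matrix ι ι R, IsMC E (zd dg) → ∀ s t, dg t = 0 → E s t = 0 := by
        intro E hE s t ht
        by_contra h
        have := hE.homog s t h
        simp only [zd] at this
        omega
      have : D₁ = D₂ := by
        ext s t
        rcases Nat.eq_zero_or_pos (dg t) with h | h
        · rw [h0 D₁ h₁ s t h, h0 D₂ h₂ s t h]
        · exact hag s t h
      rw [this]
    | succ j ih =>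
      intro hj D₁ D₂ h₁ h₂ g₁ g₂ hag
      obtain ⟨w₁, w₂, E₁, E₂, Z₁, Z₂, a₁, a₂, z₁, z₂, b₁, b₂, b₃⟩ :=
        exists_pencils hd.dim hs (Nat.le_add_left 1 j) hj h₁ h₂ g₁ g₂ hag
      have ih' := ih (by omega)
      rw [← ih' _ _ (isMC_map a₁.mc _) h₁ a₁.zero g₁ b₁, ← ih' _ _ (isMC_map a₂.mc _) h₂ a₂.zero g₂ b₂]
      exact (a₁.tau_eq hd hK hc z₁ hs.le hn hm).trans
        ((ih' _ _ (isMC_grM _ _ _ a₁.mc a₁.wt) (isMC_grM _ _ _ a₂.mc a₂.wt) a₁.inf a₂.inf b₃).trans
          (a₂.tau_eq hd hK hc z₂ hs.le hn hm).symm)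
  obtain ⟨E, hE, gE, hE'⟩ := exists_split (I := I) hd.dim hd.pos hs
  rw [key n le_rfl D E hD hE hg gE fun s t ht => absurd (hs.le t) (by omega)]
  obtain ⟨g, hg1, hg2⟩ := nullAt_tmat hE hc hE' hs.le hm
  obtain ⟨u, rfl⟩ : IsUnit g := by
    by_contra h
    exact hg1 ((mem_maximalIdeal g).2 h)
  have h1 := hg2.mul (u⁻¹ : Rˣ)
  rw [Units.inv_mul] at h1
  exact h1.meul_eq.2

/-- The K-lemma. Noetherian induction on primes `Q`, `meul_localize`. -/
theorem k_lemma (hd : CIData d a I) (hK : KHyp a p I δ) (V : Type u) [AddCommGroup V]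
    [Module R V] (hV : InA I V) : δ.val V = 0 := by
  have key : ∀ Q : Ideal R, Q.IsPrime → InA I (R ⧸ Q) → δ.val (R ⧸ Q) = 0 := by
    intro Q
    induction Q using (wellFounded_gt (α := Ideal R)).induction with
    | _ Q ih =>
    intro hQ hQI
    obtain ⟨N, hN⟩ := inA_quot_iff.1 hQI
    obtain ⟨c, x, hac, hcd, hx, hmin⟩ := exists_regseq hd Q ⟨N, hN⟩
    obtain ⟨ι, _, _, dg, D, hD, hs, hc, hg, hM⟩ := exists_model_cx hd Q hac hx hmin
    have hc0 : 0 < c := hd.pos.trans hac
    have hm : d * c < d * c + 1 := Nat.lt_succ_self _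
    have h0 := tau_eq_zero hd hK hs (hc0.trans_le hcd) hc hm hD fun y hy => hg y fun h => hy.2 (by
      have h1 : maximalIdeal R ≤ y.asIdeal :=
        y.isPrime.le_of_pow_le (hN.trans (sup_le hy.1 h))
      exact ((maximalIdeal.isMaximal R).eq_of_le y.isPrime.ne_top h1).symm)
    have h1 := meul_localize (δ := δ) Q ((hK.mem_iff _).2 hQI)
      (fun Q' hQ' h => ih Q' h hQ' (inA_quot_iff.2 ⟨N, hN.trans (sup_le_sup_left h.le I)⟩))
      (isMC_tmat (c := c) (m := d * c + 1) hD) fun y hy => nullAt_tmat hD hc (hg y hy) hs.le hm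
    set A := Localization.AtPrime Q
    set f := algebraMap R A
    have hrad : (Ideal.span (Set.range fun j => f (x j))).radical = maximalIdeal A := by
      rw [← KL.span_range_map, IsLocalization.AtPrime.radical_map_of_mem_minimalPrimes A Q _ hmin,
        Localization.AtPrime.map_eq_maximalIdeal]
    have h2 := kp_meul_ne_zero (KL.reg_map (B := A) hx) (fun j => by
      rw [← hrad]
      exact Ideal.le_radical (Ideal.subset_span ⟨j, rfl⟩)) (by
        obtain ⟨k, hk⟩ := Ideal.exists_radical_pow_le_of_fg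
          (Ideal.span (Set.range fun j => f (x j))) (IsNoetherian.noetherian _)
        rw [hrad] at hk
        refine length_ne_top_of_pow_smul (n := k) fun r hr y => ?_
        obtain ⟨y, rfl⟩ := Ideal.Quotient.mk_surjective y
        exact Ideal.Quotient.eq_zero_iff_mem.2 (Ideal.mul_mem_right _ _ (hk hr))) hc0 hcd hm
    have h3 := (hM.tmat (c := c) (isMC_map hD f) (isMC_kpM _) hs.le (fun b => by
      rcases b with b | b
      · exact (b.card_le_univ.trans_eq (Fintype.card_fin c)).trans hcd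
      · exact Nat.zero_le _) hm).meul_eq (δ := lenFun A) (V := A)
    rw [tmat_map, ← h3.2 (h3.1.2 h2.1)] at h1
    exact (mul_eq_zero.1 (h1.symm.trans h0)).resolve_left h2.2
  have := hV.1
  exact val_eq_zero_of_primes ((hK.mem_iff V).2 hV) fun Q hQ _ h => key Q hQ ((hK.mem_iff _).1 h)

omit [IsDomain R] [Infinite (ResidueField R)] [IsAdicComplete (maximalIdeal R) R] in
/-- Property (K) for the intersection multiplicity with a module of small dimension. -/
theorem KL.chi_K [IsAlgClosed (ResidueField R)] {x : List R}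
    (hx : RingTheory.Sequence.IsWeaklyRegular R x) (hm : Ideal.ofList x = maximalIdeal R)
    {P : Ideal R} {h : List R} (hh : Ideal.ofList h ≤ P) (hP' : P ≠ ⊤)
    (hP : ringKrullDim (R ⧸ P) < a) (hl : h.length + a = x.length)
    (A : Type u) [CommRing A] [IsLocalRing A] [Algebra R A] [Module.Finite R A]
    [Module.Free R A] {y : List A} (hy : y.length = a) (hym : ∀ t ∈ y, t ∈ maximalIdeal A)
    (hA : InA (Ideal.ofList h) (A ⧸ Ideal.ofList y)) : chi R (R ⧸ P) (A ⧸ Ideal.ofList y) = 0 := by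
  have : IsNoetherianRing A := IsNoetherianRing.of_finite R A
  set f := algebraMap R A with hf
  have hloc : IsLocalHom f := inferInstance
  have hres : ∀ b : A, ∃ r : R, b - f r ∈ maximalIdeal A := fun b => by
    obtain ⟨r, hr⟩ := (IsAlgClosed.algebraMap_bijective_of_isIntegral (k := ResidueField R)
      (K := ResidueField A)).2 (residue A b)
    obtain ⟨r, rfl⟩ := residue_surjective r
    refine ⟨r, (residue_eq_zero_iff _).1 ?_⟩
    rw [map_sub, ← hr]
    exact sub_eq_zero.2 rfl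
  have hrad : maximalIdeal A ≤ ((maximalIdeal R).map f).radical := by
    rw [Ideal.radical_eq_sInf]
    refine le_sInf fun q hq => ?_
    have := hq.2
    have h1 : (q.comap f).IsMaximal := by
      have h2 := Ideal.map_le_iff_le_comap.1 hq.1
      rw [← (maximalIdeal.isMaximal R).eq_of_le (Ideal.comap_ne_top f hq.2.ne_top) h2]
      exact maximalIdeal.isMaximal R
    exact (eq_maximalIdeal (Ideal.isMaximal_of_isIntegral_of_isMaximal_comap q h1)).ge
  obtain ⟨k, hk⟩ := Ideal.exists_pow_le_of_le_radical_of_fg hrad (IsNoetherian.noetherian _)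
  obtain ⟨N, hN⟩ := hA.2
  have h1 : maximalIdeal A ^ (k * N) ≤ (Ideal.ofList h).map f ⊔ Ideal.ofList y := by
    rw [pow_mul]
    refine (Ideal.pow_right_mono hk N).trans ?_
    rw [← Ideal.map_pow]
    refine (Ideal.map_mono hN).trans ?_
    rw [Ideal.map_sup]
    refine sup_le_sup_left (Ideal.map_le_iff_le_comap.2 fun r hr => ?_) _
    have h2 := Module.mem_annihilator.1 hr (Ideal.Quotient.mk _ 1)
    rw [Ideal.mem_comap, ← Ideal.Quotient.eq_zero_iff_mem, hf, Algebra.algebraMap_eq_smul_one]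
    exact h2
  have hmm : ∀ r ∈ maximalIdeal R, f r ∈ maximalIdeal A := fun r hr => map_nonunit f r hr
  have h2 : IsSop A (y ++ h.map f) := by
    refine isSopP_iff_colon.2 ⟨fun t ht => ?_, k * N, h1.trans ?_⟩
    · rcases List.mem_append.1 ht with ht | ht
      · exact hym t ht
      · obtain ⟨r, hr, rfl⟩ := List.mem_map.1 ht
        exact hmm r (le_maximalIdeal hP' (hh (Ideal.subset_span hr)))
    · rw [Ideal.ofList_append, Ideal.map_ofList, sup_comm]
      exact le_sup_right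
  have h3 : RingTheory.Sequence.IsWeaklyRegular A (y ++ h.map f) :=
    isWeaklyRegular_of_isSop (hx.of_flat (S := A)) (fun t ht => by
      obtain ⟨r, hr, rfl⟩ := List.mem_map.1 ht
      exact hmm r (hm ▸ Ideal.subset_span hr)) h2 (by simp; omega)
  have h4 := ((RingTheory.Sequence.isWeaklyRegular_append_iff A _ _).1 h3).1
  have e := (Algebra.TensorProduct.quotIdealMapEquivTensorQuot A P).toLinearEquiv
  have h5 : IsSop (A ⧸ P.map f) y := isSop_quotient_iff.2
    ⟨hym, k * N, h1.trans (sup_le_sup_right (Ideal.map_mono hh) _)⟩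
  have h6 : ringKrullDim (A ⧸ P.map f) ≤ ringKrullDim (R ⧸ P) := by
    refine le_trans (b := ringKrullDim (R ⧸ (P.map f).comap f)) ?_ (ringKrullDim_le_of_surjective
      (Ideal.Quotient.factor Ideal.le_comap_map) (Ideal.Quotient.factor_surjective _))
    exact Order.krullDim_le_of_strictMono
      (PrimeSpectrum.comap (algebraMap (R ⧸ (P.map f).comap f) (A ⧸ P.map f)))
      fun _ _ h => Ideal.IsIntegral.comap_lt_comap (R := R ⧸ (P.map f).comap f) h
  rw [chi_eq_mult (hasRes_of_reg hx hm) A hres h4 (h5.of_surjective e.toLinearMap e.surjective),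
    ← mult_eq_of_equiv y e, mult_eq_zero_of_dim_lt h5 (P.map f) (fun r hr z => by
      obtain ⟨z, rfl⟩ := Ideal.Quotient.mk_surjective z
      exact Ideal.Quotient.eq_zero_iff_mem.2 (Ideal.mul_mem_right _ _ hr))
      (h6.trans_lt (hy ▸ hP)), Int.cast_zero]

/-- Vanishing: apply the K-lemma to `chi (R / P) _` and an ideal `I ⊆ P` generated by `b`
parameters for `R / Q`; (K) holds by `chi_eq_mult` and `mult_eq_zero_of_supportDim_lt`. -/
theorem chi_vanish [IsAlgClosed (ResidueField R)] {x : List R}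
    (hx : RingTheory.Sequence.IsWeaklyRegular R x) (hm : Ideal.ofList x = maximalIdeal R)
    (hp : p.Prime) (hpm : (p : R) ∈ maximalIdeal R) {P Q : Ideal R} (hP' : P ≠ ⊤) {a b : ℕ}
    (h : Meets R (R ⧸ P) (R ⧸ Q)) (hP : ringKrullDim (R ⧸ P) ≤ a)
    (hQ : ringKrullDim (R ⧸ Q) ≤ b) (hab : a + b < x.length) : chi R (R ⧸ P) (R ⧸ Q) = 0 := by
  obtain ⟨N, hN⟩ := meets_quot_iff.1 h
  obtain ⟨e, he⟩ : ∃ e, x.length = e + b := ⟨x.length - b, by omega⟩
  have hae : (a : WithBot ℕ∞) < e := by exact_mod_cast (by omega : a < e)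
  obtain ⟨z, hz1, hz2⟩ := exists_sop_in P (fun ν : Bool => cond ν Q ⊥) (fun ν => cond ν 0 e) b
    (by
      rintro (_ | _)
      · change ringKrullDim (R ⧸ (⊥ : Ideal R)) ≤ (e + b : ℕ)
        rw [ringKrullDim_eq_of_ringEquiv (RingEquiv.quotientBot R), dim_eq_of_reg hx hm, he]
      · simpa using hQ)
    (by
      rintro (_ | _)
      · change ringKrullDim (R ⧸ (⊥ ⊔ P)) ≤ e
        rw [bot_sup_eq]
        exact hP.trans hae.le
      · exact dim_le_zero_iff.2 ⟨N, hN.trans_eq (sup_comm _ _)⟩)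
  have hI : Ideal.ofList (List.ofFn z) = Ideal.span (Set.range z) := by
    unfold Ideal.ofList
    congr 1
    ext t
    simp
  have hIP : Ideal.ofList (List.ofFn z) ≤ P := by
    rw [hI]
    exact Ideal.span_le.2 (by
      rintro _ ⟨j, rfl⟩
      exact hz1 j)
  have hl : (List.ofFn z).length + e = x.length := by
    rw [List.length_ofFn]
    omega
  obtain ⟨δ, h1, h2, h3⟩ := exists_chiFun (X := R ⧸ P) (hasRes_of_reg hx hm)
    (hIP.trans_eq Ideal.annihilator_quotient.symm)
  have hd : CIData x.length e (Ideal.ofList (List.ofFn z)) :=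
    ⟨⟨x, rfl, hx, hm⟩, ⟨_, hl, rfl⟩, hIP.trans (le_maximalIdeal hP'), by
      have h4 : ringKrullDim (R ⧸ (⊥ ⊔ Ideal.span (Set.range z))) ≤ e := hz2 false
      rwa [bot_sup_eq, ← hI] at h4, by omega⟩
  have hK : KHyp e p (Ideal.ofList (List.ofFn z)) δ :=
    ⟨hp, hpm, h1, h3, fun A _ _ _ _ _ y hy hym hA => by
      rw [h2 _ ((h1 _).1 hA)]
      exact KL.chi_K hx hm hIP hP' (hP.trans_lt hae) hl A hy hym ((h1 _).1 hA)⟩
  have hQI : InA (Ideal.ofList (List.ofFn z)) (R ⧸ Q) := by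
    obtain ⟨M, hM⟩ := dim_le_zero_iff.1 (hz2 true)
    exact inA_quot_iff.2 ⟨M, hM.trans_eq (by rw [hI, sup_comm]; rfl)⟩
  rw [← h2 _ hQI]
  exact k_lemma hd hK _ hQI

end Vale.Agent.P177
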