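import Vale.Agent.P177.TDef

/-! P177 module KappaAuxA: simplices are determined by their jump sets. -/

namespace Vale.Agent.P177.Kap

open Finset

/-- The number of elements of `T` that are at most `i`. -/
def cnt (T : Finset ℕ) (i : ℕ) : ℕ := (T.filter (· ≤ i)).card

theorem cnt_succ (T : Finset ℕ) (i : ℕ) :
    cnt T (i + 1) = cnt T i + if i + 1 ∈ T then 1 else 0 := by
  unfold cnt
  by_cases h : i + 1 ∈ T
  · rw [if_pos h, ← card_insert_of_notMem (a := i + 1) (by simp)]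
    congr 1
    ext j
    simp only [mem_filter, mem_insert]
    constructor
    · rintro ⟨h1, h2⟩
      rcases h2.eq_or_lt with h3 | h3
      · exact Or.inl h3
      · exact Or.inr ⟨h1, by omega⟩
    · rintro (rfl | ⟨h1, h2⟩)
      · exact ⟨h, le_rfl⟩
      · exact ⟨h1, by omega⟩
  · rw [if_neg h, add_zero]
    congr 1
    refine filter_congr fun j hj => ⟨fun h1 => ?_, fun h1 => by omega⟩
    rcases h1.eq_or_lt with rfl | h3
    · exact absurd hj h
    · omega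

theorem cnt_zero {m : ℕ} {T : Finset ℕ} (hT : T ⊆ Icc 1 m) : cnt T 0 = 0 :=
  card_eq_zero.2 (filter_eq_empty_iff.2 fun j hj h => by
    have := (mem_Icc.1 (hT hj)).1
    omega)

theorem cnt_top {m : ℕ} {T : Finset ℕ} (hT : T ⊆ Icc 1 m) : cnt T m = T.card :=
  congrArg card (filter_true_of_mem fun _ hj => (mem_Icc.1 (hT hj)).2)

theorem cnt_le (T : Finset ℕ) (i : ℕ) : cnt T i ≤ T.card := card_filter_le _ _

theorem cnt_mono (T : Finset ℕ) {i j : ℕ} (h : i ≤ j) : cnt T i ≤ cnt T j :=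
  card_le_card (monotone_filter_right _ fun _ _ h1 => le_trans h1 h)

theorem cnt_ivt {T : Finset ℕ} (h0 : cnt T 0 = 0) (n : ℕ) :
    ∀ v ≤ cnt T n, ∃ i ≤ n, cnt T i = v := by
  induction n with
  | zero => exact fun v hv => ⟨0, le_rfl, by omega⟩
  | succ n ih =>
    intro v hv
    rcases hv.eq_or_lt with h | h
    · exact ⟨n + 1, le_rfl, h.symm⟩
    · have := cnt_succ T n
      obtain ⟨i, hi, h1⟩ := ih v (by split_ifs at this <;> omega)
      exact ⟨i, by omega, h1⟩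

open Classical in
/-- The set of jumps. -/
noncomputable def jset {m : ℕ} (η : Fin (m + 1) → Fin (m + 1)) : Finset ℕ :=
  (Icc 1 m).filter (Jmp η)

theorem mem_jset {m : ℕ} {η : Fin (m + 1) → Fin (m + 1)} {j : ℕ} : j ∈ jset η ↔ Jmp η j := by
  classical
  unfold jset
  rw [mem_filter, mem_Icc]
  refine ⟨fun h => h.2, fun h => ⟨?_, h⟩⟩
  obtain ⟨i, i', h1, h2, -⟩ := h
  have := i'.2
  omega

theorem jset_sub {m : ℕ} (η : Fin (m + 1) → Fin (m + 1)) : jset η ⊆ Icc 1 m := by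
  classical
  unfold jset
  exact filter_subset _ _

theorem jmp_succ {m : ℕ} (η : Fin (m + 1) → Fin (m + 1)) {i : ℕ} (hi : i + 1 < m + 1) :
    Jmp η (i + 1) ↔ (η ⟨i, by omega⟩ : ℕ) ≠ η ⟨i + 1, hi⟩ := by
  constructor
  · rintro ⟨a, a', h1, h2, h3⟩ h
    have e1 : a = ⟨i, Nat.lt_of_succ_lt hi⟩ := Fin.ext (by simpa using h1)
    have e2 : a' = ⟨i + 1, hi⟩ := Fin.ext h2
    rw [e1, e2] at h3
    exact h3 (Fin.ext h)
  · exact fun h => ⟨⟨i, by omega⟩, ⟨i + 1, hi⟩, rfl, rfl, fun h' => h (congrArg Fin.val h')⟩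

variable {m : ℕ} {B : Type} {dg : B → ℕ}

theorem eta_eq (x : SJ m dg) : ∀ (i : ℕ) (hi : i < m + 1),
    (x.η ⟨i, hi⟩ : ℕ) = cnt (jset x.η) i := by
  intro i
  induction i with
  | zero =>
    intro hi
    obtain ⟨a, ha⟩ := (x.rng 0).2 (Nat.zero_le _)
    have : (x.η ⟨0, hi⟩ : ℕ) ≤ x.η a := x.mono (Fin.le_def.2 (Nat.zero_le _))
    rw [cnt_zero (jset_sub _)]
    omega
  | succ i ih =>
    intro hi
    have h1 : (x.η ⟨i, by omega⟩ : ℕ) ≤ x.η ⟨i + 1, hi⟩ := x.mono (Fin.le_def.2 (Nat.le_succ i))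
    have h2 : (x.η ⟨i + 1, hi⟩ : ℕ) ≤ x.η ⟨i, by omega⟩ + 1 := by
      by_contra h
      have h3 := (x.rng _).1 ⟨⟨i + 1, hi⟩, rfl⟩
      obtain ⟨a, ha⟩ := (x.rng (x.η ⟨i, by omega⟩ + 1)).2 (by omega)
      rcases Nat.lt_or_ge i a with h4 | h4
      · have : (x.η ⟨i + 1, hi⟩ : ℕ) ≤ x.η a := x.mono (Fin.le_def.2 h4)
        omega
      · have : (x.η a : ℕ) ≤ x.η ⟨i, by omega⟩ := x.mono (Fin.le_def.2 h4)
        omega
    rw [cnt_succ, ← ih (by omega)]
    by_cases h : i + 1 ∈ jset x.η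
    · rw [if_pos h]
      have := (jmp_succ x.η hi).1 (mem_jset.1 h)
      omega
    · rw [if_neg h]
      have := mt (fun h' => mem_jset.2 ((jmp_succ x.η hi).2 h')) h
      omega

theorem card_jset (x : SJ m dg) : (jset x.η).card = dg x.b := by
  rw [← cnt_top (jset_sub _), ← eta_eq x m (Nat.lt_succ_self m)]
  obtain ⟨a, ha⟩ := (x.rng _).2 le_rfl
  have h1 : (x.η a : ℕ) ≤ x.η ⟨m, Nat.lt_succ_self m⟩ :=
    x.mono (Fin.le_def.2 (Nat.lt_succ_iff.1 a.2))
  have h2 := (x.rng _).1 ⟨⟨m, Nat.lt_succ_self m⟩, rfl⟩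
  omega

theorem exists_sj (b : B) {T : Finset ℕ} (hT : T ⊆ Icc 1 m) (hb : T.card = dg b) :
    ∃ x : SJ m dg, x.b = b ∧ jset x.η = T := by
  have hm : T.card ≤ m := (card_le_card hT).trans (by simp)
  refine ⟨⟨fun i => ⟨cnt T i, Nat.lt_succ_of_le ((cnt_le T i).trans hm)⟩, b,
    fun i j h => Fin.le_def.2 (cnt_mono T h), fun v => ?_⟩, rfl, ?_⟩
  · rw [← hb]
    refine ⟨fun ⟨i, hi⟩ => hi ▸ cnt_le T i, fun hv => ?_⟩
    obtain ⟨i, hi, h⟩ := cnt_ivt (cnt_zero hT) m v (by rwa [cnt_top hT])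
    exact ⟨⟨i, Nat.lt_succ_of_le hi⟩, h⟩
  · ext j
    by_cases hj : j ∈ Icc 1 m
    · obtain ⟨h1, h2⟩ := mem_Icc.1 hj
      obtain ⟨i, rfl⟩ : ∃ i, j = i + 1 := ⟨j - 1, by omega⟩
      rw [mem_jset, jmp_succ _ (by omega)]
      have := cnt_succ T i
      dsimp only
      split_ifs at this with h
      · exact iff_of_true (by omega) h
      · exact iff_of_false (by omega) h
    · exact iff_of_false (fun h => hj (jset_sub _ h)) fun h => hj (hT h)

/-- Counting the simplices with jumps in `U`. -/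
theorem sum_sj [Fintype B] {K : Type*} [CommRing K] {U : Finset ℕ} (hU : U ⊆ Icc 1 m) (g : B → K) :
    ∑ x : SJ m dg, (if jset x.η ⊆ U then g x.b else 0)
      = ∑ b, (U.card.choose (dg b) : K) * g b := by
  rw [← sum_filter]
  have e : ∑ b, (U.card.choose (dg b) : K) * g b
      = ∑ y ∈ (univ : Finset B).sigma fun b => U.powersetCard (dg b), g y.1 := by
    rw [sum_sigma]
    exact sum_congr rfl fun b _ => by
      dsimp only
      rw [sum_const, card_powersetCard, nsmul_eq_mul]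
  rw [e]
  refine sum_bij (fun x _ => ⟨x.b, jset x.η⟩) (fun x hx => ?_) (fun x _ y _ h => ?_)
    (fun y hy => ?_) fun _ _ => rfl
  · exact mem_sigma.2 ⟨mem_univ _, mem_powersetCard.2 ⟨(mem_filter.1 hx).2, card_jset x⟩⟩
  · have h1 : x.b = y.b := congrArg Sigma.fst h
    have h2 : jset x.η = jset y.η := congrArg (fun z : (Σ _ : B, Finset ℕ) => z.2) h
    refine SJ.ext' (funext fun i => Fin.ext ?_) h1
    rw [eta_eq x i i.2, eta_eq y i i.2, h2]
  · obtain ⟨b, T⟩ := y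
    obtain ⟨h1, h2⟩ := mem_powersetCard.1 (mem_sigma.1 hy).2
    obtain ⟨x, rfl, rfl⟩ := exists_sj b (h1.trans hU) h2
    exact ⟨x, mem_filter.2 ⟨mem_univ _, h1⟩, rfl⟩

/-- Moebius inversion on the Boolean lattice. -/
theorem mob {K : Type*} [CommRing K] (T V : Finset ℕ) :
    ∑ U ∈ T.powerset, (if V ⊆ T \ U then (-1 : K) ^ U.card else 0) = if V = T then 1 else 0 := by
  rw [← sum_filter]
  by_cases h : V ⊆ T
  · have e : T.powerset.filter (fun U => V ⊆ T \ U) = (T \ V).powerset := by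
      ext U
      rw [mem_filter, mem_powerset, mem_powerset, subset_sdiff, subset_sdiff]
      exact ⟨fun h1 => ⟨h1.1, h1.2.2.symm⟩, fun h1 => ⟨h1.1, h, h1.2.symm⟩⟩
    have e2 := congrArg (Int.cast : ℤ → K) (sum_powerset_neg_one_pow_card (x := T \ V))
    push_cast at e2
    rw [e, e2]
    refine if_congr ?_ rfl rfl
    rw [sdiff_eq_empty_iff_subset]
    exact ⟨fun h1 => Subset.antisymm h h1, fun h1 => h1 ▸ Subset.refl _⟩
  · rw [if_neg fun h1 : V = T => h (h1 ▸ Subset.refl _)]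
    exact sum_eq_zero fun U hU => absurd ((mem_filter.1 hU).2.trans sdiff_subset) h

/-- The sum over the basis of the normalised complex. -/
theorem sum_ti [Fintype B] {K : Type*} [CommRing K] {c : ℕ} (g : B → K) :
    ∑ y : TI c m dg, (-1 : K) ^ (y.q : ℕ) * ∏ x ∈ y.S.1, g x.b
      = ∑ q ∈ range (m + 1), (-1) ^ q * ∑ U ∈ (Icc 1 q).powerset, (-1) ^ U.card *
          ∑ S ∈ powersetCard c (univ : Finset (SJ m dg)),
            ∏ x ∈ S, if jset x.η ⊆ Icc 1 q \ U then g x.b else 0 := by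
  classical
  have e : ∀ q : ℕ, ∑ U ∈ (Icc 1 q).powerset, (-1) ^ U.card *
      ∑ S ∈ powersetCard c (univ : Finset (SJ m dg)),
        ∏ x ∈ S, (if jset x.η ⊆ Icc 1 q \ U then g x.b else 0)
      = ∑ S ∈ powersetCard c (univ : Finset (SJ m dg)),
        if S.biUnion (fun x => jset x.η) = Icc 1 q then ∏ x ∈ S, g x.b else 0 := by
    intro q
    simp_rw [mul_sum]
    rw [sum_comm]
    refine sum_congr rfl fun S _ => ?_
    rw [← boole_mul, ← mob, sum_mul]
    refine sum_congr rfl fun U _ => ?_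
    by_cases h : S.biUnion (fun x => jset x.η) ⊆ Icc 1 q \ U
    · rw [if_pos h, prod_congr rfl fun x hx => if_pos (biUnion_subset.1 h x hx)]
    · obtain ⟨x, hx, h1⟩ : ∃ x ∈ S, ¬ jset x.η ⊆ Icc 1 q \ U := by
        by_contra h1
        exact h (biUnion_subset.2 fun x hx => by_contra fun h2 => h1 ⟨x, hx, h2⟩)
      rw [if_neg h, prod_eq_zero hx (if_neg h1), mul_zero, zero_mul]
  simp_rw [e, mul_sum, mul_ite, mul_zero]
  rw [← sum_product', ← sum_filter]
  have nd : ∀ (q : ℕ) (S : PS c (SJ m dg)),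
      NonDeg q S ↔ S.1.biUnion (fun x => jset x.η) = Icc 1 q := fun q S => by
    simp only [NonDeg, Finset.ext_iff, mem_biUnion, mem_jset, mem_Icc]
  refine sum_bij (fun y _ => ((y.q : ℕ), y.S.1)) (fun y _ => ?_) (fun x _ y _ h => ?_)
    (fun z hz => ?_) fun _ _ => rfl
  · exact mem_filter.2 ⟨mem_product.2 ⟨mem_range.2 y.q.2,
      mem_powersetCard.2 ⟨subset_univ _, y.S.2⟩⟩, (nd _ _).1 y.nd⟩
  · exact TI.ext' (Fin.ext (congrArg Prod.fst h)) (Subtype.ext (congrArg Prod.snd h))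
  · obtain ⟨h1, h2⟩ := mem_filter.1 hz
    obtain ⟨h3, h4⟩ := mem_product.1 h1
    exact ⟨⟨⟨z.1, mem_range.1 h3⟩, ⟨z.2, (mem_powersetCard.1 h4).2⟩, (nd _ _).2 h2⟩,
      mem_univ _, rfl⟩

end Vale.Agent.P177.Kap
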