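import Vale.Agent.P202.FactorA

/-! P177: auxiliary lemmas for the module Level. -/

namespace Vale.Agent.P177.Lvl

open Vale.Agent.P202 IsLocalRing RingTheory.Sequence MvPowerSeries

universe u

theorem ext_mod {V B : Type u} [CommRing V] [CommRing B] [IsLocalRing B] [IsNoetherianRing B]
    {σ : Type} [Finite σ] (K : Ideal B) (Φ Ψ : MvPowerSeries σ V →+* B)
    (hC : ∀ c, Φ (C c) - Ψ (C c) ∈ K) (hX : ∀ i, Φ (X i) - Ψ (X i) ∈ K)
    (hm : ∀ i, Φ (X i) ∈ maximalIdeal B) (g : MvPowerSeries σ V) : Φ g - Ψ g ∈ K := by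
  by_cases hK : K = ⊤
  · rw [hK]
    trivial
  have : Nontrivial (B ⧸ K) := Ideal.Quotient.nontrivial_iff.2 hK
  have : IsLocalRing (B ⧸ K) :=
    IsLocalRing.of_surjective' (Ideal.Quotient.mk K) Ideal.Quotient.mk_surjective
  have := IsLocalHom.of_surjective (Ideal.Quotient.mk K) Ideal.Quotient.mk_surjective
  exact Ideal.Quotient.eq.1 (RingHom.congr_fun (evalHom_ext ((Ideal.Quotient.mk K).comp Φ)
    ((Ideal.Quotient.mk K).comp Ψ) (RingHom.ext fun c => Ideal.Quotient.eq.2 (hC c))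
    (fun i => Ideal.Quotient.eq.2 (hX i)) fun i => map_nonunit (Ideal.Quotient.mk K) _ (hm i)) g)

theorem mem_max {V : Type u} [CommRing V] [IsLocalRing V] {σ : Type} {g : MvPowerSeries σ V} :
    g ∈ maximalIdeal (MvPowerSeries σ V) ↔ constantCoeff g ∈ maximalIdeal V := by
  simp only [mem_maximalIdeal, mem_nonunits_iff, isUnit_iff_constantCoeff]

theorem quot_comap {A B : Type u} [CommRing A] [CommRing B] {φ : A →+* B}
    (hφ : Function.Surjective φ) (J : Ideal B) :
    Module.length A (A ⧸ J.comap φ) = Module.length B (B ⧸ J) ∧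
      ∃ e : (A ⧸ J.comap φ) ≃+* B ⧸ J, ∀ a, e (Ideal.Quotient.mk _ a) = Ideal.Quotient.mk _ (φ a) := by
  have hb : Function.Bijective (Ideal.quotientMap J φ le_rfl) :=
    ⟨Ideal.quotientMap_injective, Ideal.quotientMap_surjective hφ⟩
  refine ⟨?_, RingEquiv.ofBijective _ hb, fun _ => rfl⟩
  let _ := φ.toAlgebra
  rw [← Module.length_eq_of_surjective (S := A) (R := B) hφ]
  exact (LinearEquiv.ofBijective
    (Ideal.quotientMapₐ J (Algebra.ofId A B) le_rfl).toLinearMap hb).length_eq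

theorem quot_iso {Q A B : Type u} [CommRing Q] [CommRing A] [CommRing B] {φ : Q →+* A}
    {ψ : Q →+* B} (hφ : Function.Surjective φ) (hψ : Function.Surjective ψ) {I : Ideal A}
    {J : Ideal B} (h : I.comap φ = J.comap ψ) :
    Module.length A (A ⧸ I) = Module.length B (B ⧸ J) ∧ ∃ e : (A ⧸ I) ≃+* B ⧸ J,
      ∀ q, e (Ideal.Quotient.mk _ (φ q)) = Ideal.Quotient.mk _ (ψ q) := by
  obtain ⟨h1, e₁, h2⟩ := quot_comap hφ I
  obtain ⟨h3, e₂, h4⟩ := quot_comap hψ J
  refine ⟨by rw [← h1, ← h3, h], e₁.symm.trans ((Ideal.quotEquivOfEq h).trans e₂), fun q => ?_⟩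
  rw [← h2, ← h4, RingEquiv.trans_apply, RingEquiv.symm_apply_apply]
  rfl

theorem comap_eq {Q A : Type u} [CommRing Q] [CommRing A] {φ : Q →+* A}
    (hφ : Function.Surjective φ) {I : Ideal A} {K : Ideal Q} (h0 : RingHom.ker φ ≤ K)
    (h1 : I ≤ K.map φ) (h2 : ∀ q ∈ K, φ q ∈ I) : I.comap φ = K :=
  le_antisymm ((Ideal.comap_mono h1).trans (CoreC.comap_map_eq hφ h0).le) h2

theorem reg_congr {B : Type u} [CommRing B] {l r : List B} {c c' : B}
    (h : IsWeaklyRegular B (l ++ c :: r)) (hc : c' - c ∈ Ideal.ofList l) :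
    IsWeaklyRegular B (l ++ c' :: r) := by
  rw [isWeaklyRegular_append_iff] at h ⊢
  refine ⟨h.1, ((AddEquiv.refl _).isWeaklyRegular_congr (List.Forall₂.cons (fun x => ?_)
    (List.forall₂_same.2 fun _ _ _ => rfl))).1 h.2⟩
  obtain ⟨x, rfl⟩ := Submodule.Quotient.mk_surjective _ x
  refine (Submodule.Quotient.eq _).2 ?_
  rw [← sub_smul, ← neg_sub, neg_smul]
  exact neg_mem (Submodule.smul_mem_smul hc trivial)

/-- The variables followed by `r` form a regular sequence in `D[[x]] / (f)`. -/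
theorem reg_quot {D : Type u} [CommRing D] [IsLocalRing D] [IsNoetherianRing D] {d : ℕ}
    {f : MvPowerSeries (Fin d) D} {r : List D} (h : IsWeaklyRegular D (constantCoeff f :: r))
    (hm : ∀ c ∈ constantCoeff f :: r, c ∈ maximalIdeal D) :
    IsWeaklyRegular (MvPowerSeries (Fin d) D ⧸ Ideal.span {f})
      ((List.ofFn X ++ r.map C).map (Ideal.Quotient.mk (Ideal.span {f}))) := by
  have h1 := isWeaklyRegular_X_append (List.finRange d) (List.nodup_finRange d) h
  rw [List.map_cons, ← List.ofFn_eq_map] at h1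
  have h2 := reg_congr (c' := f) h1 (by
    rw [CoreC.ofList_ofFn, ← ker_constantCoeff, RingHom.mem_ker, map_sub, constantCoeff_C,
      sub_self])
  have h3 := IsLocalRing.isWeaklyRegular_of_perm_of_subset_maximalIdeal h2
    (List.perm_middle (a := f)) fun c hc => by
      rcases List.mem_append.1 hc with hc | hc
      · obtain ⟨i, rfl⟩ := List.mem_ofFn.1 hc
        exact FacA.X_mem i
      · rcases List.mem_cons.1 hc with rfl | hc
        · exact mem_max.2 (hm _ List.mem_cons_self)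
        · obtain ⟨e, he, rfl⟩ := List.mem_map.1 hc
          exact mem_max.2 (hm e (List.mem_cons_of_mem _ he))
  exact (isWeaklyRegular_map_algebraMap_iff _ _ _).2
    (FacA.reg_quot (l₁ := [f]) h3 (Ideal.ofList_singleton f))

end Vale.Agent.P177.Lvl
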