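import Vale.Agent.P177.EqChar
import Vale.Agent.P202.CohenRing
import Vale.Agent.P202.PSer
import Vale.Agent.P202.FactorA

/-! P177 module Model: structure of complete regular local rings. -/

set_option linter.unusedSectionVars false

namespace Vale.Agent.P177

open Vale.Agent.P202 IsLocalRing

universe u

namespace ModelAux

open MvPowerSeries

theorem sub_C_mem {V : Type u} [CommRing V] {d : ℕ} (g : MvPowerSeries (Fin d) V) :
    g - C (constantCoeff g) ∈ Ideal.span (Set.range (X : Fin d → MvPowerSeries (Fin d) V)) := by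
  rw [← ker_constantCoeff, RingHom.mem_ker, map_sub, constantCoeff_C, sub_self]

theorem residue_bij {A B : Type u} [CommRing A] [IsLocalRing A] [CommRing B] [IsLocalRing B]
    (σ : A →+* B) [IsLocalHom σ] (h : ∀ b : B, ∃ a : A, b - σ a ∈ maximalIdeal B) :
    Function.Bijective (ResidueField.map σ) := by
  refine ⟨(ResidueField.map σ).injective, fun z => ?_⟩
  obtain ⟨b, rfl⟩ := residue_surjective z
  obtain ⟨a, ha⟩ := h b
  exact ⟨residue A a, (Ideal.Quotient.eq.2 ha).symm⟩

theorem inj_of_dim {T R : Type u} [CommRing T] [IsLocalRing T] [IsNoetherianRing T] [IsDomain T]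
    [CommRing R] {d : ℕ} (hT : ringKrullDim T ≤ d) (hR : ringKrullDim R = d) (φ : T →+* R)
    (hφ : Function.Surjective φ) : Function.Injective φ := by
  refine (injective_iff_map_eq_zero φ).2 fun g hg => by_contra fun h0 => ?_
  have h1 := dim_quot_lt_of_regular hT (g := g) fun y hy => (mul_eq_zero.1 hy).resolve_left h0
  have hle : ∀ a ∈ Ideal.span {g}, φ a = 0 := fun a ha => by
    obtain ⟨c, rfl⟩ := Ideal.mem_span_singleton.1 ha
    rw [map_mul, hg, zero_mul]
  have h2 := ringKrullDim_le_of_surjective (Ideal.Quotient.lift _ φ hle)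
    (Ideal.Quotient.lift_surjective_of_surjective _ hle hφ)
  exact absurd (hR ▸ h2) (not_le.2 h1)

theorem exists_gens (R : Type u) [CommRing R] [IsRegularLocalRing R] {d : ℕ}
    (hd : ringKrullDim R = d) : ∃ x : Fin d → R, Ideal.span (Set.range x) = maximalIdeal R := by
  obtain ⟨s, hs, hs'⟩ := Submodule.FG.exists_span_finset_card_eq_spanFinrank
    (IsNoetherian.noetherian (maximalIdeal R))
  have h := IsRegularLocalRing.spanFinrank_maximalIdeal (R := R)
  rw [hd, ← hs] at h
  have h' : s.card = d := by exact_mod_cast h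
  refine ⟨fun i => ((Finset.equivFinOfCardEq h').symm i).1, ?_⟩
  rw [← hs']
  congr 1
  ext a
  constructor
  · rintro ⟨i, rfl⟩
    exact ((Finset.equivFinOfCardEq h').symm i).2
  · exact fun ha => ⟨Finset.equivFinOfCardEq h' ⟨a, ha⟩, by simp⟩

theorem map_gens {A B : Type u} [CommRing A] [IsLocalRing A] [CommRing B] [IsLocalRing B]
    {j : A →+* B} (hj : IsUnram j) {d : ℕ} {x : Fin d → A}
    (hx : Ideal.span (Set.range x) = maximalIdeal A) :
    Ideal.span (Set.range fun i => j (x i)) = maximalIdeal B := by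
  rw [← hj.map_max, ← hx, Ideal.map_span, ← Set.range_comp]
  rfl

theorem exists_eval {V S : Type u} [CommRing V] [CommRing S] [IsLocalRing S] [IsNoetherianRing S]
    [IsAdicComplete (maximalIdeal S) S] (σ : V →+* S)
    (hσ : ∀ s : S, ∃ v : V, s - σ v ∈ maximalIdeal S) {d : ℕ} {y : Fin d → S}
    (hy : Ideal.span (Set.range y) = maximalIdeal S) :
    ∃ Φ : MvPowerSeries (Fin d) V →+* S, Function.Surjective Φ ∧ ∀ i, Φ (X i) = y i := by
  have hm : ∀ i, y i ∈ maximalIdeal S := fun i => hy.le (Ideal.subset_span ⟨i, rfl⟩)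
  obtain ⟨Φ, h1, h2⟩ := exists_evalHom σ y hm
  refine ⟨Φ, evalHom_surjective Φ (fun i => h2 i ▸ hm i) fun s => ?_, h2⟩
  simp only [h2, hy, ← RingHom.comp_apply Φ, h1]
  exact hσ s

theorem reg_descend {A B : Type u} [CommRing A] [IsLocalRing A] [IsNoetherianRing A] [CommRing B]
    [IsLocalRing B] [IsNoetherianRing B] {j : A →+* B} (hj : IsUnram j) {x : List A}
    (hx : Ideal.ofList x = maximalIdeal A) {w : List B}
    (hw : RingTheory.Sequence.IsWeaklyRegular B w) (hm : Ideal.ofList w = maximalIdeal B)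
    (hl : x.length = w.length) : RingTheory.Sequence.IsWeaklyRegular A x := by
  have := hj.isLocalHom
  have e : Ideal.ofList (x.map j) = maximalIdeal B := by
    rw [← Ideal.map_ofList, hx, hj.map_max]
  have h := isWeaklyRegular_of_isSop hw (fun a ha => hm ▸ Ideal.subset_span ha)
    (HS.isSop_of_le (y := x.map j) (N := 1) (fun a ha => e ▸ Ideal.subset_span ha)
      (by rw [pow_one, e]) B) (by rw [List.length_map, hl])
  rw [CMAux.weaklyRegular_iff] at h ⊢
  rintro l₁ a l₂ rfl y hy
  rw [← FacA.comap_map_of_flat j hj.flat (Ideal.ofList l₁), Ideal.mem_comap, Ideal.map_ofList]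
  refine h (l₁.map j) (j a) (l₂.map j) (by simp) _ ?_
  rw [← map_mul, ← Ideal.map_ofList]
  exact Ideal.mem_map_of_mem j hy

section
variable {p : ℕ} [Fact p.Prime] {W : Type u} [CommRing W] [IsDomain W] [IsDiscreteValuationRing W]
  {d : ℕ}

theorem ker_map (hW : IsCohen p W) : RingHom.ker (MvPowerSeries.map (σ := Fin d) (residue W)) =
    Ideal.span {(p : MvPowerSeries (Fin d) W)} := by
  refine le_antisymm (fun g hg => ?_) ?_
  · have := CMAux.mem_ofList_C [(p : W)] g fun m => by
      have h2 := congrArg (coeff m) (RingHom.mem_ker.1 hg)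
      rw [coeff_map, map_zero, residue_eq_zero_iff, hW.max] at h2
      simpa using h2
    simpa using this
  · rw [Ideal.span_le, Set.singleton_subset_iff, SetLike.mem_coe, RingHom.mem_ker,
      ← map_natCast (C (σ := Fin d) (R := W)), map_C, (residue_eq_zero_iff _).2 hW.mem_max,
      map_zero]

omit [Fact p.Prime] [IsDomain W] [IsDiscreteValuationRing W] in
theorem map_surj {k : Type u} [CommRing k] {ρ : W →+* k} (h : Function.Surjective ρ) :
    Function.Surjective (MvPowerSeries.map (σ := Fin d) ρ) := by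
  intro g
  choose c hc using fun m => h (coeff m g)
  obtain ⟨c', hc'⟩ : ∃ c' : MvPowerSeries (Fin d) W, ∀ m, coeff m c' = c m := ⟨c, fun _ => rfl⟩
  exact ⟨c', MvPowerSeries.ext fun m => by rw [coeff_map, hc', hc]⟩

theorem prime_f (hW : IsCohen p W) (ha : IsAlgClosed (ResidueField W))
    {f : MvPowerSeries (Fin d) W} (hf : constantCoeff f = p) : Prime f := by
  have := hW.complete
  have := ufd_mvPowerSeries W d
  have hp : Irreducible (p : W) :=
    (IsDiscreteValuationRing.irreducible_iff_uniformizer _).2 hW.max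
  refine Irreducible.prime ⟨fun h => hp.not_isUnit (hf ▸ isUnit_iff_constantCoeff.1 h), ?_⟩
  rintro a b rfl
  rw [isUnit_iff_constantCoeff, isUnit_iff_constantCoeff]
  exact hp.isUnit_or_isUnit (by rw [← hf, map_mul])

omit [Fact p.Prime] in
theorem max_eq (hW : IsCohen p W) {f : MvPowerSeries (Fin d) W} (hf : constantCoeff f = p) :
    maximalIdeal (MvPowerSeries (Fin d) W) = Ideal.span {f} ⊔ Ideal.span (Set.range X) := by
  have h := sub_C_mem f
  rw [hf] at h
  rw [maximalIdeal_mvPowerSeries, hW.max, Ideal.map_span, Set.image_singleton]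
  refine le_antisymm (sup_le ((Ideal.span_singleton_le_iff_mem _).2 ?_) le_sup_right)
    (sup_le ((Ideal.span_singleton_le_iff_mem _).2 ?_) le_sup_right)
  · rw [← sub_sub_cancel f (C (p : W))]
    exact sub_mem (Ideal.mem_sup_left (Ideal.mem_span_singleton_self f)) (Ideal.mem_sup_right h)
  · have := add_mem (Ideal.mem_sup_right h) (Ideal.mem_sup_left (T := Ideal.span (Set.range X))
      (Ideal.mem_span_singleton_self (C (p : W) : MvPowerSeries (Fin d) W)))
    rwa [sub_add_cancel] at this
end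

end ModelAux

/-- A presentation `R = W[[x]] / (f)` with `f(0) = p`. -/
structure MixModel (p d : ℕ) (W : Type u) [CommRing W] [IsDomain W] [IsDiscreteValuationRing W]
    (R : Type u) [CommRing R] where
  cohen : IsCohen p W
  alg : IsAlgClosed (ResidueField W)
  π : MvPowerSeries (Fin d) W →+* R
  surj : Function.Surjective π
  f : MvPowerSeries (Fin d) W
  ker : RingHom.ker π = Ideal.span {f}
  const : MvPowerSeries.constantCoeff f = p
  ne : (p : R) ≠ 0

section
variable {p d : ℕ} [Fact p.Prime] {W : Type u} [CommRing W] [IsDomain W]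
  [IsDiscreteValuationRing W] {R : Type u} [CommRing R] [IsLocalRing R] [IsNoetherianRing R]
  (M : MixModel p d W R)

/-- The coordinates. -/
noncomputable def MixModel.x (i : Fin d) : R := M.π (MvPowerSeries.X i)

theorem MixModel.reg : RingTheory.Sequence.IsWeaklyRegular R (List.ofFn M.x) := by
  have e : Ideal.ofList ([M.f] ++ List.ofFn MvPowerSeries.X) =
      maximalIdeal (MvPowerSeries (Fin d) W) := by
    rw [Ideal.ofList_append, Ideal.ofList_singleton, CoreC.ofList_ofFn,
      ModelAux.max_eq M.cohen M.const]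
  have e' := FacA.ofList_vars M.cohen (List.finRange d) List.mem_finRange
  have h := isWeaklyRegular_of_isSop
    (FacA.reg_vars M.cohen (List.finRange d) (List.nodup_finRange d))
    (fun a ha => e' ▸ Ideal.subset_span ha)
    (HS.isSop_of_le (N := 1) (fun a ha => e ▸ Ideal.subset_span ha) (by rw [pow_one, e])
      (MvPowerSeries (Fin d) W)) (by simp)
  have h2 := FacA.reg_map M.π (K' := ⊥) (K := Ideal.span {M.f}) M.ker.ge M.ker.le
    (fun b => (M.surj b).imp fun a ha => by rw [ha, sub_self]; exact zero_mem _)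
    (FacA.reg_quot h (Ideal.ofList_singleton _))
  rw [List.map_ofFn] at h2
  exact ((Submodule.quotEquivOfEqBot (⊥ : Ideal R) rfl).isWeaklyRegular_congr _).1 h2
theorem MixModel.span_x : Ideal.ofList (List.ofFn M.x) = maximalIdeal R := by
  rw [CoreC.ofList_ofFn, ← map_maximalIdeal_of_surjective M.π M.surj,
    ModelAux.max_eq M.cohen M.const, ← M.ker, Ideal.map_sup, Ideal.map_span, ← Set.range_comp,
    (Ideal.map_eq_bot_iff_le_ker M.π).2 le_rfl, bot_sup_eq]
  rfl
include M in
theorem MixModel.p_mem : (p : R) ∈ maximalIdeal R := by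
  rw [← map_maximalIdeal_of_surjective M.π M.surj, ← map_natCast M.π]
  exact Ideal.mem_map_of_mem _ (FacA.p_mem M.cohen _)
include M in
/-- `f` is irreducible in a factorial ring (`ufd_mvPowerSeries`). -/
theorem MixModel.isDomain : IsDomain R := by
  have hp := ModelAux.prime_f M.cohen M.alg M.const
  have : (RingHom.ker M.π).IsPrime := M.ker ▸ (Ideal.span_singleton_prime hp.ne_zero).2 hp
  exact (RingHom.quotientKerEquivOfSurjective M.surj).symm.toMulEquiv.isDomain _
include M in
theorem MixModel.complete : IsAdicComplete (maximalIdeal R) R := by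
  have := M.cohen.complete
  have := isAdicComplete_mvPowerSeries (σ := Fin d) (V := W)
  exact isAdicComplete_of_surjective M.π M.surj
include M in
theorem MixModel.isAlgClosed : IsAlgClosed (ResidueField R) := by
  have := M.alg
  have : IsLocalHom (M.π.comp MvPowerSeries.C) := isLocalHom_of_map_le (by
    rw [M.cohen.max, Ideal.map_span, Set.image_singleton, map_natCast]
    exact (Ideal.span_singleton_le_iff_mem _).2 M.p_mem)
  refine IsAlgClosed.of_ringEquiv _ _ (RingEquiv.ofBijective _
    (ModelAux.residue_bij (M.π.comp MvPowerSeries.C) fun b => ?_))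
  obtain ⟨g, rfl⟩ := M.surj b
  refine ⟨MvPowerSeries.constantCoeff g, ?_⟩
  rw [RingHom.comp_apply, ← map_sub, ← map_maximalIdeal_of_surjective M.π M.surj,
    ModelAux.max_eq M.cohen M.const]
  exact Ideal.mem_map_of_mem _ (Ideal.mem_sup_right (ModelAux.sub_C_mem g))

include M in
/-- Both modules are killed by `p`: compare with `k[[x]]`, `R / p = k[[x]] / (f mod p)`
(`chi_both`, `pairThm_field`). -/
theorem MixModel.chi_pos_of_mem {P Q : Ideal R} [P.IsPrime] [Q.IsPrime] {a b : ℕ}
    (h : Meets R (R ⧸ P) (R ⧸ Q)) (hP : ringKrullDim (R ⧸ P) = a)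
    (hQ : ringKrullDim (R ⧸ Q) = b) (hab : a + b = d) (hp : (p : R) ∈ P) (hq : (p : R) ∈ Q) :
    0 < chi R (R ⧸ P) (R ⧸ Q) := by
  have := M.isDomain
  let A := MvPowerSeries (Fin d) (ResidueField W)
  let B := R ⧸ Ideal.span {(p : R)}
  let ρ : MvPowerSeries (Fin d) W →+* A := MvPowerSeries.map (residue W)
  have hρ : Function.Surjective ρ := ModelAux.map_surj residue_surjective
  have hk : RingHom.ker ρ = Ideal.span {(p : MvPowerSeries (Fin d) W)} := ModelAux.ker_map M.cohen
  have hpB : Ideal.Quotient.mk (Ideal.span {(p : R)}) p = 0 :=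
    Ideal.Quotient.eq_zero_iff_mem.2 (Ideal.mem_span_singleton_self _)
  obtain ⟨ψ, hψ⟩ : ∃ ψ : A →+* B, ∀ s, ψ (ρ s) = Ideal.Quotient.mk _ (M.π s) :=
    ⟨RingHom.liftOfSurjective ρ hρ ⟨(Ideal.Quotient.mk _).comp M.π, by
      rw [hk, Ideal.span_singleton_le_iff_mem, RingHom.mem_ker, RingHom.comp_apply, map_natCast,
        hpB]⟩, fun s => RingHom.liftOfSurjective_comp_apply _ _ _ s⟩
  have hψs : Function.Surjective ψ := fun z => by
    obtain ⟨r, rfl⟩ := Ideal.Quotient.mk_surjective z
    obtain ⟨s, rfl⟩ := M.surj r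
    exact ⟨ρ s, hψ s⟩
  have hf0 : M.π M.f = 0 := by
    rw [← RingHom.mem_ker, M.ker]
    exact Ideal.mem_span_singleton_self _
  have hp0 : ρ p = 0 := by
    rw [← RingHom.mem_ker, hk]
    exact Ideal.mem_span_singleton_self _
  have hψk : RingHom.ker ψ = Ideal.span {ρ M.f} := by
    refine le_antisymm (fun z hz => ?_) ((Ideal.span_singleton_le_iff_mem _).2 ?_)
    · obtain ⟨s, rfl⟩ := hρ z
      rw [RingHom.mem_ker, hψ, Ideal.Quotient.eq_zero_iff_mem, Ideal.mem_span_singleton] at hz
      obtain ⟨r, hr⟩ := hz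
      obtain ⟨t, rfl⟩ := M.surj r
      have h1 : s - p * t ∈ RingHom.ker M.π := by
        rw [RingHom.mem_ker, map_sub, map_mul, map_natCast, hr, sub_self]
      obtain ⟨c, hc⟩ := Ideal.mem_span_singleton.1 (M.ker ▸ h1)
      refine Ideal.mem_span_singleton.2 ⟨ρ c, ?_⟩
      rw [← map_mul, ← hc, map_sub, map_mul, hp0, zero_mul, sub_zero]
    · rw [RingHom.mem_ker, hψ, hf0, map_zero]
  have hf : ρ M.f ≠ 0 := fun h0 => by
    obtain ⟨g, hg⟩ := Ideal.mem_span_singleton.1 (hk ▸ RingHom.mem_ker.2 h0)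
    have h1 := M.const
    rw [hg, map_mul, map_natCast, mul_right_eq_self₀] at h1
    have h2 : IsUnit g := MvPowerSeries.isUnit_iff_constantCoeff.2
      (h1.resolve_right M.cohen.ne_zero ▸ isUnit_one)
    rw [hg, map_mul, map_natCast, (h2.map M.π).mul_left_eq_zero] at hf0
    exact M.ne hf0
  have : IsDomain A := NoZeroDivisors.to_isDomain _
  have hR : HasRes R d := by simpa using hasRes_of_reg M.reg M.span_x
  have hA : HasRes A d := by
    simpa using hasRes_of_reg (reg_mvPowerSeries_field (ResidueField W) d).1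
      (reg_mvPowerSeries_field (ResidueField W) d).2
  let φP : B →+* R ⧸ P := Ideal.Quotient.factor ((Ideal.span_singleton_le_iff_mem _).2 hp)
  let φQ : B →+* R ⧸ Q := Ideal.Quotient.factor ((Ideal.span_singleton_le_iff_mem _).2 hq)
  let _ : Algebra A B := ψ.toAlgebra
  let _ : Algebra B (R ⧸ P) := φP.toAlgebra
  let _ : Algebra B (R ⧸ Q) := φQ.toAlgebra
  let _ : Algebra A (R ⧸ P) := (φP.comp ψ).toAlgebra
  let _ : Algebra A (R ⧸ Q) := (φQ.comp ψ).toAlgebra
  have : IsScalarTower A B (R ⧸ P) := IsScalarTower.of_algebraMap_eq fun _ => rfl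
  have : IsScalarTower A B (R ⧸ Q) := IsScalarTower.of_algebraMap_eq fun _ => rfl
  have : IsScalarTower R B (R ⧸ P) := IsScalarTower.of_algebraMap_eq fun _ => rfl
  have : IsScalarTower R B (R ⧸ Q) := IsScalarTower.of_algebraMap_eq fun _ => rfl
  obtain ⟨h1, h2⟩ := chi_both (B := B) (A' := A) hR Ideal.Quotient.mk_surjective (g := p)
    (fun r hr => (mul_eq_zero.1 hr).resolve_left M.ne) Ideal.mk_ker hA hψs (g' := ρ M.f)
    (fun r hr => (mul_eq_zero.1 hr).resolve_left hf) hψk h
  have sP : Function.Surjective (Algebra.ofId A (R ⧸ P)) :=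
    (Ideal.Quotient.factor_surjective ((Ideal.span_singleton_le_iff_mem _).2 hp)).comp hψs
  have sQ : Function.Surjective (Algebra.ofId A (R ⧸ Q)) :=
    (Ideal.Quotient.factor_surjective ((Ideal.span_singleton_le_iff_mem _).2 hq)).comp hψs
  let eP := Ideal.quotientKerAlgEquivOfSurjective sP
  let eQ := Ideal.quotientKerAlgEquivOfSurjective sQ
  rw [h2, chi_congr hA h1 eP.symm.toLinearEquiv eQ.symm.toLinearEquiv]
  refine (pairThm_field (ResidueField W) d _ _ a b (RingHom.ker_isPrime _) (RingHom.ker_isPrime _)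
    ⟨inferInstance, inferInstance, ?_⟩ ?_ ?_).2 hab
  · rw [eP.toLinearEquiv.annihilator_eq, eQ.toLinearEquiv.annihilator_eq]
    exact h1.2.2
  · rw [ringKrullDim_eq_of_ringEquiv eP.toRingEquiv, hP]
  · rw [ringKrullDim_eq_of_ringEquiv eQ.toRingEquiv, hQ]
end

/-- Cohen's structure theorem for a regular local ring, after an unramified extension
(`isUnram_completion`, `exists_coeffField`, `exists_unram_algClosed`, `exists_coeffRing`,
`exists_evalHom`, `evalHom_surjective` or `surjective_of_complete`, `IsUnram.dim_eq`). -/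
theorem exists_structure (R : Type u) [CommRing R] [IsRegularLocalRing R] {d : ℕ}
    (hd : ringKrullDim R = d) :
    (∃ (K : Type u) (_ : Field K) (j : R →+* MvPowerSeries (Fin d) K), IsUnram j) ∨
      ∃ (R' : Type u) (_ : CommRing R') (_ : IsLocalRing R') (_ : IsNoetherianRing R')
        (j : R →+* R') (p : ℕ) (_ : Fact p.Prime) (W : Type u) (_ : CommRing W) (_ : IsDomain W)
        (_ : IsDiscreteValuationRing W), IsUnram j ∧ Nonempty (MixModel p d W R') := by
  obtain ⟨x, hx⟩ := ModelAux.exists_gens R hd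
  have := isNoetherianRing_adicCompletion R
  have := AdicCompletion.isAdicComplete_of_fg (IsNoetherian.noetherian (maximalIdeal R))
  have h0 := isUnram_completion R
  by_cases hE : EqChar R
  · left
    obtain ⟨σ, hσ⟩ :=
      exists_coeffField _ (hE.map (algebraMap R (AdicCompletion (maximalIdeal R) R)))
    obtain ⟨Φ, hs, -⟩ := ModelAux.exists_eval σ (fun s => ⟨residue _ s, by
      rw [← residue_eq_zero_iff, map_sub, ← RingHom.comp_apply (residue _) σ, hσ,
        RingHom.id_apply, sub_self]⟩) (ModelAux.map_gens h0 hx)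
    have := NoZeroDivisors.to_isDomain
      (MvPowerSeries (Fin d) (ResidueField (AdicCompletion (maximalIdeal R) R)))
    let e := (RingEquiv.ofBijective Φ ⟨ModelAux.inj_of_dim
      (ringKrullDim_mvPowerSeries_field _ d).le (h0.dim_eq ▸ hd) Φ hs, hs⟩).symm
    exact ⟨_, _, _, h0.comp (g := e.toRingHom) ⟨RingHom.Flat.of_bijective e.bijective,
      map_maximalIdeal_of_surjective _ e.surjective⟩⟩
  right
  obtain ⟨p, hp, hp'⟩ : ∃ p : ℕ, p.Prime ∧ ¬ ((p : R) = 0 ∨ IsUnit (p : R)) := by
    simpa [EqChar] using hE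
  obtain ⟨hp0, hpu⟩ := not_or.1 hp'
  have : Fact p.Prime := ⟨hp⟩
  have hm : ∀ {B : Type u} [CommRing B] [IsLocalRing B] {j : R →+* B}, IsUnram j →
      (p : B) ∈ maximalIdeal B := fun {B} _ _ {j} hj => by
    rw [← hj.map_max, ← map_natCast j]
    exact Ideal.mem_map_of_mem _ hpu
  obtain ⟨R', _, _, _, j', hj', _, _⟩ := exists_unram_algClosed p _ (hm h0)
  have hj := h0.comp hj'
  generalize j'.comp _ = j at hj
  have := hj.isLocalHom
  obtain ⟨W, _, _, _, σ, hW, _, hσ⟩ := exists_coeffRing p R' (hm hj)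
  have ha : IsAlgClosed (ResidueField W) :=
    IsAlgClosed.of_ringEquiv _ _ (RingEquiv.ofBijective _ (ModelAux.residue_bij σ hσ)).symm
  have hy := ModelAux.map_gens hj hx
  obtain ⟨π, hs, h2⟩ := ModelAux.exists_eval σ hσ hy
  obtain ⟨c, hc⟩ := Ideal.mem_span_range_iff_exists_fun.1 (hy.ge (hm hj))
  choose g hg using fun i => hs (c i)
  obtain ⟨f, hf, hf0⟩ : ∃ f : MvPowerSeries (Fin d) W, MvPowerSeries.constantCoeff f = p ∧
      π f = 0 := ⟨p - ∑ i, g i * MvPowerSeries.X i, by simp, by simp [hg, h2, hc]⟩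
  have hpf := ModelAux.prime_f hW ha hf
  have := (Ideal.span_singleton_prime hpf.ne_zero).2 hpf
  have := IsLocalRing.of_surjective' (Ideal.Quotient.mk (Ideal.span {f}))
    Ideal.Quotient.mk_surjective
  have hle : ∀ a ∈ Ideal.span {f}, π a = 0 := fun a ha => by
    obtain ⟨c, rfl⟩ := Ideal.mem_span_singleton.1 ha
    rw [map_mul, hf0, zero_mul]
  have := NoZeroDivisors.to_isDomain (MvPowerSeries (Fin d) W)
  have hdim := dim_quot_lt_of_regular (ringKrullDim_mvPowerSeries_dvr W (Fin d)).le (g := f)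
    fun y hy => (mul_eq_zero.1 hy).resolve_left hpf.ne_zero
  rw [Fintype.card_fin, Nat.cast_add, Nat.cast_one, ENat.WithBot.lt_add_one_iff] at hdim
  have hinj := ModelAux.inj_of_dim hdim (hj.dim_eq ▸ hd) (Ideal.Quotient.lift _ π hle)
    (Ideal.Quotient.lift_surjective_of_surjective _ hle hs)
  refine ⟨R', _, _, ‹_›, j, p, ‹_›, W, _, _, _, hj, ⟨hW, ha, π, hs, f, ?_, hf, fun h => hp0 ?_⟩⟩
  · exact le_antisymm ((Ideal.injective_lift_iff hle).1 hinj).le hle
  · rw [← Ideal.mem_bot, ← FacA.comap_map_of_flat j hj.flat ⊥, Ideal.mem_comap, map_natCast, h]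
    exact zero_mem _

/-- Generators of the maximal ideal of a regular local ring form a regular sequence (check it
after the faithfully flat extension, `isWeaklyRegular_of_isSop`, `comap_map_of_flat`). -/
theorem exists_reg_of_regular (R : Type u) [CommRing R] [IsRegularLocalRing R] {d : ℕ}
    (hd : ringKrullDim R = d) : ∃ x : List R, x.length = d ∧
      RingTheory.Sequence.IsWeaklyRegular R x ∧ Ideal.ofList x = maximalIdeal R := by
  obtain ⟨x, hx⟩ := ModelAux.exists_gens R hd
  rw [← CoreC.ofList_ofFn] at hx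
  refine ⟨List.ofFn x, List.length_ofFn, ?_, hx⟩
  rcases exists_structure R hd with ⟨K, _, j, hj⟩ | ⟨R', _, _, _, j, p, _, W, _, _, _, hj, ⟨M⟩⟩
  · exact ModelAux.reg_descend hj hx (reg_mvPowerSeries_field K d).1
      (reg_mvPowerSeries_field K d).2 (by simp)
  · exact ModelAux.reg_descend hj hx M.reg M.span_x (by simp)

end Vale.Agent.P177
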