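import Vale.Agent.P177.DLevel
import Vale.Agent.P177.Model
import Vale.Agent.P202.LenUlt
import Vale.Agent.P177.LevelAux

/-! P177 module Level: the completed tensor product of the delta envelope with `R`. -/

namespace Vale.Agent.P177

open Vale.Agent.P202 IsLocalRing TensorProduct

universe u

/-- The data in `R`: coordinates `x`, a complete intersection `R / (h)` of dimension `a + 1`,
two elements with product zero, and parameters. -/
structure Setup (p d a b : ℕ) (R : Type u) [CommRing R] [IsLocalRing R] where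
  x : Fin d → R
  reg : RingTheory.Sequence.IsWeaklyRegular R (List.ofFn x)
  span_x : Ideal.ofList (List.ofFn x) = maximalIdeal R
  h : Fin b → R
  s : Fin a → R
  z : R
  w : R
  dim : a + 1 + b = d
  pm : (p : R) ∈ maximalIdeal R
  hm : ∀ j, h j ∈ maximalIdeal R
  sm : ∀ l, s l ∈ maximalIdeal R
  zm : z ∈ maximalIdeal R
  wm : w ∈ maximalIdeal R
  zw : z * w ∈ Ideal.span (Set.range h)
  sop_p : ∃ N : ℕ, maximalIdeal R ^ N ≤
    Ideal.span (Set.range h) ⊔ Ideal.span {(p : R)} ⊔ Ideal.span (Set.range s)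
  sop_c : ∃ N : ℕ, maximalIdeal R ^ N ≤
    Ideal.span (Set.range h) ⊔ Ideal.span {z + w} ⊔ Ideal.span (Set.range s)

variable {p d a b : ℕ} {R : Type u} [CommRing R] [IsLocalRing R]

/-- The ideal of the complete intersection. -/
def Setup.I (S : Setup p d a b R) : Ideal R := Ideal.span (Set.range S.h)
/-- The parameter ideal. -/
def Setup.J (S : Setup p d a b R) : Ideal R :=
  S.I ⊔ Ideal.span {(p : R)} ⊔ Ideal.span (Set.range S.s)

/-- The `k`-th level. -/
structure Level (S : Setup p d a b R) (N₀ k : ℕ) where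
  A : Type u
  [cr : CommRing A]
  [loc : IsLocalRing A]
  [noeth : IsNoetherianRing A]
  [alg : Algebra R A]
  [flat : Module.Flat R A]
  [lh : IsLocalHom (algebraMap R A)]
  res : ∀ r : A, ∃ c : R, r - algebraMap R A c ∈ maximalIdeal A
  cm : ∃ l : List A, l.length = a + 1 + d ∧ RingTheory.Sequence.IsWeaklyRegular A l ∧
    ∀ r ∈ l, r ∈ maximalIdeal A
  y : Fin d → A
  F : A
  t : Fin a → A
  α : A
  β : A
  ρ : ℕ
  ρ_pos : 0 < ρ
  ym : ∀ i, y i ∈ maximalIdeal A
  hI : ∀ j, algebraMap R A (S.h j) ∈ Ideal.span (Set.range y)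
  hF : F ∈ Ideal.span (Set.range y)
  ht : ∀ l, t l - algebraMap R A (S.s l) ∈ Ideal.span (Set.range y)
  fin : Module.Finite R (A ⧸ Ideal.span (Set.range y))
  gen : ∃ v : Fin ρ → A, ∀ r : A, ∃ (n : ℕ) (c : Fin ρ → R),
    (p : A) ^ n * r - ∑ i, algebraMap R A (c i) * v i ∈ Ideal.span (Set.range y)
  count : Module.length A (A ⧸ (Ideal.span (Set.range y) ⊔ S.J.map (algebraMap R A))) =
    ρ * Module.length R (R ⧸ S.J)
  hα : α ^ p ^ k - algebraMap R A S.z ∈ Ideal.span (Set.range y)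
  hβ : β ^ p ^ k - algebraMap R A S.w ∈ Ideal.span (Set.range y)
  hαβ : α * β ∈ Ideal.span {(p : A), F} ^ k
  hx : ∀ i, (y i + algebraMap R A (S.x i)) ^ N₀ ∈
    Ideal.span {(p : A), F} ⊔ Ideal.span (Set.range t)
  iso : ∃ e : (A ⧸ ((maximalIdeal R).map (algebraMap R A) ⊔ Ideal.span {F} ⊔
      Ideal.span (Set.range t))) ≃+* (A ⧸ (Ideal.span (Set.range y) ⊔ S.J.map (algebraMap R A))),
    e (Ideal.Quotient.mk _ α) = Ideal.Quotient.mk _ α ∧
      e (Ideal.Quotient.mk _ β) = Ideal.Quotient.mk _ β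

attribute [instance] Level.cr Level.loc Level.noeth Level.alg Level.flat Level.lh

section Aux
open MvPowerSeries

variable [Fact p.Prime] [IsNoetherianRing R] {W : Type u} [CommRing W] [IsDomain W]
  [IsDiscreteValuationRing W] (M : MixModel p d W R) (S : Setup p d a b R)

omit [Fact p.Prime] [IsNoetherianRing R] in
theorem lvl_lift {r : R} (hr : r ∈ maximalIdeal R) : ∃ g, M.π g = r ∧ constantCoeff g = 0 := by
  obtain ⟨g, rfl⟩ := M.surj r
  have := IsLocalHom.of_surjective M.π M.surj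
  have h1 : g ∈ maximalIdeal _ := fun h => hr (h.map M.π)
  rw [Lvl.mem_max, M.cohen.max, Ideal.mem_span_singleton'] at h1
  obtain ⟨c, hc⟩ := h1
  have h2 : M.π M.f = 0 := by
    rw [← RingHom.mem_ker, M.ker]
    exact Ideal.mem_span_singleton_self _
  exact ⟨g - C c * M.f, by rw [map_sub, map_mul, h2, mul_zero, sub_zero],
    by rw [map_sub, map_mul, constantCoeff_C, M.const, hc, sub_self]⟩

/-- The presentation of `R / I` with two extra variables. -/
structure LvlPres where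
  j : MvPowerSeries (Fin d) W →+* MvPowerSeries (Fin d ⊕ Fin 2) W
  τ : MvPowerSeries (Fin d ⊕ Fin 2) W →+* R
  H : Fin b ⊕ Fin 2 → MvPowerSeries (Fin d ⊕ Fin 2) W
  s : Fin a → MvPowerSeries (Fin d ⊕ Fin 2) W
  jC : ∀ c, j (C c) = C c
  jX : ∀ i, j (X i) = X (Sum.inl i)
  jc : ∀ g, constantCoeff (j g) = constantCoeff g
  τj : ∀ g, τ (j g) = M.π g
  τz : τ (X (Sum.inr 0)) = S.z
  τw : τ (X (Sum.inr 1)) = S.w
  τs : ∀ l, τ (s l) = S.s l
  H0 : ∀ i, constantCoeff (H i) = 0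
  sm : ∀ l, s l ∈ maximalIdeal _
  comap : S.I.comap τ = Ideal.span {j M.f} ⊔ Ideal.span (Set.range H)

omit [Fact p.Prime] [IsNoetherianRing R] in
theorem lvl_pres : Nonempty (LvlPres M S) := by
  have := M.cohen.complete
  have := isAdicComplete_mvPowerSeries (σ := Fin d ⊕ Fin 2) (V := W)
  have := isAdicComplete_mvPowerSeries (σ := Fin d) (V := W)
  choose h' hh hh0 using fun i => lvl_lift M (S.hm i)
  choose s' hs hs0 using fun i => lvl_lift M (S.sm i)
  choose v hv hv0 using fun e : Fin 2 => lvl_lift M (r := ![S.z, S.w] e) (by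
    fin_cases e
    exacts [S.zm, S.wm])
  obtain ⟨j, hjC, hjX⟩ := exists_evalHom (σ := Fin d)
    (C : W →+* MvPowerSeries (Fin d ⊕ Fin 2) W) (fun i => X (Sum.inl i)) fun i => FacA.X_mem _
  have hm : ∀ i : Fin d ⊕ Fin 2, Sum.elim X v i ∈ maximalIdeal (MvPowerSeries (Fin d) W) := by
    rintro (i | e)
    · exact FacA.X_mem i
    · exact Lvl.mem_max.2 (by rw [Sum.elim_inr, hv0]; exact zero_mem _)
  obtain ⟨ev, heC, heX⟩ := exists_evalHom (σ := Fin d ⊕ Fin 2)
    (C : W →+* MvPowerSeries (Fin d) W) (Sum.elim X v) hm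
  have hjC' : ∀ c, j (C c) = C c := RingHom.congr_fun hjC
  have heC' : ∀ c, ev (C c) = C c := RingHom.congr_fun heC
  have h1 : ∀ g, ev (j g) = g := RingHom.congr_fun (evalHom_ext (ev.comp j) (RingHom.id _)
    (RingHom.ext fun c => by simp [hjC', heC']) (fun i => by simp [hjX, heX])
    fun i => by simpa [hjX, heX] using FacA.X_mem i)
  have h2 : ∀ g, constantCoeff (j g) = constantCoeff g :=
    RingHom.congr_fun (evalHom_ext (constantCoeff.comp j) constantCoeff
      (RingHom.ext fun c => by simp [hjC']) (fun i => by simp [hjX]) fun i => by simp [hjX])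
  let H : Fin b ⊕ Fin 2 → MvPowerSeries (Fin d ⊕ Fin 2) W :=
    Sum.elim (fun i => j (h' i)) fun e => X (Sum.inr e) - j (v e)
  have h3 : ∀ g, g - j (ev g) ∈ Ideal.span (Set.range H) :=
    Lvl.ext_mod _ (RingHom.id _) (j.comp ev) (fun c => by simp [hjC', heC'])
      (by
        rintro (i | e)
        · simp [hjX, heX]
        · exact Ideal.subset_span ⟨Sum.inr e, by simp [H, heX]⟩) fun i => FacA.X_mem i
  have h4 : M.π M.f = 0 := by
    rw [← RingHom.mem_ker, M.ker]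
    exact Ideal.mem_span_singleton_self _
  refine ⟨⟨j, M.π.comp ev, H, fun l => j (s' l), hjC', hjX, h2, fun g => by simp [h1],
    by simp [heX, hv], by simp [heX, hv], fun l => by simp [h1, hs], ?_,
    fun l => Lvl.mem_max.2 (by rw [h2, hs0]; exact zero_mem _), ?_⟩⟩
  · rintro (i | e) <;> simp [H, h2, hh0, hv0]
  · refine Lvl.comap_eq (fun r => ?_) (fun g hg => ?_) (Ideal.span_le.2 ?_) ?_
    · obtain ⟨g, rfl⟩ := M.surj r
      exact ⟨j g, by simp [h1]⟩
    · have h5 : ev g ∈ RingHom.ker M.π := hg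
      rw [M.ker, Ideal.mem_span_singleton'] at h5
      obtain ⟨c, hc⟩ := h5
      rw [← add_sub_cancel (j (ev g)) g]
      refine Submodule.add_mem_sup ?_ (h3 g)
      rw [← hc, map_mul]
      exact Ideal.mul_mem_left _ _ (Ideal.mem_span_singleton_self _)
    · rintro _ ⟨i, rfl⟩
      have h5 : S.h i = (M.π.comp ev) (H (Sum.inl i)) := by simp [H, h1, hh]
      rw [h5]
      exact Ideal.mem_map_of_mem _ (Ideal.mem_sup_right (Ideal.subset_span ⟨_, rfl⟩))
    · refine fun q hq => (sup_le (Ideal.span_le.2 ?_) (Ideal.span_le.2 ?_) :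
        _ ≤ S.I.comap (M.π.comp ev)) hq
      · rintro _ rfl
        simp [h1, h4]
      · rintro _ ⟨i | e, rfl⟩
        · simpa [H, h1, hh, Setup.I] using Ideal.subset_span (Set.mem_range_self i)
        · simp [H, h1, heX]

variable {M S}

omit [Fact p.Prime] [IsNoetherianRing R] in
theorem LvlPres.surj (P : LvlPres M S) : Function.Surjective P.τ := fun r => by
  obtain ⟨g, rfl⟩ := M.surj r
  exact ⟨_, P.τj g⟩

omit [Fact p.Prime] [IsNoetherianRing R] in
theorem LvlPres.comapJ (P : LvlPres M S) : S.J.comap P.τ =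
    Ideal.span {(p : MvPowerSeries (Fin d ⊕ Fin 2) W), P.j M.f} ⊔ Ideal.span (Set.range P.H) ⊔
      Ideal.span (Set.range P.s) := by
  have h0 : RingHom.ker P.τ ≤ S.I.comap P.τ := Ideal.ker_le_comap _
  have h1 : Ideal.span {(p : MvPowerSeries (Fin d ⊕ Fin 2) W), P.j M.f} ⊔
      Ideal.span (Set.range P.H) = S.I.comap P.τ ⊔ Ideal.span {(p : MvPowerSeries _ W)} := by
    rw [Ideal.span_insert, sup_assoc, ← P.comap, sup_comm]
  have h2 : S.J = (S.I.comap P.τ ⊔ Ideal.span {(p : MvPowerSeries _ W)} ⊔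
      Ideal.span (Set.range P.s)).map P.τ := by
    rw [Ideal.map_sup, Ideal.map_sup, Ideal.map_comap_of_surjective _ P.surj, Ideal.map_span,
      Ideal.map_span, Set.image_singleton, map_natCast, ← Set.range_comp,
      show P.τ ∘ P.s = S.s from funext P.τs, Setup.J]
  rw [h1, h2]
  exact CoreC.comap_map_eq P.surj (h0.trans (le_sup_left.trans le_sup_left))

omit [Fact p.Prime] [IsNoetherianRing R] in
theorem LvlPres.map_I (P : LvlPres M S) {k : ℕ}
    (D : DLevel p _ (P.j M.f) P.H P.s (X (Sum.inr 0)) (X (Sum.inr 1)) k) :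
    S.I.comap P.τ ≤ (Ideal.span {D.Φ (P.j M.f)}).comap D.Φ := by
  rw [P.comap]
  refine sup_le (Ideal.span_le.2 ?_) (Ideal.span_le.2 ?_)
  · rintro _ rfl
    exact Ideal.mem_span_singleton_self _
  · rintro _ ⟨i, rfl⟩
    exact D.hH i

omit [Fact p.Prime] [IsNoetherianRing R] in
theorem LvlPres.map_J (P : LvlPres M S) {k : ℕ}
    (D : DLevel p _ (P.j M.f) P.H P.s (X (Sum.inr 0)) (X (Sum.inr 1)) k) :
    S.J.comap P.τ ≤ (Ideal.span {(p : D.Δ), D.Φ (P.j M.f)} ⊔
      Ideal.span (Set.range fun l => D.Φ (P.s l))).comap D.Φ := by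
  rw [P.comapJ, ← Ideal.map_le_iff_le_comap, Ideal.map_sup, Ideal.map_sup, Ideal.map_span,
    Ideal.map_span, Ideal.map_span, Set.image_pair, map_natCast, ← Set.range_comp,
    ← Set.range_comp]
  refine sup_le_sup_right (sup_le le_rfl (Ideal.span_le.2 ?_)) _
  rintro _ ⟨i, rfl⟩
  exact Ideal.span_mono (Set.subset_insert _ _) (D.hH i)

theorem LvlPres.level_aux (P : LvlPres M S) (hx : S.x = M.x) {N k : ℕ}
    (hN : maximalIdeal R ^ N ≤ S.J)
    (D : DLevel p _ (P.j M.f) P.H P.s (X (Sum.inr 0)) (X (Sum.inr 1)) k)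
    {A : Type u} [CommRing A] [IsLocalRing A] [IsNoetherianRing A]
    (mk : MvPowerSeries (Fin d) D.Δ →+* A) (hsurj : Function.Surjective mk)
    (ψ : MvPowerSeries (Fin d) W →+* MvPowerSeries (Fin d) D.Δ)
    (hψC : ∀ c, ψ (C c) = C (D.Φ (C c))) (hψX : ∀ i, ψ (X i) = X i)
    (hf0 : constantCoeff (ψ M.f) = p) (hker : RingHom.ker mk = Ideal.span {ψ M.f})
    (hreg : RingTheory.Sequence.IsWeaklyRegular A ((List.ofFn X ++
      (D.Φ (P.j M.f) :: List.ofFn fun l => D.Φ (P.s l)).map C).map mk)) :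
    Nonempty (Level S N k) := by
  have := M.cohen.complete
  have := isAdicComplete_mvPowerSeries (σ := Fin d ⊕ Fin 2) (V := W)
  have := isAdicComplete_of_finite _ D.fin
  have := isLocalHom_of_finite _ D.fin
  have := IsLocalHom.of_surjective _ P.surj
  have := IsLocalHom.of_surjective _ hsurj
  have hXm : ∀ i, D.Φ (X i) ∈ maximalIdeal D.Δ := fun i => map_nonunit _ _ (FacA.X_mem i)
  have hf : mk (ψ M.f) = 0 := by
    rw [← RingHom.mem_ker, hker]
    exact Ideal.mem_span_singleton_self _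
  obtain ⟨φ, hφ⟩ : ∃ φ : R →+* A, ∀ g, φ (M.π g) = mk (ψ g) :=
    ⟨M.π.liftOfSurjective M.surj ⟨mk.comp ψ, by
      rw [M.ker, Ideal.span_singleton_le_iff_mem]
      exact hf⟩, RingHom.liftOfSurjective_comp_apply _ _ _⟩
  have hφx : φ ∘ S.x = mk ∘ X := funext fun i => by
    rw [hx, Function.comp_apply, MixModel.x, hφ, hψX, Function.comp_apply]
  have hmax : (maximalIdeal R).map φ = Ideal.span (Set.range (mk ∘ X)) := by
    rw [← S.span_x, CoreC.ofList_ofFn, Ideal.map_span, ← Set.range_comp, hφx]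
  have hxm : ∀ i, mk (X i) ∈ maximalIdeal A := fun i => map_nonunit _ _ (FacA.X_mem i)
  have hloc : IsLocalHom φ := isLocalHom_of_map_le (by
    rw [hmax, Ideal.span_le]
    rintro _ ⟨i, rfl⟩
    exact hxm i)
  have hflat : φ.Flat := flat_of_isWeaklyRegular φ _ S.span_x (by
    rw [List.map_append, RingTheory.Sequence.isWeaklyRegular_append_iff, List.map_ofFn] at hreg
    rw [List.map_ofFn, hφx]
    exact hreg.1)
  obtain ⟨ev, heC, heX⟩ := exists_evalHom (σ := Fin d) (RingHom.id D.Δ)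
    (fun i => D.Φ (X (Sum.inl i))) fun i => hXm _
  replace heC : ∀ c, ev (C c) = c := RingHom.congr_fun heC
  obtain ⟨κ, hκ⟩ : ∃ κ : D.Δ →+* A, ∀ c, mk (C c) = κ c := ⟨mk.comp C, fun _ => rfl⟩
  have hκm : ∀ c ∈ maximalIdeal D.Δ, κ c ∈ maximalIdeal A := fun c hc =>
    hκ c ▸ map_nonunit _ _ (Lvl.mem_max.2 hc)
  obtain ⟨y, hy⟩ : ∃ y : Fin d → A, ∀ i, y i = κ (D.Φ (X (Sum.inl i))) - mk (X i) :=
    ⟨_, fun _ => rfl⟩
  obtain ⟨Y, hY⟩ : ∃ Y, Y = Ideal.span (Set.range y) := ⟨_, rfl⟩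
  have k0 : ∀ q, mk q - κ (ev q) ∈ Y := Lvl.ext_mod Y mk (κ.comp ev)
    (fun c => by simp [heC, hκ]) (fun i => by
      rw [RingHom.comp_apply, heX, ← neg_sub, ← hy, hY]
      exact neg_mem (Ideal.subset_span ⟨i, rfl⟩)) hxm
  have k1 : ∀ g, ev (ψ g) = D.Φ (P.j g) := RingHom.congr_fun (evalHom_ext (ev.comp ψ)
    (D.Φ.comp P.j) (RingHom.ext fun c => by simp [hψC, heC, P.jC])
    (fun i => by simp [hψX, heX, P.jX]) fun i => by simpa [hψX, heX] using hXm _)
  have hF : κ (D.Φ (P.j M.f)) ∈ Y := by simpa [hf, k1] using k0 (ψ M.f)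
  have k3 : ∀ c ∈ Ideal.span {D.Φ (P.j M.f)}, κ c ∈ Y :=
    ((Ideal.span_singleton_le_iff_mem _).2 hF : _ ≤ Y.comap κ)
  have k4 : ∀ g, φ (P.τ g) - κ (D.Φ g) ∈ Y := fun g => by
    obtain ⟨g', hg'⟩ := M.surj (P.τ g)
    have h1 := k3 _ (P.map_I D (x := P.j g' - g) (by simp [P.τj, hg']))
    have h2 := k0 (ψ g')
    rw [k1, ← hφ, hg'] at h2
    simpa using add_mem h2 h1
  obtain ⟨𝔠, h𝔠⟩ : ∃ 𝔠, 𝔠 = Ideal.span {(p : D.Δ), D.Φ (P.j M.f)} ⊔
    Ideal.span (Set.range fun l => D.Φ (P.s l)) := ⟨_, rfl⟩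
  have k5 : ∀ g, P.τ g ∈ S.J → D.Φ g ∈ 𝔠 := fun g hg => h𝔠 ▸ P.map_J D hg
  have k6 : 𝔠.map κ = Ideal.span {(p : A), κ (D.Φ (P.j M.f))} ⊔
      Ideal.span (Set.range fun l => κ (D.Φ (P.s l))) := by
    rw [h𝔠, Ideal.map_sup, Ideal.map_span, Ideal.map_span, Set.image_pair, map_natCast,
      ← Set.range_comp]
    rfl
  have m1 : (p : D.Δ) ∈ 𝔠 := h𝔠 ▸ Ideal.mem_sup_left (Ideal.subset_span (Or.inl rfl))
  have m2 : D.Φ (P.j M.f) ∈ 𝔠 := h𝔠 ▸ Ideal.mem_sup_left (Ideal.subset_span (Or.inr rfl))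
  have m3 : ∀ l, D.Φ (P.s l) ∈ 𝔠 := fun l =>
    h𝔠 ▸ Ideal.mem_sup_right (Ideal.subset_span ⟨l, rfl⟩)
  have c1 : (Y ⊔ S.J.map φ).comap mk = 𝔠.comap ev := by
    refine Lvl.comap_eq hsurj ?_ (sup_le ?_ (Ideal.map_le_iff_le_comap.2 fun r hr => ?_))
      fun q hq => ?_
    · rw [hker, Ideal.span_singleton_le_iff_mem, Ideal.mem_comap, k1]
      exact m2
    · rw [hY, Ideal.span_le]
      rintro _ ⟨i, rfl⟩
      rw [hy, ← hκ, ← map_sub]
      exact Ideal.mem_map_of_mem _ (by simp [heC, heX])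
    · obtain ⟨g, rfl⟩ := M.surj r
      rw [Ideal.mem_comap, hφ]
      exact Ideal.mem_map_of_mem _ (by
        rw [Ideal.mem_comap, k1]
        exact k5 _ (P.τj g ▸ hr))
    · rw [← sub_add_cancel (mk q) (κ (ev q))]
      refine add_mem (Ideal.mem_sup_left (k0 q)) ((?_ : 𝔠.map κ ≤ _) (Ideal.mem_map_of_mem κ hq))
      rw [k6, Ideal.span_insert]
      refine sup_le (sup_le ?_ ?_) (Ideal.span_le.2 ?_)
      · rw [Ideal.span_singleton_le_iff_mem, ← map_natCast φ]
        exact Ideal.mem_sup_right (Ideal.mem_map_of_mem _ (Ideal.mem_sup_left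
          (Ideal.mem_sup_right (Ideal.mem_span_singleton_self _))))
      · exact le_sup_of_le_left ((Ideal.span_singleton_le_iff_mem _).2 hF)
      · rintro _ ⟨l, rfl⟩
        have h1 := sub_mem (Ideal.mem_sup_right (S := Y) (Ideal.mem_map_of_mem φ
          (Ideal.mem_sup_right (S := S.I ⊔ Ideal.span {(p : R)})
            (Ideal.subset_span (s := Set.range S.s) ⟨l, (P.τs l).symm⟩))))
          (Ideal.mem_sup_left (k4 (P.s l)))
        rwa [sub_sub_cancel] at h1
  have c2 : ((maximalIdeal R).map φ ⊔ Ideal.span {κ (D.Φ (P.j M.f))} ⊔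
      Ideal.span (Set.range fun l => κ (D.Φ (P.s l)))).comap mk = 𝔠.comap constantCoeff := by
    refine Lvl.comap_eq hsurj ?_ (sup_le (sup_le ?_ ?_) (Ideal.span_le.2 ?_)) fun q hq => ?_
    · rw [hker, Ideal.span_singleton_le_iff_mem, Ideal.mem_comap, hf0]
      exact m1
    · rw [hmax, Ideal.span_le]
      rintro _ ⟨i, rfl⟩
      exact Ideal.mem_map_of_mem _ (by simp)
    · rw [Ideal.span_singleton_le_iff_mem, ← hκ]
      exact Ideal.mem_map_of_mem _ m2
    · rintro _ ⟨l, rfl⟩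
      simp only [← hκ]
      exact Ideal.mem_map_of_mem _ (m3 l)
    · rw [← sub_add_cancel (mk q) (κ (constantCoeff q))]
      refine add_mem (Ideal.mem_sup_left (Ideal.mem_sup_left ?_))
        ((?_ : 𝔠.map κ ≤ _) (Ideal.mem_map_of_mem κ hq))
      · rw [hmax, Set.range_comp, ← Ideal.map_span, ← hκ, ← map_sub, ← ker_constantCoeff]
        exact Ideal.mem_map_of_mem _ (by simp [RingHom.mem_ker])
      · rw [k6, Ideal.span_insert]
        refine sup_le_sup_right (sup_le_sup_right ?_ _) _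
        rw [Ideal.span_singleton_le_iff_mem, ← map_natCast φ]
        exact Ideal.mem_map_of_mem _ S.pm
  obtain ⟨l1, e₁, he₁⟩ := Lvl.quot_iso hsurj (fun c => ⟨_, heC c⟩) c1
  obtain ⟨-, e₂, he₂⟩ := Lvl.quot_iso hsurj (fun c => ⟨_, constantCoeff_C c⟩) c2
  have he : ∀ c, (e₂.trans e₁.symm) (Ideal.Quotient.mk _ (κ c)) = Ideal.Quotient.mk _ (κ c) :=
    fun c => by
      rw [RingEquiv.trans_apply, RingEquiv.symm_apply_eq, ← hκ c, he₁, he₂, heC, constantCoeff_C]
  subst hY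
  let _ := φ.toAlgebra
  refine ⟨{
    A := A, flat := hflat, lh := hloc, res := fun r => ?_, cm := ⟨_, ?_, hreg, fun r hr => ?_⟩
    y := y, F := κ (D.Φ (P.j M.f)), t := fun l => κ (D.Φ (P.s l)), α := κ D.α, β := κ D.β
    ρ := D.ρ, ρ_pos := D.ρ_pos, ym := fun i => hy i ▸ sub_mem (hκm _ (hXm _)) (hxm i)
    hI := fun i => ?_, hF := hF, ht := fun l => ?_, fin := ?_, gen := ?_, count := ?_
    hα := ?_, hβ := ?_, hαβ := ?_, hx := fun i => ?_, iso := ⟨_, he _, he _⟩ }⟩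
  · obtain ⟨q, rfl⟩ := hsurj r
    obtain ⟨c, hc⟩ := D.res (constantCoeff q)
    refine ⟨M.π (C (constantCoeff c)), ?_⟩
    rw [RingHom.algebraMap_toAlgebra, hφ, hψC, ← map_sub]
    refine map_nonunit _ _ (Lvl.mem_max.2 ?_)
    have h1 : D.Φ (c - C (constantCoeff c)) ∈ maximalIdeal _ :=
      map_nonunit _ _ (Lvl.mem_max.2 (by simp))
    simpa using add_mem hc h1
  · simp
    omega
  · obtain ⟨q, hq, rfl⟩ := List.mem_map.1 hr
    rcases List.mem_append.1 hq with hq | hq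
    · obtain ⟨i, rfl⟩ := List.mem_ofFn.1 hq
      exact hxm i
    · obtain ⟨c, hc, rfl⟩ := List.mem_map.1 hq
      rw [hκ]
      refine hκm _ ?_
      rcases List.mem_cons.1 hc with rfl | hc
      · exact map_nonunit _ _ (Lvl.mem_max.2 (by rw [P.jc, M.const]; exact M.cohen.mem_max))
      · obtain ⟨l, rfl⟩ := List.mem_ofFn.1 hc
        exact map_nonunit _ _ (P.sm l)
  · obtain ⟨g, hg⟩ := P.surj (S.h i)
    have h1 := add_mem (k4 g) (k3 _ (P.map_I D (Ideal.subset_span ⟨i, hg.symm⟩)))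
    rwa [sub_add_cancel, hg] at h1
  · have h1 := neg_mem (k4 (P.s l))
    rwa [neg_sub, P.τs] at h1
  · have h1 : Function.Surjective ((Ideal.Quotient.mk (Ideal.span (Set.range y))).comp κ) :=
      fun r => by
        obtain ⟨r, rfl⟩ := Ideal.Quotient.mk_surjective r
        obtain ⟨q, rfl⟩ := hsurj r
        exact ⟨ev q, (Ideal.Quotient.eq.2 (k0 q)).symm⟩
    have h2 := (RingHom.Finite.of_surjective _ h1).comp D.fin
    have h3 : (algebraMap R (A ⧸ Ideal.span (Set.range y))).comp P.τ =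
        ((Ideal.Quotient.mk (Ideal.span (Set.range y))).comp κ).comp D.Φ :=
      RingHom.ext fun g => Ideal.Quotient.eq.2 (k4 g)
    rw [← h3] at h2
    exact RingHom.finite_algebraMap.1 h2.of_comp_finite
  · obtain ⟨v, hv⟩ := D.gen
    refine ⟨fun i => κ (v i), fun r => ?_⟩
    obtain ⟨q, rfl⟩ := hsurj r
    obtain ⟨n, c, hc⟩ := hv (ev q)
    refine ⟨n, fun i => P.τ (c i), Ideal.Quotient.eq.1 ?_⟩
    have h1 := k3 _ hc
    rw [map_sub, ← Ideal.Quotient.eq] at h1
    simp only [map_mul, map_pow, map_natCast, map_sum, RingHom.algebraMap_toAlgebra,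
      Ideal.Quotient.eq.2 (k0 q), Ideal.Quotient.eq.2 (k4 _)] at h1 ⊢
    exact h1
  · rw [← (Lvl.quot_comap P.surj S.J).1, P.comapJ, ← D.count, ← h𝔠]
    exact l1
  · have h1 := neg_mem (k4 (X (Sum.inr 0)))
    rwa [neg_sub, P.τz, ← D.hα, map_pow] at h1
  · have h1 := neg_mem (k4 (X (Sum.inr 1)))
    rwa [neg_sub, P.τw, ← D.hβ, map_pow] at h1
  · have h1 := Ideal.mem_map_of_mem κ D.hαβ
    rwa [Ideal.map_pow, Ideal.map_span, Set.image_pair, map_natCast, map_mul] at h1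
  · have h1 : y i + φ (S.x i) = κ (D.Φ (X (Sum.inl i))) := by
      rw [hy, show φ (S.x i) = mk (X i) from congrFun hφx i, sub_add_cancel]
    rw [RingHom.algebraMap_toAlgebra, h1, ← k6, ← map_pow, ← map_pow]
    refine Ideal.mem_map_of_mem κ (k5 _ (hN ?_))
    rw [map_pow]
    exact Ideal.pow_mem_pow (map_nonunit _ _ (FacA.X_mem _)) N

theorem LvlPres.level (P : LvlPres M S) (hx : S.x = M.x) {N k : ℕ}
    (hN : maximalIdeal R ^ N ≤ S.J)
    (D : DLevel p _ (P.j M.f) P.H P.s (X (Sum.inr 0)) (X (Sum.inr 1)) k) :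
    Nonempty (Level S N k) := by
  have := isLocalHom_of_finite _ D.fin
  let ψ : MvPowerSeries (Fin d) W →+* MvPowerSeries (Fin d) D.Δ := MvPowerSeries.map (D.Φ.comp C)
  have hf0 : constantCoeff (ψ M.f) = p := by rw [constantCoeff_map, M.const, map_natCast]
  have hp : (p : D.Δ) ∈ maximalIdeal D.Δ := by
    rw [← map_natCast D.Φ]
    exact map_nonunit _ _ (FacA.p_mem M.cohen _)
  have : Nontrivial (MvPowerSeries (Fin d) D.Δ ⧸ Ideal.span {ψ M.f}) :=
    Ideal.Quotient.nontrivial_iff.2 (Ideal.span_singleton_ne_top (Lvl.mem_max.2 (hf0 ▸ hp)))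
  have : IsLocalRing (MvPowerSeries (Fin d) D.Δ ⧸ Ideal.span {ψ M.f}) :=
    IsLocalRing.of_surjective' _ Ideal.Quotient.mk_surjective
  refine P.level_aux hx hN D (Ideal.Quotient.mk (Ideal.span {ψ M.f})) Ideal.Quotient.mk_surjective
    ψ (fun c => map_C _ c) (fun i => map_X _ i) hf0 Ideal.mk_ker
    (Lvl.reg_quot (f := ψ M.f) (hf0 ▸ D.reg) ?_)
  rw [hf0]
  simp only [List.forall_mem_cons, List.forall_mem_ofFn_iff]
  exact ⟨hp, map_nonunit _ _ (Lvl.mem_max.2 (by rw [P.jc, M.const]; exact M.cohen.mem_max)),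
    fun l => map_nonunit _ _ (P.sm l)⟩

end Aux

/-- Let `T = W[[Fin d ⊕ Fin 2]]`, with relations `H`: lifts of the `h j`, and `Z - z'`, `V - w'`
for lifts `z', w'` (all lifts with constant coefficient zero: subtract multiples of `f`). Let `Δ`
be a `DLevel`, `A = Δ[[x']] / (f')` with `f' = map (Φ ∘ C) f`; `R → A` is induced by
`map (Φ ∘ C)`, flat by `flat_of_isWeaklyRegular`; `y i = C (Φ (X i)) - X i`; `A / y = Δ / Φ f`
(`sub_C_eval_mem`) and `A / m A = Δ / p`. -/
theorem exists_level [Fact p.Prime] [IsNoetherianRing R] {W : Type u} [CommRing W] [IsDomain W]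
    [IsDiscreteValuationRing W] (M : MixModel p d W R) (S : Setup p d a b R) (hx : S.x = M.x) :
    ∃ N₀ : ℕ, 0 < N₀ ∧ ∀ k, Nonempty (Level S N₀ k) := by
  obtain ⟨P⟩ := lvl_pres M S
  obtain ⟨N, hN⟩ := S.sop_p
  have := M.alg
  have := IsLocalHom.of_surjective _ P.surj
  refine ⟨N + 1, N.succ_pos, fun k => ?_⟩
  obtain ⟨D⟩ := exists_dLevel M.cohen ((P.jc _).trans M.const) P.H0 P.sm
    (by have := S.dim; simp; omega) ⟨N, by
      rw [← P.comapJ, ← maximalIdeal_comap P.τ]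
      exact (Ideal.le_comap_pow _ N).trans (Ideal.comap_mono hN)⟩
    (z := Sum.inr 0) (w := Sum.inr 1) (by
      rw [← P.comap, Ideal.mem_comap, map_mul, P.τz, P.τw]
      exact S.zw) k
  exact P.level hx ((Ideal.pow_le_pow_right N.le_succ).trans hN) D

end Vale.Agent.P177
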