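import Vale.Agent.P177.Level

/-! P177: auxiliary lemmas for the section K of `LevelEst`. -/

namespace Vale.Agent.P177.LK

open Vale.Agent.P202 IsLocalRing TensorProduct RingTheory.Sequence

universe u

theorem ofFn_span {A : Type*} [CommRing A] {n : ℕ} (x : Fin n → A) :
    Ideal.ofList (List.ofFn x) = Ideal.span (Set.range x) := by
  rw [Ideal.ofList]
  congr 1
  ext r
  simp [List.mem_ofFn]

theorem ofList_smul_top {A : Type*} [CommRing A] (l : List A) :
    (Ideal.ofList l • ⊤ : Submodule A A) = Ideal.ofList l := by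
  rw [smul_eq_mul, Ideal.mul_top]

theorem isSop_self {A : Type u} [CommRing A] [IsLocalRing A] [IsNoetherianRing A] {l : List A}
    (h1 : ∀ a ∈ l, a ∈ maximalIdeal A) (h2 : maximalIdeal A ≤ (Ideal.ofList l).radical) :
    IsSop A l := by
  obtain ⟨N, hN⟩ := Ideal.exists_pow_le_of_le_radical_of_fg h2
    (maximalIdeal A).fg_of_isNoetherianRing
  exact ⟨h1, N, fun r hr => ⟨r, hN hr, fun x _ => by simp⟩⟩

theorem isSop_of_kill {A : Type u} [CommRing A] [IsLocalRing A] [IsNoetherianRing A] {I : Ideal A}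
    {l : List A} (h : IsSop (A ⧸ I) l) {M : Type u} [AddCommGroup M] [Module A M]
    (hI : ∀ r ∈ I, ∀ m : M, r • m = 0) : IsSop M l := by
  obtain ⟨h1, N, hN⟩ := isSop_quotient_iff.1 h
  refine ⟨h1, N, fun r hr => ?_⟩
  obtain ⟨i, hi, c, hc, rfl⟩ := Submodule.mem_sup.1 (hN hr)
  exact ⟨c, hc, fun x _ => by rw [add_sub_cancel_right, hI i hi]; exact zero_mem _⟩

theorem reg_ringEquiv {D D' : Type*} [CommRing D] [CommRing D'] (e : D ≃+* D') {l : List D}
    (h : IsWeaklyRegular D l) : IsWeaklyRegular D' (l.map e) :=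
  (e.toAddEquiv.isWeaklyRegular_congr (List.forall₂_map_right_iff.2
    (List.forall₂_same.2 fun r _ x => e.map_mul r x))).1 h

section Two
variable {R S S' : Type u} [CommRing R] [CommRing S] [CommRing S'] [Algebra R S] [Algebra R S']

theorem reg_tensor_quot (u : List S') (w : List S)
    (h : IsWeaklyRegular (S ⊗[R] S')
      (u.map (Algebra.TensorProduct.includeRight (R := R) (A := S)) ++
        w.map (algebraMap S (S ⊗[R] S')))) :
    IsWeaklyRegular (S ⊗[R] (S' ⧸ Ideal.ofList u)) w := by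
  have h2 := ((isWeaklyRegular_append_iff _ _ _).1 h).2
  have e : Ideal.ofList (u.map (Algebra.TensorProduct.includeRight (R := R) (A := S))) =
      (Ideal.ofList u).map (Algebra.TensorProduct.includeRight (R := R) (A := S)) :=
    (Ideal.map_ofList (Algebra.TensorProduct.includeRight (R := R) (A := S)).toRingHom u).symm
  rw [ofList_smul_top, e, isWeaklyRegular_map_algebraMap_iff] at h2
  exact ((Algebra.TensorProduct.tensorQuotientEquiv (R := R) S S' S
    (Ideal.ofList u)).toLinearEquiv.isWeaklyRegular_congr w).2 h2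

/-- The quotient of a base change. -/
noncomputable def tq (Z : Type u) [AddCommGroup Z] [Module R Z] (J : Ideal S) :
    ((S ⧸ J) ⊗[R] Z) ≃ₗ[S] (S ⊗[R] Z) ⧸ (J • ⊤ : Submodule S (S ⊗[R] Z)) :=
  (AlgebraTensorModule.cancelBaseChange R S S (S ⧸ J) Z).symm.trans
    (quotTensorEquivQuotSMul (S ⊗[R] Z) J)

/-- Both quotients are the tensor product of the two quotient rings. -/
noncomputable def sw (J : Ideal S) (J' : Ideal S') :
    ((S' ⊗[R] (S ⧸ J)) ⧸ (J' • ⊤ : Submodule S' (S' ⊗[R] (S ⧸ J)))) ≃ₗ[R]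
      (S ⊗[R] (S' ⧸ J')) ⧸ (J • ⊤ : Submodule S (S ⊗[R] (S' ⧸ J'))) :=
  ((tq (S ⧸ J) J').symm.restrictScalars R).trans
    ((TensorProduct.comm R _ _).trans ((tq (S' ⧸ J') J).restrictScalars R))

theorem reg_base [Module.Flat R S] {I : Ideal R} {c : R} (hc : ∀ r, c * r ∈ I → r ∈ I) :
    ∀ r, algebraMap R S c * r ∈ I.map (algebraMap R S) → r ∈ I.map (algebraMap R S) := by
  have h1 : IsSMulRegular (R ⧸ I) c := by
    refine IsSMulRegular.of_right_eq_zero_of_smul fun x hx => ?_
    obtain ⟨x, rfl⟩ := Ideal.Quotient.mk_surjective x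
    exact Ideal.Quotient.eq_zero_iff_mem.2 (hc x (Ideal.Quotient.eq_zero_iff_mem.1 hx))
  have h2 := h1.of_flat_of_isBaseChange (TensorProduct.isBaseChange R (R ⧸ I) S)
  rw [← (Algebra.TensorProduct.quotIdealMapEquivTensorQuot S I).toLinearEquiv.isSMulRegular_congr]
    at h2
  intro r hr
  exact Ideal.Quotient.eq_zero_iff_mem.1
    (h2.right_eq_zero_of_smul (Ideal.Quotient.eq_zero_iff_mem.2 hr))

/-- Base change of an isogeny. -/
theorem isog_base [Module.Flat R S] {I : Ideal R} {ρ n : ℕ} {Z : Type u} [AddCommGroup Z]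
    [Module R Z] {π : R} (f : (Fin ρ → R ⧸ I) →ₗ[R] Z) (hf : Function.Injective f)
    (hπ : ∀ m : Z, π ^ n • m ∈ LinearMap.range f) :
    ∃ f' : (Fin ρ → S ⧸ I.map (algebraMap R S)) →ₗ[S] S ⊗[R] Z, Function.Injective f' ∧
      ∀ m, algebraMap R S π ^ n • m ∈ LinearMap.range f' := by
  let e : (Fin ρ → S ⧸ I.map (algebraMap R S)) ≃ₗ[S] S ⊗[R] (Fin ρ → R ⧸ I) :=
    (LinearEquiv.piCongrRight fun _ =>
      (Algebra.TensorProduct.quotIdealMapEquivTensorQuot S I).toLinearEquiv).trans
      (TensorProduct.piRight R S S fun _ : Fin ρ => R ⧸ I).symm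
  refine ⟨f.baseChange S ∘ₗ e.toLinearMap,
    (Module.Flat.lTensor_preserves_injective_linearMap (M := S) f hf).comp e.injective,
    fun m => ?_⟩
  rw [LinearEquiv.range_comp, ← map_pow, algebraMap_smul]
  induction m with
  | zero => rw [smul_zero]; exact zero_mem _
  | tmul s z =>
    obtain ⟨u, hu⟩ := hπ z
    exact ⟨s ⊗ₜ u, by rw [LinearMap.baseChange_tmul, hu, tmul_smul]⟩
  | add x y hx hy => rw [smul_add]; exact add_mem hx hy

theorem span_base {ν : ℕ} {Z : Type u} [AddCommGroup Z] [Module R Z] {v : Fin ν → Z}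
    (hv : Submodule.span R (Set.range v) = ⊤) :
    Submodule.span S (Set.range fun i => (1 : S) ⊗ₜ[R] v i) = ⊤ := by
  rw [← Submodule.baseChange_top, ← hv, Submodule.baseChange_span, ← Set.range_comp]
  rfl

theorem kill_base {I : Ideal R} {Z : Type u} [AddCommGroup Z] [Module R Z]
    (h : ∀ r ∈ I, ∀ m : Z, r • m = 0) :
    ∀ r ∈ I.map (algebraMap R S), ∀ m : S ⊗[R] Z, r • m = 0 := by
  intro r hr
  refine Module.mem_annihilator.1 ((Ideal.map_le_iff_le_comap.2 fun c hc => ?_) hr)
  refine Module.mem_annihilator.2 fun m => ?_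
  rw [algebraMap_smul]
  induction m with
  | zero => exact smul_zero _
  | tmul s z => rw [← tmul_smul, h c hc, tmul_zero]
  | add x y hx hy => rw [smul_add, hx, hy, add_zero]

/-- The tensor product of a Cohen-Macaulay local algebra with a finite free local algebra. -/
theorem reg_both [IsLocalRing R] [IsLocalRing S] [IsNoetherianRing S] [IsLocalRing S']
    [IsNoetherianRing S'] [IsLocalHom (algebraMap R S)] [Module.Finite R S'] [Module.Free R S']
    (hres : ∀ r : S', ∃ c : R, r - algebraMap R S' c ∈ maximalIdeal S') {l : List S}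
    (hl : IsWeaklyRegular S l) (hlm : ∀ r ∈ l, r ∈ maximalIdeal S) {u : List S'} {w : List S}
    (hu : ∀ r ∈ u, r ∈ maximalIdeal S') (hw : ∀ r ∈ w, r ∈ maximalIdeal S)
    (hlen : u.length + w.length = l.length) {I : Ideal R}
    (h1 : I.map (algebraMap R S) ≤ Ideal.ofList w)
    (h2 : ∃ N : ℕ, maximalIdeal S' ^ N ≤ I.map (algebraMap R S') ⊔ Ideal.ofList u)
    (h3 : ∃ N : ℕ, maximalIdeal S ^ N ≤ Ideal.ofList w ⊔ (maximalIdeal R).map (algebraMap R S)) :
    IsWeaklyRegular (S ⊗[R] (S' ⧸ Ideal.ofList u)) w ∧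
      IsWeaklyRegular (S' ⊗[R] (S ⧸ Ideal.ofList w)) u := by
  have loc' : IsLocalHom (algebraMap R S') :=
    isLocalHom_of_finite _ (RingHom.finite_algebraMap.2 inferInstance)
  obtain ⟨j, hj⟩ : ∃ j : S' →+* S ⊗[R] S',
      j = (Algebra.TensorProduct.includeRight (R := R) (A := S)).toRingHom := ⟨_, rfl⟩
  have jt : ∀ s, j s = 1 ⊗ₜ s := fun s => by rw [hj]; rfl
  have cm : ∀ K : Ideal R, (K.map (algebraMap R S')).map j =
      (K.map (algebraMap R S)).map (algebraMap S (S ⊗[R] S')) := fun K => by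
    rw [Ideal.map_map, Ideal.map_map]
    congr 1
    ext r
    rw [RingHom.comp_apply, jt, RingHom.comp_apply, Algebra.TensorProduct.algebraMap_apply,
      Algebra.algebraMap_self, RingHom.id_apply, Algebra.TensorProduct.tmul_one_eq_one_tmul]
  have mm : (maximalIdeal R).map (algebraMap R S) ≤ maximalIdeal S :=
    Ideal.map_le_iff_le_comap.2 fun r hr => map_nonunit _ r hr
  have mm' : (maximalIdeal R).map (algebraMap R S') ≤ maximalIdeal S' :=
    Ideal.map_le_iff_le_comap.2 fun r hr => map_nonunit _ r hr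
  have fin : (algebraMap S (S ⊗[R] S')).Finite := RingHom.finite_algebraMap.2 inferInstance
  have nt : Nontrivial (S ⊗[R] S') :=
    (FaithfulSMul.algebraMap_injective S (S ⊗[R] S')).nontrivial
  obtain ⟨N, hN⟩ := exists_pow_le_map_of_finite (algebraMap R S')
    (RingHom.finite_algebraMap.2 inferInstance)
  obtain ⟨_, hm⟩ := exists_isLocalRing_of_finite (algebraMap S (S ⊗[R] S')) fin
    ((maximalIdeal S').map j) (N := N) (by
      rw [← Ideal.map_pow]
      exact (Ideal.map_mono hN).trans ((cm _).le.trans (Ideal.map_mono mm))) (fun b => by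
      induction b with
      | zero => exact ⟨0, by simp⟩
      | tmul s s' =>
        obtain ⟨c, hc⟩ := hres s'
        refine ⟨c • s, ?_⟩
        have e : s ⊗ₜ[R] s' - algebraMap S (S ⊗[R] S') (c • s) =
            s ⊗ₜ[R] 1 * j (s' - algebraMap R S' c) := by
          rw [jt, Algebra.TensorProduct.tmul_mul_tmul, mul_one, one_mul, tmul_sub,
            Algebra.TensorProduct.algebraMap_apply, Algebra.algebraMap_self, RingHom.id_apply,
            smul_tmul, Algebra.algebraMap_eq_smul_one]
        rw [e]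
        exact Ideal.mul_mem_left _ _ (Ideal.mem_map_of_mem _ hc)
      | add x y hx hy =>
        obtain ⟨a, ha⟩ := hx
        obtain ⟨b, hb⟩ := hy
        exact ⟨a + b, by rw [map_add, add_sub_add_comm]; exact add_mem ha hb⟩)
  have _ : IsNoetherianRing (S ⊗[R] S') := IsNoetherianRing.of_finite S _
  have a1 : ∀ r ∈ maximalIdeal S', j r ∈ maximalIdeal (S ⊗[R] S') := fun r hr =>
    hm ▸ Ideal.mem_sup_left (Ideal.mem_map_of_mem _ hr)
  have a2 : ∀ r ∈ maximalIdeal S, algebraMap S (S ⊗[R] S') r ∈ maximalIdeal (S ⊗[R] S') :=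
    fun r hr => hm ▸ Ideal.mem_sup_right (Ideal.mem_map_of_mem _ hr)
  have hq : ∀ r ∈ u.map j ++ w.map (algebraMap S (S ⊗[R] S')), r ∈ maximalIdeal (S ⊗[R] S') := by
    intro r hr
    rcases List.mem_append.1 hr with h | h <;> obtain ⟨s, hs, rfl⟩ := List.mem_map.1 h
    · exact a1 s (hu s hs)
    · exact a2 s (hw s hs)
  have sop : IsSop (S ⊗[R] S') (u.map j ++ w.map (algebraMap S (S ⊗[R] S'))) := by
    refine isSop_self hq ?_
    rw [Ideal.ofList_append, ← Ideal.map_ofList, ← Ideal.map_ofList, hm]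
    have b1 : (maximalIdeal S').map j ≤ ((Ideal.ofList u).map j ⊔
        (Ideal.ofList w).map (algebraMap S (S ⊗[R] S'))).radical := by
      obtain ⟨K, hK⟩ := h2
      refine Ideal.le_radical.trans (Ideal.radical_le_radical_iff.2 ?_)
      refine Ideal.le_radical.trans ?_
      rcases K with _ | K
      · refine le_top.trans (Ideal.le_radical.trans' ?_)
        rw [pow_zero, Ideal.one_eq_top] at hK
        have := Ideal.map_mono (f := j) hK
        rw [Ideal.map_top, Ideal.map_sup, cm] at this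
        exact this.trans (sup_le ((Ideal.map_mono h1).trans le_sup_right) le_sup_left)
      · rw [← Ideal.radical_pow _ (Nat.succ_ne_zero K), ← Ideal.map_pow]
        refine Ideal.radical_mono ((Ideal.map_mono hK).trans ?_)
        rw [Ideal.map_sup, cm]
        exact sup_le ((Ideal.map_mono h1).trans le_sup_right) le_sup_left
    refine sup_le b1 (Ideal.map_le_iff_le_comap.2 fun r hr => ?_)
    obtain ⟨K, hK⟩ := h3
    refine Ideal.mem_radical_of_pow_mem (m := K) ?_
    rw [← map_pow]
    have := Ideal.mem_map_of_mem (algebraMap S (S ⊗[R] S')) (hK (Ideal.pow_mem_pow hr K))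
    rw [Ideal.map_sup, ← cm] at this
    exact sup_le (le_sup_right.trans Ideal.le_radical) ((Ideal.map_mono mm').trans b1) this
  have reg := isWeaklyRegular_of_isSop (hl.of_flat (S := S ⊗[R] S')) (fun r hr => by
    obtain ⟨s, hs, rfl⟩ := List.mem_map.1 hr
    exact a2 s (hlm s hs)) sop (by simp [hlen])
  have reg' := IsLocalRing.isWeaklyRegular_of_perm_of_subset_maximalIdeal reg
    List.perm_append_comm hq
  refine ⟨reg_tensor_quot u w (by rw [hj] at reg; exact reg), reg_tensor_quot w u ?_⟩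
  have := reg_ringEquiv (Algebra.TensorProduct.comm R S S').toRingEquiv reg'
  rw [List.map_append, List.map_map, List.map_map, hj] at this
  exact this

end Two

end Vale.Agent.P177.LK
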