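import Vale.Agent.P177.LevelEstAuxC
import Vale.Agent.P177.LevelEstAuxK

/-! P177 module LevelEst: estimates at one level. -/

namespace Vale.Agent.P177

open Vale.Agent.P202 IsLocalRing TensorProduct

universe u

section Abstract
variable {B : Type u} [CommRing B] [IsLocalRing B] [IsNoetherianRing B]

/-- Filter by the powers of `n`. -/
theorem mult_add_nilpotent {M : Type u} [AddCommGroup M] [Module B M] [Module.Finite B M]
    {c n : B} {k : ℕ} (hn : ∀ v : M, n ^ k • v = 0) {l : List B} (h : IsSop M (c :: l))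
    (h' : IsSop M ((c + n) :: l)) : mult M ((c + n) :: l) = mult M (c :: l) :=
  LE.mult_add_nilpotent k M hn h h'

theorem mult_split {I : Ideal B} {z w : B} (hzw : z * w ∈ I)
    (hc : ∀ r, (z + w) * r ∈ I → r ∈ I) {y : List B} (hy : IsSop (B ⧸ I) y) :
    mult (smulTop z (B ⧸ I)) y + mult (smulTop w (B ⧸ I)) y = mult (B ⧸ I) y :=
  LE.mult_split hzw hc hy

/-- Growth. The kernel of `zM / y^t zM → M / y^t M` is killed by `z` and `w`, hence by
`c = z + w`; on a module `H` of finite length `H[c]` and `H / c H` have the same length, and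
`H / c H` is a quotient of the `ν`-th power of `B / (I, c, y^t)`. Use `mult_le_length`, `mult_pow`,
`exists_length_pow_le_of_dim`, and the isogeny `z (B / I) ^ ρ → z M`. -/
theorem grow {I : Ideal B} {z w π : B} (hzw : z * w ∈ I) (hc : ∀ r, (z + w) * r ∈ I → r ∈ I)
    (hπ : ∀ r, π * r ∈ I → r ∈ I) {a : ℕ} {y : Fin (a + 1) → B}
    (hy : IsSop (B ⧸ I) (List.ofFn y)) : ∃ K : ℝ, 0 ≤ K ∧
    ∀ (M : Type u) [AddCommGroup M] [Module B M] (ρ ν n : ℕ) (f : (Fin ρ → B ⧸ I) →ₗ[B] M)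
      (v : Fin ν → M), Function.Injective f → (∀ m : M, π ^ n • m ∈ LinearMap.range f) →
      (∀ r ∈ I, ∀ m : M, r • m = 0) → Submodule.span B (Set.range v) = ⊤ →
      mult M (List.ofFn y) = ρ * mult (B ⧸ I) (List.ofFn y) ∧ ∀ t : ℕ, 0 < t →
        (ρ : ℝ) * t ^ (a + 1) * mult (smulTop z (B ⧸ I)) (List.ofFn y) - ν * K * t ^ a ≤
          (Module.length B (smulTop z (M ⧸
            (Ideal.span (Set.range fun j => y j ^ t) • ⊤ : Submodule B M)))).toNat :=
  LE.grow hzw hc hπ hy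
end Abstract

variable {p d a b : ℕ} {R : Type u} [CommRing R] [IsLocalRing R] [IsNoetherianRing R]

namespace Setup
variable (S : Setup p d a b R)

theorem ciData : CIData d (a + 1) S.I := LE.ciData S
include S in
theorem hasRes : HasRes R d := LE.hasRes S
theorem reg_ps : RingTheory.Sequence.IsWeaklyRegular (R ⧸ S.I) ((p : R) :: List.ofFn S.s) :=
  LE.reg_ps S
theorem p_regular : ∀ r, (p : R) * r ∈ S.I → r ∈ S.I := LE.p_regular S
theorem c_regular : ∀ r, (S.z + S.w) * r ∈ S.I → r ∈ S.I := LE.c_regular S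
theorem length_J : Module.length R (R ⧸ S.J) ≠ ⊤ := LE.length_J S
end Setup

namespace Level
variable {S : Setup p d a b R} {N₀ k : ℕ} (L : Level S N₀ k)

/-- The diagonal ideal. -/
def Y : Ideal L.A := Ideal.span (Set.range L.y)
/-- The zeroth Koszul homology of `A ⊗ V`. -/
abbrev H0 (V : Type u) [AddCommGroup V] [Module R V] : Type u :=
  (L.A ⊗[R] V) ⧸ (L.Y • ⊤ : Submodule L.A (L.A ⊗[R] V))
/-- The first primary ideal. -/
def J₀ : Ideal L.A := L.Y ⊔ S.J.map (algebraMap R L.A)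
/-- The second primary ideal. -/
def J₁ : Ideal L.A := (maximalIdeal R).map (algebraMap R L.A) ⊔ Ideal.span {L.F} ⊔
  Ideal.span (Set.range L.t)

theorem J₀_primary : ∃ N : ℕ, maximalIdeal L.A ^ N ≤ L.J₀ := LE.J₀_primary L
theorem J₁_primary : ∃ N : ℕ, maximalIdeal L.A ^ N ≤ L.J₁ := LE.J₁_primary L
theorem F_mem : L.F ∈ maximalIdeal L.A := LE.Y_le L L.hF
theorem t_mem (l : Fin a) : L.t l ∈ maximalIdeal L.A := LE.t_mem L l
theorem len_J₁ : Module.length L.A (L.A ⧸ L.J₁) = Module.length L.A (L.A ⧸ L.J₀) ∧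
    Module.length L.A (smulTop L.α (L.A ⧸ L.J₁)) = Module.length L.A (smulTop L.α (L.A ⧸ L.J₀)) ∧
    Module.length L.A (smulTop (L.α + L.β) (L.A ⧸ L.J₁)) =
      Module.length L.A (smulTop (L.α + L.β) (L.A ⧸ L.J₀)) := by
  obtain ⟨e, h1, h2⟩ := L.iso
  refine ⟨?_, LE.len_equiv e h1, LE.len_equiv e (by rw [map_add, map_add, map_add, h1, h2])⟩
  rw [← LE.len_one, ← LE.len_one (N := L.A ⧸ L.J₀)]
  exact LE.len_equiv e (by rw [map_one, map_one, map_one])

/-- Systems of parameters are regular on cyclic base changes. -/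
theorem reg_tensor {c : List R} (hc : ∀ r ∈ c, r ∈ maximalIdeal R) {q : List L.A}
    (hq : ∀ r ∈ q, r ∈ maximalIdeal L.A) (hl : c.length + q.length = a + 1 + d)
    (hN : ∃ N : ℕ, maximalIdeal L.A ^ N ≤
      (Ideal.ofList c).map (algebraMap R L.A) ⊔ Ideal.ofList q) :
    RingTheory.Sequence.IsWeaklyRegular (L.A ⊗[R] (R ⧸ Ideal.ofList c)) q :=
  LE.reg_tensor L hc hq hl hN

/-- By `count` the kernel has multiplicity zero, so it vanishes
(`subsingleton_of_supportDim_lt`). -/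
theorem isog : ∃ (f : (Fin L.ρ → R ⧸ S.I) →ₗ[R] L.A ⧸ L.Y) (n : ℕ), Function.Injective f ∧
    ∀ m : L.A ⧸ L.Y, (p : R) ^ n • m ∈ LinearMap.range f := LE.isog L

theorem gens : ∃ v : Fin ((Module.length R (R ⧸ S.J)).toNat * L.ρ) → L.A ⧸ L.Y,
    Submodule.span R (Set.range v) = ⊤ := LE.gens L

/-- In `Λ = A / (y, s)` (Cohen-Macaulay of dimension one) `α β` is nilpotent, so
the difference of `z + w` and the `p ^ k`-th power of `α + β` is nilpotent. -/
theorem small [Fact p.Prime] :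
    ((p ^ k : ℕ) : ℕ∞) * Module.length L.A (L.A ⧸ (L.J₀ ⊔ Ideal.span {L.α + L.β})) ≤
      L.ρ * Module.length R (R ⧸ (S.I ⊔ Ideal.span {S.z + S.w} ⊔ Ideal.span (Set.range S.s))) :=
  LE.small L
end Level

section K
variable [Fact p.Prime] [IsAlgClosed (ResidueField R)] (S : Setup p d a b R) (R' : Type u)
  [CommRing R'] [IsLocalRing R'] [Algebra R R'] [Module.Finite R R'] [Module.Free R R']
  {y : Fin (a + 1) → R'}

theorem Setup.reg_ext (hm : ∀ j, y j ∈ maximalIdeal R')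
    (hy : InA S.I (R' ⧸ Ideal.span (Set.range y))) :
    IsNoetherianRing R' ∧ IsLocalHom (algebraMap R R') ∧
    (∀ r : R', ∃ c : R, r - algebraMap R R' c ∈ maximalIdeal R') ∧
    RingTheory.Sequence.IsWeaklyRegular R' (List.ofFn y) ∧
    RingTheory.Sequence.IsWeaklyRegular (R' ⧸ S.I.map (algebraMap R R')) (List.ofFn y) ∧
    IsSop (R' ⧸ S.I.map (algebraMap R R')) (List.ofFn y) := by
  have nR : IsNoetherianRing R' := IsNoetherianRing.of_finite R R'
  have fin : (algebraMap R R').Finite := RingHom.finite_algebraMap.2 inferInstance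
  have loc : IsLocalHom (algebraMap R R') := isLocalHom_of_finite _ fin
  have hm' : ∀ r ∈ List.ofFn y, r ∈ maximalIdeal R' := fun r hr => by
    obtain ⟨j, rfl⟩ := List.mem_ofFn.1 hr
    exact hm j
  obtain ⟨N, hN⟩ := hy.2
  obtain ⟨K, hK⟩ := exists_pow_le_map_of_finite _ fin
  have key : maximalIdeal R' ^ (K * N) ≤
      S.I.map (algebraMap R R') ⊔ Ideal.ofList (List.ofFn y) := by
    rw [pow_mul]
    refine (Ideal.pow_right_mono hK N).trans ?_
    rw [← Ideal.map_pow]
    refine (Ideal.map_mono hN).trans ?_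
    rw [Ideal.map_sup, LK.ofFn_span]
    refine sup_le_sup_left (Ideal.map_le_iff_le_comap.2 fun r hr => ?_) _
    have := Module.mem_annihilator.1 hr 1
    rw [← Algebra.algebraMap_eq_smul_one] at this
    exact Ideal.mem_comap.2 (Ideal.Quotient.eq_zero_iff_mem.1 this)
  have eI : Ideal.ofList ((List.ofFn S.h).map (algebraMap R R')) = S.I.map (algebraMap R R') := by
    rw [← Ideal.map_ofList, LK.ofFn_span, Setup.I]
  have hq : ∀ r ∈ (List.ofFn S.h).map (algebraMap R R') ++ List.ofFn y, r ∈ maximalIdeal R' := by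
    intro r hr
    rcases List.mem_append.1 hr with h | h
    · obtain ⟨c, hc, rfl⟩ := List.mem_map.1 h
      obtain ⟨j, rfl⟩ := List.mem_ofFn.1 hc
      exact map_nonunit _ _ (S.hm j)
    · exact hm' r h
  have reg := isWeaklyRegular_of_isSop (S.reg.of_flat (S := R')) (fun r hr => by
    obtain ⟨c, hc, rfl⟩ := List.mem_map.1 hr
    exact map_nonunit _ _ (S.span_x ▸ Ideal.subset_span hc))
    (LK.isSop_self hq (by
      rw [Ideal.ofList_append, eI]
      exact fun r hr => ⟨K * N, key (Ideal.pow_mem_pow hr _)⟩))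
    (by
      have := S.dim
      simp only [List.length_append, List.length_map, List.length_ofFn]
      omega)
  have reg' := IsLocalRing.isWeaklyRegular_of_perm_of_subset_maximalIdeal reg
    List.perm_append_comm hq
  have r2 := ((RingTheory.Sequence.isWeaklyRegular_append_iff _ _ _).1 reg).2
  rw [LK.ofList_smul_top, eI] at r2
  refine ⟨nR, loc, fun r => ?_, ((RingTheory.Sequence.isWeaklyRegular_append_iff _ _ _).1 reg').1,
    r2, isSop_quotient_iff.2 ⟨hm', _, key⟩⟩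
  obtain ⟨c, hc⟩ := (IsAlgClosed.algebraMap_bijective_of_isIntegral
    (k := ResidueField R) (K := ResidueField R')).2 (residue R' r)
  obtain ⟨c, rfl⟩ := residue_surjective c
  exact ⟨c, Ideal.Quotient.eq.1 hc.symm⟩

omit [Fact p.Prime] [IsAlgClosed (ResidueField R)] [IsLocalRing R'] in
theorem nonempty_colon_equiv (I : Ideal R) (z : R) : Nonempty ((R' ⊗[R] (R ⧸ I.colon {z})) ≃ₗ[R']
    smulTop (algebraMap R R' z) (R' ⧸ I.map (algebraMap R R'))) := by
  let φ : (R ⧸ I.colon {z}) →ₗ[R] R ⧸ I := (I.colon {z}).mapQ I (LinearMap.lsmul R R z)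
    fun r hr => by
      have := Submodule.mem_colon_singleton.1 hr
      rwa [smul_eq_mul, mul_comm] at this
  have hφ : Function.Injective φ := by
    refine (injective_iff_map_eq_zero φ).2 fun x hx => ?_
    obtain ⟨r, rfl⟩ := Ideal.Quotient.mk_surjective x
    have h : z * r ∈ I := Ideal.Quotient.eq_zero_iff_mem.1 hx
    exact Ideal.Quotient.eq_zero_iff_mem.2 (Submodule.mem_colon_singleton.2 (by
      rwa [smul_eq_mul, mul_comm]))
  let e := (Algebra.TensorProduct.quotIdealMapEquivTensorQuot R' I).toLinearEquiv.symm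
  have hψ : Function.Injective (e.toLinearMap ∘ₗ φ.baseChange R') :=
    e.injective.comp (Module.Flat.lTensor_preserves_injective_linearMap (M := R') φ hφ)
  have key : ∀ (s : R') (r : R), (e.toLinearMap ∘ₗ φ.baseChange R') (s ⊗ₜ Ideal.Quotient.mk _ r) =
      algebraMap R R' z • Ideal.Quotient.mk _ (r • s) := fun s r => by
    show Submodule.Quotient.mk ((z * r) • s) = _
    rw [mul_smul, algebraMap_smul]
    rfl
  refine ⟨(LinearEquiv.ofInjective _ hψ).trans (LinearEquiv.ofEq _ _ (le_antisymm ?_ ?_))⟩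
  · rintro _ ⟨x, rfl⟩
    induction x with
    | zero => rw [map_zero]; exact zero_mem _
    | tmul s r =>
      obtain ⟨r, rfl⟩ := Ideal.Quotient.mk_surjective r
      exact ⟨_, (key s r).symm⟩
    | add x y hx hy => rw [map_add]; exact add_mem hx hy
  · rintro _ ⟨x, rfl⟩
    obtain ⟨s, rfl⟩ := Ideal.Quotient.mk_surjective x
    exact ⟨_, (key s 1).trans (by rw [one_smul]; rfl)⟩

omit [Fact p.Prime] [IsAlgClosed (ResidueField R)] [IsNoetherianRing R] [Module.Finite R R']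
  [Module.Free R R'] in
theorem lk_smulTop_le {A : Type u} [CommRing A] [IsLocalRing A] [Algebra R A]
    [IsLocalHom (algebraMap R A)] [IsLocalHom (algebraMap R R')]
    (h1 : ∀ r : A, ∃ c : R, r - algebraMap R A c ∈ maximalIdeal A)
    (h2 : ∀ r : R', ∃ c : R, r - algebraMap R R' c ∈ maximalIdeal R') (Y : Ideal A) (q : Ideal R')
    {z : R} {α : A} {n : ℕ} (hn : 0 < n) (h : α ^ n - algebraMap R A z ∈ Y) :
    Module.length R' (smulTop (algebraMap R R' z)
      ((R' ⊗[R] (A ⧸ Y)) ⧸ (q • ⊤ : Submodule R' (R' ⊗[R] (A ⧸ Y))))) ≤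
    Module.length A (smulTop α
      ((A ⊗[R] (R' ⧸ q)) ⧸ (Y • ⊤ : Submodule A (A ⊗[R] (R' ⧸ q))))) := by
  rw [← length_eq_of_residue h1, ← length_eq_of_residue h2]
  obtain ⟨n, rfl⟩ : ∃ m, n = m + 1 := ⟨n - 1, by omega⟩
  refine Module.length_le_of_injective
    (LinearMap.codRestrict ((smulTop α _).restrictScalars R)
      ((LK.sw Y q).toLinearMap ∘ₗ ((smulTop (algebraMap R R' z) _).subtype.restrictScalars R)) ?_)
    fun x x' e => Subtype.ext ((LK.sw Y q).injective (congrArg Subtype.val e))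
  rintro ⟨_, m, rfl⟩
  refine ⟨α ^ n • LK.sw Y q m, ?_⟩
  show α • α ^ n • LK.sw Y q m = LK.sw Y q (algebraMap R R' z • m)
  rw [algebraMap_smul, map_smul, ← mul_smul, ← pow_succ', ← algebraMap_smul A z, ← sub_eq_zero,
    ← sub_smul]
  obtain ⟨u, hu⟩ := Submodule.Quotient.mk_surjective _ (LK.sw Y q m)
  rw [← hu, ← Submodule.Quotient.mk_smul, Submodule.Quotient.mk_eq_zero]
  exact Submodule.smul_mem_smul h trivial

/-- Apply `grow` to `M = R' ⊗ (A / y)`; regularity from the Cohen-Macaulay local ring `A ⊗ R'`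
(`exists_isLocalRing_of_finite`). -/
theorem Setup.level_estimate (hm : ∀ j, y j ∈ maximalIdeal R')
    (hy : InA S.I (R' ⧸ Ideal.span (Set.range y))) : ∃ K : ℝ,
    ∀ (N₀ k : ℕ) (L : Level S N₀ k) (t : ℕ), 0 < t →
      RingTheory.Sequence.IsWeaklyRegular
        (L.A ⊗[R] (R' ⧸ Ideal.span (Set.range fun j => y j ^ t))) (List.ofFn L.y) ∧
      ((Module.length L.A (L.H0 (R' ⧸ Ideal.span (Set.range fun j => y j ^ t)))).toNat : ℝ) = L.ρ * (t ^ (a + 1) *
          (mult (R' ⊗[R] (R ⧸ S.I.colon {S.z})) (List.ofFn y) +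
            mult (R' ⊗[R] (R ⧸ S.I.colon {S.w})) (List.ofFn y))) ∧
      (L.ρ : ℝ) * (t ^ (a + 1) * mult (R' ⊗[R] (R ⧸ S.I.colon {S.z})) (List.ofFn y) - K * t ^ a) ≤
        (Module.length L.A (smulTop L.α
          (L.H0 (R' ⧸ Ideal.span (Set.range fun j => y j ^ t))))).toNat ∧
      (L.ρ : ℝ) * (t ^ (a + 1) * mult (R' ⊗[R] (R ⧸ S.I.colon {S.w})) (List.ofFn y) - K * t ^ a) ≤
        (Module.length L.A (smulTop L.β
          (L.H0 (R' ⧸ Ideal.span (Set.range fun j => y j ^ t))))).toNat := by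
  obtain ⟨_, _, res, -, -, sop⟩ := S.reg_ext R' hm hy
  have hzw : algebraMap R R' S.z * algebraMap R R' S.w ∈ S.I.map (algebraMap R R') := by
    rw [← map_mul]
    exact Ideal.mem_map_of_mem _ S.zw
  have hc := LK.reg_base (S := R') S.c_regular
  rw [map_add] at hc
  have hπ := LK.reg_base (S := R') S.p_regular
  obtain ⟨K₁, p1, g1⟩ := grow hzw hc hπ sop
  obtain ⟨K₂, p2, g2⟩ := grow (mul_comm (algebraMap R R' S.z) _ ▸ hzw)
    (add_comm (algebraMap R R' S.z) _ ▸ hc) hπ sop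
  obtain ⟨ez⟩ := nonempty_colon_equiv R' S.I S.z
  obtain ⟨ew⟩ := nonempty_colon_equiv R' S.I S.w
  rw [mult_eq_of_equiv _ ez, mult_eq_of_equiv _ ew]
  refine ⟨(Module.length R (R ⧸ S.J)).toNat * (K₁ + K₂), fun N₀ k L t ht => ?_⟩
  obtain ⟨f, n, hf, hn⟩ := L.isog
  obtain ⟨v, hv⟩ := L.gens
  obtain ⟨f', hf', hn'⟩ := LK.isog_base (S := R') f hf hn
  have hIY : S.I.map (algebraMap R L.A) ≤ L.Y := by
    rw [Setup.I, Ideal.map_span, Ideal.span_le]
    rintro _ ⟨_, ⟨j, rfl⟩, rfl⟩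
    exact L.hI j
  have kill := LK.kill_base (S := R') (I := S.I) (Z := L.A ⧸ L.Y) fun r hr m => by
    obtain ⟨m, rfl⟩ := Ideal.Quotient.mk_surjective m
    rw [← algebraMap_smul L.A]
    exact Ideal.Quotient.eq_zero_iff_mem.2 (Ideal.mul_mem_right _ _
      (hIY (Ideal.mem_map_of_mem _ hr)))
  obtain ⟨m1, q1⟩ := g1 _ _ _ _ f' _ hf' hn' kill (LK.span_base hv)
  obtain ⟨-, q2⟩ := g2 _ _ _ _ f' _ hf' hn' kill (LK.span_base hv)
  have eu : (List.ofFn y).map (· ^ t) = List.ofFn fun j => y j ^ t := List.map_ofFn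
  have sopt := sop.pow ht
  obtain ⟨l, l1, l2, l3⟩ := L.cm
  obtain ⟨N, hN⟩ := L.J₀_primary
  have hJ : S.J ≤ maximalIdeal R := by
    refine sup_le (sup_le S.ciData.le ((Ideal.span_singleton_le_iff_mem _).2 S.pm))
      (Ideal.span_le.2 ?_)
    rintro _ ⟨j, rfl⟩
    exact S.sm j
  obtain ⟨r1, r2⟩ := LK.reg_both res l2 l3 (u := (List.ofFn y).map (· ^ t)) (w := List.ofFn L.y)
    sopt.1 (fun r hr => by
      obtain ⟨j, rfl⟩ := List.mem_ofFn.1 hr
      exact L.ym j) (by simp [l1]) (I := S.I) (by rwa [LK.ofFn_span])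
    (isSop_quotient_iff.1 sopt).2
    ⟨N, by rw [LK.ofFn_span]; exact hN.trans (sup_le_sup_left (Ideal.map_mono hJ) _)⟩
  rw [LK.ofFn_span, ← Level.Y] at r2
  have : Module.Finite R' (R' ⊗[R] (L.A ⧸ L.Y)) :=
    Module.Finite.of_fg_top (LK.span_base (S := R') hv ▸ Submodule.fg_span (Set.finite_range _))
  have sopM := LK.isSop_of_kill (M := R' ⊗[R] (L.A ⧸ L.Y)) sop kill
  have len := (mult_eq_length_of_isRegular r2).symm.trans (mult_pow sopM ht)
  have fin := (sopM.pow ht).length_ne_top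
  rw [eu, LK.ofFn_span] at r1 len fin
  have eL : Module.length L.A (L.H0 (R' ⧸ Ideal.span (Set.range fun j => y j ^ t))) = _ :=
    (length_eq_of_residue L.res _).symm.trans
      ((LK.sw L.Y _).length_eq.symm.trans (length_eq_of_residue res _))
  have pk : 0 < p ^ k := pow_pos (Fact.out : p.Prime).pos k
  have finA : ∀ γ : L.A, Module.length L.A (smulTop γ
      (L.H0 (R' ⧸ Ideal.span (Set.range fun j => y j ^ t)))) ≠ ⊤ := fun γ =>
    ne_top_of_le_ne_top (eL ▸ fin) (Module.length_le_of_injective _ (Submodule.subtype_injective _))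
  have t1 := Nat.cast_le (α := ℝ).2
    (ENat.toNat_le_toNat (lk_smulTop_le R' L.res res L.Y _ pk L.hα) (finA _))
  have t2 := Nat.cast_le (α := ℝ).2
    (ENat.toNat_le_toNat (lk_smulTop_le R' L.res res L.Y _ pk L.hβ) (finA _))
  have u1 := q1 t ht
  have u2 := q2 t ht
  have w1 : (0 : ℝ) ≤ (Module.length R (R ⧸ S.J)).toNat * L.ρ * K₁ * t ^ a := by positivity
  have w2 : (0 : ℝ) ≤ (Module.length R (R ⧸ S.J)).toNat * L.ρ * K₂ * t ^ a := by positivity
  rw [Nat.cast_mul] at u1 u2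
  refine ⟨r1, ?_, by linarith, by linarith⟩
  rw [eL]
  have len' := congrArg (Int.cast : ℤ → ℝ) len
  rw [m1, ← mult_split hzw hc sop, List.length_ofFn] at len'
  push_cast at len'
  rw [len']
  ring
end K

end Vale.Agent.P177
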