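import Vale.Agent.P177.Level

/-! P177: auxiliary results on lengths and multiplicities for the module LevelEst. -/

namespace Vale.Agent.P177.LE

open Vale.Agent.P202 IsLocalRing

universe u

variable {B : Type u} [CommRing B] {X : Type u} [AddCommGroup X] [Module B X]
  {X' : Type u} [AddCommGroup X'] [Module B X']

theorem exists_map {ν : ℕ} (v : Fin ν → X) {I : Ideal B} (hI : ∀ r ∈ I, ∀ x : X, r • x = 0) :
    ∃ Φ : (Fin ν → B ⧸ I) →ₗ[B] X, ∀ c : Fin ν → B,
      Φ (fun i => Ideal.Quotient.mk I (c i)) = ∑ i, c i • v i := by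
  let φ : Fin ν → (B ⧸ I) →ₗ[B] X := fun i =>
    Submodule.liftQ I (LinearMap.toSpanSingleton B X (v i)) fun r hr => hI r hr (v i)
  refine ⟨∑ i, φ i ∘ₗ LinearMap.proj i, fun c => ?_⟩
  simp only [LinearMap.coe_sum, Finset.sum_apply, LinearMap.comp_apply, LinearMap.proj_apply]
  rfl

theorem exists_surj {ν : ℕ} {v : Fin ν → X} (hv : Submodule.span B (Set.range v) = ⊤)
    {I : Ideal B} (hI : ∀ r ∈ I, ∀ x : X, r • x = 0) :
    ∃ Φ : (Fin ν → B ⧸ I) →ₗ[B] X, Function.Surjective Φ := by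
  obtain ⟨Φ, h⟩ := exists_map v hI
  refine ⟨Φ, fun x => ?_⟩
  have hx : x ∈ Submodule.span B (Set.range v) := hv ▸ Submodule.mem_top
  obtain ⟨c, rfl⟩ := (Submodule.mem_span_range_iff_exists_fun B).1 hx
  exact ⟨_, h c⟩

theorem len_quot_quot (I J : Ideal B) :
    Module.length B ((B ⧸ I) ⧸ (J • ⊤ : Submodule B (B ⧸ I))) = Module.length B (B ⧸ (I ⊔ J)) := by
  have e : (J • ⊤ : Submodule B (B ⧸ I)) = Submodule.map I.mkQ J := by
    conv_rhs => rw [← Ideal.mul_top J, ← smul_eq_mul, Submodule.map_smul'', Submodule.map_top,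
      Submodule.range_mkQ]
  rw [e, (Submodule.quotientQuotientEquivQuotientSup I J).length_eq]

theorem length_le_mul {ν : ℕ} {v : Fin ν → X} (hv : Submodule.span B (Set.range v) = ⊤)
    {I : Ideal B} (hI : ∀ r ∈ I, ∀ x : X, r • x = 0) :
    Module.length B X ≤ ν * Module.length B (B ⧸ I) := by
  obtain ⟨Φ, hΦ⟩ := exists_surj hv hI
  refine (Module.length_le_of_surjective Φ hΦ).trans (le_of_eq ?_)
  rw [Module.length_pi_of_fintype, Finset.sum_const, Finset.card_univ, nsmul_eq_mul,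
    Fintype.card_fin]

theorem span_comp {ι : Type*} {v : ι → X} (hv : Submodule.span B (Set.range v) = ⊤)
    (φ : X →ₗ[B] X') (hφ : Function.Surjective φ) : Submodule.span B (Set.range (φ ∘ v)) = ⊤ := by
  rw [Set.range_comp, ← Submodule.map_span, hv, Submodule.map_top, LinearMap.range_eq_top.2 hφ]

theorem reg_pow {I : Ideal B} {g : B} (hg : ∀ r, g * r ∈ I → r ∈ I) (n : ℕ) :
    ∀ r, g ^ n * r ∈ I → r ∈ I := by
  induction n with
  | zero => intro r hr; rwa [pow_zero, one_mul] at hr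
  | succ n ih => intro r hr; exact ih r (hg _ (by rwa [← mul_assoc, ← pow_succ']))

theorem smulReg_iff {I : Ideal B} {g : B} :
    IsSMulRegular (B ⧸ I) g ↔ ∀ r, g * r ∈ I → r ∈ I := by
  rw [isSMulRegular_iff_right_eq_zero_of_smul]
  constructor
  · intro h r hr
    exact Ideal.Quotient.eq_zero_iff_mem.1 (h _ (Ideal.Quotient.eq_zero_iff_mem.2 hr))
  · intro h x hx
    obtain ⟨r, rfl⟩ := Ideal.Quotient.mk_surjective x
    exact Ideal.Quotient.eq_zero_iff_mem.2 (h r (Ideal.Quotient.eq_zero_iff_mem.1 hx))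

theorem multP_bot (y : List B) (P : Submodule B X) : multP y P ⊥ = mult P y :=
  (multP_eq_of_map y P.subtype bot_le bot_le (fun x _ => x.2)
    (fun x hx => by rw [(Submodule.mem_bot B).1 hx, map_zero]; exact zero_mem _)
    (fun x hx => ⟨⟨x, hx⟩, Submodule.mem_top, by simp⟩)
    (fun x _ hx => Subtype.ext ((Submodule.mem_bot B).1 hx))).symm

theorem mult_cons_congr {a a' : B} (h : ∀ x : X, a • x = a' • x) (l : List B) :
    mult X (a :: l) = mult X (a' :: l) := by
  have e : LinearMap.lsmul B X a = LinearMap.lsmul B X a' := LinearMap.ext h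
  simp only [mult, multP, e]

/-- On a subquotient of finite length, kernel and cokernel of a scalar have equal lengths. -/
theorem rl_ker_eq {P Q : Submodule B X} (hQP : Q ≤ P) (h : rl P Q ≠ ⊤) (c : B) :
    rl (P ⊓ Q.comap (LinearMap.lsmul B X c)) Q = rl P (Q ⊔ P.map (LinearMap.lsmul B X c)) := by
  have h1 := rl_add (A := P) (B := P ⊓ Q.comap (LinearMap.lsmul B X c)) (C := Q)
    (le_inf hQP fun x hx => Q.smul_mem c hx) inf_le_left
  have h2 := rl_add (A := P) (B := Q ⊔ P.map (LinearMap.lsmul B X c)) (C := Q) le_sup_left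
    (sup_le hQP (by rintro _ ⟨x, hx, rfl⟩; exact P.smul_mem c hx))
  have h3 : rl P (P ⊓ Q.comap (LinearMap.lsmul B X c)) =
      rl (Q ⊔ P.map (LinearMap.lsmul B X c)) Q := by
    refine rl_eq_of_map (LinearMap.lsmul B X c) (fun x hx => Submodule.mem_sup_right ⟨x, hx, rfl⟩)
      (fun x hx => hx.2) (fun y hy => ?_) (fun x hx hx' => ⟨hx, hx'⟩)
    obtain ⟨q, hq, _, ⟨x, hx, rfl⟩, rfl⟩ := Submodule.mem_sup.1 hy
    exact ⟨x, hx, by rwa [add_sub_cancel_right]⟩
  rw [h3, h2, add_comm] at h1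
  rw [h2] at h
  exact (WithTop.add_left_cancel (WithTop.add_ne_top.1 h).2 h1).symm

/-- A quotient of length at most `n` has `n` generators. -/
theorem exists_gens (n : ℕ) : ∀ N : Submodule B X, rl ⊤ N ≤ n →
    ∃ v : Fin n → X, N ⊔ Submodule.span B (Set.range v) = ⊤ := by
  induction n with
  | zero =>
    intro N h
    have := rl_eq_zero_iff.1 (le_antisymm h zero_le)
    exact ⟨fun _ => 0, eq_top_iff.2 (this.trans le_sup_left)⟩
  | succ n ih =>
    intro N h
    by_cases hN : ∀ x, x ∈ N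
    · exact ⟨fun _ => 0, eq_top_iff.2 fun x _ => Submodule.mem_sup_left (hN x)⟩
    obtain ⟨x, hx⟩ := not_forall.1 hN
    have h1 := rl_add (A := ⊤) (B := N ⊔ Submodule.span B {x}) (C := N) le_sup_left le_top
    have h2 : 1 ≤ rl (N ⊔ Submodule.span B {x}) N := by
      rw [Order.one_le_iff_ne_zero, Ne, rl_eq_zero_iff]
      exact fun a => hx (a (Submodule.mem_sup_right (Submodule.mem_span_singleton_self x)))
    have h3 : rl ⊤ (N ⊔ Submodule.span B {x}) ≤ n := by
      have h4 : rl ⊤ (N ⊔ Submodule.span B {x}) + 1 ≤ (n : ℕ∞) + 1 := by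
        rw [h1, Nat.cast_succ] at h
        exact (add_le_add_right h2 _).trans h
      exact (WithTop.add_le_add_iff_right ENat.one_ne_top).1 h4
    obtain ⟨v, hv⟩ := ih _ h3
    refine ⟨Fin.cons x v, ?_⟩
    rw [Fin.range_cons, Submodule.span_insert, ← sup_assoc, hv]

theorem exists_pow_smul [Module.Finite B X] {g : B} {N : Submodule B X}
    (h : ∀ x : X, ∃ n : ℕ, g ^ n • x ∈ N) : ∃ n : ℕ, ∀ x : X, g ^ n • x ∈ N := by
  obtain ⟨ν, v, hv⟩ := Module.Finite.exists_fin (R := B) (M := X)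
  choose n hn using h
  refine ⟨∑ i, n (v i), fun x => ?_⟩
  have hx : x ∈ Submodule.span B (Set.range v) := hv ▸ Submodule.mem_top
  obtain ⟨c, rfl⟩ := (Submodule.mem_span_range_iff_exists_fun B).1 hx
  rw [Finset.smul_sum]
  refine N.sum_mem fun i _ => ?_
  obtain ⟨e, he⟩ := Nat.exists_eq_add_of_le'
    (Finset.single_le_sum (f := fun i => n (v i)) (fun _ _ => Nat.zero_le _) (Finset.mem_univ i))
  rw [he, pow_add, smul_comm, mul_smul]
  exact N.smul_mem _ (N.smul_mem _ (hn _))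

theorem exists_add_pow (x y : B) (q : ℕ) :
    ∃ r, (x + y) ^ (q + 1) = x ^ (q + 1) + y ^ (q + 1) + x * y * r := by
  induction q with
  | zero => exact ⟨0, by ring⟩
  | succ q ih =>
    obtain ⟨r, hr⟩ := ih
    exact ⟨x ^ q + y ^ q + r * (x + y), by rw [pow_succ (x + y), hr]; ring⟩

variable [IsLocalRing B]

theorem isSop_pi {y : List B} (hy : IsSop X y) (ι : Type) : IsSop (ι → X) y := by
  obtain ⟨h1, N, hN⟩ := hy
  refine ⟨h1, N, fun r hr => ?_⟩
  obtain ⟨a, ha, hx⟩ := hN r hr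
  refine ⟨a, ha, fun x _ => ?_⟩
  rw [Submodule.mem_bot]
  funext i
  exact (Submodule.mem_bot B).1 (hx (x i) Submodule.mem_top)

omit [IsLocalRing B] in
theorem artinian_of_length {J : Ideal B} (h : Module.length B (B ⧸ J) ≠ ⊤) :
    IsArtinianRing (B ⧸ J) :=
  isArtinian_of_tower B
    (isFiniteLength_iff_isNoetherian_isArtinian.1 (Module.length_ne_top_iff.1 h)).2

variable [IsNoetherianRing B]

theorem isSop_of_ann {I : Ideal B} {y : List B} (hy : IsSop (B ⧸ I) y)
    (hI : ∀ r ∈ I, ∀ x : X, r • x = 0) : IsSop X y := by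
  obtain ⟨h1, N, hN⟩ := isSop_quotient_iff.1 hy
  refine ⟨h1, N, fun r hr => ?_⟩
  obtain ⟨b, hb, a, ha, rfl⟩ := Submodule.mem_sup.1 (hN hr)
  exact ⟨a, ha, fun x _ => by rw [add_sub_cancel_right, hI b hb]; exact zero_mem _⟩

theorem isSop_of_radical {I : Ideal B} {y : List B} (h1 : ∀ a ∈ y, a ∈ maximalIdeal B)
    (h2 : maximalIdeal B ≤ (I ⊔ Ideal.ofList y).radical) : IsSop (B ⧸ I) y :=
  isSop_quotient_iff.2 ⟨h1, Ideal.exists_pow_le_of_le_radical_of_fg h2
    (IsNoetherian.noetherian _)⟩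

variable [Module.Finite B X]

theorem mult_pi {y : List B} (hy : IsSop X y) (r : ℕ) : mult (Fin r → X) y = r * mult X y := by
  induction r with
  | zero => rw [mult_of_subsingleton, Nat.cast_zero, zero_mul]
  | succ r ih =>
    let e := Fin.consLinearEquiv B (fun _ : Fin (r + 1) => X)
    rw [← mult_eq_of_equiv y e, mult_add_of_exact
      ((isSop_pi hy _).of_injective e.toLinearMap e.injective) (LinearMap.inl B _ _)
      (LinearMap.snd B _ _) LinearMap.inl_injective LinearMap.snd_surjective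
      Function.Exact.inl_snd, ih]
    push_cast
    ring

theorem mult_le_of_surj {y : List B} (hy : IsSop X y) (g : X →ₗ[B] X')
    (hg : Function.Surjective g) : mult X' y ≤ mult X y := by
  have h1 := mult_add_of_exact hy (LinearMap.ker g).subtype g (Submodule.subtype_injective _) hg
    (LinearMap.exact_subtype_ker_map g)
  have h2 := mult_nonneg (hy.of_injective (LinearMap.ker g).subtype (Submodule.subtype_injective _))
  omega

theorem multP_eq_zero {y : List B} (hy : IsSop X y) {c : B} (hc : IsSMulRegular X c)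
    {N : Submodule B X} (hN : ∀ x, c • x ∈ N) : multP y ⊤ N = 0 := by
  have hle : smulTop c X ≤ N := by
    rintro _ ⟨x, rfl⟩
    exact hN x
  have h1 := multP_add (bot_le (a := smulTop c X)) le_top hy
  have h2 : multP y (⊤ : Submodule B X) ⊥ = multP y (smulTop c X) ⊥ :=
    multP_eq_of_map y (LinearMap.lsmul B X c) bot_le bot_le (fun x _ => ⟨x, rfl⟩)
      (fun x hx => by rw [(Submodule.mem_bot B).1 hx, map_zero]; exact zero_mem _)
      (by rintro _ ⟨x, rfl⟩; exact ⟨x, trivial, by rw [sub_self]; exact zero_mem _⟩)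
      (fun x _ hx => hc.right_eq_zero_of_smul ((Submodule.mem_bot B).1 hx))
  have h3 := multP_add hle le_top (IsSopP.mono hy le_rfl bot_le)
  have h4 := multP_nonneg le_top (IsSopP.mono hy (le_refl ⊤) (bot_le (a := N)))
  have h5 := multP_nonneg hle (IsSopP.mono hy le_top bot_le)
  omega

theorem mult_eq_zero_of_killed {I : Ideal B} {y : List B} (hy : IsSop (B ⧸ I) y) {g : B}
    (hg : ∀ r, g * r ∈ I → r ∈ I) (hI : ∀ r ∈ I, ∀ x : X, r • x = 0) (hx : ∀ x : X, g • x = 0) :
    mult X y = 0 := by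
  obtain ⟨ν, v, hv⟩ := Module.Finite.exists_fin (R := B) (M := X)
  obtain ⟨Φ, hΦ⟩ := exists_surj hv hI
  have h1 : IsSMulRegular (Fin ν → B ⧸ I) g := IsSMulRegular.pi fun _ => smulReg_iff.2 hg
  rw [← multP_eq_zero (isSop_pi hy _) h1 (N := LinearMap.ker Φ)
    fun x => by rw [LinearMap.mem_ker, map_smul, hx]]
  refine (multP_eq_of_map y Φ le_top bot_le (fun _ _ => Submodule.mem_top) (fun x hx => hx)
    (fun x _ => ?_)
    (fun x _ hx => hx)).symm
  obtain ⟨x, rfl⟩ := hΦ x
  exact ⟨x, trivial, by rw [sub_self]; exact zero_mem _⟩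

theorem mult_add_range {I : Ideal B} {y : List B} (hy : IsSop (B ⧸ I) y) {g : B}
    (hg : ∀ r, g * r ∈ I → r ∈ I) (hI : ∀ r ∈ I, ∀ x : X, r • x = 0) (N : Submodule B X)
    (hx : ∀ x : X, g • x ∈ N) : mult X y = mult N y := by
  rw [mult_add_of_exact (isSop_of_ann hy hI) N.subtype N.mkQ N.subtype_injective N.mkQ_surjective
    (LinearMap.exact_subtype_mkQ N), mult_eq_zero_of_killed (X := X ⧸ N) hy hg, add_zero]
  · intro r hr x
    obtain ⟨x, rfl⟩ := N.mkQ_surjective x
    rw [← map_smul, hI r hr, map_zero]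
  · intro x
    obtain ⟨x, rfl⟩ := N.mkQ_surjective x
    rw [← map_smul]
    exact (Submodule.Quotient.mk_eq_zero N).2 (hx x)

theorem mult_isog {I : Ideal B} {y : List B} (hy : IsSop (B ⧸ I) y) {g : B}
    (hg : ∀ r, g * r ∈ I → r ∈ I) (hI : ∀ r ∈ I, ∀ x : X, r • x = 0) (f : X' →ₗ[B] X)
    (hf : Function.Injective f) (hx : ∀ x : X, g • x ∈ LinearMap.range f) :
    mult X y = mult X' y := by
  rw [mult_add_range hy hg hI _ hx, mult_eq_of_equiv y (LinearEquiv.ofInjective f hf)]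

end Vale.Agent.P177.LE
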