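import Vale.Agent.P177.LevelEstAuxA

/-! P177: the abstract estimates of the module LevelEst. -/

namespace Vale.Agent.P177.LE

open Vale.Agent.P202 IsLocalRing

universe u

variable {B : Type u} [CommRing B] [IsLocalRing B] [IsNoetherianRing B]

theorem mult_add_nilpotent {c n : B} {l : List B} (k : ℕ) : ∀ (M : Type u) [AddCommGroup M]
    [Module B M] [Module.Finite B M], (∀ v : M, n ^ k • v = 0) → IsSop M (c :: l) →
    IsSop M ((c + n) :: l) → mult M ((c + n) :: l) = mult M (c :: l) := by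
  induction k with
  | zero =>
    intro M _ _ _ hn _ _
    have : Subsingleton M := subsingleton_of_forall_eq 0 fun v => by
      rw [← hn v, pow_zero, one_smul]
    rw [mult_of_subsingleton, mult_of_subsingleton]
  | succ k ih =>
    intro M _ _ _ hn h h'
    let N := smulTop n M
    rw [mult_add_of_exact h N.subtype N.mkQ N.subtype_injective N.mkQ_surjective
      (LinearMap.exact_subtype_mkQ N), mult_add_of_exact h' N.subtype N.mkQ N.subtype_injective
      N.mkQ_surjective (LinearMap.exact_subtype_mkQ N),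
      ih N ?_ (h.of_injective _ N.subtype_injective) (h'.of_injective _ N.subtype_injective),
      mult_cons_congr (X := M ⧸ N) (a := c + n) (a' := c)]
    · intro x
      obtain ⟨x, rfl⟩ := N.mkQ_surjective x
      have : n • N.mkQ x = 0 := by
        rw [← map_smul]
        exact (Submodule.Quotient.mk_eq_zero N).2 ⟨x, rfl⟩
      rw [add_smul, this, add_zero]
    · rintro ⟨_, x, rfl⟩
      apply Subtype.ext
      show n ^ k • n • x = 0
      rw [smul_smul, ← pow_succ, hn]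

theorem mult_split {I : Ideal B} {z w : B} (hzw : z * w ∈ I)
    (hc : ∀ r, (z + w) * r ∈ I → r ∈ I) {y : List B} (hy : IsSop (B ⧸ I) y) :
    mult (smulTop z (B ⧸ I)) y + mult (smulTop w (B ⧸ I)) y = mult (B ⧸ I) y := by
  have hr : IsSMulRegular (B ⧸ I) (z + w) := smulReg_iff.2 hc
  have h0 : ∀ x : B ⧸ I, z • w • x = 0 := by
    intro x
    obtain ⟨r, rfl⟩ := Ideal.Quotient.mk_surjective x
    rw [smul_smul]
    exact Ideal.Quotient.eq_zero_iff_mem.2 (I.mul_mem_right r hzw)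
  have h1 := multP_eq_zero hy hr (N := smulTop z (B ⧸ I) ⊔ smulTop w (B ⧸ I)) fun x => by
    rw [add_smul]
    exact Submodule.add_mem_sup ⟨x, rfl⟩ ⟨x, rfl⟩
  have h2 := multP_add (bot_le (a := smulTop z (B ⧸ I) ⊔ smulTop w (B ⧸ I))) le_top hy
  have h3 := multP_add (A := smulTop z (B ⧸ I) ⊔ smulTop w (B ⧸ I)) (B := smulTop w (B ⧸ I))
    bot_le le_sup_right (IsSopP.mono hy le_top le_rfl)
  have h4 : multP y (smulTop z (B ⧸ I)) ⊥ =
      multP y (smulTop z (B ⧸ I) ⊔ smulTop w (B ⧸ I)) (smulTop w (B ⧸ I)) := by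
    refine multP_eq_of_map y LinearMap.id bot_le le_sup_right
      (fun x hx => Submodule.mem_sup_left hx)
      (fun x hx => by rw [(Submodule.mem_bot B).1 hx, map_zero]; exact zero_mem _)
      (fun x hx => ?_) ?_
    · obtain ⟨a, ha, b, hb, rfl⟩ := Submodule.mem_sup.1 hx
      exact ⟨a, ha, by rwa [LinearMap.id_apply, add_sub_cancel_left]⟩
    · rintro _ ⟨a, rfl⟩ ⟨b, hb⟩
      change w • b = z • a at hb
      refine hr.right_eq_zero_of_smul ?_
      show (z + w) • z • a = 0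
      rw [add_smul, smul_comm w z a, h0, add_zero, ← hb, h0]
  rw [← multP_bot, ← multP_bot, mult]
  omega

omit [IsLocalRing B] [IsNoetherianRing B] in
theorem ofList_pow {a : ℕ} (y : Fin a → B) (t : ℕ) :
    Ideal.ofList ((List.ofFn y).map (· ^ t)) = Ideal.span (Set.range fun j => y j ^ t) := by
  rw [List.map_ofFn, HS.ofList_ofFn]
  rfl

omit [IsLocalRing B] [IsNoetherianRing B] in
theorem len_sub_quot {M : Type u} [AddCommGroup M] [Module B M] (N : Submodule B M) (q : Ideal B) :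
    Module.length B (N ⧸ (q • ⊤ : Submodule B N)) = rl N (q • N) := by
  have e : (q • ⊤ : Submodule B N).map N.subtype = q • N := by
    rw [Submodule.map_smul'', Submodule.map_top, Submodule.range_subtype]
  rw [← rl_top, ← e]
  refine rl_eq_of_map N.subtype (fun x _ => x.2) (fun x hx => ⟨x, hx, rfl⟩)
    (fun x hx => ⟨⟨x, hx⟩, trivial, by simp⟩) fun x _ hx => ?_
  obtain ⟨x', hx', e'⟩ := hx
  rwa [← N.subtype_injective e']

omit [IsLocalRing B] [IsNoetherianRing B] in
theorem grow_len {M : Type u} [AddCommGroup M] [Module B M] {z w : B}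
    (h0 : ∀ x : M, w • z • x = 0) (q : Ideal B) (h : rl (smulTop z M) (q • smulTop z M) ≠ ⊤) :
    rl (smulTop z M) (q • smulTop z M) ≤
      rl (smulTop z M) (q • ⊤) + rl ⊤ (q • ⊤ ⊔ smulTop (z + w) M) := by
  have e : (q • ⊤ : Submodule B M).map (LinearMap.lsmul B M z) = q • smulTop z M := by
    rw [Submodule.map_smul'', Submodule.map_top]
  have hz : ∀ x ∈ (q • ⊤ : Submodule B M), z • x ∈ q • smulTop z M := fun x hx =>
    e ▸ ⟨x, hx, rfl⟩
  rw [rl_add (B := smulTop z M ⊓ q • ⊤)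
    (le_inf Submodule.smul_le_right (Submodule.smul_mono le_rfl le_top)) inf_le_left, rl_inf]
  refine add_le_add le_rfl ?_
  have h1 : rl (smulTop z M ⊓ q • ⊤) (q • smulTop z M) ≤
      rl (smulTop z M ⊓ (q • smulTop z M).comap (LinearMap.lsmul B M (z + w)))
        (q • smulTop z M) := by
    refine rl_mono ?_ le_rfl
    rintro _ ⟨⟨x, rfl⟩, hx⟩
    refine ⟨⟨x, rfl⟩, ?_⟩
    show (z + w) • z • x ∈ q • smulTop z M
    rw [add_smul, h0, add_zero]
    exact hz _ hx
  rw [rl_ker_eq Submodule.smul_le_right h] at h1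
  refine h1.trans (rl_le_of_map_surj (LinearMap.lsmul B M z) (fun x hx => ?_) ?_)
  · obtain ⟨a, ha, _, ⟨b, rfl⟩, rfl⟩ := Submodule.mem_sup.1 hx.2
    rw [LinearMap.map_add (LinearMap.lsmul B M z)]
    have hb : LinearMap.lsmul B M z (LinearMap.lsmul B M (z + w) b) ∈
        (smulTop z M).map (LinearMap.lsmul B M (z + w)) :=
      ⟨z • b, ⟨b, rfl⟩, smul_comm (z + w) z b⟩
    exact Submodule.add_mem_sup (hz a ha) hb
  · rintro _ ⟨x, rfl⟩
    exact ⟨x, trivial, by rw [sub_self]; exact zero_mem _⟩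

theorem mult_smulTop {I : Ideal B} {π : B} (hπ : ∀ r, π * r ∈ I → r ∈ I) {y : List B}
    (hy : IsSop (B ⧸ I) y) {M : Type u} [AddCommGroup M] [Module B M] [Module.Finite B M] {ρ : ℕ}
    (f : (Fin ρ → B ⧸ I) →ₗ[B] M) (hf : Function.Injective f)
    (hn : ∀ m : M, π • m ∈ LinearMap.range f) (hI : ∀ r ∈ I, ∀ m : M, r • m = 0) (z : B) :
    mult (smulTop z M) y = ρ * mult (smulTop z (B ⧸ I)) y := by
  let g : (Fin ρ → smulTop z (B ⧸ I)) →ₗ[B] (Fin ρ → B ⧸ I) :=
    (smulTop z (B ⧸ I)).subtype.compLeft (Fin ρ)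
  have hg : ∀ u, f (g u) ∈ smulTop z M := by
    intro u
    choose c hc using fun i => (u i).2
    refine ⟨f c, ?_⟩
    rw [LinearMap.lsmul_apply, ← map_smul]
    congr 1
    funext i
    exact hc i
  rw [← mult_pi (hy.of_injective _ (smulTop z (B ⧸ I)).subtype_injective)]
  refine mult_isog hy hπ (fun r hr x => Subtype.ext (hI r hr _))
    (LinearMap.codRestrict (smulTop z M) (f ∘ₗ g) hg) ?_ ?_
  · intro u u' h
    have h1 : g u = g u' := hf (congrArg Subtype.val h)
    funext i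
    exact Subtype.ext (congrFun h1 i)
  · rintro ⟨_, m, rfl⟩
    obtain ⟨u, hu⟩ := hn m
    refine ⟨fun i => ⟨z • u i, u i, rfl⟩, Subtype.ext ?_⟩
    show f (z • u) = π • z • m
    rw [map_smul, hu, smul_comm]

theorem grow {I : Ideal B} {z w π : B} (hzw : z * w ∈ I) (hc : ∀ r, (z + w) * r ∈ I → r ∈ I)
    (hπ : ∀ r, π * r ∈ I → r ∈ I) {a : ℕ} {y : Fin (a + 1) → B}
    (hy : IsSop (B ⧸ I) (List.ofFn y)) : ∃ K : ℝ, 0 ≤ K ∧
    ∀ (M : Type u) [AddCommGroup M] [Module B M] (ρ ν n : ℕ) (f : (Fin ρ → B ⧸ I) →ₗ[B] M)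
      (v : Fin ν → M), Function.Injective f → (∀ m : M, π ^ n • m ∈ LinearMap.range f) →
      (∀ r ∈ I, ∀ m : M, r • m = 0) → Submodule.span B (Set.range v) = ⊤ →
      mult M (List.ofFn y) = ρ * mult (B ⧸ I) (List.ofFn y) ∧ ∀ t : ℕ, 0 < t →
        (ρ : ℝ) * t ^ (a + 1) * mult (smulTop z (B ⧸ I)) (List.ofFn y) - ν * K * t ^ a ≤
          (Module.length B (smulTop z (M ⧸
            (Ideal.span (Set.range fun j => y j ^ t) • ⊤ : Submodule B M)))).toNat := by
  have hd : ringKrullDim (B ⧸ I) ≤ (a + 1 : ℕ) := by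
    have := dim_le_of_isSop hy
    rwa [List.length_ofFn] at this
  have hs : IsSop (B ⧸ (I ⊔ Ideal.span {z + w})) (List.ofFn y) :=
    hy.of_surjective (Submodule.factor le_sup_left) (Submodule.factor_surjective _)
  obtain ⟨K, hK⟩ := exists_length_pow_le_of_dim hs (by
    rw [Module.supportDim_quotient_eq_ringKrullDim]
    exact dim_sup_le_of_regular hd hc)
  refine ⟨K, Nat.cast_nonneg _, fun M _ _ ρ ν n f v hf hn hI hv => ?_⟩
  have : Module.Finite B M := ⟨hv ▸ Submodule.fg_span (Set.finite_range v)⟩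
  refine ⟨by rw [mult_isog hy (reg_pow hπ n) hI f hf hn, mult_pi hy], fun t ht => ?_⟩
  have h1 := mult_smulTop (reg_pow hπ n) hy f hf hn hI z
  have hN : IsSop (smulTop z M) (List.ofFn y) :=
    isSop_of_ann hy fun r hr x => Subtype.ext (hI r hr _)
  have h2 := mult_le_length (hN.pow ht)
  have h3 := (hN.pow ht).length_ne_top
  rw [mult_pow hN ht, h1, List.length_ofFn] at h2
  rw [ofList_pow, len_sub_quot] at h2 h3
  have hKt := hK t ht
  rw [len_quot_quot] at hKt
  generalize Ideal.span (Set.range fun j => y j ^ t) = q at h2 h3 hKt ⊢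
  have h4 := grow_len (w := w) (fun x => by rw [smul_smul, mul_comm, hI _ hzw]) q h3
  have h5 : rl ⊤ (q • ⊤ ⊔ smulTop (z + w) M) ≤ ((ν * (K * t ^ a) : ℕ) : ℕ∞) := by
    rw [rl_top, Nat.cast_mul]
    refine (length_le_mul (span_comp hv _ (Submodule.mkQ_surjective _))
      (I := I ⊔ Ideal.span {z + w} ⊔ q) fun r hr x => ?_).trans (mul_le_mul_right hKt _)
    obtain ⟨x, rfl⟩ := Submodule.mkQ_surjective _ x
    obtain ⟨r', hr', b, hb, rfl⟩ := Submodule.mem_sup.1 hr
    obtain ⟨i, hi, c, hc', rfl⟩ := Submodule.mem_sup.1 hr'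
    obtain ⟨e, rfl⟩ := Ideal.mem_span_singleton'.1 hc'
    rw [← map_smul, Submodule.mkQ_apply, Submodule.Quotient.mk_eq_zero, add_smul, add_smul,
      hI i hi, zero_add, add_comm _ (b • x), mul_comm, mul_smul]
    exact Submodule.add_mem_sup (Submodule.smul_mem_smul hb Submodule.mem_top) ⟨_, rfl⟩
  have h6 : rl (smulTop z M) (q • ⊤) ≠ ⊤ :=
    ne_top_of_le_ne_top h3 (rl_mono le_rfl (Submodule.smul_mono le_rfl le_top))
  have h7 := toNat_le_add (h4.trans (add_le_add le_rfl h5)) h6 (ENat.natCast_ne_top _)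
  rw [ENat.toNat_natCast] at h7
  rw [LU.len_quot]
  have h8 : ((t : ℝ)) ^ (a + 1) * (ρ * mult (smulTop z (B ⧸ I)) (List.ofFn y)) ≤
      (rl (smulTop z M) (q • smulTop z M)).toNat := by exact_mod_cast h2
  push_cast at h7
  linarith

end Vale.Agent.P177.LE
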