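import Vale.Agent.P177.LevelEstAuxB

/-! P177: the estimates for a setup and a level (module LevelEst). -/

namespace Vale.Agent.P177.LE

open Vale.Agent.P202 IsLocalRing TensorProduct RingTheory.Sequence

universe u

theorem len_aux {A T : Type u} [CommRing A] [CommRing T] {J : Ideal A} (e : T ≃+* A ⧸ J) {x : T}
    {α : A} (h : e x = Ideal.Quotient.mk J α) :
    Module.length A (smulTop α (A ⧸ J)) = Module.length T (smulTop x T) := by
  have := LU.compare (M := T) (M₀ := A ⧸ J) (e.symm.toRingHom.comp (Ideal.Quotient.mk J))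
    (e.symm.surjective.comp Ideal.Quotient.mk_surjective) e.toAddEquiv.toAddMonoidHom
    (fun t y => by
      show e (e.symm (Ideal.Quotient.mk J t) * y) = Ideal.Quotient.mk J t * e y
      rw [map_mul, e.apply_symm_apply]) (P := smulTop x T) (Q := ⊥) (P' := smulTop α (A ⧸ J))
    (Q' := ⊥)
  rw [rl_bot, rl_bot] at this
  have he : ∀ y, e (x * y) = α • e y := fun y => by rw [map_mul, h]; rfl
  refine le_antisymm (this.1 (fun y hy => ?_) ?_) (this.2 ?_ fun y _ hy => ?_)
  · rw [(Submodule.mem_bot T).1 hy.2, map_zero]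
    exact zero_mem _
  · rintro _ ⟨y, rfl⟩
    obtain ⟨y, rfl⟩ := e.surjective y
    exact ⟨x * y, ⟨y, rfl⟩, (Submodule.mem_bot A).2 (sub_eq_zero.2 (he y).symm)⟩
  · rintro _ ⟨y, rfl⟩
    exact ⟨e y, (he y).symm⟩
  · exact (Submodule.mem_bot T).2 (e.injective (((Submodule.mem_bot A).1 hy).trans (map_zero e).symm))

theorem len_equiv {A : Type u} [CommRing A] {J J' : Ideal A} (e : (A ⧸ J) ≃+* A ⧸ J') {α : A}
    (h : e (Ideal.Quotient.mk J α) = Ideal.Quotient.mk J' α) :
    Module.length A (smulTop α (A ⧸ J)) = Module.length A (smulTop α (A ⧸ J')) := by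
  rw [len_aux e h, len_aux (RingEquiv.refl (A ⧸ J)) rfl]
  rfl

theorem len_one {A N : Type u} [CommRing A] [AddCommGroup N] [Module A N] :
    Module.length A (smulTop (1 : A) N) = Module.length A N := by
  have : smulTop (1 : A) N = ⊤ := eq_top_iff.2 fun x _ => ⟨x, one_smul A x⟩
  rw [this, Module.length_top]

theorem le_rad {A : Type u} [CommRing A] {I J : Ideal A} {n : ℕ} (h : I ^ n ≤ J) : I ≤ J.radical :=
  fun _ hx => ⟨n, h (Ideal.pow_mem_pow hx n)⟩

variable {p d a b : ℕ} {R : Type u} [CommRing R] [IsLocalRing R] [IsNoetherianRing R]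

section Setup
variable (S : Setup p d a b R)

omit [IsNoetherianRing R] in
theorem I_le : S.I ≤ maximalIdeal R := Ideal.span_le.2 (by rintro _ ⟨j, rfl⟩; exact S.hm j)

omit [IsNoetherianRing R] in
theorem cons_mem {c : R} (hc : c ∈ maximalIdeal R) : ∀ r ∈ c :: List.ofFn S.s, r ∈ maximalIdeal R := by
  intro r hr
  rcases List.mem_cons.1 hr with rfl | hr
  · exact hc
  · obtain ⟨j, rfl⟩ := List.mem_ofFn.1 hr
    exact S.sm j

omit [IsNoetherianRing R] in
theorem sup_cons (c : R) : S.I ⊔ Ideal.ofList (c :: List.ofFn S.s) =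
    S.I ⊔ Ideal.span {c} ⊔ Ideal.span (Set.range S.s) := by
  rw [Ideal.ofList_cons, HS.ofList_ofFn, sup_assoc]

theorem sop_ps : IsSop (R ⧸ S.I) ((p : R) :: List.ofFn S.s) :=
  isSop_quotient_iff.2 ⟨cons_mem S S.pm, by rw [sup_cons]; exact S.sop_p⟩

theorem sop_cs : IsSop (R ⧸ S.I) ((S.z + S.w) :: List.ofFn S.s) :=
  isSop_quotient_iff.2 ⟨cons_mem S (add_mem S.zm S.wm), by rw [sup_cons]; exact S.sop_c⟩

theorem dim_I : ringKrullDim (R ⧸ S.I) ≤ (a + 1 : ℕ) := by
  have := dim_le_of_isSop (sop_ps S)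
  rwa [List.length_cons, List.length_ofFn] at this

theorem ciData : CIData d (a + 1) S.I where
  reg := ⟨List.ofFn S.x, List.length_ofFn, S.reg, S.span_x⟩
  gen := ⟨List.ofFn S.h, by rw [List.length_ofFn, add_comm]; exact S.dim, HS.ofList_ofFn S.h⟩
  le := I_le S
  dim := dim_I S
  pos := Nat.le_add_left 1 a

include S in
theorem hasRes : HasRes R d := by
  have := hasRes_of_reg S.reg S.span_x
  rwa [List.length_ofFn] at this

theorem reg_of_sop {l : List R} (h : IsSop (R ⧸ S.I) l) (hl : l.length ≤ a + 1) :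
    IsWeaklyRegular (R ⧸ S.I) l := by
  have e : Ideal.ofList (List.ofFn S.h) = S.I := HS.ofList_ofFn S.h
  obtain ⟨s, h1, h2, -, h3⟩ := exists_reg_extend S.reg
    (fun r hr => S.span_x ▸ Ideal.subset_span hr) (h := List.ofFn S.h) (a := a + 1)
    (fun r hr => by obtain ⟨j, rfl⟩ := List.mem_ofFn.1 hr; exact S.hm j)
    (by rw [List.length_ofFn, List.length_ofFn, add_comm]; exact S.dim)
    (by rw [e]; exact dim_I S)
  rw [e] at h3
  exact isWeaklyRegular_of_isSop h3 h2 h (hl.trans h1.ge)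

theorem reg_ps : IsWeaklyRegular (R ⧸ S.I) ((p : R) :: List.ofFn S.s) :=
  reg_of_sop S (sop_ps S) (by rw [List.length_cons, List.length_ofFn])

theorem p_regular : ∀ r, (p : R) * r ∈ S.I → r ∈ S.I :=
  smulReg_iff.1 ((isWeaklyRegular_cons_iff _ _ _).1 (reg_ps S)).1

theorem c_regular : ∀ r, (S.z + S.w) * r ∈ S.I → r ∈ S.I :=
  smulReg_iff.1 ((isWeaklyRegular_cons_iff _ _ _).1
    (reg_of_sop S (sop_cs S) (by rw [List.length_cons, List.length_ofFn]))).1

theorem length_J : Module.length R (R ⧸ S.J) ≠ ⊤ := by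
  have := (sop_ps S).length_ne_top
  rwa [len_quot_quot, sup_cons] at this

omit [IsNoetherianRing R] in
theorem J_le : S.J ≤ maximalIdeal R := by
  rw [Setup.J, ← sup_cons]
  exact sup_le (I_le S) (Ideal.span_le.2 (cons_mem S S.pm))
end Setup

variable {S : Setup p d a b R} {N₀ k : ℕ} (L : Level S N₀ k)

theorem artinian_J₀ :
    IsArtinianRing (L.A ⧸ (Ideal.span (Set.range L.y) ⊔ S.J.map (algebraMap R L.A))) :=
  artinian_of_length (by
    rw [L.count]
    exact WithTop.mul_ne_top (ENat.natCast_ne_top _) (length_J S))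

theorem J₀_primary : ∃ N : ℕ, maximalIdeal L.A ^ N ≤
    Ideal.span (Set.range L.y) ⊔ S.J.map (algebraMap R L.A) :=
  have := artinian_J₀ L
  exists_maximalIdeal_pow_le_of_isArtinianRing_quotient _

theorem J₁_primary : ∃ N : ℕ, maximalIdeal L.A ^ N ≤ (maximalIdeal R).map (algebraMap R L.A) ⊔
    Ideal.span {L.F} ⊔ Ideal.span (Set.range L.t) := by
  obtain ⟨e, -⟩ := L.iso
  have := artinian_J₀ L
  have := e.symm.isArtinianRing
  exact exists_maximalIdeal_pow_le_of_isArtinianRing_quotient _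

omit [IsNoetherianRing R] in
theorem Y_le : Ideal.span (Set.range L.y) ≤ maximalIdeal L.A :=
  Ideal.span_le.2 (by rintro _ ⟨j, rfl⟩; exact L.ym j)

omit [IsNoetherianRing R] in
theorem map_mem {r : R} (hr : r ∈ maximalIdeal R) : algebraMap R L.A r ∈ maximalIdeal L.A :=
  map_max_le (algebraMap R L.A) (Ideal.mem_map_of_mem _ hr)

omit [IsNoetherianRing R] in
theorem t_mem (l : Fin a) : L.t l ∈ maximalIdeal L.A := by
  have := add_mem (Y_le L (L.ht l)) (map_mem L (S.sm l))
  rwa [sub_add_cancel] at this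

omit [IsNoetherianRing R] in
theorem map_I_le : S.I.map (algebraMap R L.A) ≤ Ideal.span (Set.range L.y) := by
  rw [Ideal.map_le_iff_le_comap]
  exact Ideal.span_le.2 (by rintro _ ⟨j, rfl⟩; exact L.hI j)

omit [IsNoetherianRing R] in
theorem kills : ∀ r ∈ S.I, ∀ m : L.A ⧸ Ideal.span (Set.range L.y), r • m = 0 := by
  intro r hr m
  obtain ⟨x, rfl⟩ := Ideal.Quotient.mk_surjective m
  rw [← algebraMap_smul L.A r]
  exact Ideal.Quotient.eq_zero_iff_mem.2
    (Ideal.mul_mem_right x _ (map_I_le L (Ideal.mem_map_of_mem _ hr)))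

omit [IsNoetherianRing R] in
theorem reg_append {l₁ l₂ : List L.A} (h₁ : ∀ r ∈ l₁, r ∈ maximalIdeal L.A)
    (h₂ : ∀ r ∈ l₂, r ∈ maximalIdeal L.A) (hl : l₁.length + l₂.length = a + 1 + d)
    {I : Ideal L.A} (hI : Ideal.ofList l₁ = I)
    (hN : ∃ N : ℕ, maximalIdeal L.A ^ N ≤ I ⊔ Ideal.ofList l₂) : IsWeaklyRegular (L.A ⧸ I) l₂ := by
  obtain ⟨w, hw1, hw2, hw3⟩ := L.cm
  obtain ⟨N, hN⟩ := hN
  refine FacA.reg_quot (isWeaklyRegular_of_isSop hw2 hw3 (HS.isSop_of_le (N := N) ?_ ?_ _) ?_) hI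
  · intro r hr
    exact (List.mem_append.1 hr).elim (h₁ r) (h₂ r)
  · rwa [Ideal.ofList_append, hI]
  · rw [List.length_append, hl, hw1]

omit [IsNoetherianRing R] in
theorem mem_map {c : List R} (hc : ∀ r ∈ c, r ∈ maximalIdeal R) :
    ∀ r ∈ c.map (algebraMap R L.A), r ∈ maximalIdeal L.A := by
  intro r hr
  obtain ⟨x, hx, rfl⟩ := List.mem_map.1 hr
  exact map_mem L (hc x hx)

omit [IsNoetherianRing R] in
theorem reg_tensor {c : List R} (hc : ∀ r ∈ c, r ∈ maximalIdeal R) {q : List L.A}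
    (hq : ∀ r ∈ q, r ∈ maximalIdeal L.A) (hl : c.length + q.length = a + 1 + d)
    (hN : ∃ N : ℕ, maximalIdeal L.A ^ N ≤
      (Ideal.ofList c).map (algebraMap R L.A) ⊔ Ideal.ofList q) :
    IsWeaklyRegular (L.A ⊗[R] (R ⧸ Ideal.ofList c)) q :=
  ((Algebra.TensorProduct.quotIdealMapEquivTensorQuot L.A
    (Ideal.ofList c)).toLinearEquiv.isWeaklyRegular_congr q).1
    (reg_append L (mem_map L hc) hq (by rwa [List.length_map]) (Ideal.map_ofList _ _).symm hN)

omit [IsNoetherianRing R] in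
theorem sup_map (l : List R) :
    Ideal.span (Set.range L.y) ⊔ Ideal.ofList (l.map (algebraMap R L.A)) =
      Ideal.span (Set.range L.y) ⊔ (S.I ⊔ Ideal.ofList l).map (algebraMap R L.A) := by
  rw [Ideal.map_sup, ← sup_assoc, sup_eq_left.2 (map_I_le L), Ideal.map_ofList]

theorem sop_map {l : List R} (h : IsSop (R ⧸ S.I) l) :
    IsSop (L.A ⧸ Ideal.span (Set.range L.y)) (l.map (algebraMap R L.A)) := by
  obtain ⟨h1, N, hN⟩ := isSop_quotient_iff.1 h
  obtain ⟨N', hN'⟩ := J₀_primary L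
  refine isSop_of_radical (mem_map L h1) ?_
  rw [sup_map, ← Ideal.radical_idem]
  refine (le_rad hN').trans (Ideal.radical_mono (sup_le
    (le_sup_left.trans Ideal.le_radical) ?_))
  refine (Ideal.map_mono ((J_le S).trans (le_rad hN))).trans ?_
  exact (Ideal.map_radical_le _).trans (Ideal.radical_mono le_sup_right)

omit [IsNoetherianRing R] in
theorem reg_Y {l : List L.A} (h : IsSop (L.A ⧸ Ideal.span (Set.range L.y)) l)
    (hl : l.length = a + 1) : IsWeaklyRegular (L.A ⧸ Ideal.span (Set.range L.y)) l :=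
  reg_append L (l₁ := List.ofFn L.y)
    (fun r hr => by obtain ⟨j, rfl⟩ := List.mem_ofFn.1 hr; exact L.ym j) h.1
    (by rw [List.length_ofFn, hl, add_comm]) (HS.ofList_ofFn _) (isSop_quotient_iff.1 h).2

theorem isog : ∃ (f : (Fin L.ρ → R ⧸ S.I) →ₗ[R] L.A ⧸ Ideal.span (Set.range L.y)) (n : ℕ),
    Function.Injective f ∧
    ∀ m : L.A ⧸ Ideal.span (Set.range L.y), (p : R) ^ n • m ∈ LinearMap.range f := by
  have := L.fin
  obtain ⟨v, hv⟩ := L.gen
  obtain ⟨f, hf⟩ := exists_map (fun i => Ideal.Quotient.mk _ (v i)) (kills L)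
  obtain ⟨n, hn⟩ := exists_pow_smul (g := (p : R)) (N := LinearMap.range f) fun m => by
    obtain ⟨r, rfl⟩ := Ideal.Quotient.mk_surjective m
    obtain ⟨n, c, h⟩ := hv r
    refine ⟨n, _, (hf c).trans ?_⟩
    rw [← algebraMap_smul L.A ((p : R) ^ n), map_pow, map_natCast]
    refine Eq.trans ?_ (Ideal.Quotient.eq.2 h).symm
    rw [map_sum]
    exact Finset.sum_congr rfl fun i _ => (algebraMap_smul L.A (c i) _).symm
  refine ⟨f, n, ?_, hn⟩
  have h1 := mult_add_range (sop_ps S) (reg_pow (p_regular S) n) (kills L) _ hn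
  have h2 := mult_add_of_exact (isSop_pi (sop_ps S) (Fin L.ρ)) (LinearMap.ker f).subtype
    f.rangeRestrict (Submodule.injective_subtype _) f.surjective_rangeRestrict
    (by rw [LinearMap.exact_iff, LinearMap.ker_rangeRestrict, Submodule.range_subtype])
  rw [mult_pi (sop_ps S), ← h1, HS.mult_restrict L.res (L.A ⧸ Ideal.span (Set.range L.y)),
    mult_eq_length_of_isRegular (reg_ps S),
    mult_eq_length_of_isRegular (reg_Y L (sop_map L (sop_ps S))
      (by rw [List.length_map, List.length_cons, List.length_ofFn])),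
    len_quot_quot, len_quot_quot, sup_map, sup_cons] at h2
  have h3 : mult (LinearMap.ker f) ((p : R) :: List.ofFn S.s) = 0 := by
    have e := congrArg ENat.toNat L.count
    rw [ENat.toNat_mul, ENat.toNat_natCast] at e
    unfold Setup.J at e
    rw [e] at h2
    push_cast at h2
    omega
  rw [← LinearMap.ker_eq_bot, eq_bot_iff]
  intro x hx
  rw [Submodule.mem_bot]
  funext i
  let N := (LinearMap.ker f).map (LinearMap.proj (R := R) (φ := fun _ : Fin L.ρ => R ⧸ S.I) i)
  have h4 := mult_le_of_surj ((isSop_pi (sop_ps S) (Fin L.ρ)).of_injective _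
    (LinearMap.ker f).subtype_injective) _ (LinearMap.submoduleMap_surjective
      (LinearMap.proj (R := R) (φ := fun _ : Fin L.ρ => R ⧸ S.I) i) (LinearMap.ker f))
  have h5 : Subsingleton N := by
    refine subsingleton_of_supportDim_lt (reg_ps S) (cons_mem S S.pm) N.subtype
      N.subtype_injective (lt_of_not_ge fun h => ?_)
    have := mult_pos_of_supportDim ((sop_ps S).of_injective _ N.subtype_injective) h
    exact absurd (this.trans_le (h4.trans h3.le)) (lt_irrefl _)
  exact congrArg Subtype.val (Subsingleton.elim (⟨x i, x, hx, rfl⟩ : N) 0)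

theorem gens : ∃ v : Fin ((Module.length R (R ⧸ S.J)).toNat * L.ρ) →
    L.A ⧸ Ideal.span (Set.range L.y), Submodule.span R (Set.range v) = ⊤ := by
  have := L.fin
  obtain ⟨v, hv⟩ := exists_gens ((Module.length R (R ⧸ S.J)).toNat * L.ρ)
    (S.J • ⊤ : Submodule R (L.A ⧸ Ideal.span (Set.range L.y))) (by
      have h := HS.rl_restrict L.res (⊤ : Submodule L.A (L.A ⧸ Ideal.span (Set.range L.y)))
        (S.J.map (algebraMap R L.A) • ⊤)
      rw [Ideal.smul_restrictScalars, Submodule.restrictScalars_top] at h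
      rw [h, rl_top, len_quot_quot, L.count, Nat.cast_mul, ENat.natCast_toNat (length_J S), mul_comm])
  refine ⟨v, eq_top_iff.2 (Submodule.le_of_le_smul_of_le_jacobson_bot Module.Finite.fg_top
    ((J_le S).trans (maximalIdeal_le_jacobson _)) ?_)⟩
  rw [sup_comm, hv]

theorem small [Fact p.Prime] :
    ((p ^ k : ℕ) : ℕ∞) * Module.length L.A (L.A ⧸ (Ideal.span (Set.range L.y) ⊔
      S.J.map (algebraMap R L.A) ⊔ Ideal.span {L.α + L.β})) ≤
      L.ρ * Module.length R (R ⧸ (S.I ⊔ Ideal.span {S.z + S.w} ⊔ Ideal.span (Set.range S.s))) := by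
  have := L.fin
  have hq : 0 < p ^ k := pow_pos (Fact.out : p.Prime).pos k
  have hα := L.hα
  have hβ := L.hβ
  generalize p ^ k = q at hq hα hβ ⊢
  have hs := sop_map L (sop_cs S)
  rw [List.map_cons] at hs
  obtain ⟨n, hn⟩ : ∃ n, n = (L.α + L.β) ^ q - algebraMap R L.A (S.z + S.w) := ⟨_, rfl⟩
  have hnil : n ∈ (Ideal.span (Set.range L.y)).radical := by
    have h1 : L.α * L.β ∈ (Ideal.span (Set.range L.y)).radical := by
      refine ⟨q, ?_⟩
      have e : (L.α * L.β) ^ q = (L.α ^ q - algebraMap R L.A S.z) * L.β ^ q +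
          algebraMap R L.A S.z * (L.β ^ q - algebraMap R L.A S.w) +
          algebraMap R L.A (S.z * S.w) := by
        rw [map_mul, mul_pow]
        ring
      rw [e]
      exact add_mem (add_mem (Ideal.mul_mem_right _ _ hα) (Ideal.mul_mem_left _ _ hβ))
        (map_I_le L (Ideal.mem_map_of_mem _ S.zw))
    obtain ⟨q, rfl⟩ := Nat.exists_eq_add_one_of_ne_zero hq.ne'
    obtain ⟨r, hr⟩ := exists_add_pow L.α L.β q
    have e : n = (L.α ^ (q + 1) - algebraMap R L.A S.z) + (L.β ^ (q + 1) - algebraMap R L.A S.w) +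
        L.α * L.β * r := by
      rw [hn, hr, map_add]
      ring
    rw [e]
    exact add_mem (Ideal.le_radical (add_mem hα hβ)) (Ideal.mul_mem_right _ _ h1)
  have hγ : algebraMap R L.A (S.z + S.w) + n = (L.α + L.β) ^ q := by rw [hn, add_sub_cancel]
  have hm : L.α + L.β ∈ maximalIdeal L.A := by
    refine (maximalIdeal.isMaximal L.A).isPrime.mem_of_pow_mem q ?_
    rw [← hγ]
    exact add_mem (hs.1 _ List.mem_cons_self)
      (((maximalIdeal.isMaximal L.A).isPrime.radical_le_iff.2 (Y_le L)) hnil)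
  have hs1 : IsSop (L.A ⧸ Ideal.span (Set.range L.y))
      ((L.α + L.β) :: (List.ofFn S.s).map (algebraMap R L.A)) := by
    obtain ⟨h1, N, hN⟩ := isSop_quotient_iff.1 hs
    refine isSop_of_radical (fun r hr => ?_) ?_
    · rcases List.mem_cons.1 hr with rfl | hr
      · exact hm
      · exact h1 r (List.mem_cons_of_mem _ hr)
    · rw [← Ideal.radical_idem]
      refine (le_rad hN).trans (Ideal.radical_mono ?_)
      rw [Ideal.ofList_cons, Ideal.ofList_cons]
      refine sup_le (le_sup_left.trans Ideal.le_radical) (sup_le ?_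
        ((le_sup_right.trans le_sup_right).trans Ideal.le_radical))
      rw [Ideal.span_singleton_le_iff_mem, eq_sub_of_add_eq hγ]
      refine sub_mem (Ideal.le_radical (Submodule.mem_sup_right (Submodule.mem_sup_left ?_)))
        (Ideal.radical_mono le_sup_left hnil)
      exact Ideal.pow_mem_of_mem _ (Ideal.mem_span_singleton_self _) _ hq
  have hr1 := reg_Y L hs1 (by rw [List.length_cons, List.length_map, List.length_ofFn])
  have hr2 := ((isWeaklyRegular_cons_iff _ _ _).1 hr1).1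
  obtain ⟨j, hj⟩ := hnil
  have e1 := mult_add_nilpotent (n := n) j _ (fun v => by
    obtain ⟨x, rfl⟩ := Ideal.Quotient.mk_surjective v
    exact Ideal.Quotient.eq_zero_iff_mem.2 (Ideal.mul_mem_right x _ hj)) hs
    (by rw [hγ]; exact hs1.cons_pow hq)
  obtain ⟨f, n', hf, hn'⟩ := isog L
  rw [hγ, mult_cons_of_regular _ (hr2.pow q), mult_quotSMulTop_pow hs1 hr2,
    ← mult_cons_of_regular _ hr2, mult_eq_length_of_isRegular hr1, len_quot_quot,
    ← List.map_cons, ← HS.mult_restrict L.res,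
    mult_isog (sop_cs S) (reg_pow (p_regular S) n') (kills L) f hf hn', mult_pi (sop_cs S)] at e1
  have h1 := mult_le_length (sop_cs S)
  have h2 := (sop_cs S).length_ne_top
  have h3 := hs1.length_ne_top
  rw [len_quot_quot, sup_cons] at h1 h2
  rw [len_quot_quot] at h3
  have h4 : Module.length L.A (L.A ⧸ (Ideal.span (Set.range L.y) ⊔
      S.J.map (algebraMap R L.A) ⊔ Ideal.span {L.α + L.β})) ≤ Module.length L.A
      (L.A ⧸ (Ideal.span (Set.range L.y) ⊔
        Ideal.ofList ((L.α + L.β) :: (List.ofFn S.s).map (algebraMap R L.A)))) := by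
    rw [← rl_top, ← rl_top]
    refine rl_mono le_rfl (sup_le (le_sup_left.trans le_sup_left) ?_)
    rw [Ideal.ofList_cons, ← Ideal.map_ofList, HS.ofList_ofFn]
    exact sup_le le_sup_right (((Ideal.map_mono le_sup_right).trans le_sup_right).trans le_sup_left)
  refine (mul_le_mul_right h4 _).trans ?_
  rw [← ENat.natCast_toNat h2, ← ENat.natCast_toNat h3, ← Nat.cast_mul, ← Nat.cast_mul, Nat.cast_le]
  have h5 := mul_le_mul_of_nonneg_left h1 (Int.natCast_nonneg L.ρ)
  rw [← e1] at h5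
  exact_mod_cast h5

end Vale.Agent.P177.LE
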