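import Vale.Agent.P177.LocAux

/-! P177 module Loc: the index of a map only depends on its germ at the bad points. -/

namespace Vale.Agent.P177

open IsLocalRing Polynomial LocA

universe u

variable {R : Type u} [CommRing R] [IsLocalRing R] [IsNoetherianRing R] {I : Ideal R}
  {δ : AddFun R} {a p : ℕ}

/-- An isomorphism over the punctured spectrum of `R / I`. -/
def UIso (I : Ideal R) {V W : Type u} [AddCommGroup V] [Module R V] [AddCommGroup W] [Module R W]
    (f : V →ₗ[R] W) : Prop := ∀ x, UPt I x →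
  (∀ v, f v = 0 → ∃ t, t ∉ x.asIdeal ∧ t • v = 0) ∧
    ∀ w, ∃ t, t ∉ x.asIdeal ∧ t • w ∈ LinearMap.range f

variable {V V' W : Type u} [AddCommGroup V] [Module R V] [Module.Finite R V] [AddCommGroup V']
  [Module R V'] [Module.Finite R V'] [AddCommGroup W] [Module R W] [Module R[X] W]
  [IsScalarTower R R[X] W]

/-- The unipotent trick. With `q = p ^ j` one has
`(r + n) ^ q = r ^ (q - k) * (r ^ k + p ^ L * t)` modulo `I` (the binomials `q.choose i`,
`0 < i < k`, are divisible by `p ^ (j - k)`), and `p ^ N ∈ I + (r ^ k) + ann V`, so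
`(r + n) ^ q = r ^ q * u` modulo `I` with `u = 1 + p t'` bijective. -/
theorem ind_unip (h : KHyp a p I δ) (r : R) (n : V →ₗ[R] V) {k : ℕ}
    (hn : n ^ k ∈ (I • ⊤ : Submodule R (V →ₗ[R] V))) (h1 : δ.IndOK (r • (LinearMap.id : V →ₗ[R] V)))
    (h2 : δ.IndOK (r • LinearMap.id + n)) :
    δ.ind (r • LinearMap.id + n) = δ.ind (r • (LinearMap.id : V →ₗ[R] V)) := by
  have hc : InA I (V ⧸ LinearMap.range (r • (LinearMap.id : V →ₗ[R] V))) := (h.mem_iff _).1 h1.2
  obtain ⟨N, hN⟩ : (p : R) ∈ (I ⊔ Ideal.span {r ^ k} ⊔ Module.annihilator R V).radical := by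
    rw [Ideal.radical_eq_sInf, Ideal.mem_sInf]
    rintro q ⟨hle, hq⟩
    by_cases hqm : q = maximalIdeal R
    · exact hqm ▸ h.pm
    exfalso
    obtain ⟨t, ht, hta⟩ := inA_iff_local.1 hc ⟨q, hq⟩ ⟨le_sup_left.trans (le_sup_left.trans hle), hqm⟩
    have hr : r ∈ q := hq.mem_of_pow_mem k
      (hle (Ideal.mem_sup_left (Ideal.mem_sup_right (Ideal.mem_span_singleton_self _))))
    obtain ⟨t', ht', ha⟩ := nak (V := V) (q := q) ht fun v => by
      have := Module.mem_annihilator.1 hta (Submodule.Quotient.mk v)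
      rw [← Submodule.Quotient.mk_smul, Submodule.Quotient.mk_eq_zero] at this
      obtain ⟨y, hy⟩ := this
      rw [← hy]
      exact Submodule.smul_mem_smul hr trivial
    exact ht' (hle (Ideal.mem_sup_right ha))
  obtain ⟨b, hb, a', ha', e1⟩ := Submodule.mem_sup.1 hN
  obtain ⟨i₀, hi₀, c', hc', rfl⟩ := Submodule.mem_sup.1 hb
  obtain ⟨c, rfl⟩ := Ideal.mem_span_singleton'.1 hc'
  let π := Ideal.Quotient.mk (endIdeal I n)
  have z1 : π (C i₀) = 0 :=
    Ideal.Quotient.eq_zero_iff_mem.2 (map_C_le_endIdeal I n (Ideal.mem_map_of_mem _ hi₀))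
  have z2 : π (C a') = 0 := Ideal.Quotient.eq_zero_iff_mem.2 (by
    change aeval n (C a') ∈ (I • ⊤ : Submodule R (V →ₗ[R] V))
    have : aeval n (C a') = 0 := by
      ext v
      simpa using Module.mem_annihilator.1 ha' v
    rw [this]
    exact zero_mem _)
  obtain ⟨q, t, hq, he⟩ := binom_unip h.prime (r := π (C r)) (n := π X) (c := π (C c)) (k := k)
    (N := N) (by
      rw [← map_pow]
      exact Ideal.Quotient.eq_zero_iff_mem.2 (by
        change aeval n (X ^ k) ∈ (I • ⊤ : Submodule R (V →ₗ[R] V))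
        simpa using hn)) (by
      have := congrArg (fun s => π (C s)) e1
      simp only [map_add, map_mul, map_pow, map_natCast, z1, z2, zero_add, add_zero] at this
      exact this.symm)
  obtain ⟨t, rfl⟩ := Ideal.Quotient.mk_surjective t
  have hmem : (C r + X) ^ q - C r ^ q * (1 + (p : R[X]) * t) ∈ endIdeal I n := by
    rw [← Ideal.Quotient.eq]
    simpa using he
  set u : V →ₗ[R] V := LinearMap.id + (p : R) • aeval n t with hu
  have hus : Function.Surjective u := by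
    rw [← LinearMap.range_eq_top, eq_top_iff]
    refine Submodule.le_of_le_smul_of_le_jacobson_bot Module.Finite.fg_top
      (maximalIdeal_le_jacobson ⊥) fun v _ => ?_
    refine Submodule.mem_sup.2 ⟨u v, ⟨v, rfl⟩, (p : R) • -(aeval n t v),
      Submodule.smul_mem_smul h.pm trivial, by simp [hu]⟩
  have hub := δ.ind_of_bijective (f := u)
    ⟨IsNoetherian.injective_of_surjective_endomorphism u hus, hus⟩
  have p1 := AddFun.ind_pow h1 q
  have p2 := AddFun.ind_pow h2 q
  have p3 := AddFun.ind_comp hub.1 p1.1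
  have key := h.propF V _ _ (by
    have e : (r • LinearMap.id + n) ^ q - ((r • (LinearMap.id : V →ₗ[R] V)) ^ q) ∘ₗ u =
        aeval n ((C r + X) ^ q - C r ^ q * (1 + (p : R[X]) * t)) := by
      simp only [map_sub, map_pow, map_add, map_mul, aeval_C, aeval_X, map_one, map_natCast,
        Algebra.algebraMap_eq_smul_one, hu, ← Module.End.mul_eq_comp, ← Module.End.one_eq_id,
        Nat.cast_smul_eq_nsmul, nsmul_eq_mul]
    rw [e]
    exact hmem) p2.1 p3.1
  rw [p2.2, p3.2, p1.2, hub.2, add_zero] at key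
  exact mul_left_cancel₀ (Nat.cast_ne_zero.2 hq.ne') key

omit [IsNoetherianRing R] in
theorem UPt.xPt {x : PrimeSpectrum R} (hx : UPt I x) {y : Ideal R[X]} (hy : y.IsPrime)
    (h : y.comap C = x.asIdeal) : XPt I ⟨y, hy⟩ :=
  ⟨Ideal.map_le_iff_le_comap.2 (h ▸ hx.1), h ▸ hx.2⟩

/-- At a prime of `U` the module `W` is finite, so `v` is onto by Nakayama, hence bijective. -/
theorem indOK_of_uIso (hm : ∀ (V : Type u) [AddCommGroup V] [Module R V], δ.mem V ↔ InA I V)
    {i : V →ₗ[R] W} {i' : V' →ₗ[R] W} (hi : UIso I i) (hi' : UIso I i') {φ : V →ₗ[R] V'}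
    {v : R[X]} (hφ : ∀ y, i' (φ y) = v • i y)
    (hv : ∀ x, XPt I x → Module.annihilator R[X] W ≤ x.asIdeal → v ∉ x.asIdeal) :
    δ.IndOK φ := by
  have hco : ∀ x, UPt I x → ∃ t, t ∉ x.asIdeal ∧ ∀ y', t • y' ∈ LinearMap.range φ := by
    intro x hx
    have hq := x.isPrime
    obtain ⟨t, k, ht, a, ha, g, hg, e⟩ := exists_C_mul_pow (q := x.asIdeal)
      (Module.annihilator R[X] W ⊔ Ideal.span {v}) 1 fun y hy hle hc =>
        absurd (hle (Ideal.mem_sup_right (Ideal.mem_span_singleton_self v)))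
          (hv ⟨y, hy⟩ (hx.xPt hy hc) (le_sup_left.trans hle))
    obtain ⟨a₀, ha₀, b', hb', rfl⟩ := Submodule.mem_sup.1 ha
    obtain ⟨b, rfl⟩ := Ideal.mem_span_singleton'.1 hb'
    obtain ⟨s, hs, hsN⟩ := unif (q := x.asIdeal) (LinearMap.range φ ⊔ x.asIdeal • ⊤) fun y' => by
      obtain ⟨t₁, ht₁, y, hy⟩ := (hi x hx).2 (b • i' y')
      obtain ⟨t₂, ht₂, z, hz, e₂⟩ := pull (hi' x hx).2 (smul_mem_of_map_C hg (i' y'))
      have e₀ : t • i' y' = v • b • i' y' + g • i' y' := by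
        rw [← algebraMap_smul R[X] t, algebraMap_eq, ← mul_one (C t), ← one_pow k, e, add_smul,
          add_smul, Module.mem_annihilator.1 ha₀, zero_add, mul_comm, mul_smul]
      obtain ⟨t₃, ht₃, e₃⟩ := (hi' x hx).1 ((t₁ * t₂ * t) • y' - (t₂ • φ y + t₁ • z)) (by
        rw [map_sub, map_add, map_smul, map_smul, map_smul, hφ, hy, ← e₂, mul_smul _ t, e₀,
          smul_add, smul_comm v t₁, smul_smul t₂, smul_smul t₁, mul_comm t₂ t₁, sub_self])
      refine ⟨t₃ * (t₁ * t₂ * t), fun hm => ?_, ?_⟩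
      · exact (hq.mem_or_mem hm).elim ht₃ fun hm => (hq.mem_or_mem hm).elim
          (fun hm => (hq.mem_or_mem hm).elim ht₁ ht₂) ht
      · rw [smul_sub, sub_eq_zero] at e₃
        rw [mul_smul, e₃]
        exact Submodule.smul_mem _ _ (add_mem
          (Submodule.mem_sup_left (Submodule.smul_mem _ _ ⟨y, rfl⟩))
          (Submodule.mem_sup_right (Submodule.smul_mem _ _ hz)))
    obtain ⟨t', ht', ha'⟩ := nak (V := V' ⧸ LinearMap.range φ) (q := x.asIdeal) hs fun y' => by
      obtain ⟨y', rfl⟩ := Submodule.Quotient.mk_surjective _ y'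
      obtain ⟨y₁, h₁, y₂, h₂, e⟩ := Submodule.mem_sup.1 (hsN y')
      rw [← Submodule.Quotient.mk_smul, ← e, Submodule.Quotient.mk_add,
        (Submodule.Quotient.mk_eq_zero _).2 h₁, zero_add]
      have := Submodule.mem_map_of_mem (f := (LinearMap.range φ).mkQ) h₂
      rw [Submodule.map_smul''] at this
      exact Submodule.smul_mono le_rfl le_top this
    refine ⟨t', ht', fun y' => ?_⟩
    rw [← Submodule.Quotient.mk_eq_zero, Submodule.Quotient.mk_smul]
    exact Module.mem_annihilator.1 ha' _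
  refine ⟨(hm _).2 (inA_iff_local.2 fun x hx => ?_), (hm _).2 (inA_iff_local.2 fun x hx => ?_)⟩
  · have hq := x.isPrime
    obtain ⟨t₀, ht₀, h₀⟩ := hco x hx
    have hsurj : ∀ (n : ℕ) (y : V), ∃ t, t ∉ x.asIdeal ∧ ∃ y₁, t • i y = v ^ n • i y₁ := by
      intro n
      induction n with
      | zero => exact fun y => ⟨1, (Ideal.ne_top_iff_one _).1 hq.ne_top, y, by simp⟩
      | succ n ih =>
        intro y
        obtain ⟨t, ht, y₁, e⟩ := ih y
        obtain ⟨t₁, ht₁, y', e'⟩ := (hi' x hx).2 (i y₁)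
        obtain ⟨y₂, e₂⟩ := h₀ y'
        refine ⟨t₀ * t₁ * t, fun hm => (hq.mem_or_mem hm).elim
          (fun hm => (hq.mem_or_mem hm).elim ht₀ ht₁) ht, y₂, ?_⟩
        rw [pow_succ, mul_smul (v ^ n), ← hφ, e₂, map_smul, e', mul_smul _ t, e,
          smul_comm _ (v ^ n), mul_smul]
    let K : ℕ →o Submodule R V :=
      { toFun := fun n =>
          { carrier := {y | ∃ t, t ∉ x.asIdeal ∧ t • v ^ n • i y = 0}
            zero_mem' := ⟨1, (Ideal.ne_top_iff_one _).1 hq.ne_top, by simp⟩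
            add_mem' := by
              rintro y y' ⟨t, ht, e⟩ ⟨t', ht', e'⟩
              refine ⟨t * t', fun hm => (hq.mem_or_mem hm).elim ht ht', ?_⟩
              rw [map_add, smul_add, smul_add, mul_smul _ _ (v ^ n • i y'), e', mul_comm,
                mul_smul, e, smul_zero, smul_zero, add_zero]
            smul_mem' := by
              rintro c y ⟨t, ht, e⟩
              exact ⟨t, ht, by rw [map_smul, smul_comm (v ^ n), smul_comm t, e, smul_zero]⟩ }
        monotone' := monotone_nat_of_le_succ fun n y ⟨t, ht, e⟩ =>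
          ⟨t, ht, by rw [pow_succ', mul_smul, smul_comm t, e, smul_zero]⟩ }
    obtain ⟨n, hn⟩ := monotone_stabilizes_iff_noetherian.2 inferInstance K
    obtain ⟨s, hs, hs0⟩ := unif (V := LinearMap.ker φ) (q := x.asIdeal) ⊥ fun y => by
      obtain ⟨t, ht, y₁, e⟩ := hsurj n y
      have h1 : y₁ ∈ K (n + 1) := ⟨1, (Ideal.ne_top_iff_one _).1 hq.ne_top, by
        rw [one_smul, pow_succ', mul_smul, ← e, smul_comm, ← hφ, y.2, map_zero, smul_zero]⟩
      rw [← hn _ (Nat.le_succ n)] at h1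
      obtain ⟨t', ht', e'⟩ := h1
      obtain ⟨t'', ht'', e''⟩ := (hi x hx).1 ((t' * t) • (y : V)) (by
        rw [map_smul, mul_smul, e, e'])
      refine ⟨t'' * (t' * t), fun hm => (hq.mem_or_mem hm).elim ht''
        fun hm => (hq.mem_or_mem hm).elim ht' ht, Subtype.ext ?_⟩
      rw [mul_smul]
      exact e''
    exact ⟨s, hs, Module.mem_annihilator.2 hs0⟩
  · obtain ⟨t, ht, h₀⟩ := hco x hx
    refine ⟨t, ht, Module.mem_annihilator.2 fun y' => ?_⟩
    obtain ⟨y', rfl⟩ := Submodule.Quotient.mk_surjective _ y'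
    rw [← Submodule.Quotient.mk_smul, Submodule.Quotient.mk_eq_zero]
    exact h₀ y'

omit [IsLocalRing R] [IsNoetherianRing R] [Module.Finite R V] [Module.Finite R V'] in
theorem exists_quasi_inverse (φ : V →ₗ[R] V') {r : R} (h1 : ∀ y, φ y = 0 → r • y = 0)
    (h2 : ∀ y', r • y' ∈ LinearMap.range φ) : ∃ ψ : V' →ₗ[R] V,
      (∀ y', φ (ψ y') = r ^ 2 • y') ∧ ∀ y, ψ (φ y) = r ^ 2 • y := by
  let ψ : V' →ₗ[R] V := (LinearMap.ker φ).liftQ (r • LinearMap.id) (fun y hy => LinearMap.mem_ker.2 (h1 y hy)) ∘ₗ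
    φ.quotKerEquivRange.symm.toLinearMap ∘ₗ
      LinearMap.codRestrict (LinearMap.range φ) (r • LinearMap.id) h2
  have key : ∀ y' y, φ y = r • y' → ψ y' = r • y := by
    intro y' y e
    have : φ.quotKerEquivRange.symm
        (LinearMap.codRestrict (LinearMap.range φ) (r • LinearMap.id) h2 y') =
        Submodule.Quotient.mk y := by
      rw [LinearEquiv.symm_apply_eq]
      exact Subtype.ext e.symm
    simp only [ψ, LinearMap.comp_apply, LinearEquiv.coe_coe, this]
    rfl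
  refine ⟨ψ, fun y' => ?_, fun y => ?_⟩
  · obtain ⟨y, e⟩ := h2 y'
    rw [key y' y e, map_smul, e, smul_smul, sq]
  · rw [key (φ y) (r • y) (map_smul _ _ _), smul_smul, sq]

/-- Two multiplications that agree at the finitely many bad points have the same index.
Choose `r ∈ m` killing `ker φ` and `coker φ` and outside the primes under `Z`; `ψ = r ^ 2 φ⁻¹`;
`n = r ψ (φ' - φ)` is nilpotent modulo `I` (check it in every prime over `I` of the finite
commutative algebra `R[ψ (φ' - φ)]`, Cayley-Hamilton); apply `ind_unip` with `r ^ 3`. -/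
theorem ind_eq_of_uIso (h : KHyp a p I δ) {i : V →ₗ[R] W} {i' : V' →ₗ[R] W} (hi : UIso I i)
    (hi' : UIso I i') {φ φ' : V →ₗ[R] V'} {v v' : R[X]} (hφ : ∀ y, i' (φ y) = v • i y)
    (hφ' : ∀ y, i' (φ' y) = v' • i y) {Z : Set (PrimeSpectrum R[X])} (hZ : Z.Finite)
    (hW : ∀ x, XPt I x → Module.annihilator R[X] W ≤ x.asIdeal → x ∈ Z)
    (hv : ∀ x ∈ Z, v ∉ x.asIdeal) (hvv : ∀ x ∈ Z, v - v' ∈ x.asIdeal) :
    δ.ind φ = δ.ind φ' := by
  have o1 : δ.IndOK φ := indOK_of_uIso h.mem_iff hi hi' hφ fun x hx ha => hv x (hW x hx ha)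
  have o2 : δ.IndOK φ' := indOK_of_uIso h.mem_iff hi hi' hφ' fun x hx ha hm =>
    hv x (hW x hx ha) (by simpa using x.asIdeal.add_mem (hvv x (hW x hx ha)) hm)
  obtain ⟨r, ⟨⟨hr1, hr2⟩, hr3⟩, hr⟩ : ∃ r ∈ Module.annihilator R (LinearMap.ker φ) ⊓
      Module.annihilator R (V' ⧸ LinearMap.range φ) ⊓ maximalIdeal R,
      ∀ x ∈ Z, XPt I x → C r ∉ x.asIdeal := by
    by_contra hc
    have hsub : ((Module.annihilator R (LinearMap.ker φ) ⊓
        Module.annihilator R (V' ⧸ LinearMap.range φ) ⊓ maximalIdeal R : Ideal R) : Set R) ⊆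
        ⋃ x ∈ {x ∈ Z | XPt I x}, (x.asIdeal.comap C : Ideal R) := fun r hr => by
      by_contra hn
      refine hc ⟨r, hr, fun x hx hx' hm => hn ?_⟩
      exact Set.mem_biUnion (show x ∈ {x ∈ Z | XPt I x} from ⟨hx, hx'⟩) hm
    obtain ⟨x₀, -⟩ := Set.mem_iUnion.1 (hsub (zero_mem _))
    obtain ⟨x, hx, hle⟩ := (Ideal.subset_union_prime_finite (hZ.subset fun x hx => hx.1) x₀ x₀
      fun x _ _ _ => Ideal.comap_isPrime C x.asIdeal).1 hsub
    have hU : UPt I (PrimeSpectrum.comap C x) := ⟨Ideal.map_le_iff_le_comap.1 hx.2.1, hx.2.2⟩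
    obtain ⟨t₁, ht₁, a₁⟩ := inA_iff_local.1 ((h.mem_iff _).1 o1.1) _ hU
    obtain ⟨t₂, ht₂, a₂⟩ := inA_iff_local.1 ((h.mem_iff _).1 o1.2) _ hU
    have hq := (PrimeSpectrum.comap C x).isPrime
    obtain ⟨t₃, m₃, ht₃⟩ := SetLike.exists_of_lt
      (lt_of_le_of_ne (le_maximalIdeal hq.ne_top) hU.2)
    have := hle (show t₁ * t₂ * t₃ ∈ _ from
      ⟨⟨Ideal.mul_mem_right _ _ (Ideal.mul_mem_right _ _ a₁),
        Ideal.mul_mem_right _ _ (Ideal.mul_mem_left _ _ a₂)⟩, Ideal.mul_mem_left _ _ m₃⟩)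
    exact (hq.mem_or_mem this).elim (fun hm => (hq.mem_or_mem hm).elim ht₁ ht₂) ht₃
  obtain ⟨ψ, hψ1, hψ2⟩ := exists_quasi_inverse φ (r := r)
    (fun y hy => congrArg Subtype.val (Module.mem_annihilator.1 hr1 ⟨y, hy⟩)) fun y' => by
      rw [← Submodule.Quotient.mk_eq_zero, Submodule.Quotient.mk_smul]
      exact Module.mem_annihilator.1 hr2 _
  set N : Module.End R V := ψ ∘ₗ (φ' - φ) with hN
  have hrel : ∀ (k : ℕ) (y : V),
      v ^ k • i ((N ^ k) y) = (C (r ^ 2) * (v' - v)) ^ k • i y := by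
    intro k y
    induction k with
    | zero => simp
    | succ k ih =>
      rw [pow_succ' N, Module.End.mul_apply, pow_succ v, mul_smul, ← hφ, hN, LinearMap.comp_apply,
        hψ1, map_smul, LinearMap.sub_apply, map_sub, hφ, hφ', ← sub_smul, ← hN,
        ← algebraMap_smul R[X] (r ^ 2), algebraMap_eq, smul_smul (C _), smul_comm (v ^ k), ih,
        smul_smul, ← pow_succ']
  have hnil : ∀ x, UPt I x → ∃ (t : R) (k : ℕ), t ∉ x.asIdeal ∧
      ∀ y, t • (N ^ k) y ∈ (x.asIdeal • ⊤ : Submodule R V) := by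
    intro x hx
    have hq := x.isPrime
    obtain ⟨s, k, hs, a₁, ha₁, g₁, hg₁, e₁⟩ := exists_C_mul_pow (q := x.asIdeal)
      (Module.annihilator R[X] W) (v' - v) fun y hy hle hc => by
        simpa using y.neg_mem (hvv ⟨y, hy⟩ (hW _ (hx.xPt hy hc) hle))
    obtain ⟨s', k', hs', a, ha, g₂, hg₂, e₂⟩ := exists_C_mul_pow (q := x.asIdeal)
      (Module.annihilator R[X] W ⊔ Ideal.span {v ^ k}) 1 fun y hy hle hc =>
        absurd (hy.mem_of_pow_mem k (hle (Ideal.mem_sup_right (Ideal.mem_span_singleton_self _))))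
          (hv ⟨y, hy⟩ (hW _ (hx.xPt hy hc) (le_sup_left.trans hle)))
    obtain ⟨a₂, ha₂, b', hb', rfl⟩ := Submodule.mem_sup.1 ha
    obtain ⟨b, rfl⟩ := Ideal.mem_span_singleton'.1 hb'
    rw [one_pow, mul_one] at e₂
    obtain ⟨t, ht, htN⟩ := unif (q := x.asIdeal) ((x.asIdeal • ⊤ : Submodule R V).comap (N ^ k))
      fun y => by
        have hmem : (s * s') • i ((N ^ k) y) ∈ (x.asIdeal • ⊤ : Submodule R W) := by
          have e₃ : (s * s') • i ((N ^ k) y) =
              (b * C (r ^ 2) ^ k * g₁) • i y + (C s * g₂) • i ((N ^ k) y) := by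
            rw [← algebraMap_smul R[X] (s * s'), algebraMap_eq, map_mul, mul_smul, e₂, add_smul,
              add_smul, Module.mem_annihilator.1 ha₂, zero_add, mul_smul b, hrel, smul_add,
              smul_smul, smul_smul, smul_smul]
            congr 1
            have : C s * b * (C (r ^ 2) * (v' - v)) ^ k =
                b * C (r ^ 2) ^ k * g₁ + (b * C (r ^ 2) ^ k) * a₁ := by
              rw [mul_pow]
              linear_combination (b * C (r ^ 2) ^ k) * e₁
            rw [this, add_smul, mul_smul _ a₁, Module.mem_annihilator.1 ha₁, smul_zero, add_zero]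
          rw [e₃]
          exact add_mem (smul_mem_of_map_C (Ideal.mul_mem_left _ _ hg₁) _)
            (smul_mem_of_map_C (Ideal.mul_mem_left _ _ hg₂) _)
        obtain ⟨t₁, ht₁, z, hz, e₄⟩ := pull (hi x hx).2 hmem
        obtain ⟨t₂, ht₂, e₅⟩ := (hi x hx).1 ((t₁ * (s * s')) • (N ^ k) y - z) (by
          rw [map_sub, map_smul, mul_smul, e₄, sub_self])
        refine ⟨t₂ * (t₁ * (s * s')), fun hm => (hq.mem_or_mem hm).elim ht₂ fun hm =>
          (hq.mem_or_mem hm).elim ht₁ fun hm => (hq.mem_or_mem hm).elim hs hs', ?_⟩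
        rw [smul_sub, sub_eq_zero] at e₅
        rw [Submodule.mem_comap, map_smul, mul_smul, e₅]
        exact Submodule.smul_mem _ _ hz
    exact ⟨t, k, ht, fun y => by simpa using htN y⟩
  obtain ⟨k, hk⟩ : C r * X ∈ (rangeIdeal I N).radical := by
    rw [Ideal.radical_eq_sInf, Ideal.mem_sInf]
    rintro x ⟨hle, hx⟩
    by_cases hm : x.comap C = maximalIdeal R
    · exact x.mul_mem_right _ (show r ∈ x.comap C from hm ▸ hr3)
    have hI : I ≤ x.comap C := fun a ha => hle fun y => by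
      rw [aeval_C, Module.algebraMap_end_apply]
      exact Submodule.smul_mem_smul ha trivial
    obtain ⟨t, k, ht, hk⟩ := hnil ⟨x.comap C, Ideal.comap_isPrime C x⟩ ⟨hI, hm⟩
    obtain ⟨n, g, hg, e⟩ := ch (aeval N (C t * X ^ k)) (x.comap C) (by
      rintro _ ⟨y, rfl⟩
      simpa using hk y)
    have h1 : (C t * X ^ k) ^ n - g.comp (C t * X ^ k) ∈ x := hle fun y => by
      rw [map_sub, map_pow, aeval_comp, ← e, sub_self]
      exact zero_mem _
    have h2 : g.comp (C t * X ^ k) ∈ x := by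
      rw [comp_eq_sum_left, Polynomial.sum]
      exact x.sum_mem fun j _ => x.mul_mem_right _ (Ideal.mem_map_C_iff.1 hg j)
    have h3 : C t * X ^ k ∈ x := hx.mem_of_pow_mem n (by simpa using x.add_mem h1 h2)
    exact x.mul_mem_left _ (hx.mem_of_pow_mem k ((hx.mem_or_mem h3).resolve_left ht))
  have e0 : aeval N (C r * X) = r • N := by simp [Algebra.algebraMap_eq_smul_one]
  obtain ⟨n, g, hg, e⟩ := ch ((r • N) ^ k) I (by
    rintro _ ⟨y, rfl⟩
    have := hk y
    rwa [map_pow, e0] at this)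
  have hn : (r • N) ^ (k * n) ∈ (I • ⊤ : Submodule R (V →ₗ[R] V)) := by
    rw [pow_mul, e]
    exact map_C_le_endIdeal I _ hg
  have c1 : (r • ψ) ∘ₗ φ = r ^ 3 • LinearMap.id := by
    ext y
    simp [hψ2, smul_smul, pow_succ']
  have c2 : (r • ψ) ∘ₗ φ' = r ^ 3 • LinearMap.id + r • N := by
    ext y
    simp [hN, hψ2, smul_smul, pow_succ', smul_sub]
  have o3 : δ.IndOK (r ^ 3 • (LinearMap.id : V →ₗ[R] V)) :=
    indOK_of_uIso h.mem_iff hi hi (v := C (r ^ 3))
      (fun y => by rw [← algebraMap_eq, algebraMap_smul]; simp) fun x hx ha hm =>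
        hr x (hW x hx ha) hx (x.isPrime.mem_of_pow_mem 3 (by rwa [← map_pow]))
  have o4 : δ.IndOK (r • ψ) := AddFun.IndOK.of_comp_right (c1 ▸ o3) o1
  have k1 := AddFun.ind_comp o1 o4
  have k2 := AddFun.ind_comp o2 o4
  rw [c1] at k1
  rw [c2] at k2
  have k3 := ind_unip h (r ^ 3) (r • N) hn o3 k2.1
  linarith [k1.2, k2.2]

end Vale.Agent.P177
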