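import Vale.Agent.P177.Gen

/-! P177 module LocAux: Cayley-Hamilton, Nakayama and saturation lemmas. -/

namespace Vale.Agent.P177.LocA

open IsLocalRing Polynomial

universe u

variable {R : Type u} [CommRing R] {V : Type u} [AddCommGroup V] [Module R V]

theorem ch [Module.Finite R V] (φ : Module.End R V) (J : Ideal R)
    (h : LinearMap.range φ ≤ J • ⊤) :
    ∃ (n : ℕ) (g : R[X]), g ∈ J.map (C : R →+* R[X]) ∧ φ ^ n = aeval φ g := by
  obtain ⟨q, hq, -, hc, h0⟩ :=
    LinearMap.exists_monic_and_natDegree_eq_and_coeff_mem_pow_and_aeval_eq_zero R φ J h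
  refine ⟨q.natDegree, X ^ q.natDegree - q, Ideal.mem_map_C_iff.2 fun k => ?_, by simp [h0]⟩
  rw [coeff_sub, coeff_X_pow]
  rcases lt_trichotomy k q.natDegree with hk | hk | hk
  · rw [if_neg hk.ne, zero_sub]
    exact J.neg_mem (Ideal.pow_le_self (by omega) (hc k))
  · rw [if_pos hk, hk, hq.coeff_natDegree, sub_self]
    exact J.zero_mem
  · rw [if_neg hk.ne', coeff_eq_zero_of_natDegree_lt hk, sub_self]
    exact J.zero_mem

theorem eval_mem {J : Ideal R} {g : R[X]} (hg : g ∈ J.map (C : R →+* R[X])) (t : R) :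
    g.eval t ∈ J := by
  rw [eval_eq_sum_range]
  exact J.sum_mem fun i _ => J.mul_mem_right _ (Ideal.mem_map_C_iff.1 hg i)

theorem nak [Module.Finite R V] {q : Ideal R} [hq : q.IsPrime] {t : R} (ht : t ∉ q)
    (h : ∀ v : V, t • v ∈ (q • ⊤ : Submodule R V)) :
    ∃ t', t' ∉ q ∧ t' ∈ Module.annihilator R V := by
  obtain ⟨n, g, hg, he⟩ := ch (algebraMap R (Module.End R V) t) q (by
    rintro _ ⟨v, rfl⟩
    exact h v)
  refine ⟨t ^ n - g.eval t, fun hm => ht (hq.mem_of_pow_mem n ?_), Module.mem_annihilator.2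
    fun v => ?_⟩
  · simpa using q.add_mem hm (eval_mem hg t)
  · rw [aeval_algebraMap_apply, ← map_pow] at he
    have := LinearMap.congr_fun he v
    simp only [Module.algebraMap_end_apply, coe_aeval_eq_eval] at this
    rw [sub_smul, this, sub_self]

theorem unif [Module.Finite R V] {q : Ideal R} [hq : q.IsPrime] (N : Submodule R V)
    (h : ∀ v : V, ∃ t, t ∉ q ∧ t • v ∈ N) : ∃ t, t ∉ q ∧ ∀ v : V, t • v ∈ N := by
  obtain ⟨s, hs⟩ := Module.Finite.fg_top (R := R) (M := V)
  choose t ht htN using h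
  refine ⟨∏ v ∈ s, t v, fun hm => ?_, fun v => ?_⟩
  · obtain ⟨v, -, hv⟩ := hq.prod_mem_iff.1 hm
    exact ht v hv
  · have : Submodule.span R (s : Set V) ≤ N.comap ((∏ v ∈ s, t v) • LinearMap.id) := by
      classical
      refine Submodule.span_le.2 fun v hv => ?_
      change (∏ v ∈ s, t v) • v ∈ N
      rw [← Finset.prod_erase_mul _ _ hv, mul_smul]
      exact N.smul_mem _ (htN v)
    exact this (hs ▸ Submodule.mem_top)

theorem exists_C_mul_pow {q : Ideal R} [hq : q.IsPrime] (𝔞 : Ideal R[X]) (u : R[X])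
    (h : ∀ x : Ideal R[X], x.IsPrime → 𝔞 ≤ x → x.comap C = q → u ∈ x) :
    ∃ (t : R) (k : ℕ), t ∉ q ∧ ∃ a ∈ 𝔞, ∃ g ∈ q.map (C : R →+* R[X]), C t * u ^ k = a + g := by
  by_contra hc
  let S : Submonoid R[X] :=
    { carrier := {f | ∃ (t : R) (k : ℕ), t ∉ q ∧ f = C t * u ^ k}
      one_mem' := ⟨1, 0, (Ideal.ne_top_iff_one q).1 hq.ne_top, by simp⟩
      mul_mem' := by
        rintro _ _ ⟨t, k, ht, rfl⟩ ⟨t', k', ht', rfl⟩
        exact ⟨t * t', k + k', fun hm => (hq.mem_or_mem hm).elim ht ht', by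
          rw [map_mul, pow_add]; ring⟩ }
  obtain ⟨x, hx, hle, hd⟩ := Ideal.exists_le_prime_disjoint (𝔞 ⊔ q.map (C : R →+* R[X])) S (by
    rw [Set.disjoint_left]
    rintro f hf ⟨t, k, ht, rfl⟩
    obtain ⟨a, ha, g, hg, he⟩ := Submodule.mem_sup.1 hf
    exact hc ⟨t, k, ht, a, ha, g, hg, he.symm⟩)
  rw [Set.disjoint_left] at hd
  have hcomap : x.comap C = q := by
    refine le_antisymm (fun t ht => ?_) (Ideal.map_le_iff_le_comap.1 (le_sup_right.trans hle))
    by_contra hn
    exact hd ht ⟨t, 0, hn, by simp⟩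
  exact hd (h x hx (le_sup_left.trans hle) hcomap)
    ⟨1, 1, (Ideal.ne_top_iff_one q).1 hq.ne_top, by simp⟩

variable {W : Type u} [AddCommGroup W] [Module R W]

theorem smul_mem_of_map_C [Module R[X] W] [IsScalarTower R R[X] W] {q : Ideal R} {g : R[X]}
    (hg : g ∈ q.map (C : R →+* R[X])) (w : W) : g • w ∈ (q • ⊤ : Submodule R W) := by
  induction hg using Submodule.span_induction generalizing w with
  | mem x hx =>
    obtain ⟨r, hr, rfl⟩ := hx
    rw [← algebraMap_eq, algebraMap_smul]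
    exact Submodule.smul_mem_smul hr trivial
  | zero => simp
  | add x y _ _ hx hy => rw [add_smul]; exact add_mem (hx w) (hy w)
  | smul a x _ hx => rw [smul_eq_mul, mul_comm, mul_smul]; exact hx _

theorem pull {q : Ideal R} [hq : q.IsPrime] {i : V →ₗ[R] W}
    (hi : ∀ w, ∃ t, t ∉ q ∧ t • w ∈ LinearMap.range i) {w : W}
    (hw : w ∈ (q • ⊤ : Submodule R W)) :
    ∃ t, t ∉ q ∧ ∃ v ∈ (q • ⊤ : Submodule R V), t • w = i v := by
  refine Submodule.smul_induction_on hw (fun r hr w _ => ?_) ?_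
  · obtain ⟨t, ht, v, hv⟩ := hi w
    exact ⟨t, ht, r • v, Submodule.smul_mem_smul hr trivial, by rw [map_smul, hv, smul_comm]⟩
  · rintro x y ⟨t, ht, v, hv, e⟩ ⟨t', ht', v', hv', e'⟩
    refine ⟨t * t', fun hm => (hq.mem_or_mem hm).elim ht ht', t' • v + t • v',
      add_mem (Submodule.smul_mem _ _ hv) (Submodule.smul_mem _ _ hv'), ?_⟩
    rw [map_add, map_smul, map_smul, ← e, ← e', smul_add, smul_smul, smul_smul, mul_comm t' t]

theorem pow_dvd_choose {p : ℕ} (hp : p.Prime) {k N i : ℕ} (hi : i ≠ 0) (hik : i < k) :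
    p ^ N ∣ (p ^ (k + N)).choose i := by
  have h1 : k + N < p ^ (k + N) := Nat.lt_pow_self hp.one_lt
  have h2 := hp.emultiplicity_choose_prime_pow_add_emultiplicity (n := k + N) (k := i)
    (by omega) hi
  have h3 : emultiplicity p i < k := by
    rw [emultiplicity_lt_iff_not_dvd]
    intro hd
    have := Nat.le_of_dvd (Nat.pos_of_ne_zero hi) hd
    have h4 : k < p ^ k := Nat.lt_pow_self hp.one_lt
    omega
  rw [pow_dvd_iff_le_emultiplicity]
  by_contra hc
  rw [not_le] at hc
  have h5 := ENat.add_lt_add hc h3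
  rw [h2] at h5
  have h6 : k + N < N + k := by exact_mod_cast h5
  omega

theorem binom_unip {B : Type*} [CommRing B] {p : ℕ} (hp : p.Prime) {r n c : B} {k N : ℕ}
    (hn : n ^ k = 0) (hN : (p : B) ^ N = c * r ^ k) :
    ∃ (q : ℕ) (t : B), 0 < q ∧ (r + n) ^ q = r ^ q * (1 + p * t) := by
  set q := p ^ (k + (N + 1)) with hq
  have hkq : k + (N + 1) < q := Nat.lt_pow_self hp.one_lt
  have : (r + n) ^ q - r ^ q ∈ Ideal.span {r ^ q * p} := by
    rw [add_comm r n, add_pow, Finset.sum_range_succ']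
    simp only [pow_zero, one_mul, Nat.sub_zero, Nat.choose_zero_right, Nat.cast_one, mul_one,
      add_sub_cancel_right]
    refine Ideal.sum_mem _ fun i _ => ?_
    by_cases hi : i + 1 < k
    · obtain ⟨e, he⟩ := pow_dvd_choose hp (N := N + 1) (Nat.succ_ne_zero i) hi
      rw [← hq] at he
      refine Ideal.mem_span_singleton'.2 ⟨n ^ (i + 1) * r ^ (k - (i + 1)) * c * e, ?_⟩
      have e1 : r ^ (q - (i + 1)) * r ^ k = r ^ (k - (i + 1)) * r ^ q := by
        rw [← pow_add, ← pow_add]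
        congr 1
        omega
      rw [he, Nat.cast_mul, Nat.cast_pow, pow_succ (p : B), hN]
      linear_combination (n ^ (i + 1) * c * e * p) * e1.symm
    · rw [pow_eq_zero_of_le (not_lt.1 hi) hn, zero_mul, zero_mul]
      exact Ideal.zero_mem _
  obtain ⟨t, ht⟩ := Ideal.mem_span_singleton'.1 this
  exact ⟨q, t, by omega, by linear_combination -ht⟩

/-- Polynomials whose value at `n` lies in `I • End V`. -/
noncomputable def endIdeal (I : Ideal R) (n : Module.End R V) : Ideal R[X] where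
  carrier := {f | aeval n f ∈ (I • ⊤ : Submodule R (V →ₗ[R] V))}
  add_mem' ha hb := by
    simp only [Set.mem_ofPred_eq, map_add] at *
    exact add_mem ha hb
  zero_mem' := by simp
  smul_mem' c f hf := by
    simp only [Set.mem_ofPred_eq, smul_eq_mul, map_mul] at *
    refine Submodule.smul_induction_on hf (fun r hr y _ => ?_) fun x y hx hy => ?_
    · rw [mul_smul_comm]
      exact Submodule.smul_mem_smul hr trivial
    · rw [mul_add]
      exact add_mem hx hy

theorem map_C_le_endIdeal (I : Ideal R) (n : Module.End R V) :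
    I.map (C : R →+* R[X]) ≤ endIdeal I n :=
  Ideal.map_le_iff_le_comap.2 fun r hr => by
    change aeval n (C r) ∈ (I • ⊤ : Submodule R (V →ₗ[R] V))
    rw [aeval_C, Algebra.algebraMap_eq_smul_one]
    exact Submodule.smul_mem_smul hr trivial

/-- Polynomials whose value at `n` maps `V` into `I V`. -/
noncomputable def rangeIdeal (I : Ideal R) (n : Module.End R V) : Ideal R[X] where
  carrier := {f | ∀ v, aeval n f v ∈ (I • ⊤ : Submodule R V)}
  add_mem' ha hb v := by
    rw [map_add]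
    exact add_mem (ha v) (hb v)
  zero_mem' v := by simp
  smul_mem' c f hf v := by
    rw [smul_eq_mul, mul_comm, map_mul]
    exact hf _

end Vale.Agent.P177.LocA
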