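import Vale.Agent.P177.MuPos
import Vale.Agent.P177.Bridge

/-! P177 module Main: assembly. -/

namespace Vale.Agent.P177

open Vale.Agent.P202 IsLocalRing TensorProduct MP

universe u

section Aux
variable {R : Type u} [CommRing R] [IsLocalRing R] [IsNoetherianRing R]

theorem dim_quot_bot : ringKrullDim (R ⧸ (⊥ : Ideal R)) = ringKrullDim R :=
  ringKrullDim_eq_of_ringEquiv (RingEquiv.quotientBot R)

theorem dim_le_pred {P P' : Ideal R} [P.IsPrime] (h : P < P') {a : ℕ}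
    (hP : ringKrullDim (R ⧸ P) = (a + 1 : ℕ)) : ringKrullDim (R ⧸ P') ≤ a := by
  have h1 := afDim_succ_le h
  rw [hP] at h1
  by_contra hc
  rw [not_le] at hc
  have h2 : ((a : ℕ) : WithBot ℕ∞) + 1 ≤ ringKrullDim (R ⧸ P') := ENat.WithBot.add_one_le_iff.2 hc
  have h3 : ((a : ℕ) : WithBot ℕ∞) + 1 + 1 ≤ ((a + 1 : ℕ) : WithBot ℕ∞) :=
    (add_le_add_left h2 1).trans h1
  have h4 : ((a + 1 + 1 : ℕ) : WithBot ℕ∞) ≤ ((a + 1 : ℕ) : WithBot ℕ∞) := by
    simpa using h3
  have h5 : a + 1 + 1 ≤ a + 1 := by exact_mod_cast h4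
  omega

theorem ann_quot (J : Ideal R) : Module.annihilator R (R ⧸ J) = J := Ideal.annihilator_quotient

theorem colon_le_of_notMem {I P : Ideal R} [hP : P.IsPrime] (h : I ≤ P) {z : R} (hz : z ∉ P) :
    I.colon {z} ≤ P := fun r hr => by
  have : r * z ∈ I := by simpa using Submodule.mem_colon_singleton.1 hr
  exact (hP.mem_or_mem (h this)).resolve_right hz

theorem colon_mul_ge (I : Ideal R) (r z : R) : I.colon {z} ≤ I.colon {r * z} := fun t ht => by
  rw [Submodule.mem_colon_singleton] at ht ⊢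
  have : t • (r * z) = r * (t • z) := by simp only [smul_eq_mul]; ring
  rw [this]
  exact I.mul_mem_left r ht

theorem le_colon' (I : Ideal R) (z : R) : I ≤ I.colon {z} := fun t ht => by
  rw [Submodule.mem_colon_singleton]
  exact I.mul_mem_right z ht

theorem pow_le_sup_of_pow_le {I Q K : Ideal R} {k : ℕ} (hk : Q ^ k ≤ K)
    (h : ∃ N : ℕ, maximalIdeal R ^ N ≤ I ⊔ Q) : ∃ N : ℕ, maximalIdeal R ^ N ≤ I ⊔ K := by
  obtain ⟨N, hN⟩ := h
  refine ⟨N * (1 + k), ?_⟩
  rw [pow_mul]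
  refine (Ideal.pow_right_mono hN _).trans (Ideal.sup_pow_add_le_pow_sup_pow.trans ?_)
  rw [pow_one]
  exact sup_le_sup_left hk _

/-- Passing from a primary quotient to the prime. -/
theorem chi_eq_mul {d : ℕ} (hR : HasRes R d) {X : Type u} [AddCommGroup X] [Module R X]
    [Module.Finite R X] {I Q K : Ideal R} [Q.IsPrime] (hI : I ≤ Module.annihilator R X)
    (hQ : ∃ N : ℕ, maximalIdeal R ^ N ≤ I ⊔ Q)
    (hv : ∀ Q' : Ideal R, Q'.IsPrime → Q < Q' → chi R X (R ⧸ Q') = 0) {k : ℕ} (hk : Q ^ k ≤ K)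
    (hK : K ≤ Q) : ∃ n : ℕ, 0 < n ∧ chi R X (R ⧸ K) = n * chi R X (R ⧸ Q) := by
  obtain ⟨δ, hm, hval, -⟩ := exists_chiFun hR hI
  have h1 : InA I (R ⧸ Q) := inA_quot_iff.2 hQ
  have h2 : InA I (R ⧸ K) := inA_quot_iff.2 (pow_le_sup_of_pow_le hk hQ)
  obtain ⟨n, hn, he⟩ := exists_val_eq_mul (δ := δ) Q ((hm _).2 h1) (fun Q' hQ' hlt => by
    obtain ⟨N, hN⟩ := hQ
    rw [hval _ (inA_quot_iff.2 ⟨N, hN.trans (sup_le_sup_left hlt.le _)⟩)]
    exact hv Q' hQ' hlt) hk hK
  exact ⟨n, hn, by rw [← hval _ h2, he, hval _ h1]⟩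
end Aux

section
variable {p d : ℕ} [Fact p.Prime] {W : Type u} [CommRing W] [IsDomain W]
  [IsDiscreteValuationRing W] {R : Type u} [CommRing R] [IsLocalRing R] [IsNoetherianRing R]

theorem MixModel.dim (M : MixModel p d W R) : ringKrullDim R = d := by
  simpa using dim_eq_of_reg M.reg M.span_x

theorem MixModel.hasRes (M : MixModel p d W R) : HasRes R d := by
  simpa using hasRes_of_reg M.reg M.span_x

theorem MixModel.vanish (M : MixModel p d W R) {P Q : Ideal R} (hP' : P ≠ ⊤) {a b : ℕ}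
    (h : ∃ N : ℕ, maximalIdeal R ^ N ≤ P ⊔ Q) (hP : ringKrullDim (R ⧸ P) ≤ a)
    (hQ : ringKrullDim (R ⧸ Q) ≤ b) (hab : a + b < d) : chi R (R ⧸ P) (R ⧸ Q) = 0 := by
  have := M.isDomain
  have := M.complete
  have := M.isAlgClosed
  exact chi_vanish M.reg M.span_x Fact.out M.p_mem hP' (meets_quot_iff.2 h) hP hQ (by simpa)

theorem MixModel.x_mem (M : MixModel p d W R) : ∀ r ∈ List.ofFn M.x, r ∈ maximalIdeal R :=
  fun _ hr => M.span_x ▸ Ideal.subset_span hr

/-- The choice of the complete intersection. -/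
theorem MixModel.exists_setup (M : MixModel p d W R) {P Q : Ideal R} [hPp : P.IsPrime]
    {a b : ℕ} (h : ∃ N : ℕ, maximalIdeal R ^ N ≤ P ⊔ Q)
    (hP : ringKrullDim (R ⧸ P) = (a + 1 : ℕ)) (hQ : ringKrullDim (R ⧸ Q) = b)
    (hab : a + 1 + b = d) (hp : (p : R) ∉ P) :
    ∃ S : Setup p d a b R, S.x = M.x ∧ S.I ≤ P ∧ S.z ∉ P ∧ (∃ k, P ^ k ≤ S.I.colon {S.z}) ∧
      ∃ N : ℕ, maximalIdeal R ^ N ≤ S.I ⊔ Q := by
  have := M.isDomain
  have hPm : P ≤ maximalIdeal R := le_maximalIdeal hPp.ne_top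
  have hd0 : ringKrullDim (R ⧸ (⊥ : Ideal R)) ≤ (a + b + 1 : ℕ) := by
    rw [dim_quot_bot, M.dim, ← hab]
    exact le_of_eq (by congr 1; omega)
  obtain ⟨h', hh, hdim⟩ := exists_sop_in (N := Fin 3) P ![Q, ⊥, Ideal.span {(p : R)}]
    ![0, a + 1, a] b
    (by
      intro ν
      fin_cases ν
      · exact hQ.le.trans (le_of_eq (congrArg _ (zero_add b).symm))
      · refine hd0.trans (le_of_eq ?_)
        congr 1
        change a + b + 1 = a + 1 + b
        omega
      · have := dim_sup_le_of_regular hd0 (c := (p : R)) (fun r hr => by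
          rw [Ideal.mem_bot] at hr ⊢
          exact (mul_eq_zero.1 hr).resolve_left M.ne)
        rwa [bot_sup_eq] at this)
    (by
      intro ν
      fin_cases ν
      · exact dim_le_zero_iff.2 (by rw [sup_comm] at h; exact h)
      · change ringKrullDim (R ⧸ (⊥ ⊔ P)) ≤ _
        rw [bot_sup_eq]
        exact hP.le
      · change ringKrullDim (R ⧸ (Ideal.span {(p : R)} ⊔ P)) ≤ _
        rw [sup_comm]
        exact dim_sup_le_of_regular hP.le fun r hr => (hPp.mem_or_mem hr).resolve_left hp)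
  set I := Ideal.span (Set.range h') with hI
  have hIP : I ≤ P := Ideal.span_le.2 (Set.range_subset_iff.2 hh)
  have d0 : ∃ N : ℕ, maximalIdeal R ^ N ≤ I ⊔ Q := by
    rw [sup_comm]
    exact dim_le_zero_iff.1 (hdim 0)
  have d1 : ringKrullDim (R ⧸ I) ≤ (a + 1 : ℕ) := by
    have := hdim 1
    change ringKrullDim (R ⧸ (⊥ ⊔ I)) ≤ _ at this
    rwa [bot_sup_eq] at this
  have d2 : ringKrullDim (R ⧸ (I ⊔ Ideal.span {(p : R)})) ≤ a := by
    have := hdim 2
    change ringKrullDim (R ⧸ (Ideal.span {(p : R)} ⊔ I)) ≤ _ at this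
    rwa [sup_comm] at this
  obtain ⟨s₀, hl, hs₀m, -, hs₀⟩ := exists_reg_extend M.reg M.x_mem (h := List.ofFn h')
    (fun r hr => by
      obtain ⟨j, rfl⟩ := List.mem_ofFn.1 hr
      exact hPm (hh j)) (a := a + 1) (by simp only [List.length_ofFn]; omega)
    (by rwa [ofList_ofFn])
  rw [ofList_ofFn, ← hI] at hs₀
  obtain ⟨z₀, w₀, hzw, hz, hc, k, hk⟩ := exists_split_elt hIP hs₀ hs₀m (by rwa [hl]) (by rwa [hl])
  have hpr : ∀ r, (p : R) * r ∈ I → r ∈ I := regular_of_dim_lt hs₀ hs₀m (d2.trans_lt (by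
    rw [hl]
    exact_mod_cast Nat.lt_succ_self a))
  have hcr : ∀ r, ((p : R) * z₀ + p * w₀) * r ∈ I → r ∈ I := fun r hr =>
    hc r (hpr _ (by rwa [← mul_add, mul_assoc] at hr))
  obtain ⟨s, hs, hsd⟩ := exists_sop_in (N := Fin 2) (maximalIdeal R)
    ![I ⊔ Ideal.span {(p : R)}, I ⊔ Ideal.span {(p : R) * z₀ + p * w₀}] (fun _ => 0) a
    (by
      intro ν
      fin_cases ν
      · exact d2.trans (le_of_eq (congrArg _ (zero_add a).symm))
      · exact (dim_sup_le_of_regular d1 hcr).trans (le_of_eq (congrArg _ (zero_add a).symm)))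
    (fun ν => dim_le_zero_iff.2 ⟨1, by rw [pow_one]; exact le_sup_right⟩)
  refine ⟨{ x := M.x, reg := M.reg, span_x := M.span_x, h := h', s := s, z := p * z₀,
            w := p * w₀, dim := hab, pm := M.p_mem, hm := fun j => hPm (hh j), sm := hs,
            zm := Ideal.mul_mem_right _ _ M.p_mem, wm := Ideal.mul_mem_right _ _ M.p_mem,
            zw := ?_, sop_p := dim_le_zero_iff.1 (hsd 0), sop_c := dim_le_zero_iff.1 (hsd 1) },
    rfl, hIP, fun hm => (hPp.mem_or_mem hm).elim hp hz, ⟨k, hk.trans (colon_mul_ge _ _ _)⟩, d0⟩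
  have : (p : R) * z₀ * (p * w₀) = (p * p) * (z₀ * w₀) := by ring
  rw [this]
  exact I.mul_mem_left _ hzw

/-- The main case with both dimensions positive. -/
theorem MixModel.chi_pos_succ (M : MixModel p d W R) {P Q : Ideal R} [hPp : P.IsPrime]
    [hQp : Q.IsPrime] {a b : ℕ} (h : ∃ N : ℕ, maximalIdeal R ^ N ≤ P ⊔ Q)
    (hP : ringKrullDim (R ⧸ P) = (a + 1 : ℕ)) (hQ : ringKrullDim (R ⧸ Q) = (b + 1 : ℕ))
    (hab : a + 1 + (b + 1) = d) (hp : (p : R) ∉ P) : 0 < chi R (R ⧸ P) (R ⧸ Q) := by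
  have := M.isDomain
  have := M.complete
  have := M.isAlgClosed
  have hQm : Q ≤ maximalIdeal R := le_maximalIdeal hQp.ne_top
  obtain ⟨S, hx, hIP, hz, ⟨k, hk⟩, hIQ⟩ := M.exists_setup h hP hQ hab hp
  obtain ⟨N₀, hN₀, hL⟩ := exists_level M S hx
  let L : ∀ k, Level S N₀ k := fun k => (hL k).some
  obtain ⟨μ⟩ := nonempty_mu L
  have hKP : S.I.colon {S.z} ≤ P := colon_le_of_notMem hIP hz
  have hl0 := lambda_pos μ (hP ▸ afDim_le hKP)
  obtain ⟨c, hc, hcd⟩ := exists_sop_in (N := Fin 2) Q ![S.I, ⊥] ![0, b + 1] (a + 1)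
    (by
      intro ν
      fin_cases ν
      · exact S.ciData.dim.trans (le_of_eq (congrArg _ (zero_add (a + 1)).symm))
      · change ringKrullDim (R ⧸ (⊥ : Ideal R)) ≤ ((b + 1 + (a + 1) : ℕ) : WithBot ℕ∞)
        rw [dim_quot_bot, M.dim, ← hab]
        exact le_of_eq (by congr 1; omega))
    (by
      intro ν
      fin_cases ν
      · exact dim_le_zero_iff.2 hIQ
      · change ringKrullDim (R ⧸ (⊥ ⊔ Q)) ≤ _
        rw [bot_sup_eq]
        exact hQ.le)
  have hcm : ∀ r ∈ List.ofFn c, r ∈ maximalIdeal R := fun r hr => by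
    obtain ⟨j, rfl⟩ := List.mem_ofFn.1 hr
    exact hQm (hc j)
  have hcQ : Ideal.ofList (List.ofFn c) ≤ Q := by
    rw [ofList_ofFn]
    exact Ideal.span_le.2 (Set.range_subset_iff.2 hc)
  have e0 : ∃ N : ℕ, maximalIdeal R ^ N ≤ S.I ⊔ Ideal.ofList (List.ofFn c) := by
    rw [ofList_ofFn]
    exact dim_le_zero_iff.1 (hcd 0)
  have e1 : ringKrullDim (R ⧸ Ideal.ofList (List.ofFn c)) ≤ (b + 1 : ℕ) := by
    have := hcd 1
    change ringKrullDim (R ⧸ (⊥ ⊔ Ideal.span (Set.range c))) ≤ _ at this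
    rwa [bot_sup_eq, ← ofList_ofFn] at this
  obtain ⟨s₁, hl, hs₁m, -, hs₁⟩ := exists_reg_extend M.reg M.x_mem hcm (a := b + 1)
    (by simp only [List.length_ofFn]; omega) e1
  obtain ⟨z₁, w₁, hzw, hz₁, hc₁, k', hk'⟩ :=
    exists_split_elt hcQ hs₁ hs₁m (by rwa [hl]) (by rwa [hl])
  obtain ⟨r, s₂, rfl⟩ : ∃ r s₂, s₁ = r :: s₂ := by
    cases s₁ with
    | nil => simp at hl
    | cons r s₂ => exact ⟨r, s₂, rfl⟩
  have hrm : r ∈ maximalIdeal R := hs₁m r List.mem_cons_self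
  have hreg : IsSMulRegular (R ⧸ Ideal.ofList (List.ofFn c)) r :=
    ((RingTheory.Sequence.isWeaklyRegular_cons_iff _ r s₂).1 hs₁).1
  have hr : ∀ t, r * t ∈ Ideal.ofList (List.ofFn c) → t ∈ Ideal.ofList (List.ofFn c) := by
    intro t ht
    rw [← Ideal.Quotient.eq_zero_iff_mem]
    refine hreg.right_eq_zero_of_smul ?_
    rw [← Ideal.Quotient.eq_zero_iff_mem] at ht
    exact ht
  have hrQ : r ∉ Q := fun hrQ => by
    have h1 : r ^ k' * z₁ ∈ Ideal.ofList (List.ofFn c) := by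
      simpa using Submodule.mem_colon_singleton.1 (hk' (Ideal.pow_mem_pow hrQ k'))
    have h2 : ∀ n : ℕ, r ^ n * z₁ ∈ Ideal.ofList (List.ofFn c) →
        z₁ ∈ Ideal.ofList (List.ofFn c) := by
      intro n
      induction n with
      | zero => simp
      | succ n ih => exact fun hn => ih (hr _ (by rwa [pow_succ', mul_assoc] at hn))
    exact hz₁ (hcQ (h2 k' h1))
  have hz' : r * z₁ ∉ Q := fun hm => (hQp.mem_or_mem hm).elim hrQ hz₁
  have hK'Q : (Ideal.ofList (List.ofFn c)).colon {r * z₁} ≤ Q := colon_le_of_notMem hcQ hz'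
  have hQK' : Q ^ k' ≤ (Ideal.ofList (List.ofFn c)).colon {r * z₁} :=
    hk'.trans (colon_mul_ge _ _ _)
  have hpos := mu_pos hN₀ μ hl0 hcm (by simp) (inA_quot_iff.2 e0) (z' := r * z₁) (w' := r * w₁)
    (by rw [← mul_add]; exact Ideal.mul_mem_right _ _ hrm)
    (by
      have : r * z₁ * (r * w₁) = (r * r) * (z₁ * w₁) := by ring
      rw [this]
      exact Ideal.mul_mem_left _ _ hzw)
    (fun t ht => hc₁ t (hr _ (by rwa [← mul_add, mul_assoc] at ht))) (hQ ▸ afDim_le hK'Q)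
  rw [mu_eq_chi μ (inA_quot_iff.2 (pow_le_sup_of_pow_le hQK' hIQ))] at hpos
  have hKQ : ∃ N : ℕ, maximalIdeal R ^ N ≤ S.I.colon {S.z} ⊔ Q := by
    obtain ⟨N, hN⟩ := hIQ
    exact ⟨N, hN.trans (sup_le_sup_right (le_colon' _ _) _)⟩
  obtain ⟨n, -, hn⟩ := chi_eq_mul M.hasRes (X := R ⧸ S.I.colon {S.z}) (ann_quot _).ge hKQ
    (fun Q' _ hlt => M.vanish (fun ht => hPp.ne_top (top_le_iff.1 (ht ▸ hKP)))
      (by
        obtain ⟨N, hN⟩ := hKQ
        exact ⟨N, hN.trans (sup_le_sup_left hlt.le _)⟩)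
      ((afDim_le (le_colon' _ _)).trans S.ciData.dim) (dim_le_pred hlt hQ) (by omega)) hQK' hK'Q
  have hQP : ∃ N : ℕ, maximalIdeal R ^ N ≤ Q ⊔ P := by rwa [sup_comm] at h
  obtain ⟨n', -, hn'⟩ := chi_eq_mul M.hasRes (X := R ⧸ Q) (ann_quot _).ge hQP
    (fun P' _ hlt => M.vanish hQp.ne_top
      (by
        obtain ⟨N, hN⟩ := hQP
        exact ⟨N, hN.trans (sup_le_sup_left hlt.le _)⟩)
      hQ.le (dim_le_pred hlt hP) (by omega)) hk hKP
  rw [hn, chi_symm M.hasRes (meets_quot_iff.2 hKQ), hn',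
    chi_symm M.hasRes (meets_quot_iff.2 hQP)] at hpos
  by_contra hneg
  rw [not_lt] at hneg
  have h1 : (n' : ℝ) * chi R (R ⧸ P) (R ⧸ Q) ≤ 0 :=
    mul_nonpos_of_nonneg_of_nonpos (Nat.cast_nonneg _) hneg
  exact absurd hpos (not_lt.2 (mul_nonpos_of_nonneg_of_nonpos (Nat.cast_nonneg _) h1))

/-- The main case. -/
theorem MixModel.chi_pos_of_notMem (M : MixModel p d W R) {P Q : Ideal R} [hPp : P.IsPrime]
    [hQp : Q.IsPrime] {a b : ℕ} (h : Meets R (R ⧸ P) (R ⧸ Q)) (hP : ringKrullDim (R ⧸ P) = a)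
    (hQ : ringKrullDim (R ⧸ Q) = b) (hab : a + b = d) (hp : (p : R) ∉ P) :
    0 < chi R (R ⧸ P) (R ⧸ Q) := by
  have := M.isDomain
  cases a with
  | zero =>
    obtain ⟨N, hN⟩ := dim_le_zero_iff.1 hP.le
    exact absurd (hPp.mem_of_pow_mem N (hN (Ideal.pow_mem_pow M.p_mem N))) hp
  | succ a =>
    cases b with
    | succ b => exact M.chi_pos_succ (meets_quot_iff.1 h) hP hQ hab hp
    | zero =>
      have hP0 : P = ⊥ := by
        by_contra hne
        have h1 := dim_le_pred (P := (⊥ : Ideal R)) (bot_lt_iff_ne_bot.2 hne) (a := a)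
          (by rw [dim_quot_bot, M.dim, ← hab])
        rw [hP] at h1
        have h2 : a + 1 ≤ a := by exact_mod_cast h1
        omega
      subst hP0
      have hl : Module.length R (R ⧸ Q) ≠ ⊤ := inA_bot_iff.1 (inA_quot_iff.2 (by
        rw [bot_sup_eq]
        exact dim_le_zero_iff.1 hQ.le))
      rw [chi_congr M.hasRes h (Submodule.quotEquivOfEqBot _ rfl) (LinearEquiv.refl R _),
        chi_self_left hl]
      have : Nontrivial (R ⧸ Q) := Ideal.Quotient.nontrivial_iff.2 hQp.ne_top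
      have h0 : Module.length R (R ⧸ Q) ≠ 0 := Module.length_pos.ne'
      exact_mod_cast ENat.toNat_pos h0 hl

theorem MixModel.pairThm (M : MixModel p d W R) : PairThm R d := by
  intro P Q a b hPp hQp h hP hQ
  refine ⟨fun hab => M.vanish hPp.ne_top (meets_quot_iff.1 h) hP.le hQ.le hab, fun hab => ?_⟩
  by_cases hp : (p : R) ∈ P
  · by_cases hq : (p : R) ∈ Q
    · exact M.chi_pos_of_mem h hP hQ hab hp hq
    · rw [chi_symm M.hasRes h]
      exact M.chi_pos_of_notMem h.symm hQ hP (by omega) hq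
  · exact M.chi_pos_of_notMem h hP hQ hab hp
end

theorem chi_pos_of_unram {R A : Type u} [CommRing R] [IsLocalRing R] [IsNoetherianRing R]
    [CommRing A] [IsLocalRing A] [IsNoetherianRing A] {d : ℕ} (hR : HasRes R d) (hA : HasRes A d)
    (hp : PairThm A d) (j : R →+* A) (hj : IsUnram j) {X V : Type u} [AddCommGroup X]
    [Module R X] [AddCommGroup V] [Module R V] [Nontrivial X] [Nontrivial V] (h : Meets R X V)
    (hdim : Module.supportDim R X + Module.supportDim R V = d) : 0 < chi R X V := by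
  letI := j.toAlgebra
  have := h.1
  have := h.2.1
  have : Module.Flat R A := hj.flat
  have : IsLocalHom (algebraMap R A) := hj.isLocalHom
  have : Module.FaithfullyFlat R A := Module.FaithfullyFlat.of_flat_of_isLocalHom
  obtain ⟨h1, h2⟩ := chi_unram hR h A hj
  rw [← h2]
  exact chi_pos_of_pairThm hA hp h1
    (by rw [supportDim_unram A hj, supportDim_unram A hj, hdim])

theorem hasRes_of_regular (R : Type u) [CommRing R] [IsRegularLocalRing R] {d : ℕ}
    (hd : ringKrullDim R = d) : HasRes R d := by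
  obtain ⟨x, rfl, hx, hm⟩ := exists_reg_of_regular R hd
  exact hasRes_of_reg hx hm

theorem chi_pos (R : Type u) [CommRing R] [IsRegularLocalRing R] {d : ℕ}
    (hd : ringKrullDim R = d) {X V : Type u} [AddCommGroup X] [Module R X] [AddCommGroup V]
    [Module R V] [Nontrivial X] [Nontrivial V] (h : Meets R X V)
    (hdim : Module.supportDim R X + Module.supportDim R V = d) : 0 < chi R X V := by
  rcases exists_structure R hd with ⟨K, _, j, hj⟩ | ⟨A, _, _, _, j, p, _, W, _, _, _, hj, ⟨M⟩⟩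
  · refine chi_pos_of_unram (hasRes_of_regular R hd) ?_ (pairThm_field K d) j hj h hdim
    simpa using hasRes_of_reg (reg_mvPowerSeries_field K d).1 (reg_mvPowerSeries_field K d).2
  · exact chi_pos_of_unram (hasRes_of_regular R hd) M.hasRes M.pairThm j hj h hdim

theorem serre_positivity {R : Type u} [CommRing R] [IsRegularLocalRing R]
    (M N : ModuleCat.{u} R) [Module.Finite R M] [Module.Finite R N] [Nontrivial M] [Nontrivial N]
    (hl : Module.length R (M ⊗[R] N) ≠ ⊤) (d : ℕ) (hd : ringKrullDim R = d)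
    (hdim : Module.supportDim R M + Module.supportDim R N = ringKrullDim R) :
    (∀ i, Module.length R (((CategoryTheory.Tor (ModuleCat.{u} R) i).obj M).obj N) ≠ ⊤) ∧
      0 < ∑ i ∈ Finset.range (d + 1), (-1 : ℤ) ^ i *
        (Module.length R (((CategoryTheory.Tor (ModuleCat.{u} R) i).obj M).obj N)).toNat := by
  have h : Meets R N M := (meets_iff.2 hl).symm
  obtain ⟨F, hF⟩ := hasRes_of_regular R hd N
  have h1 := meul_lenFun (T := R) (D := F.D) (V := M) hF
  have h2 := chi_pos R hd h (by rw [add_comm, hdim, hd])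
  rw [chi_eq F (h.mfin F), h1.2] at h2
  simp only [length_tor M N F]
  exact ⟨h1.1.1 (h.mfin F), by exact_mod_cast h2⟩

end Vale.Agent.P177
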