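import Vale.Agent.P177.MC

/-! P177: auxiliary lemmas for the module Min. -/

namespace Vale.Agent.P177.MinAux

open Vale.Agent.P202 IsLocalRing Matrix

section Hom
variable {A : Type*} [CommRing A] {ι ι' ι'' : Type} {dg : ι → ℕ} {dg' : ι' → ℕ} {dg'' : ι'' → ℕ}

theorem hr_mul [Fintype ι'] {F : Matrix ι'' ι' A} {G : Matrix ι' ι A} {k l m : ℤ}
    (hF : IsHomR F dg'' dg' k) (hG : IsHomR G dg' dg l) (hm : k + l = m) :
    IsHomR (F * G) dg'' dg m := by
  intro a b h
  obtain ⟨c, -, hc⟩ := Finset.exists_ne_zero_of_sum_ne_zero h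
  have h1 := hF a c (left_ne_zero_of_mul hc)
  have h2 := hG c b (right_ne_zero_of_mul hc)
  omega

theorem hr_add {F G : Matrix ι' ι A} {k : ℤ} (hF : IsHomR F dg' dg k) (hG : IsHomR G dg' dg k) :
    IsHomR (F + G) dg' dg k := by
  intro a b h
  by_cases h1 : F a b = 0
  · exact hG a b (by simpa [h1] using h)
  · exact hF a b h1

theorem hr_neg {F : Matrix ι' ι A} {k : ℤ} (hF : IsHomR F dg' dg k) : IsHomR (-F) dg' dg k :=
  fun a b h => hF a b (by simpa using h)

theorem hr_sub {F G : Matrix ι' ι A} {k : ℤ} (hF : IsHomR F dg' dg k) (hG : IsHomR G dg' dg k) :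
    IsHomR (F - G) dg' dg k := by
  rw [sub_eq_add_neg]; exact hr_add hF (hr_neg hG)

theorem hr_smul {F : Matrix ι' ι A} {k : ℤ} (hF : IsHomR F dg' dg k) (g : A) :
    IsHomR (g • F) dg' dg k :=
  fun a b h => hF a b (right_ne_zero_of_mul h)

theorem hr_zero {k : ℤ} : IsHomR (0 : Matrix ι' ι A) dg' dg k := fun _ _ h => absurd rfl h

theorem hr_one [DecidableEq ι] : IsHomR (1 : Matrix ι ι A) dg dg 0 := by
  intro a b h
  by_cases hab : a = b
  · simp [hab]
  · exact absurd (Matrix.one_apply_ne hab) h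

theorem hr_sp [Fintype ι] {F : Matrix ι' ι A} {k : ℤ} (hF : IsHomR F dg' dg k) {i j : ℤ}
    {v : ι → A} (hv : Res.Sp (zd dg) i v) (hj : j + k = i) : Res.Sp (zd dg') j (F *ᵥ v) := by
  intro a ha
  refine Finset.sum_eq_zero fun b _ => ?_
  change F a b * v b = 0
  by_cases h : F a b = 0
  · rw [h, zero_mul]
  · have := hF a b h
    rw [hv b (by simp only [zd] at ha ⊢; omega), mul_zero]

end Hom

section Retract
variable {A : Type*} [CommRing A] {ι ι' : Type} [Fintype ι] [Fintype ι']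
  [DecidableEq ι] [DecidableEq ι'] {D : Matrix ι ι A} {dg : ι → ℕ} {dg' : ι' → ℕ}

theorem mheq_of_retract (hD : IsMC D (zd dg)) {F : Matrix ι' ι A} {G : Matrix ι ι' A}
    {H : Matrix ι ι A} (hF : IsHomR F dg' dg 0) (hG : IsHomR G dg dg' 0)
    (hH : IsHomR H dg dg (-1)) (h1 : F * G = 1) (h2 : G * F - 1 = D * H + H * D) :
    IsMC (F * D * G) (zd dg') ∧ MHEq D dg (F * D * G) dg' := by
  have h3 : G * F * D = D * (G * F) := by
    rw [sub_eq_iff_eq_add] at h2
    rw [h2]
    simp only [Matrix.add_mul, Matrix.mul_add, Matrix.mul_assoc, hD.sq, Matrix.mul_zero]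
    simp only [← Matrix.mul_assoc, hD.sq, Matrix.zero_mul]
    simp
  have h4 : F * D = F * D * G * F := by
    rw [Matrix.mul_assoc (F * D), Matrix.mul_assoc F, ← h3, ← Matrix.mul_assoc,
      ← Matrix.mul_assoc, h1, Matrix.one_mul]
  have h5 : G * (F * D * G) = D * G := by
    rw [← Matrix.mul_assoc, ← Matrix.mul_assoc, h3, Matrix.mul_assoc, Matrix.mul_assoc, h1,
      Matrix.mul_one]
  refine ⟨⟨?_, hr_mul (hr_mul hF hD.homog rfl) hG (by simp)⟩,
    F, G, H, 0, hF, hG, hH, hr_zero, h4, h5, h2, by simp [h1]⟩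
  rw [Matrix.mul_assoc (F * D), h5, ← Matrix.mul_assoc, Matrix.mul_assoc F, hD.sq]
  simp

omit [Fintype ι'] [DecidableEq ι'] in
theorem sum_subtype_two {a₀ b₀ : ι} (f : ι → A) (ha : f a₀ = 0) (hb : f b₀ = 0) :
    ∑ c : {a // a ≠ a₀ ∧ a ≠ b₀}, f c.1 = ∑ c, f c := by
  rw [← Finset.sum_subtype (Finset.univ.filter fun a => a ≠ a₀ ∧ a ≠ b₀) (by simp) f]
  refine Finset.sum_filter_of_ne fun c _ hc => ⟨?_, ?_⟩
  · rintro rfl; exact hc ha
  · rintro rfl; exact hc hb

theorem cancel (hD : IsMC D (zd dg)) {a₀ b₀ : ι} (hu : IsUnit (D a₀ b₀)) :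
    ∃ E : Matrix {a // a ≠ a₀ ∧ a ≠ b₀} {a // a ≠ a₀ ∧ a ≠ b₀} A,
      IsMC E (zd fun a => dg a.1) ∧ MHEq D dg E fun a => dg a.1 := by
  rcases subsingleton_or_nontrivial A with hA | hA
  · exact ⟨0, isMC_zero, 0, 0, 0, 0, hr_zero, hr_zero, hr_zero, hr_zero, Subsingleton.elim _ _,
      Subsingleton.elim _ _, Subsingleton.elim _ _, Subsingleton.elim _ _⟩
  obtain ⟨v, hv⟩ := hu.exists_right_inv
  have hdeg : (dg b₀ : ℤ) = dg a₀ + 1 := hD.homog a₀ b₀ hu.ne_zero
  have hab : a₀ ≠ b₀ := by rintro rfl; omega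
  set H : Matrix ι ι A := Matrix.single b₀ a₀ v with hHd
  have hH : IsHomR H dg dg (-1) := by
    intro a b h
    by_cases h' : b₀ = a ∧ a₀ = b
    · obtain ⟨rfl, rfl⟩ := h'; omega
    · exact absurd (Matrix.single_apply_of_ne _ _ _ _ _ h') h
  have hDH : ∀ a b, (D * H) a b = if b = a₀ then D a b₀ * v else 0 := by
    intro a b
    split_ifs with h
    · rw [h, Matrix.mul_single_apply_same]
    · exact Matrix.mul_single_apply_of_ne _ _ _ _ _ h _
  have hHD : ∀ a b, (H * D) a b = if a = b₀ then v * D a₀ b else 0 := by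
    intro a b
    split_ifs with h
    · rw [h, Matrix.single_mul_apply_same]
    · exact Matrix.single_mul_apply_of_ne _ _ _ _ _ h _
  have hHH : H * H = 0 := Matrix.single_mul_single_of_ne _ _ _ _ hab _
  have hHDH : H * D * H = H := by
    rw [hHd, Matrix.single_mul_mul_single, mul_assoc, hv, mul_one]
  set P : Matrix ι ι A := 1 - (D * H + H * D) with hP
  have hPh : IsHomR P dg dg 0 :=
    hr_sub hr_one (hr_add (hr_mul hD.homog hH rfl) (hr_mul hH hD.homog rfl))
  have hPP : P * P = P := by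
    have e1 : (D * H + H * D) * (D * H + H * D) = D * H + H * D := by
      have a1 : D * H * (D * H) = D * H := by
        rw [Matrix.mul_assoc, ← Matrix.mul_assoc H, hHDH]
      have a2 : D * H * (H * D) = 0 := by
        rw [Matrix.mul_assoc, ← Matrix.mul_assoc H, hHH]; simp
      have a3 : H * D * (D * H) = 0 := by
        rw [Matrix.mul_assoc, ← Matrix.mul_assoc D, hD.sq]; simp
      have a4 : H * D * (H * D) = H * D := by rw [← Matrix.mul_assoc, hHDH]
      rw [Matrix.add_mul, Matrix.mul_add, Matrix.mul_add, a1, a2, a3, a4]; simp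
    rw [hP, Matrix.sub_mul, Matrix.mul_sub, Matrix.mul_sub, e1]; simp
  have hr : ∀ y, P a₀ y = 0 := by
    intro y
    rw [hP, Matrix.sub_apply, Matrix.add_apply, hDH, hHD, if_neg hab, hv, Matrix.one_apply]
    simp [eq_comm]
  have hc : ∀ x, P x b₀ = 0 := by
    intro x
    rw [hP, Matrix.sub_apply, Matrix.add_apply, hDH, hHD, if_neg hab.symm, mul_comm v, hv,
      Matrix.one_apply]
    simp
  refine ⟨_, mheq_of_retract hD (F := P.submatrix Subtype.val id) (G := P.submatrix id Subtype.val)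
    (H := -H) (fun a b h => hPh _ _ h) (fun a b h => hPh _ _ h) (hr_neg hH) ?_ ?_⟩
  · ext a b
    have : (P.submatrix Subtype.val id * P.submatrix id Subtype.val :
        Matrix {a // a ≠ a₀ ∧ a ≠ b₀} {a // a ≠ a₀ ∧ a ≠ b₀} A) a b = (P * P) a.1 b.1 := rfl
    rw [this, hPP, hP, Matrix.sub_apply, Matrix.add_apply, hDH, hHD, if_neg b.2.1, if_neg a.2.2]
    simp [Matrix.one_apply, Subtype.ext_iff]
  · rw [sub_eq_iff_eq_add]
    refine Eq.trans (b := P * P) ?_ ?_
    · ext x y
      exact sum_subtype_two (fun c => P x c * P c y) (by rw [hr, mul_zero]) (by rw [hc, zero_mul])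
    · rw [hPP, hP, Matrix.mul_neg, Matrix.neg_mul]
      abel

end Retract

section Clear
variable {A : Type*} [CommRing A] (S : Submonoid A) (A' : Type*) [CommRing A'] [Algebra A A']
  [IsLocalization S A'] {ι ι' : Type} [Fintype ι] [Fintype ι']

theorem exists_clear (M : Matrix ι ι' A') : ∃ s ∈ S, ∃ N : Matrix ι ι' A,
    N.map (algebraMap A A') = algebraMap A A' s • M ∧ ∀ a b, M a b = 0 → N a b = 0 := by
  classical
  obtain ⟨s, hs⟩ := IsLocalization.exist_integer_multiples_of_finite S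
    (fun p : ι × ι' => M p.1 p.2)
  choose N hN using hs
  refine ⟨s, s.2, Matrix.of fun a b => if M a b = 0 then 0 else N (a, b), ?_,
    fun a b h => if_pos h⟩
  ext a b
  rw [Matrix.map_apply, Matrix.of_apply, Matrix.smul_apply, smul_eq_mul]
  split_ifs with h
  · rw [h, map_zero, mul_zero]
  · rw [hN, Algebra.smul_def]

theorem exists_kill (M : Matrix ι ι' A) (h : M.map (algebraMap A A') = 0) :
    ∃ t ∈ S, t • M = 0 := by
  classical
  have h1 : ∀ p : ι × ι', ∃ t : S, (t : A) * M p.1 p.2 = 0 := fun p =>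
    (IsLocalization.map_eq_zero_iff S A' _).1 (congrFun (congrFun h p.1) p.2)
  choose t ht using h1
  refine ⟨∏ p, (t p : A), S.prod_mem fun p _ => (t p).2, ?_⟩
  ext a b
  rw [Matrix.smul_apply, smul_eq_mul, ← Finset.prod_erase_mul _ _ (Finset.mem_univ (a, b)),
    mul_assoc, ht (a, b), mul_zero, Matrix.zero_apply]

end Clear

theorem col_rec {ι W : Type*} [Fintype ι] [Zero W] (dg : ι → ℕ) (Q : ι → (ι → W) → W → Prop)
    (hloc : ∀ b X X' w, (∀ c, dg c < dg b → X c = X' c) → Q b X w → Q b X' w)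
    (hstep : ∀ b X, (∀ c, dg c < dg b → Q c X (X c)) → ∃ w, Q b X w) :
    ∃ X : ι → W, ∀ b, Q b X (X b) := by
  classical
  have key : ∀ n : ℕ, ∃ X : ι → W, ∀ b, dg b < n → Q b X (X b) := by
    intro n
    induction n with
    | zero => exact ⟨0, fun b h => absurd h (Nat.not_lt_zero _)⟩
    | succ n ih =>
      obtain ⟨X, hX⟩ := ih
      have h1 : ∀ b, ∃ w, dg b = n → Q b X w := by
        intro b
        by_cases hb : dg b = n
        · obtain ⟨w, hw⟩ := hstep b X fun c hc => hX c (hb ▸ hc)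
          exact ⟨w, fun _ => hw⟩
        · exact ⟨0, fun h => absurd h hb⟩
      choose w hw using h1
      refine ⟨fun c => if dg c = n then w c else X c, fun b hb => ?_⟩
      refine hloc b X _ _ (fun c hc => (if_neg (by omega)).symm) ?_
      by_cases h : dg b = n
      · simpa only [if_pos h] using hw b h
      · simpa only [if_neg h] using hX b (by omega)
  obtain ⟨X, hX⟩ := key (Finset.univ.sup dg + 1)
  exact ⟨X, fun b => hX b (Nat.lt_succ_of_le (Finset.le_sup (Finset.mem_univ b)))⟩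

section Resol
universe u
variable {A : Type u} [CommRing A] {X : Type u} [AddCommGroup X] [Module A X]

theorem eps_pos (F : Resol A X) {i : ℤ} (hi : i ≠ 0) {v : F.ι → A} (hv : Res.Sp (zd F.dg) i v) :
    F.ε v = 0 :=
  (F.ker v).2 ⟨0, fun _ _ => rfl, fun a ha => by
    rw [hv a (by simp only [zd]; omega), Matrix.mulVec_zero, Pi.zero_apply]⟩

theorem eps_D (F : Resol A X) (v : F.ι → A) : F.ε (F.D *ᵥ v) = 0 := by
  refine (F.ker _).2 ⟨fun a => if F.dg a = 1 then v a else 0,
    fun a ha => if_neg fun h => ha (by simp [zd, h]), fun a ha => ?_⟩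
  refine Finset.sum_congr rfl fun b _ => ?_
  change F.D a b * v b = F.D a b * if F.dg b = 1 then v b else 0
  by_cases h : F.D a b = 0
  · rw [h, zero_mul, zero_mul]
  · have := F.mc.homog a b h
    rw [if_pos (by simp only [zd] at this; omega)]

theorem lift (F : Resol A X) (i : ℕ) {u : F.ι → A} (hu : Res.Sp (zd F.dg) i u)
    (h0 : F.D *ᵥ u = 0) (hε : F.ε u = 0) : ∃ w, Res.Sp (zd F.dg) (i + 1) w ∧ u = F.D *ᵥ w := by
  rcases Nat.eq_zero_or_pos i with rfl | hi
  · obtain ⟨w, h1, h2⟩ := (F.ker u).1 hε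
    refine ⟨w, by simpa using h1, funext fun a => ?_⟩
    by_cases ha : F.dg a = 0
    · exact h2 a ha
    · have h3 : zd F.dg a ≠ 0 := by simp only [zd]; omega
      rw [hu a (by simpa using h3), hr_sp (j := 0) F.mc.homog h1 (by simp) a h3]
  · exact F.ex i hi (WithTop.coe_lt_top _) u hu h0

theorem sum_loc {ι : Type} {W : Type*} [Fintype ι] [AddCommGroup W] [Module A W]
    {D : Matrix ι ι A} {dg : ι → ℕ} (hD : IsMC D (zd dg)) (b : ι) {Y Y' : ι → W}
    (h : ∀ c, dg c < dg b → Y c = Y' c) : ∑ c, D c b • Y c = ∑ c, D c b • Y' c := by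
  refine Finset.sum_congr rfl fun c _ => ?_
  by_cases hc : D c b = 0
  · rw [hc, zero_smul, zero_smul]
  · have := hD.homog c b hc
    rw [h c (by simp only [zd] at this; omega)]

theorem sum_sum_zero {ι : Type} {W : Type*} [Fintype ι] [AddCommGroup W] [Module A W]
    {D : Matrix ι ι A} {dg : ι → ℕ} (hD : IsMC D (zd dg)) (b : ι) (Y : ι → W) :
    ∑ c, D c b • ∑ c', D c' c • Y c' = 0 := by
  simp only [Finset.smul_sum, smul_smul]
  rw [Finset.sum_comm]
  refine Finset.sum_eq_zero fun c' _ => ?_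
  rw [← Finset.sum_smul]
  have : ∑ c, D c b * D c' c = (D * D) c' b := by
    rw [Matrix.mul_apply]; exact Finset.sum_congr rfl fun c _ => mul_comm _ _
  rw [this, hD.sq, Matrix.zero_apply, zero_smul]

theorem sp_sum {ι ι' : Type} [Fintype ι] {D : Matrix ι ι A} {dg : ι → ℕ} {dg' : ι' → ℕ}
    (hD : IsMC D (zd dg)) (b : ι) {Y : ι → ι' → A} {k i : ℤ}
    (h : ∀ c, dg c < dg b → Res.Sp (zd dg') (dg c + k) (Y c)) (hi : i + 1 = dg b + k) :
    Res.Sp (zd dg') i (∑ c, D c b • Y c) := by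
  intro a ha
  rw [Finset.sum_apply]
  refine Finset.sum_eq_zero fun c _ => ?_
  by_cases hc : D c b = 0
  · rw [hc, zero_smul, Pi.zero_apply]
  · have := hD.homog c b hc
    simp only [zd] at this
    rw [Pi.smul_apply, h c (by omega) a (by omega), smul_zero]

theorem exists_chain (F G : Resol A X) : ∃ Φ : Matrix G.ι F.ι A, IsHomR Φ G.dg F.dg 0 ∧
    Φ * F.D = G.D * Φ ∧ ∀ v, G.ε (Φ *ᵥ v) = F.ε v := by
  obtain ⟨Y, hY⟩ := col_rec F.dg (W := G.ι → A) (fun b Y w => Res.Sp (zd G.dg) (F.dg b + 0) w ∧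
      G.D *ᵥ w = ∑ c, F.D c b • Y c ∧ G.ε w = F.ε (Pi.single b 1))
    (fun b Y Y' w h h' => ⟨h'.1, h'.2.1.trans (sum_loc F.mc b h), h'.2.2⟩) (fun b Y h => by
      rcases Nat.eq_zero_or_eq_succ_pred (F.dg b) with hb | hb
      · obtain ⟨w, hw⟩ := G.surj (F.ε (Pi.single b 1))
        have hs : Res.Sp (zd G.dg) 0 fun a => if G.dg a = 0 then w a else 0 :=
          fun a ha => if_neg fun h => ha (by simp [zd, h])
        refine ⟨fun a => if G.dg a = 0 then w a else 0, by simpa [hb] using hs, ?_, ?_⟩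
        · rw [sum_loc F.mc b (Y' := 0) fun c hc => absurd hc (by omega)]
          simp only [Pi.zero_apply, smul_zero, Finset.sum_const_zero]
          exact funext fun a => hr_sp (j := -1) G.mc.homog hs (by simp) a
            (by simp only [zd]; omega)
        · rw [← hw, ← sub_eq_zero, ← map_sub]
          exact (G.ker _).2 ⟨0, fun _ _ => rfl, fun a ha => by simp [ha]⟩
      · generalize (F.dg b).pred = i at hb
        obtain ⟨w, h1, h2⟩ := lift G i (u := ∑ c, F.D c b • Y c)
          (sp_sum F.mc b (fun c hc => (h c hc).1) (by omega)) (by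
            rw [← Matrix.mulVecLin_apply, map_sum, ← sum_sum_zero F.mc b Y]
            simp only [map_smul, Matrix.mulVecLin_apply]
            exact sum_loc F.mc b fun c hc => (h c hc).2.1) (by
            rw [map_sum, ← eps_D F (Pi.single b 1), pi_eq_sum_univ' (F.D *ᵥ Pi.single b 1), map_sum]
            simp only [map_smul, Matrix.mulVec_single_one, Matrix.col_apply]
            exact sum_loc F.mc b fun c hc => (h c hc).2.2)
        have h3 : Res.Sp (zd G.dg) (F.dg b + 0) w := by simpa [hb] using h1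
        refine ⟨w, h3, h2.symm, ?_⟩
        rw [eps_pos G (by omega) h3, eps_pos F (i := F.dg b) (by omega)]
        exact fun a ha => Pi.single_eq_of_ne (by rintro rfl; exact ha rfl) _)
  refine ⟨(Matrix.of Y)ᵀ, fun a b h => ?_, ?_, fun v => ?_⟩
  · by_contra h'
    exact h ((hY b).1 a (by simp only [zd]; omega))
  · ext a b
    have := congrFun (hY b).2.1 a
    rw [Finset.sum_apply] at this
    exact (Finset.sum_congr rfl fun c _ => mul_comm _ _).trans this.symm
  · have : (Matrix.of Y)ᵀ *ᵥ v = ∑ b, v b • Y b := by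
      funext a
      rw [Finset.sum_apply]
      exact Finset.sum_congr rfl fun c _ => mul_comm _ _
    conv_rhs => rw [pi_eq_sum_univ' v]
    rw [this, map_sum, map_sum]
    exact Finset.sum_congr rfl fun b _ => by rw [map_smul, map_smul, (hY b).2.2]

theorem exists_htp (F : Resol A X) {Ψ : Matrix F.ι F.ι A} (h1 : IsHomR Ψ F.dg F.dg 0)
    (h2 : Ψ * F.D = F.D * Ψ) (h3 : ∀ v, F.ε (Ψ *ᵥ v) = 0) :
    ∃ H : Matrix F.ι F.ι A, IsHomR H F.dg F.dg (-1) ∧ Ψ = F.D * H + H * F.D := by
  obtain ⟨Y, hY⟩ := col_rec F.dg (W := F.ι → A) (fun b Y w => Res.Sp (zd F.dg) (F.dg b + 1) w ∧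
      F.D *ᵥ w = Ψ.col b - ∑ c, F.D c b • Y c)
    (fun b Y Y' w h h' => ⟨h'.1, h'.2.trans (by rw [sum_loc F.mc b h])⟩) (fun b Y h => by
      have a1 : Res.Sp (zd F.dg) (F.dg b) (Ψ.col b) := fun a ha => by
        by_contra h'
        have := h1 a b h'
        simp only [zd] at ha; omega
      have a2 := sp_sum (i := F.dg b) F.mc b (fun c hc => (h c hc).1) rfl
      obtain ⟨w, b1, b2⟩ := lift F (F.dg b) (u := Ψ.col b - ∑ c, F.D c b • Y c)
        (fun a ha => by rw [Pi.sub_apply, a1 a ha, a2 a ha, sub_zero]) (by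
          rw [← Matrix.mulVecLin_apply, map_sub, map_sum]
          simp only [map_smul, Matrix.mulVecLin_apply]
          rw [sum_loc F.mc b fun c hc => (h c hc).2]
          simp only [smul_sub, Finset.sum_sub_distrib]
          rw [sum_sum_zero F.mc, sub_zero, sub_eq_zero]
          funext a
          rw [Finset.sum_apply]
          exact (congrFun (congrFun h2 a) b).symm.trans
            (Finset.sum_congr rfl fun c _ => mul_comm _ _)) (by
          rw [map_sub, ← Matrix.mulVec_single_one, h3, map_sum]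
          simp only [map_smul]
          rw [sum_loc F.mc b (Y' := 0) fun c hc => eps_pos F (by omega) (h c hc).1]
          simp)
      exact ⟨w, b1, b2.symm⟩)
  refine ⟨(Matrix.of Y)ᵀ, fun a b h => ?_, ?_⟩
  · by_contra h'
    exact h ((hY b).1 a (by simp only [zd]; omega))
  · ext a b
    have := congrFun (hY b).2 a
    rw [Pi.sub_apply, Finset.sum_apply, eq_sub_iff_add_eq] at this
    refine this.symm.trans ?_
    rw [Matrix.add_apply]
    congr 1
    exact Finset.sum_congr rfl fun c _ => mul_comm _ _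

end Resol

end Vale.Agent.P177.MinAux
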