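import Vale.Agent.P177.Gen
import Vale.Agent.P202.LenUlt

/-! P177 module MuDef: normalised lengths with approximate idempotents. -/

namespace Vale.Agent.P177

open Vale.Agent.P202 IsLocalRing TensorProduct Filter Topology

universe u

variable {A : ℕ → Type u} [∀ k, CommRing (A k)]

/-- The length of `θ k` times the `k`-th component. -/
noncomputable def lenk (θ : ∀ k, A k) (k : ℕ) (X : Type u) [AddCommGroup X]
    [Module (∀ k, A k) X] : ℕ∞ :=
  Module.length (∀ k, A k) (smulTop (Pi.single k (θ k) : ∀ k, A k) X)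

/-- The class of modules on which `γ` is almost invertible. -/
structure Cl (π F γ : ∀ k, A k) (ρ : ℕ → ℕ) (X : Type u) [AddCommGroup X] [Module (∀ k, A k) X] :
    Prop where
  kill : ∃ N : ℕ, ∀ x : X, π ^ N • x = 0 ∧ F ^ N • x = 0
  bdd : ∃ K : ℕ, ∀ k, lenk (1 : ∀ k, A k) k X ≤ (K * ρ k : ℕ)
  small : Tendsto (fun k => (((lenk (1 : ∀ k, A k) k X).toNat : ℝ) - (lenk γ k X).toNat) / ρ k)
    atTop (𝓝 0)

/-- The normalised length. -/
noncomputable def muv (θ : ∀ k, A k) (ρ : ℕ → ℕ) (X : Type u) [AddCommGroup X]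
    [Module (∀ k, A k) X] : ℝ :=
  limUnder (hyperfilter ℕ : Filter ℕ) fun k => ((lenk θ k X).toNat : ℝ) / ρ k

/-- The three functionals. -/
structure MuData (π F α β : ∀ k, A k) (ρ : ℕ → ℕ) where
  La : AddFun (∀ k, A k)
  Lb : AddFun (∀ k, A k)
  L1 : AddFun (∀ k, A k)
  ma : ∀ (X : Type u) [AddCommGroup X] [Module (∀ k, A k) X], La.mem X ↔ Cl π F (α + β) ρ X
  mb : ∀ (X : Type u) [AddCommGroup X] [Module (∀ k, A k) X], Lb.mem X ↔ Cl π F (α + β) ρ X
  m1 : ∀ (X : Type u) [AddCommGroup X] [Module (∀ k, A k) X], L1.mem X ↔ Cl π F (α + β) ρ X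
  va : ∀ (X : Type u) [AddCommGroup X] [Module (∀ k, A k) X], La.val X = muv α ρ X
  vb : ∀ (X : Type u) [AddCommGroup X] [Module (∀ k, A k) X], Lb.val X = muv β ρ X
  v1 : ∀ (X : Type u) [AddCommGroup X] [Module (∀ k, A k) X], L1.val X = muv (1 : ∀ k, A k) ρ X
  na : La.Nonneg
  nb : Lb.Nonneg
  n1 : L1.Nonneg
  sum : ∀ (X : Type u) [AddCommGroup X] [Module (∀ k, A k) X], L1.mem X →
    La.val X + Lb.val X = L1.val X

namespace MuAux

section Generic
variable {T : Type u} [CommRing T] {X : Type u} [AddCommGroup X] [Module T X]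

theorem len_mul_le (a b : T) : Module.length T (smulTop (a * b) X) ≤
    Module.length T (smulTop a X) := length_sub_mono (by
  rintro _ ⟨y, rfl⟩
  exact ⟨b • y, (mul_smul a b y).symm⟩)

theorem len_add_le (a b : T) : Module.length T (smulTop (a + b) X) ≤
    Module.length T (smulTop a X) + Module.length T (smulTop b X) := by
  simp only [← rl_bot]
  refine (rl_le_add _ (smulTop b X) _).trans (add_le_add ?_ le_rfl)
  refine rl_le_of_map_surj LinearMap.id (fun x hx => ?_) ?_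
  · rw [(Submodule.mem_bot T).1 hx.2]
    exact zero_mem _
  · rintro _ ⟨y, rfl⟩
    exact ⟨a • y, ⟨y, rfl⟩, y, by simp⟩

theorem len_three {e a b : T} (ha : e * a = a) (hb : e * b = b) (h : ∀ x : X, (a * b) • x = 0) :
    Module.length T (smulTop a X) + Module.length T (smulTop b X) +
      Module.length T (smulTop (a + b) X) ≤
      Module.length T (smulTop e X) + Module.length T (smulTop e X) := by
  have h0 : ∀ c : T, e * c = c → smulTop c X ≤ smulTop e X := by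
    rintro c hc _ ⟨y, rfl⟩
    exact ⟨c • y, (mul_smul e c y).symm.trans (congrArg (· • y) hc)⟩
  have h1 : rl (smulTop a X) (smulTop b X) + rl (smulTop b X) ⊥ ≤ rl (smulTop e X) ⊥ := by
    rw [← rl_sup, ← rl_add bot_le le_sup_right]
    exact rl_mono (sup_le (h0 a ha) (h0 b hb)) le_rfl
  have h2 : rl (smulTop (a + b) X) ⊥ ≤ rl (smulTop e X) (smulTop a X ⊓ smulTop b X) := by
    refine rl_le_of_map_surj (LinearMap.lsmul T X (a + b)) ?_ ?_
    · rintro x ⟨-, ⟨y, hy⟩, ⟨z, hz⟩⟩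
      rw [LinearMap.lsmul_apply] at hy hz ⊢
      have e1 : a • x = 0 := by rw [← hz, smul_smul, h]
      have e2 : b • x = 0 := by rw [← hy, smul_smul, mul_comm, h]
      rw [add_smul, e1, e2, add_zero]
      exact zero_mem _
    · rintro _ ⟨y, rfl⟩
      refine ⟨e • y, ⟨y, rfl⟩, ?_⟩
      rw [LinearMap.lsmul_apply, LinearMap.lsmul_apply, smul_smul, mul_comm, mul_add, ha, hb,
        sub_self]
      exact zero_mem _
  have h3 := rl_add (A := smulTop e X) (B := smulTop a X ⊓ smulTop b X) (C := ⊥) bot_le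
    (inf_le_left.trans (h0 a ha))
  have h4 := rl_add (A := smulTop a X) (B := smulTop a X ⊓ smulTop b X) (C := ⊥) bot_le
    inf_le_left
  rw [rl_inf] at h4
  simp only [← rl_bot]
  calc _ = (rl (smulTop a X) (smulTop b X) + rl (smulTop b X) ⊥) +
        (rl (smulTop (a + b) X) ⊥ + rl (smulTop a X ⊓ smulTop b X) ⊥) := by
        rw [h4]
        ring
    _ ≤ _ := add_le_add h1 ((add_le_add h2 le_rfl).trans h3.ge)

end Generic

theorem cast_le_add {a b c : ℕ∞} (h : a ≤ b + c) (hb : b ≠ ⊤) (hc : c ≠ ⊤) :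
    (a.toNat : ℝ) ≤ b.toNat + c.toNat := by
  have := ENat.toNat_le_toNat h (WithTop.add_ne_top.2 ⟨hb, hc⟩)
  rw [ENat.toNat_add hb hc] at this
  exact_mod_cast this

theorem cast_add_le {a b c : ℕ∞} (h : a + b ≤ c) (hc : c ≠ ⊤) :
    (a.toNat : ℝ) + b.toNat ≤ c.toNat := by
  have h1 := WithTop.add_ne_top.1 (ne_top_of_le_ne_top hc h)
  have := ENat.toNat_le_toNat h hc
  rw [ENat.toNat_add h1.1 h1.2] at this
  exact_mod_cast this

variable {π F γ θ : ∀ k, A k} {ρ : ℕ → ℕ} {X : Type u} [AddCommGroup X] [Module (∀ k, A k) X]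

theorem single_eq (θ : ∀ k, A k) (k : ℕ) :
    (Pi.single k ((1 : ∀ k, A k) k) : ∀ k, A k) * Pi.single k (θ k) = Pi.single k (θ k) := by
  rw [← Pi.single_mul, Pi.one_apply, one_mul]

theorem lenk_le (θ : ∀ k, A k) (k : ℕ) : lenk θ k X ≤ lenk (1 : ∀ k, A k) k X := by
  rw [lenk, ← single_eq]
  exact len_mul_le _ _

theorem add_le (θ : ∀ k, A k) (k : ℕ) (N : Submodule (∀ k, A k) X) :
    lenk θ k N + lenk θ k (X ⧸ N) ≤ lenk θ k X := LU.add_le _ N

theorem le_add (θ : ∀ k, A k) (k : ℕ) (N : Submodule (∀ k, A k) X) :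
    lenk θ k X ≤ lenk (1 : ∀ k, A k) k N + lenk θ k (X ⧸ N) := by
  rw [lenk, ← single_eq]
  exact LU.le_add _ _ N

theorem le_add' (θ : ∀ k, A k) (k : ℕ) (N : Submodule (∀ k, A k) X) :
    lenk θ k X ≤ lenk θ k N + lenk (1 : ∀ k, A k) k (X ⧸ N) := by
  rw [lenk, ← single_eq, mul_comm]
  exact LU.le_add _ _ N

theorem fin_of {K : ℕ} (h : ∀ k, lenk (1 : ∀ k, A k) k X ≤ (K * ρ k : ℕ)) (θ : ∀ k, A k) (k : ℕ) :
    lenk θ k X ≠ ⊤ := ne_top_of_le_ne_top (ENat.natCast_ne_top _) ((lenk_le θ k).trans (h k))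

theorem fin (h : Cl π F γ ρ X) (θ : ∀ k, A k) (k : ℕ) : lenk θ k X ≠ ⊤ :=
  fin_of h.bdd.choose_spec θ k

theorem diff_nonneg {k : ℕ} (h : lenk (1 : ∀ k, A k) k X ≠ ⊤) :
    0 ≤ (((lenk (1 : ∀ k, A k) k X).toNat : ℝ) - (lenk γ k X).toNat) / ρ k :=
  div_nonneg (sub_nonneg.2 (Nat.cast_le.2 (ENat.toNat_le_toNat (lenk_le γ k) h)))
    (Nat.cast_nonneg _)

theorem cl_equiv {X' : Type u} [AddCommGroup X'] [Module (∀ k, A k) X']
    (e : X ≃ₗ[∀ k, A k] X') (h : Cl π F γ ρ X) : Cl π F γ ρ X' := by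
  have h1 : ∀ (θ : ∀ k, A k) k, lenk θ k X' = lenk θ k X := fun θ k => (LU.len_equiv _ e).symm
  obtain ⟨n, hn⟩ := h.kill
  refine ⟨⟨n, fun x => ?_⟩, by simpa only [h1] using h.bdd, by simpa only [h1] using h.small⟩
  obtain ⟨y, rfl⟩ := e.surjective x
  rw [← map_smul, ← map_smul, (hn y).1, (hn y).2, map_zero]
  exact ⟨rfl, rfl⟩

theorem cl_sub (h : Cl π F γ ρ X) (N : Submodule (∀ k, A k) X) :
    Cl π F γ ρ N ∧ Cl π F γ ρ (X ⧸ N) := by
  obtain ⟨n, hn⟩ := h.kill
  obtain ⟨K, hK⟩ := h.bdd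
  have b1 : ∀ k, lenk (1 : ∀ k, A k) k N ≤ (K * ρ k : ℕ) := fun k =>
    (le_self_add.trans (add_le 1 k N)).trans (hK k)
  have b2 : ∀ k, lenk (1 : ∀ k, A k) k (X ⧸ N) ≤ (K * ρ k : ℕ) := fun k =>
    (le_add_self.trans (add_le 1 k N)).trans (hK k)
  refine ⟨⟨⟨n, fun x => ⟨Subtype.ext (hn x).1, Subtype.ext (hn x).2⟩⟩, ⟨K, b1⟩,
    squeeze_zero (fun k => diff_nonneg (fin_of b1 1 k)) (fun k => ?_) h.small⟩,
    ⟨⟨n, fun x => ?_⟩, ⟨K, b2⟩,
    squeeze_zero (fun k => diff_nonneg (fin_of b2 1 k)) (fun k => ?_) h.small⟩⟩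
  · refine div_le_div_of_nonneg_right ?_ (Nat.cast_nonneg _)
    linarith [cast_add_le (add_le 1 k N) (fin h 1 k),
      cast_le_add (le_add' γ k N) (fin_of b1 γ k) (fin_of b2 1 k)]
  · obtain ⟨y, rfl⟩ := N.mkQ_surjective x
    rw [← map_smul, ← map_smul, (hn y).1, (hn y).2, map_zero]
    exact ⟨rfl, rfl⟩
  · refine div_le_div_of_nonneg_right ?_ (Nat.cast_nonneg _)
    linarith [cast_add_le (add_le 1 k N) (fin h 1 k),
      cast_le_add (le_add γ k N) (fin_of b1 1 k) (fin_of b2 γ k)]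

theorem kill_ext {N : Submodule (∀ k, A k) X} {t : ∀ k, A k} {n m : ℕ}
    (h1 : ∀ x : N, t ^ n • x = 0) (h2 : ∀ x : X ⧸ N, t ^ m • x = 0) (x : X) :
    t ^ (n + m) • x = 0 := by
  have h3 : t ^ m • x ∈ N := by
    rw [← Submodule.Quotient.mk_eq_zero, Submodule.Quotient.mk_smul]
    exact h2 _
  rw [pow_add, mul_smul]
  exact congrArg Subtype.val (h1 ⟨_, h3⟩)

theorem cl_ext {N : Submodule (∀ k, A k) X} (h1 : Cl π F γ ρ N) (h2 : Cl π F γ ρ (X ⧸ N)) :
    Cl π F γ ρ X := by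
  obtain ⟨n, hn⟩ := h1.kill
  obtain ⟨m, hm⟩ := h2.kill
  obtain ⟨K, hK⟩ := h1.bdd
  obtain ⟨L, hL⟩ := h2.bdd
  have b : ∀ k, lenk (1 : ∀ k, A k) k X ≤ ((K + L) * ρ k : ℕ) := fun k => by
    rw [add_mul, Nat.cast_add]
    exact (le_add 1 k N).trans (add_le_add (hK k) (hL k))
  have h3 := h1.small.add h2.small
  rw [add_zero] at h3
  refine ⟨⟨n + m, fun x => ⟨kill_ext (fun x => (hn x).1) (fun x => (hm x).1) x,
    kill_ext (fun x => (hn x).2) (fun x => (hm x).2) x⟩⟩, ⟨K + L, b⟩,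
    squeeze_zero (fun k => diff_nonneg (fin_of b 1 k)) (fun k => ?_) h3⟩
  rw [← add_div]
  refine div_le_div_of_nonneg_right ?_ (Nat.cast_nonneg _)
  linarith [cast_add_le (add_le γ k N) (fin_of b γ k),
    cast_le_add (le_add 1 k N) (fin h1 1 k) (fin h2 1 k)]

theorem tendsto_muv (h : Cl π F γ ρ X) (hρ : ∀ k, 0 < ρ k) (θ : ∀ k, A k) :
    Tendsto (fun k => ((lenk θ k X).toNat : ℝ) / ρ k) (hyperfilter ℕ : Filter ℕ)
      (𝓝 (muv θ ρ X)) := by
  obtain ⟨K, hK⟩ := h.bdd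
  obtain ⟨c, -, hc⟩ := (isCompact_Icc (a := (0 : ℝ)) (b := K)).ultrafilter_le_nhds'
    ((hyperfilter ℕ).map fun k => ((lenk θ k X).toNat : ℝ) / ρ k)
    (Ultrafilter.mem_map.2 (univ_mem' fun k => ⟨by positivity, by
      rw [div_le_iff₀ (Nat.cast_pos.2 (hρ k)), ← Nat.cast_mul, Nat.cast_le]
      exact ENat.toNat_le_of_le_natCast ((lenk_le θ k).trans (hK k))⟩))
  exact tendsto_nhds_limUnder ⟨c, hc⟩

theorem muv_add_le (h : Cl π F γ ρ X) (hρ : ∀ k, 0 < ρ k) (θ : ∀ k, A k)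
    (N : Submodule (∀ k, A k) X) : muv θ ρ N + muv θ ρ (X ⧸ N) ≤ muv θ ρ X := by
  refine le_of_tendsto_of_tendsto' ((tendsto_muv (cl_sub h N).1 hρ θ).add
    (tendsto_muv (cl_sub h N).2 hρ θ)) (tendsto_muv h hρ θ) fun k => ?_
  rw [← add_div]
  exact div_le_div_of_nonneg_right (cast_add_le (add_le θ k N) (fin h θ k)) (Nat.cast_nonneg _)

theorem muv_one_le (h : Cl π F γ ρ X) (hρ : ∀ k, 0 < ρ k) (N : Submodule (∀ k, A k) X) :
    muv (1 : ∀ k, A k) ρ X ≤ muv (1 : ∀ k, A k) ρ N + muv (1 : ∀ k, A k) ρ (X ⧸ N) := by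
  refine le_of_tendsto_of_tendsto' (tendsto_muv h hρ 1) ((tendsto_muv (cl_sub h N).1 hρ 1).add
    (tendsto_muv (cl_sub h N).2 hρ 1)) fun k => ?_
  rw [← add_div]
  exact div_le_div_of_nonneg_right (cast_le_add (le_add 1 k N) (fin (cl_sub h N).1 1 k)
    (fin (cl_sub h N).2 1 k)) (Nat.cast_nonneg _)

theorem kill_mul {α β : ∀ k, A k} (h : ∀ k, α k * β k ∈ Ideal.span {π k, F k} ^ k) {n k : ℕ}
    (hn : ∀ x : X, π ^ n • x = 0 ∧ F ^ n • x = 0) (hk : n + n ≤ k) (x : X) :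
    ((Pi.single k (α k) : ∀ k, A k) * Pi.single k (β k)) • x = 0 := by
  have h1 := Ideal.pow_le_pow_right hk (h k)
  rw [Ideal.span_insert] at h1
  have h2 := Ideal.sup_pow_add_le_pow_sup_pow h1
  rw [Ideal.span_singleton_pow, Ideal.span_singleton_pow, ← Ideal.span_insert,
    Ideal.mem_span_pair] at h2
  obtain ⟨a, b, e⟩ := h2
  rw [← Pi.single_mul, ← e, Pi.single_add, ← Pi.pow_apply π, ← Pi.pow_apply F, Pi.single_mul_left,
    Pi.single_mul_left, add_smul, mul_smul, mul_smul, (hn x).1, (hn x).2, smul_zero, smul_zero,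
    add_zero]

theorem muv_sum {α β : ∀ k, A k} (h : ∀ k, α k * β k ∈ Ideal.span {π k, F k} ^ k)
    (hρ : ∀ k, 0 < ρ k) (hX : Cl π F (α + β) ρ X) :
    muv α ρ X + muv β ρ X = muv (1 : ∀ k, A k) ρ X := by
  obtain ⟨n, hn⟩ := hX.kill
  have t0 := hX.small.mono_left Nat.hyperfilter_le_atTop
  have t1 := tendsto_muv hX hρ 1
  have t2 := (tendsto_muv hX hρ α).add (tendsto_muv hX hρ β)
  have e : ∀ k, lenk (α + β) k X = Module.length (∀ k, A k)
      (smulTop (Pi.single k (α k) + Pi.single k (β k) : ∀ k, A k) X) := fun k => by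
    rw [lenk, Pi.add_apply, Pi.single_add]
  refine le_antisymm ?_ ?_
  · rw [← add_zero (muv 1 ρ X)]
    refine le_of_tendsto_of_tendsto t2 (t1.add t0) ?_
    filter_upwards [(eventually_ge_atTop (n + n)).filter_mono Nat.hyperfilter_le_atTop] with k hk
    rw [← add_div, ← add_div]
    refine div_le_div_of_nonneg_right ?_ (Nat.cast_nonneg _)
    have h1 : lenk α k X + lenk β k X + lenk (α + β) k X ≤
        lenk (1 : ∀ k, A k) k X + lenk (1 : ∀ k, A k) k X := by
      rw [e]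
      exact len_three (single_eq α k) (single_eq β k) (kill_mul h hn hk)
    have h2 := cast_le_add h1 (fin hX 1 k) (fin hX 1 k)
    have h3 : lenk α k X + lenk β k X ≠ ⊤ := WithTop.add_ne_top.2 ⟨fin hX α k, fin hX β k⟩
    rw [ENat.toNat_add h3 (fin hX (α + β) k),
      ENat.toNat_add (fin hX α k) (fin hX β k), Nat.cast_add, Nat.cast_add] at h2
    linarith
  · rw [← sub_zero (muv 1 ρ X)]
    refine le_of_tendsto_of_tendsto' (t1.sub t0) t2 fun k => ?_
    rw [← add_div, ← sub_div, sub_sub_cancel]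
    refine div_le_div_of_nonneg_right (cast_le_add ?_ (fin hX α k) (fin hX β k))
      (Nat.cast_nonneg _)
    rw [e]
    exact len_add_le _ _

/-- The functional attached to an additive normalised length. -/
noncomputable def mkFun (π F γ θ : ∀ k, A k) (ρ : ℕ → ℕ)
    (h : ∀ (X : Type u) [AddCommGroup X] [Module (∀ k, A k) X] (N : Submodule (∀ k, A k) X),
      Cl π F γ ρ X → muv θ ρ X = muv θ ρ N + muv θ ρ (X ⧸ N)) : AddFun (∀ k, A k) where
  mem X _ _ := Cl π F γ ρ X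
  val X _ _ := muv θ ρ X
  mem_zero X _ _ _ := by
    have h0 : ∀ (θ : ∀ k, A k) k, lenk θ k X = 0 := fun θ k => Module.length_eq_zero
    refine ⟨⟨0, fun _ => ⟨Subsingleton.elim _ _, Subsingleton.elim _ _⟩⟩,
      ⟨0, fun k => (h0 1 k).trans_le zero_le⟩, ?_⟩
    simp only [h0, sub_self, zero_div]
    exact tendsto_const_nhds
  mem_inj _ _ _ _ _ _ f hf hN :=
    cl_equiv (LinearEquiv.ofInjective f hf).symm (cl_sub hN (LinearMap.range f)).1
  mem_surj _ _ _ _ _ _ f hf hM :=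
    cl_equiv (f.quotKerEquivOfSurjective hf) (cl_sub hM (LinearMap.ker f)).2
  mem_ext _ _ _ _ h1 h2 := cl_ext h1 h2
  val_equiv _ _ _ _ _ _ e _ := by simp only [muv, lenk, LU.len_equiv _ e]
  val_add := h

theorem muv_nonneg (h : Cl π F γ ρ X) (hρ : ∀ k, 0 < ρ k) (θ : ∀ k, A k) : 0 ≤ muv θ ρ X :=
  ge_of_tendsto' (tendsto_muv h hρ θ) fun k => by positivity

end MuAux

open MuAux in
/-- For `X` in the class and `k` large, `α β` kills the `k`-th component `X k`, so
`l(γ X) ≤ l(α X) + l(β X) ≤ l(X) + l(X[γ])` and `l(X[γ]) = l(X / γ X) = l(X) - l(γ X)`.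
The functions `l(α X)` and `l(β X)` are superadditive (`LU.add_le`) with almost additive sum. -/
theorem exists_muData (π F α β : ∀ k, A k) (ρ : ℕ → ℕ) (hρ : ∀ k, 0 < ρ k)
    (h : ∀ k, α k * β k ∈ Ideal.span {π k, F k} ^ k) : Nonempty (MuData π F α β ρ) := by
  have key : ∀ (X : Type u) [AddCommGroup X] [Module (∀ k, A k) X] (N : Submodule (∀ k, A k) X),
      Cl π F (α + β) ρ X → muv α ρ X = muv α ρ N + muv α ρ (X ⧸ N) ∧
        muv β ρ X = muv β ρ N + muv β ρ (X ⧸ N) := fun X _ _ N hX => by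
    have h1 := muv_add_le hX hρ α N
    have h2 := muv_add_le hX hρ β N
    have h3 := muv_one_le hX hρ N
    have h4 := muv_sum h hρ hX
    have h5 := muv_sum h hρ (cl_sub hX N).1
    have h6 := muv_sum h hρ (cl_sub hX N).2
    constructor <;> linarith
  exact ⟨⟨mkFun π F (α + β) α ρ fun X _ _ N hX => (key X N hX).1,
    mkFun π F (α + β) β ρ fun X _ _ N hX => (key X N hX).2,
    mkFun π F (α + β) 1 ρ fun _ _ _ N hX =>
      le_antisymm (muv_one_le hX hρ N) (muv_add_le hX hρ 1 N),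
    fun _ _ _ => Iff.rfl, fun _ _ _ => Iff.rfl, fun _ _ _ => Iff.rfl, fun _ _ _ => rfl,
    fun _ _ _ => rfl, fun _ _ _ => rfl, fun _ _ _ hX => muv_nonneg hX hρ α,
    fun _ _ _ hX => muv_nonneg hX hρ β, fun _ _ _ hX => muv_nonneg hX hρ 1,
    fun _ _ _ hX => muv_sum h hρ hX⟩⟩

section
variable {π F γ θ : ∀ k, A k} {ρ : ℕ → ℕ} {X : Type u} [AddCommGroup X] [Module (∀ k, A k) X]

theorem Cl.le_muv (h : Cl π F γ ρ X) (hρ : ∀ k, 0 < ρ k) {c : ℝ}
    (hc : ∀ k, (ρ k : ℝ) * c ≤ (lenk θ k X).toNat) : c ≤ muv θ ρ X :=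
  ge_of_tendsto' (MuAux.tendsto_muv h hρ θ) fun k =>
    (le_div_iff₀' (Nat.cast_pos.2 (hρ k))).2 (hc k)
theorem muv_eq (hρ : ∀ k, 0 < ρ k) {c : ℝ} (hc : ∀ k, ((lenk θ k X).toNat : ℝ) = ρ k * c) :
    muv θ ρ X = c :=
  Tendsto.limUnder_eq (tendsto_const_nhds.congr fun k => by
    rw [hc, mul_div_cancel_left₀ _ (Nat.cast_pos.2 (hρ k)).ne'])
theorem muv_congr {X' : Type u} [AddCommGroup X'] [Module (∀ k, A k) X']
    (h : ∀ k, lenk θ k X = lenk θ k X') : muv θ ρ X = muv θ ρ X' := by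
  simp only [muv, h]
end

variable (A) in
/-- The ideal of finitely supported families. -/
def fsup : Ideal (∀ k, A k) where
  carrier := {t | {k | t k ≠ 0}.Finite}
  add_mem' {s t} hs ht := (hs.union ht).subset fun k hk => by
    by_contra hn
    simp only [Set.mem_union, Set.mem_ofPred_eq, not_or, not_not] at hn
    exact hk (by simp [hn.1, hn.2])
  zero_mem' := by simp
  smul_mem' c t ht := ht.subset fun k hk h0 => hk (by simp [h0])

variable (A) in
/-- The direct sum of the `A k` as a module over their product. -/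
def FS : Type u := fsup A

instance : AddCommGroup (FS A) := inferInstanceAs (AddCommGroup (fsup A))
instance : Module (∀ k, A k) (FS A) := inferInstanceAs (Module (∀ k, A k) (fsup A))

variable {R : Type u} [CommRing R] [∀ k, Algebra R (A k)] {V : Type u} [AddCommGroup V]
  [Module R V]

instance : Module R (FS A) := inferInstanceAs (Module R (fsup A))
instance : IsScalarTower R (∀ k, A k) (FS A) :=
  inferInstanceAs (IsScalarTower R (∀ k, A k) (fsup A))

namespace MuAux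

variable (A) in
/-- The underlying family. -/
def val (x : FS A) : ∀ k, A k := Subtype.val (p := (· ∈ fsup A)) x

theorem val_ext {x y : FS A} (h : val A x = val A y) : x = y := Subtype.ext h

theorem val_smul (t : ∀ k, A k) (x : FS A) : val A (t • x) = t * val A x := rfl

variable (A R) in
/-- The evaluation at `k`. -/
def pk (k : ℕ) : FS A →ₗ[R] A k where
  toFun x := val A x k
  map_add' _ _ := rfl
  map_smul' _ _ := rfl

variable (A R) in
/-- The inclusion of the `k`-th component. -/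
def sk (k : ℕ) : A k →ₗ[R] FS A where
  toFun a := (⟨Pi.single k a, (Set.finite_singleton k).subset fun _ hj =>
    by_contra fun e => hj (Pi.single_eq_of_ne e a)⟩ : fsup A)
  map_add' a b := val_ext (Pi.single_add k a b)
  map_smul' r a := val_ext (Pi.single_smul k r a)

theorem val_sk (k : ℕ) (a : A k) : val A (sk A R k a) = Pi.single k a := rfl

theorem pk_sk (k : ℕ) (y : A k ⊗[R] V) :
    (pk A R k).rTensor V ((sk A R k).rTensor V y) = y := by
  have : pk A R k ∘ₗ sk A R k = LinearMap.id := LinearMap.ext fun a => Pi.single_eq_same k a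
  rw [← LinearMap.rTensor_comp_apply, this, LinearMap.rTensor_id, LinearMap.id_apply]

theorem pk_smul (k : ℕ) (t : ∀ k, A k) (x : FS A ⊗[R] V) :
    (pk A R k).rTensor V (t • x) = t k • (pk A R k).rTensor V x := by
  induction x using TensorProduct.induction_on with
  | zero => rw [smul_zero, map_zero, smul_zero]
  | add x y hx hy => rw [smul_add, map_add, map_add, hx, hy, smul_add]
  | tmul a v =>
    rw [smul_tmul', LinearMap.rTensor_tmul, LinearMap.rTensor_tmul, smul_tmul']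
    rfl

theorem sk_smul (k : ℕ) (t : ∀ k, A k) (y : A k ⊗[R] V) :
    (sk A R k).rTensor V (t k • y) = t • (sk A R k).rTensor V y := by
  induction y using TensorProduct.induction_on with
  | zero => rw [smul_zero, map_zero, smul_zero]
  | add x y hx hy => rw [smul_add, map_add, map_add, hx, hy, smul_add]
  | tmul a v =>
    rw [smul_tmul', LinearMap.rTensor_tmul, LinearMap.rTensor_tmul, smul_tmul']
    exact congrArg (· ⊗ₜ[R] v) (val_ext (Pi.single_mul_right (f := t) a))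

theorem sk_pk (k : ℕ) (x : FS A ⊗[R] V) :
    (sk A R k).rTensor V ((pk A R k).rTensor V x) = (Pi.single k 1 : ∀ k, A k) • x := by
  induction x using TensorProduct.induction_on with
  | zero => rw [smul_zero, map_zero, map_zero]
  | add x y hx hy => rw [smul_add, map_add, map_add, hx, hy]
  | tmul a v =>
    rw [smul_tmul', LinearMap.rTensor_tmul, LinearMap.rTensor_tmul]
    refine congrArg (· ⊗ₜ[R] v) (val_ext ?_)
    rw [val_sk, val_smul, ← Pi.single_mul_left, one_mul]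
    rfl

theorem exists_fin (x : FS A ⊗[R] V) : ∃ s : Finset ℕ, ∀ s', s ⊆ s' →
    (∑ k ∈ s', (Pi.single k 1 : ∀ k, A k)) • x = x := by
  induction x using TensorProduct.induction_on with
  | zero => exact ⟨∅, fun _ _ => smul_zero _⟩
  | add x y hx hy =>
    obtain ⟨s, hs⟩ := hx
    obtain ⟨t, ht⟩ := hy
    exact ⟨s ∪ t, fun s' h => by
      rw [smul_add, hs s' (Finset.union_subset_left h), ht s' (Finset.union_subset_right h)]⟩
  | tmul a v =>
    have ha : {k | val A a k ≠ 0}.Finite := Subtype.property (p := (· ∈ fsup A)) a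
    refine ⟨ha.toFinset, fun s' h => ?_⟩
    rw [smul_tmul']
    refine congrArg (· ⊗ₜ[R] v) (val_ext (funext fun k => ?_))
    rw [val_smul, Pi.mul_apply, Finset.sum_apply]
    by_cases hk : k ∈ s'
    · rw [Finset.sum_eq_single k (fun j _ hj => Pi.single_eq_of_ne' hj _) fun e => absurd hk e,
        Pi.single_eq_same, one_mul]
    · have h0 : val A a k = 0 := by_contra fun e => hk (h (ha.mem_toFinset.2 e))
      rw [h0, mul_zero]

theorem mem_of_all {W : Submodule (∀ k, A k) (FS A ⊗[R] V)} {x : FS A ⊗[R] V}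
    (h : ∀ k, (sk A R k).rTensor V ((pk A R k).rTensor V x) ∈ W) : x ∈ W := by
  obtain ⟨s, hs⟩ := exists_fin x
  rw [← hs s subset_rfl, Finset.sum_smul]
  exact W.sum_mem fun k _ => sk_pk k x ▸ h k

theorem sk_mem (k : ℕ) (𝔟 : Ideal (∀ k, A k)) {y : A k ⊗[R] V}
    (hy : y ∈ (𝔟.map (Pi.evalRingHom A k) • ⊤ : Submodule (A k) (A k ⊗[R] V))) :
    (sk A R k).rTensor V y ∈ (𝔟 • ⊤ : Submodule (∀ k, A k) (FS A ⊗[R] V)) := by
  refine Submodule.smul_induction_on hy (fun r hr z _ => ?_) fun a b ha hb => ?_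
  · obtain ⟨b, hb, rfl⟩ := (Ideal.mem_map_iff_of_surjective (Pi.evalRingHom A k)
      (Function.surjective_eval k)).1 hr
    rw [Pi.evalRingHom_apply, sk_smul]
    exact Submodule.smul_mem_smul hb trivial
  · rw [map_add]
    exact add_mem ha hb

theorem pk_mem (k : ℕ) (𝔟 : Ideal (∀ k, A k)) {x : FS A ⊗[R] V}
    (hx : x ∈ (𝔟 • ⊤ : Submodule (∀ k, A k) (FS A ⊗[R] V))) :
    (pk A R k).rTensor V x ∈ (𝔟.map (Pi.evalRingHom A k) • ⊤ : Submodule (A k) (A k ⊗[R] V)) := by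
  refine Submodule.smul_induction_on hx (fun r hr z _ => ?_) fun a b ha hb => ?_
  · rw [pk_smul]
    exact Submodule.smul_mem_smul (Ideal.mem_map_of_mem (Pi.evalRingHom A k) hr) trivial
  · rw [map_add]
    exact add_mem ha hb

end MuAux

open MuAux

instance flat_FS [∀ k, Module.Flat R (A k)] : Module.Flat R (FS A) := by
  refine Module.Flat.iff_lTensor_injective'.2 fun I => (injective_iff_map_eq_zero _).2 fun x hx => ?_
  refine (Submodule.mem_bot (∀ k, A k)).1 (mem_of_all fun k => ?_)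
  have h1 : I.subtype.lTensor (A k) ((pk A R k).rTensor I x) = 0 := by
    rw [← LinearMap.comp_apply, LinearMap.lTensor_comp_rTensor, ← LinearMap.rTensor_comp_lTensor,
      LinearMap.comp_apply, hx, map_zero]
  rw [(injective_iff_map_eq_zero _).1 (Module.Flat.iff_lTensor_injective'.1 inferInstance I) _ h1,
    map_zero]
  exact zero_mem _

/-- The `k`-th component of `FS A ⊗ V` is `A k ⊗ V`. -/
theorem lenk_quot (θ : ∀ k, A k) (k : ℕ) (𝔟 : Ideal (∀ k, A k)) :
    lenk θ k ((FS A ⊗[R] V) ⧸ (𝔟 • ⊤ : Submodule (∀ k, A k) (FS A ⊗[R] V))) =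
      Module.length (A k) (smulTop (θ k) ((A k ⊗[R] V) ⧸
        (𝔟.map (Pi.evalRingHom A k) • ⊤ : Submodule (A k) (A k ⊗[R] V)))) := by
  rw [lenk, LU.len_quot, LU.len_quot]
  have h := LU.compare (Pi.evalRingHom A k) (Function.surjective_eval k)
    ((sk A R k).rTensor V).toAddMonoidHom (sk_smul k) (P := smulTop (θ k) (A k ⊗[R] V))
    (Q := 𝔟.map (Pi.evalRingHom A k) • ⊤)
    (P' := smulTop (Pi.single k (θ k) : ∀ k, A k) (FS A ⊗[R] V)) (Q' := 𝔟 • ⊤)
  refine le_antisymm (h.1 (fun x hx => sk_mem k 𝔟 hx.2) ?_) (h.2 ?_ fun x _ hx => ?_)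
  · rintro _ ⟨y, rfl⟩
    refine ⟨θ k • (pk A R k).rTensor V y, ⟨_, rfl⟩, ?_⟩
    rw [LinearMap.toAddMonoidHom_coe, sk_smul, sk_pk, smul_smul, ← Pi.single_mul_right, mul_one,
      LinearMap.lsmul_apply, sub_self]
    exact zero_mem _
  · rintro _ ⟨y, rfl⟩
    refine ⟨(sk A R k).rTensor V y, ?_⟩
    rw [LinearMap.toAddMonoidHom_coe, LinearMap.lsmul_apply, LinearMap.lsmul_apply, ← sk_smul,
      Pi.single_eq_same]
  · exact pk_sk k x ▸ pk_mem k 𝔟 hx

theorem isWeaklyRegular_FS {l : List (∀ k, A k)}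
    (h : ∀ k, RingTheory.Sequence.IsWeaklyRegular (A k ⊗[R] V) (l.map fun r => r k)) :
    RingTheory.Sequence.IsWeaklyRegular (FS A ⊗[R] V) l := by
  refine ⟨fun i hi => (isSMulRegular_quotient_iff_mem_of_smul_mem _ _).2 fun x hx =>
    mem_of_all fun k => sk_mem k _ ?_⟩
  have h1 := (isSMulRegular_quotient_iff_mem_of_smul_mem _ _).1
    ((h k).regular_mod_prev i (by rwa [List.length_map])) ((pk A R k).rTensor V x)
  have h2 := pk_mem k _ hx
  rw [pk_smul] at h2
  rw [List.getElem_map, ← List.map_take] at h1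
  rw [Ideal.map_ofList] at h2 ⊢
  exact h1 h2

end Vale.Agent.P177
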