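import Vale.Agent.P177.LevelEst
import Vale.Agent.P177.MuDef

/-! P177: auxiliary lemmas for section A of `MuMem`. -/

namespace Vale.Agent.P177.MMA

open Vale.Agent.P202 IsLocalRing TensorProduct

universe u

variable {R : Type u} [CommRing R] {T : Type u} [CommRing T] [Algebra R T]

theorem len_tensor (θ : T) (𝔠 : Ideal T) (K : Ideal R) :
    Module.length T (smulTop θ ((T ⊗[R] (R ⧸ K)) ⧸ (𝔠 • ⊤ : Submodule T (T ⊗[R] (R ⧸ K))))) =
      Module.length T (smulTop θ (T ⧸ (𝔠 ⊔ K.map (algebraMap R T)))) := by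
  let e := (Algebra.TensorProduct.quotIdealMapEquivTensorQuot T K).symm.toLinearEquiv
  have h1 : (𝔠 • ⊤ : Submodule T (T ⊗[R] (R ⧸ K))).map e.toLinearMap =
      Submodule.map (Submodule.mkQ (K.map (algebraMap R T))) 𝔠 := by
    rw [Submodule.map_smul'', Submodule.map_top, e.range]
    conv_rhs => rw [← Ideal.mul_top 𝔠, ← smul_eq_mul, Submodule.map_smul'', Submodule.map_top,
      Submodule.range_mkQ]
  rw [sup_comm]
  exact LU.len_equiv θ ((Submodule.Quotient.equiv _ _ e h1).trans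
    (Submodule.quotientQuotientEquivQuotientSup (K.map (algebraMap R T)) 𝔠))

theorem len_one (N : Type u) [AddCommGroup N] [Module T N] :
    Module.length T (smulTop (1 : T) N) = Module.length T N := by
  have h : smulTop (1 : T) N = ⊤ := eq_top_iff.2 fun x _ => ⟨x, one_smul _ x⟩
  rw [h, Module.length_top]

theorem len_split (γ : T) (J : Ideal T) : Module.length T (T ⧸ J) =
    Module.length T (T ⧸ (J ⊔ Ideal.span {γ})) + Module.length T (smulTop γ (T ⧸ J)) := by
  have h : smulTop γ T = Ideal.span {γ} := by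
    ext x
    rw [LU.mem, Ideal.mem_span_singleton']
    simp only [smul_eq_mul, mul_comm]
  rw [LU.len_quot, h, ← rl_top, ← rl_top, ← rl_sup (Ideal.span {γ}), sup_comm J]
  exact rl_add le_sup_right le_top

variable {F : Type u} [AddCommGroup F] [Module R F] [Module T F] [IsScalarTower R T F]
  {V : Type u} [AddCommGroup V] [Module R V]

theorem smul_le (𝔟 : Ideal T) :
    ((𝔟 ⊔ (Module.annihilator R V).map (algebraMap R T)) • ⊤ : Submodule T (F ⊗[R] V)) ≤
      𝔟 • ⊤ := by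
  rw [Submodule.sup_smul]
  refine sup_le le_rfl (le_trans (le_of_eq ?_) bot_le)
  rw [← Submodule.le_annihilator_iff, Ideal.map_le_iff_le_comap]
  intro r hr
  rw [Ideal.mem_comap, Submodule.mem_annihilator]
  intro x _
  rw [algebraMap_smul]
  induction x with
  | zero => exact smul_zero _
  | tmul f v => rw [← tmul_smul, Module.mem_annihilator.1 hr, tmul_zero]
  | add x y hx hy => rw [smul_add, hx trivial, hy trivial, add_zero]

theorem kill {𝔟 : Ideal T} {t : T} (ht : t ∈ 𝔟 ⊔ (Module.annihilator R V).map (algebraMap R T))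
    (x : (F ⊗[R] V) ⧸ (𝔟 • ⊤ : Submodule T (F ⊗[R] V))) : t • x = 0 := by
  obtain ⟨x, rfl⟩ := Submodule.Quotient.mk_surjective _ x
  rw [← Submodule.Quotient.mk_smul, Submodule.Quotient.mk_eq_zero]
  exact smul_le 𝔟 (Submodule.smul_mem_smul ht trivial)

theorem exists_lift {P : Type u} [AddCommGroup P] [Module R P] [Module T P] [IsScalarTower R T P]
    {𝔠 : Ideal T} {K : Ideal R} (hP : ∀ t ∈ 𝔠 ⊔ K.map (algebraMap R T), ∀ x : P, t • x = 0)
    (g : F →ₗ[T] P) :
    ∃ φ : ((F ⊗[R] (R ⧸ K)) ⧸ (𝔠 • ⊤ : Submodule T (F ⊗[R] (R ⧸ K)))) →ₗ[T] P,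
      ∀ f, g f ∈ LinearMap.range φ := by
  have hK : ∀ x : P, K ≤ LinearMap.ker (LinearMap.toSpanSingleton R P x) := fun x r hr => by
    rw [LinearMap.mem_ker, LinearMap.toSpanSingleton_apply, ← algebraMap_smul T]
    exact hP _ (Ideal.mem_sup_right (Ideal.mem_map_of_mem _ hr)) x
  let ψ : F →ₗ[T] (R ⧸ K) →ₗ[R] P :=
    { toFun := fun f => Submodule.liftQ K (LinearMap.toSpanSingleton R P (g f)) (hK _)
      map_add' := fun f f' => Submodule.linearMap_qext _ (by
        rw [LinearMap.add_comp]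
        simp only [Submodule.liftQ_mkQ]
        ext
        simp)
      map_smul' := fun t f => Submodule.linearMap_qext _ (by
        rw [LinearMap.smul_comp]
        simp only [Submodule.liftQ_mkQ]
        ext
        simp) }
  refine ⟨Submodule.liftQ _ (AlgebraTensorModule.lift ψ) (Submodule.smul_le.2 fun t ht x _ => ?_),
    fun f => ⟨Submodule.Quotient.mk (f ⊗ₜ Submodule.Quotient.mk 1), ?_⟩⟩
  · rw [LinearMap.mem_ker, map_smul]
    exact hP _ (Ideal.mem_sup_left ht) _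
  · rw [Submodule.liftQ_apply, AlgebraTensorModule.lift_tmul]
    exact (Submodule.liftQ_apply _ _ _).trans (one_smul _ _)

theorem mem_quot (δ : AddFun T) [IsNoetherianRing R] [Module.Finite R V] {𝔠 𝔟 : Ideal T}
    {K : Ideal R} (hc : 𝔠.FG)
    (h : δ.mem ((F ⊗[R] (R ⧸ K)) ⧸ (𝔠 • ⊤ : Submodule T (F ⊗[R] (R ⧸ K))))) {N : ℕ}
    (hN : (𝔠 ⊔ K.map (algebraMap R T)) ^ N ≤ 𝔟 ⊔ (Module.annihilator R V).map (algebraMap R T)) :
    δ.mem ((F ⊗[R] V) ⧸ (𝔟 • ⊤ : Submodule T (F ⊗[R] V))) := by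
  have hfg : (𝔠 ⊔ K.map (algebraMap R T)).FG :=
    Submodule.FG.sup hc (Ideal.FG.map (IsNoetherian.noetherian K) _)
  refine δ.mem_surj _ _ (Submodule.factor ((Submodule.smul_mono_left hN).trans (smul_le 𝔟)))
    (Submodule.factor_surjective _) (AddFun.mem_quot_pow hfg ?_ N)
  obtain ⟨n, v, hv⟩ := Module.Finite.exists_fin (R := R) (M := V)
  choose φ hφ using fun i => exists_lift (𝔠 := 𝔠) (K := K)
    (fun t ht x => kill (Ideal.mem_sup_left ht) x)
    (((𝔠 ⊔ K.map (algebraMap R T)) • ⊤ : Submodule T (F ⊗[R] V)).mkQ ∘ₗ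
      (AlgebraTensorModule.mk R T F V).flip (v i))
  refine δ.mem_surj _ _ (∑ i, φ i ∘ₗ LinearMap.proj i) ?_ (δ.mem_pi _ fun _ : Fin n => h).1
  have h1 : ∀ i, LinearMap.range (φ i) ≤ LinearMap.range (∑ i, φ i ∘ₗ LinearMap.proj i) := by
    rintro i _ ⟨x, rfl⟩
    refine ⟨Pi.single i x, ?_⟩
    rw [LinearMap.sum_apply, Finset.sum_eq_single i (fun j _ hj => by simp [hj]) (by simp)]
    simp
  rw [← LinearMap.range_eq_top, eq_top_iff]
  rintro x -
  obtain ⟨x, rfl⟩ := Submodule.mkQ_surjective _ x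
  induction x with
  | zero => exact zero_mem _
  | add x y hx hy =>
    rw [map_add]
    exact add_mem hx hy
  | tmul f w =>
    obtain ⟨c, rfl⟩ := (Submodule.mem_span_range_iff_exists_fun R).1 (hv.ge (Submodule.mem_top (x := w)))
    rw [tmul_sum, map_sum]
    refine sum_mem fun i _ => ?_
    rw [← smul_tmul]
    exact h1 i (hφ i (c i • f))

theorem pow_le {I J : Ideal T} {𝔞 : Ideal T} {n : ℕ} (h : J ^ n ≤ I ⊔ 𝔞) :
    (I ⊔ J) ^ (1 + n) ≤ I ⊔ 𝔞 :=
  Ideal.sup_pow_add_le_pow_sup_pow.trans (sup_le ((pow_one I).le.trans le_sup_left) h)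

end Vale.Agent.P177.MMA
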