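import Vale.Agent.P177.LevelEst
import Vale.Agent.P177.MuDef
import Vale.Agent.P177.KLemma

/-! P177: auxiliary results for section B of the module MuMem. -/

namespace Vale.Agent.P177.MMB

open Vale.Agent.P202 IsLocalRing TensorProduct

universe u

theorem val_pow {R : Type u} [CommRing R] (δ : AddFun R) {R' : Type u} [CommRing R']
    [Algebra R R'] {n : ℕ} {y : Fin n → R'}
    (hreg : RingTheory.Sequence.IsWeaklyRegular R' (List.ofFn y))
    (hm : δ.mem (R' ⧸ Ideal.span (Set.range y))) {t : ℕ} (ht : 0 < t) :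
    δ.mem (R' ⧸ Ideal.span (Set.range fun j => y j ^ t)) ∧
      δ.val (R' ⧸ Ideal.span (Set.range fun j => y j ^ t)) =
        (t : ℝ) ^ n * δ.val (R' ⧸ Ideal.span (Set.range y)) := by
  have e : ∀ J : Ideal R', (J • ⊤ : Submodule R' R') = J := fun J => by
    rw [smul_eq_mul, Ideal.mul_top]
  have h := AddFun.val_quot_pow_regular (δ := δ) (B := R') (V₁ := R') hreg (by rw [e]; exact hm) ht
  rw [e, e] at h
  exact h.2

theorem le_of_growth {x m K : ℝ} {a : ℕ}
    (h : ∀ t : ℕ, 0 < t → (t : ℝ) ^ (a + 1) * m - K * t ^ a ≤ t ^ (a + 1) * x) : m ≤ x := by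
  by_contra hc
  have hc' : 0 < m - x := by linarith [not_le.1 hc]
  obtain ⟨t, ht⟩ := exists_nat_gt (max (K / (m - x)) 0)
  have h0 : (0 : ℝ) < t := (le_max_right _ _).trans_lt ht
  have h1 : K < t * (m - x) := (div_lt_iff₀ hc').1 ((le_max_left _ _).trans_lt ht)
  have h2 := h t (by exact_mod_cast h0)
  have h3 : (0 : ℝ) < (t : ℝ) ^ a := pow_pos h0 a
  have h4 := mul_lt_mul_of_pos_left h1 h3
  rw [pow_succ] at h2
  nlinarith

theorem quot_equiv {R : Type u} [CommRing R] {T : Type u} [CommRing T] [Algebra R T]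
    (F : Type u) [AddCommGroup F] [Module R F] [Module T F] [IsScalarTower R T F]
    {J J' I : Ideal R} (hJ : J ≤ J') (hJ' : J' ≤ I ⊔ J) {𝔟 : Ideal T}
    (hI : ∀ r ∈ I, algebraMap R T r ∈ 𝔟) :
    Nonempty (((F ⊗[R] (R ⧸ J)) ⧸ (𝔟 • ⊤ : Submodule T (F ⊗[R] (R ⧸ J)))) ≃ₗ[T]
      ((F ⊗[R] (R ⧸ J')) ⧸ (𝔟 • ⊤ : Submodule T (F ⊗[R] (R ⧸ J'))))) := by
  let g : (R ⧸ J) →ₗ[R] (R ⧸ J') := Submodule.factor hJ
  have hg : Function.Surjective g := Submodule.factor_surjective hJ
  let f : (F ⊗[R] (R ⧸ J)) →ₗ[T] (F ⊗[R] (R ⧸ J')) := AlgebraTensorModule.lTensor T F g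
  have hf : Function.Surjective f := LinearMap.lTensor_surjective F hg
  have hk : LinearMap.ker f ≤ (𝔟 • ⊤ : Submodule T (F ⊗[R] (R ⧸ J))) := by
    intro x hx
    have hx' : x ∈ LinearMap.ker (LinearMap.lTensor F g) := hx
    rw [lTensor_exact F (LinearMap.exact_subtype_ker_map g) hg |>.linearMap_ker_eq] at hx'
    obtain ⟨w, rfl⟩ := hx'
    clear hx
    induction w using TensorProduct.induction_on with
    | zero => rw [map_zero]; exact Submodule.zero_mem _
    | add w w' h h' => rw [map_add]; exact Submodule.add_mem _ h h'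
    | tmul m v =>
      obtain ⟨v, hv⟩ := v
      obtain ⟨r, rfl⟩ := Submodule.Quotient.mk_surjective J v
      have hr : r ∈ J' := (Submodule.Quotient.mk_eq_zero J').1 hv
      obtain ⟨i, hi, j, hj, rfl⟩ := Submodule.mem_sup.1 (hJ' hr)
      have e : (Submodule.Quotient.mk (i + j) : R ⧸ J) = i • Submodule.Quotient.mk 1 := by
        rw [← Submodule.Quotient.mk_smul, Submodule.Quotient.eq]
        simpa using hj
      rw [LinearMap.lTensor_tmul, Submodule.subtype_apply]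
      change m ⊗ₜ[R] (Submodule.Quotient.mk (i + j) : R ⧸ J) ∈ _
      rw [e, TensorProduct.tmul_smul, ← algebraMap_smul T i]
      exact Submodule.smul_mem_smul (hI i hi) Submodule.mem_top
  have hm : (𝔟 • ⊤ : Submodule T (F ⊗[R] (R ⧸ J))).map f = 𝔟 • ⊤ := by
    rw [Submodule.map_smul'', Submodule.map_top, LinearMap.range_eq_top.2 hf]
  have hc : (𝔟 • ⊤ : Submodule T (F ⊗[R] (R ⧸ J'))).comap f = 𝔟 • ⊤ := by
    rw [← hm, Submodule.comap_map_eq, sup_eq_left.2 hk]
  refine ⟨LinearEquiv.ofBijective (Submodule.mapQ _ _ f hc.ge) ⟨?_, ?_⟩⟩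
  · rw [← LinearMap.ker_eq_bot, Submodule.ker_mapQ, hc, Submodule.mkQ_map_self]
  · intro x
    obtain ⟨x, rfl⟩ := Submodule.Quotient.mk_surjective _ x
    obtain ⟨x, rfl⟩ := hf x
    exact ⟨Submodule.Quotient.mk x, rfl⟩

theorem len_one {A : Type u} [CommRing A] (N : Type u) [AddCommGroup N] [Module A N] :
    Module.length A (smulTop (1 : A) N) = Module.length A N := by
  have e : smulTop (1 : A) N = ⊤ := eq_top_iff.2 fun x _ => ⟨x, one_smul A x⟩
  rw [e, Module.length_top]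

variable {p d a b : ℕ} {R : Type u} [CommRing R] [IsLocalRing R] [IsNoetherianRing R]
  {S : Setup p d a b R}

theorem hasRes (S : Setup p d a b R) : HasRes R d := by
  simpa using hasRes_of_reg S.reg S.span_x

variable [Fact p.Prime] [IsAlgClosed (ResidueField R)]

theorem chi_ci (R' : Type u) [CommRing R'] [IsLocalRing R'] [Algebra R R']
    [Module.Finite R R'] [Module.Free R R'] {y : Fin (a + 1) → R'}
    (hm : ∀ j, y j ∈ maximalIdeal R') (hy : InA S.I (R' ⧸ Ideal.span (Set.range y))) :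
    IsSop (R' ⊗[R] (R ⧸ S.I.colon {S.z})) (List.ofFn y) ∧
    chi R (R ⧸ S.I.colon {S.z}) (R' ⧸ Ideal.ofList (List.ofFn y)) =
      mult (R' ⊗[R] (R ⧸ S.I.colon {S.z})) (List.ofFn y) := by
  obtain ⟨h1, h2, hres, hreg, -, hsop⟩ := S.reg_ext R' hm hy
  obtain ⟨e⟩ := nonempty_colon_equiv R' S.I S.z
  have hs : IsSop (R' ⊗[R] (R ⧸ S.I.colon {S.z})) (List.ofFn y) :=
    hsop.of_injective ((Submodule.subtype _).comp e.toLinearMap)
      ((Submodule.subtype_injective _).comp e.injective)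
  exact ⟨hs, chi_eq_mult (hasRes S) R' hres hreg hs⟩

end Vale.Agent.P177.MMB
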