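import Vale.Agent.P177.LevelEst
import Vale.Agent.P177.MuDef
import Vale.Agent.P177.KLemma
import Vale.Agent.P177.MuMemAuxB
import Vale.Agent.P177.MuMemAuxA

/-! P177 module MuMem: the functional `μ` attached to a tower of levels. -/

namespace Vale.Agent.P177

open Vale.Agent.P202 IsLocalRing TensorProduct

universe u

variable {p d a b : ℕ} {R : Type u} [CommRing R] [IsLocalRing R] [IsNoetherianRing R]
  {S : Setup p d a b R} {N₀ : ℕ} (L : ∀ k, Level S N₀ k)

/-- The product of the levels. -/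
abbrev TT : Type u := ∀ k, (L k).A
/-- The direct sum of the levels. -/
abbrev FF : Type u := FS fun k => (L k).A
/-- The diagonal sequence. -/
def yT : Fin d → TT L := fun i k => (L k).y i
/-- The sequence `(F, t)`. -/
def qT : Fin (a + 1) → TT L := Fin.cons (fun k => (L k).F) fun l k => (L k).t l
/-- The functionals of a tower. -/
abbrev Mu : Type (u + 1) := MuData (p : TT L) (fun k => (L k).F) (fun k => (L k).α)
  (fun k => (L k).β) fun k => (L k).ρ
/-- The class of a tower. -/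
abbrev ClT (X : Type u) [AddCommGroup X] [Module (TT L) X] : Prop :=
  Cl (p : TT L) (fun k => (L k).F) ((fun k => (L k).α) + fun k => (L k).β) (fun k => (L k).ρ) X
/-- The zeroth homology. -/
abbrev HT (𝔟 : Ideal (TT L)) (V : Type u) [AddCommGroup V] [Module R V] : Type u :=
  (FF L ⊗[R] V) ⧸ (𝔟 • ⊤ : Submodule (TT L) (FF L ⊗[R] V))

theorem nonempty_mu : Nonempty (Mu L) :=
  exists_muData _ _ _ _ _ (fun k => (L k).ρ_pos) fun k => (L k).hαβ

variable {L} [Fact p.Prime] {V : Type u} [AddCommGroup V] [Module R V]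

section A
omit [IsNoetherianRing R] [Fact p.Prime] in
theorem mma_map_yT (k : ℕ) :
    (Ideal.span (Set.range (yT L))).map (Pi.evalRingHom (fun k => (L k).A) k) = (L k).Y := by
  rw [Ideal.map_span, ← Set.range_comp]
  rfl

omit [IsNoetherianRing R] [Fact p.Prime] in
theorem mma_map_qT (k : ℕ) :
    (Ideal.span (Set.range (qT L))).map (Pi.evalRingHom (fun k => (L k).A) k) =
      Ideal.span {(L k).F} ⊔ Ideal.span (Set.range (L k).t) := by
  rw [qT, Fin.range_cons, Ideal.span_insert, Ideal.map_sup, Ideal.map_span, Ideal.map_span,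
    ← Set.range_comp, Set.image_singleton]
  rfl

omit [IsNoetherianRing R] [Fact p.Prime] in
theorem mma_lenk_J₀ (θ : TT L) (k : ℕ) :
    lenk θ k (HT L (Ideal.span (Set.range (yT L))) (R ⧸ S.J)) =
      Module.length (L k).A (smulTop (θ k) ((L k).A ⧸ (L k).J₀)) := by
  rw [lenk_quot, MMA.len_tensor, mma_map_yT]
  rfl

omit [IsNoetherianRing R] [Fact p.Prime] in
theorem mma_lenk_J₁ (θ : TT L) (k : ℕ) :
    lenk θ k (HT L (Ideal.span (Set.range (qT L))) (R ⧸ maximalIdeal R)) =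
      Module.length (L k).A (smulTop (θ k) ((L k).A ⧸ (L k).J₁)) := by
  rw [lenk_quot, MMA.len_tensor, mma_map_qT, sup_comm, ← sup_assoc]
  rfl

omit [IsNoetherianRing R] [Fact p.Prime] in
theorem mma_map_I_le_Y {N₀ k : ℕ} (L : Level S N₀ k) : S.I.map (algebraMap R L.A) ≤ L.Y := by
  rw [Setup.I, Ideal.map_span, Ideal.span_le]
  rintro _ ⟨_, ⟨j, rfl⟩, rfl⟩
  exact L.hI j

omit [IsNoetherianRing R] [Fact p.Prime] in
theorem mma_map_I_le_yT : S.I.map (algebraMap R (TT L)) ≤ Ideal.span (Set.range (yT L)) :=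
  Ideal.map_le_iff_le_comap.2 fun _ hr => (LU.mem_span_pi (fun k => (L k).y) _).2 fun k =>
    mma_map_I_le_Y (L k) (Ideal.mem_map_of_mem _ hr)

omit [IsNoetherianRing R] [Fact p.Prime] in
theorem mma_J_le_max : S.J ≤ maximalIdeal R :=
  sup_le (sup_le (Ideal.span_le.2 (Set.range_subset_iff.2 S.hm))
    ((Ideal.span_singleton_le_iff_mem _).2 S.pm)) (Ideal.span_le.2 (Set.range_subset_iff.2 S.sm))

omit [IsNoetherianRing R] [Fact p.Prime] in
theorem mma_kill_p {K : Ideal R} (hK : (p : R) ∈ K) (𝔟 : Ideal (TT L)) (x : HT L 𝔟 (R ⧸ K)) :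
    (p : TT L) • x = 0 := by
  refine MMA.kill (Ideal.mem_sup_right ?_) x
  rw [← map_natCast (algebraMap R (TT L)), Ideal.annihilator_quotient]
  exact Ideal.mem_map_of_mem _ hK

/-- `lenk_quot`, `Level.count`, `Level.small`. -/
theorem cl_J₀ : ClT L (HT L (Ideal.span (Set.range (yT L))) (R ⧸ S.J)) := by
  have hc : ∀ k, Module.length (L k).A ((L k).A ⧸ (L k).J₀) =
      ((Module.length R (R ⧸ S.J)).toNat * (L k).ρ : ℕ) := fun k => by
    rw [Nat.cast_mul, ENat.natCast_toNat S.length_J, mul_comm]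
    exact (L k).count
  refine ⟨⟨1, fun x => ⟨?_, ?_⟩⟩, ⟨(Module.length R (R ⧸ S.J)).toNat, fun k => ?_⟩, ?_⟩
  · rw [pow_one]
    exact mma_kill_p (Ideal.mem_sup_left (Ideal.mem_sup_right (Ideal.mem_span_singleton_self _))) _ x
  · rw [pow_one]
    exact MMA.kill (Ideal.mem_sup_left ((LU.mem_span_pi (fun k => (L k).y) _).2
      fun k => (L k).hF)) x
  · rw [mma_lenk_J₀, Pi.one_apply, MMA.len_one, hc]
  · obtain ⟨c, hcc⟩ : ∃ c : ℕ, Module.length R
        (R ⧸ (S.I ⊔ Ideal.span {S.z + S.w} ⊔ Ideal.span (Set.range S.s))) = c := by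
      refine ⟨_, (ENat.natCast_toNat (inA_bot_iff.1 (inA_quot_iff.2 ?_))).symm⟩
      rw [bot_sup_eq]
      exact S.sop_c
    have hp : (1 : ℝ) < p := by exact_mod_cast (Fact.out : p.Prime).one_lt
    have key : ∀ k, ∃ u : ℕ, p ^ k * u ≤ (L k).ρ * c ∧
        (((lenk (1 : TT L) k (HT L (Ideal.span (Set.range (yT L))) (R ⧸ S.J))).toNat : ℝ) -
          (lenk ((fun k => (L k).α) + fun k => (L k).β : TT L) k
            (HT L (Ideal.span (Set.range (yT L))) (R ⧸ S.J))).toNat) = u := fun k => by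
      have h1 := MMA.len_split ((L k).α + (L k).β) (L k).J₀
      have h2 := (L k).small
      have h3 : _ + _ ≠ ⊤ := h1 ▸ (hc k).trans_ne (ENat.natCast_ne_top _)
      obtain ⟨h4, h5⟩ := WithTop.add_ne_top.1 h3
      rw [mma_lenk_J₀, mma_lenk_J₀, Pi.one_apply, MMA.len_one, h1, ENat.toNat_add h4 h5, Nat.cast_add]
      refine ⟨_, ?_, add_sub_cancel_right _ _⟩
      rw [hcc, ← ENat.natCast_toNat h4] at h2
      exact_mod_cast h2
    choose u hu hu' using key
    simp only [hu']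
    refine squeeze_zero (fun k => by positivity) (fun k => ?_)
      ((tendsto_pow_atTop_atTop_of_one_lt hp).const_div_atTop c)
    have h1 : (0 : ℝ) < (L k).ρ := by exact_mod_cast (L k).ρ_pos
    rw [div_le_div_iff₀ h1 (by positivity), mul_comm, mul_comm (c : ℝ)]
    exact_mod_cast hu k
/-- `lenk_quot`, `Level.len_J₁`. -/
theorem cl_J₁ (M : Mu L) : ClT L (HT L (Ideal.span (Set.range (qT L))) (R ⧸ maximalIdeal R)) ∧
    M.La.val (HT L (Ideal.span (Set.range (qT L))) (R ⧸ maximalIdeal R)) =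
      M.La.val (HT L (Ideal.span (Set.range (yT L))) (R ⧸ S.J)) := by
  have h1 : ∀ k, lenk (1 : TT L) k (HT L (Ideal.span (Set.range (qT L))) (R ⧸ maximalIdeal R)) =
      lenk (1 : TT L) k (HT L (Ideal.span (Set.range (yT L))) (R ⧸ S.J)) := fun k => by
    rw [mma_lenk_J₀, mma_lenk_J₁, Pi.one_apply, MMA.len_one, MMA.len_one, (L k).len_J₁.1]
  have h2 : ∀ k, lenk ((fun k => (L k).α) + fun k => (L k).β : TT L) k
      (HT L (Ideal.span (Set.range (qT L))) (R ⧸ maximalIdeal R)) =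
      lenk ((fun k => (L k).α) + fun k => (L k).β : TT L) k
        (HT L (Ideal.span (Set.range (yT L))) (R ⧸ S.J)) := fun k => by
    rw [mma_lenk_J₀, mma_lenk_J₁]
    exact (L k).len_J₁.2.2
  refine ⟨⟨⟨1, fun x => ⟨?_, ?_⟩⟩, ?_, ?_⟩, ?_⟩
  · rw [pow_one]
    exact mma_kill_p S.pm _ x
  · rw [pow_one]
    exact MMA.kill (Ideal.mem_sup_left (Ideal.subset_span (Set.mem_range_self (f := qT L) 0))) x
  · simp only [h1]
    exact cl_J₀.bdd
  · simp only [h1, h2]
    exact cl_J₀.small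
  · rw [M.va, M.va]
    refine muv_congr fun k => ?_
    rw [mma_lenk_J₀, mma_lenk_J₁]
    exact (L k).len_J₁.2.1
/-- `HT` is a quotient of finitely many copies of `FF / J ^ N FF` (`mem_quot_pow`). -/
theorem cl_HT_y (hV : InA S.I V) {𝔟 : Ideal (TT L)} {N : ℕ}
    (h : Ideal.span (Set.range (yT L)) ^ N ≤ 𝔟) : ClT L (HT L 𝔟 V) := by
  obtain ⟨M⟩ := nonempty_mu L
  obtain ⟨_, n, hn⟩ := hV
  have h1 : S.J.map (algebraMap R (TT L)) ^ n ≤
      Ideal.span (Set.range (yT L)) ⊔ (Module.annihilator R V).map (algebraMap R (TT L)) := by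
    rw [← Ideal.map_pow]
    refine (Ideal.map_mono ((Ideal.pow_right_mono mma_J_le_max n).trans hn)).trans ?_
    rw [Ideal.map_sup]
    exact sup_le_sup_right mma_map_I_le_yT _
  refine (M.ma _).1 (MMA.mem_quot M.La (Submodule.fg_span (Set.finite_range _))
    ((M.ma _).2 cl_J₀) (N := (1 + n) * (1 + N)) ?_)
  rw [pow_mul]
  refine (Ideal.pow_right_mono (MMA.pow_le h1) _).trans ?_
  rw [sup_comm, sup_comm 𝔟]
  exact MMA.pow_le (h.trans le_sup_right)
theorem cl_HT_q [Module.Finite R V] {𝔟 : Ideal (TT L)} {N : ℕ}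
    (h : (Ideal.span (Set.range (qT L)) ⊔ (maximalIdeal R).map (algebraMap R (TT L))) ^ N ≤
      𝔟 ⊔ (Module.annihilator R V).map (algebraMap R (TT L))) : ClT L (HT L 𝔟 V) := by
  obtain ⟨M⟩ := nonempty_mu L
  exact (M.ma _).1 (MMA.mem_quot M.La (Submodule.fg_span (Set.finite_range _))
    ((M.ma _).2 (cl_J₁ M).1) h)
theorem nullHtp_yT : ∀ h ∈ S.I, NullHtp (kos (yT L)) Finset.card (algebraMap R (TT L) h) :=
  fun _ hh => nullHtp_kos _ (mma_map_I_le_yT (Ideal.mem_map_of_mem _ hh))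

/-- Choose `a + 1` parameters `c` for `R / I` in the annihilator of `V` (`exists_sop_in`); `y` is
regular on `FF ⊗ R / c` (`Level.reg_tensor`, `isWeaklyRegular_FS`); `syzygy_bound`. -/
theorem mfin_yT (δ : AddFun (TT L))
    (hδ : ∀ (X : Type u) [AddCommGroup X] [Module (TT L) X], δ.mem X ↔ ClT L X)
    (hV : InA S.I V) : δ.MFin (kos (yT L)) Finset.card (FF L ⊗[R] V) := by
  obtain ⟨_, n, hn⟩ := hV
  have h1 : maximalIdeal R ^ (n + 1) ≤ S.I ⊔ Module.annihilator R V ⊓ maximalIdeal R := by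
    rw [pow_succ]
    refine (Ideal.mul_mono_left hn).trans ?_
    rw [Ideal.sup_mul]
    exact sup_le_sup Ideal.mul_le_left Ideal.mul_le_inf
  obtain ⟨c, hc, hd⟩ := exists_sop_in (N := Unit) (Module.annihilator R V ⊓ maximalIdeal R)
    (fun _ => S.I) (fun _ => 0) (a + 1) (fun _ => by simpa using S.ciData.dim)
    fun _ => dim_le_zero_iff.2 ⟨_, h1⟩
  obtain ⟨m, hm⟩ := dim_le_zero_iff.1 (hd ())
  have e : Ideal.ofList (List.ofFn c) = Ideal.span (Set.range c) :=
    congrArg Ideal.span (Set.ext fun _ => List.mem_ofFn)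
  rw [← e] at hm
  have hreg : RingTheory.Sequence.IsWeaklyRegular (FF L ⊗[R] (R ⧸ Ideal.ofList (List.ofFn c)))
      (List.ofFn (yT L)) := by
    refine isWeaklyRegular_FS fun k => ?_
    rw [List.map_ofFn]
    obtain ⟨N₁, hN₁⟩ := (L k).J₀_primary
    refine (L k).reg_tensor (q := List.ofFn (L k).y) (List.forall_mem_ofFn_iff.2 fun j => (hc j).2)
      (List.forall_mem_ofFn_iff.2 (L k).ym) (by simp) ⟨N₁ * (1 + m), ?_⟩
    have e' : Ideal.ofList (List.ofFn (L k).y) = (L k).Y :=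
      congrArg Ideal.span (Set.ext fun _ => List.mem_ofFn)
    rw [pow_mul, e', sup_comm]
    refine (Ideal.pow_right_mono hN₁ _).trans (MMA.pow_le ?_)
    rw [← Ideal.map_pow]
    refine (Ideal.map_mono ((Ideal.pow_right_mono mma_J_le_max m).trans hm)).trans ?_
    rw [Ideal.map_sup]
    exact sup_le_sup_right (mma_map_I_le_Y (L k)) _
  have h2 := (AddFun.meul_kos_of_exact (δ := δ) (fun i hi => AddFun.mlen_kos_of_regular hreg hi)
    ((hδ _).2 (cl_HT_y (inA_quot_iff.2 ⟨m, hm⟩) (pow_one _).le))).1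
  have h3 : Ideal.ofList (List.ofFn c) ≤ Module.annihilator R V := by
    rw [e, Ideal.span_le]
    rintro _ ⟨j, rfl⟩
    exact (hc j).1
  refine AddFun.mfin_iff_mhm.2 fun i => ?_
  obtain ⟨K, -, hK⟩ := syzygy_bound (T := TT L) (FF L) _ V h3 i.toNat
  exact (hK δ _ _ (isMC_kos' _) (AddFun.mfin_iff_mhm.1 h2) i (Int.self_le_toNat i)).1
end A

section B
namespace MMB

omit [IsNoetherianRing R] [Fact p.Prime] in
theorem lenk_HT (θ : TT L) (k : ℕ) : lenk θ k (HT L (Ideal.span (Set.range (yT L))) V) =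
    Module.length (L k).A (smulTop (θ k) ((L k).H0 V)) := by
  have e : (Ideal.span (Set.range (yT L))).map (Pi.evalRingHom (fun k => (L k).A) k) =
      (L k).Y := by
    rw [Ideal.map_span, ← Set.range_comp]
    rfl
  rw [lenk_quot, e]

theorem meul_eq_val (δ : AddFun (TT L))
    (hδ : ∀ (X : Type u) [AddCommGroup X] [Module (TT L) X], δ.mem X ↔ ClT L X)
    (hV : InA S.I V) (hreg : ∀ k, RingTheory.Sequence.IsWeaklyRegular ((L k).A ⊗[R] V)
      (List.ofFn (L k).y)) :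
    δ.meul (kos (yT L)) Finset.card (FF L ⊗[R] V) =
      δ.val (HT L (Ideal.span (Set.range (yT L))) V) := by
  have h1 : RingTheory.Sequence.IsWeaklyRegular (FF L ⊗[R] V) (List.ofFn (yT L)) := by
    refine isWeaklyRegular_FS fun k => ?_
    rw [List.map_ofFn]
    exact hreg k
  exact (AddFun.meul_kos_of_exact (fun i hi => AddFun.mlen_kos_of_regular h1 hi)
    ((hδ _).2 (cl_HT_y hV (N := 1) (pow_one _).le))).2

omit [IsNoetherianRing R] [Fact p.Prime] in
theorem map_I_mem (r : R) (hr : r ∈ S.I) :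
    algebraMap R (TT L) r ∈ Ideal.span (Set.range (yT L)) := by
  refine Ideal.mem_comap.1 ((Ideal.span_le (I := Ideal.comap (algebraMap R (TT L)) _)).2 ?_ hr)
  rintro _ ⟨j, rfl⟩
  choose c hc using fun k => Ideal.mem_span_range_iff_exists_fun.1 ((L k).hI j)
  refine Ideal.mem_span_range_iff_exists_fun.2 ⟨fun i k => c k i, funext fun k => ?_⟩
  rw [Finset.sum_apply]
  exact hc k

variable [IsAlgClosed (ResidueField R)]

theorem main (M : Mu L) (R' : Type u) [CommRing R'] [IsLocalRing R'] [Algebra R R']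
    [Module.Finite R R'] [Module.Free R R'] {y : Fin (a + 1) → R'}
    (hm : ∀ j, y j ∈ maximalIdeal R') (hy : InA S.I (R' ⧸ Ideal.span (Set.range y))) :
    M.La.meul (kos (yT L)) Finset.card (FF L ⊗[R] (R' ⧸ Ideal.span (Set.range y))) =
      mult (R' ⊗[R] (R ⧸ S.I.colon {S.z})) (List.ofFn y) := by
  obtain ⟨-, -, -, hreg, -, -⟩ := S.reg_ext R' hm hy
  obtain ⟨K, hK⟩ := S.level_estimate R' hm hy
  obtain ⟨δa, ha1, ha2, -⟩ := exists_genFun (I := S.I) (FF L) M.La (isMC_kos' (yT L))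
    fun V _ _ hV => mfin_yT _ M.ma hV
  obtain ⟨δb, hb1, hb2, -⟩ := exists_genFun (I := S.I) (FF L) M.Lb (isMC_kos' (yT L))
    fun V _ _ hV => mfin_yT _ M.mb hV
  have hρ : ∀ k, 0 < (L k).ρ := fun k => (L k).ρ_pos
  have hA : ∀ t : ℕ, 0 < t → InA S.I (R' ⧸ Ideal.span (Set.range fun j => y j ^ t)) :=
    fun t ht => (ha1 _).1 (val_pow δa hreg ((ha1 _).2 hy) ht).1
  have hcl : ∀ t : ℕ, 0 < t → ClT L (HT L (Ideal.span (Set.range (yT L)))
      (R' ⧸ Ideal.span (Set.range fun j => y j ^ t))) :=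
    fun t ht => cl_HT_y (hA t ht) (N := 1) (pow_one _).le
  have ea : ∀ t : ℕ, 0 < t → M.La.val (HT L (Ideal.span (Set.range (yT L)))
      (R' ⧸ Ideal.span (Set.range fun j => y j ^ t))) =
      (t : ℝ) ^ (a + 1) * δa.val (R' ⧸ Ideal.span (Set.range y)) := fun t ht => by
    rw [← meul_eq_val _ M.ma (hA t ht) fun k => (hK N₀ k (L k) t ht).1, ← ha2,
      (val_pow δa hreg ((ha1 _).2 hy) ht).2]
  have eb : ∀ t : ℕ, 0 < t → M.Lb.val (HT L (Ideal.span (Set.range (yT L)))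
      (R' ⧸ Ideal.span (Set.range fun j => y j ^ t))) =
      (t : ℝ) ^ (a + 1) * δb.val (R' ⧸ Ideal.span (Set.range y)) := fun t ht => by
    rw [← meul_eq_val _ M.mb (hA t ht) fun k => (hK N₀ k (L k) t ht).1, ← hb2,
      (val_pow δb hreg ((hb1 _).2 hy) ht).2]
  have la : (mult (R' ⊗[R] (R ⧸ S.I.colon {S.z})) (List.ofFn y) : ℝ) ≤
      δa.val (R' ⧸ Ideal.span (Set.range y)) := le_of_growth (K := K) (a := a) fun t ht => by
    rw [← ea t ht, M.va]
    refine (hcl t ht).le_muv hρ fun k => ?_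
    rw [lenk_HT]
    exact (hK N₀ k (L k) t ht).2.2.1
  have lb : (mult (R' ⊗[R] (R ⧸ S.I.colon {S.w})) (List.ofFn y) : ℝ) ≤
      δb.val (R' ⧸ Ideal.span (Set.range y)) := le_of_growth (K := K) (a := a) fun t ht => by
    rw [← eb t ht, M.vb]
    refine (hcl t ht).le_muv hρ fun k => ?_
    rw [lenk_HT]
    exact (hK N₀ k (L k) t ht).2.2.2
  have hs := M.sum _ ((M.m1 _).2 (hcl 1 one_pos))
  rw [ea 1 one_pos, eb 1 one_pos, M.v1, muv_eq hρ fun k => by
    rw [lenk_HT, Pi.one_apply, len_one]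
    exact (hK N₀ k (L k) 1 one_pos).2.1] at hs
  rw [← ha2]
  simp only [Nat.cast_one, one_pow, one_mul] at hs
  linarith

end MMB

open MMB

variable [IsAlgClosed (ResidueField R)]

/-- Property (K): `val_quot_pow_regular` for the functionals of `exists_genFun`,
`Setup.level_estimate`, `Cl.le_muv`, let `t → ∞`, and use `M.sum`; then `chi_eq_mult`. -/
theorem mu_eq_chi_ci (M : Mu L) (R' : Type u) [CommRing R'] [IsLocalRing R'] [Algebra R R']
    [Module.Finite R R'] [Module.Free R R'] {y : List R'} (hl : y.length = a + 1)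
    (hm : ∀ r ∈ y, r ∈ maximalIdeal R') (hy : InA S.I (R' ⧸ Ideal.ofList y)) :
    M.La.meul (kos (yT L)) Finset.card (FF L ⊗[R] (R' ⧸ Ideal.ofList y)) =
      chi R (R ⧸ S.I.colon {S.z}) (R' ⧸ Ideal.ofList y) := by
  obtain ⟨y, rfl⟩ : ∃ y' : Fin (a + 1) → R', y = List.ofFn y' :=
    ⟨fun j => y.get (j.cast hl.symm), by
      refine List.ext_getElem (by rw [List.length_ofFn, hl]) fun n h1 h2 => ?_
      rw [List.getElem_ofFn]
      rfl⟩
  have hm' : ∀ j, y j ∈ maximalIdeal R' := fun j => hm _ (List.mem_ofFn.2 ⟨j, rfl⟩)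
  have hy' := hy
  rw [SopAux.ofList_ofFn] at hy'
  rw [(chi_ci R' hm' hy').2, SopAux.ofList_ofFn]
  exact main M R' hm' hy'

variable [IsDomain R] [IsAdicComplete (maximalIdeal R) R]

/-- The K-lemma applied to `μ - chi (R / (I : z)) _`. -/
theorem mu_eq_chi (M : Mu L) (hV : InA S.I V) :
    M.La.meul (kos (yT L)) Finset.card (FF L ⊗[R] V) = chi R (R ⧸ S.I.colon {S.z}) V := by
  obtain ⟨δa, ha1, ha2, ha3⟩ := exists_genFun (I := S.I) (FF L) M.La (isMC_kos' (yT L))
    fun V _ _ hV => mfin_yT _ M.ma hV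
  have hI : S.I ≤ Module.annihilator R (R ⧸ S.I.colon {S.z}) := by
    rw [Ideal.annihilator_quotient]
    exact fun r hr => Submodule.mem_colon_singleton.2 (Ideal.mul_mem_right _ _ hr)
  obtain ⟨δc, hc1, hc2, hc3⟩ := exists_chiFun (hasRes S) hI
  obtain ⟨δ, h1, h2, h3⟩ := exists_sub (I := S.I) δa δc fun V _ _ => (ha1 V).trans (hc1 V).symm
  have hK : KHyp (a + 1) p S.I δ :=
    ⟨Fact.out, S.pm, fun V _ _ => (h1 V).trans (ha1 V), h3 (ha3 nullHtp_yT) hc3,
      fun R' _ _ _ _ _ y hl hm hy => by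
        have hy' := (ha1 _).1 ((h1 _).1 hy)
        rw [h2, ha2, hc2 _ hy', mu_eq_chi_ci M R' hl hm hy', sub_self]⟩
  have h := k_lemma S.ciData hK V hV
  rw [h2, ha2, hc2 V hV] at h
  exact sub_eq_zero.1 h

omit [IsDomain R] [IsAdicComplete (maximalIdeal R) R] in
theorem lambda_pos (M : Mu L) (hz : ((a + 1 : ℕ) : WithBot ℕ∞) ≤
    ringKrullDim (R ⧸ S.I.colon {S.z})) :
    0 < M.La.val (HT L (Ideal.span (Set.range (yT L))) (R ⧸ S.J)) := by
  let y : Fin (a + 1) → R := Fin.cons (p : R) S.s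
  have hm : ∀ j, y j ∈ maximalIdeal R := fun j => Fin.cases S.pm S.sm j
  have hsp : Ideal.span (Set.range y) =
      Ideal.span {(p : R)} ⊔ Ideal.span (Set.range S.s) := by
    rw [Fin.range_cons, Ideal.span_insert]
  have hJ : S.J = S.I ⊔ Ideal.span (Set.range y) := by rw [hsp, ← sup_assoc]; rfl
  have hy : InA S.I (R ⧸ Ideal.span (Set.range y)) := inA_quot_iff.2 (hJ ▸ S.sop_p)
  obtain ⟨e⟩ := quot_equiv (FF L) (J := Ideal.span (Set.range y)) (J' := S.J) (I := S.I)
    (hJ ▸ le_sup_right) hJ.le (map_I_mem (L := L))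
  rw [← M.La.val_equiv _ _ e ((M.ma _).2 (cl_HT_y hy (N := 1) (pow_one _).le))]
  obtain ⟨K, hK⟩ := S.level_estimate R hm hy
  have hreg : ∀ k, RingTheory.Sequence.IsWeaklyRegular
      ((L k).A ⊗[R] (R ⧸ Ideal.span (Set.range y))) (List.ofFn (L k).y) := fun k => by
    have h := (hK N₀ k (L k) 1 one_pos).1
    rwa [show (fun j => y j ^ 1) = y from funext fun j => pow_one _] at h
  rw [← meul_eq_val _ M.ma hy hreg, main M R hm hy]
  have h := mult_pos_of_supportDim (chi_ci R hm hy).1 (by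
    rw [List.length_ofFn, Module.supportDim_eq_of_equiv (TensorProduct.lid R _),
      Module.supportDim_quotient_eq_ringKrullDim]
    exact hz)
  exact_mod_cast h
end B

end Vale.Agent.P177
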