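import Vale.Agent.P177.MuPosAux

/-! P177 module MuPos: positivity of `μ`. -/

namespace Vale.Agent.P177

open Vale.Agent.P202 IsLocalRing TensorProduct MP

universe u

variable {p d a b : ℕ} {R : Type u} [CommRing R] [IsLocalRing R] [IsNoetherianRing R]
  [Fact p.Prime]

section A
variable {S : Setup p d a b R} {N₀ : ℕ} {L : ∀ k, Level S N₀ k}

theorem cl_HT_q_pow {U : Type u} [AddCommGroup U] [Module R U] (hU : InA (⊥ : Ideal R) U)
    (s : ℕ) :
    ClT L (HT L (Ideal.span (Set.range fun j => qT L j ^ s)) U) := by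
  obtain ⟨hf, N, hN⟩ := hU
  rw [bot_sup_eq] at hN
  refine cl_HT_q (N := (a + 1) * s + 1 + N) (sup_pow_le ((span_pow_le _ s).trans le_sup_left)
    ?_ le_rfl)
  rw [← Ideal.map_pow]
  exact (Ideal.map_mono hN).trans le_sup_right

theorem mlen_q (M : Mu L) {U : Type u} [AddCommGroup U] [Module R U] (hU : IsFiniteLength R U)
    {s : ℕ} (hs : 0 < s) {i : ℤ} (hi : i ≠ 0) :
    mlen (TT L) (kos fun j => qT L j ^ s) Finset.card (FF L ⊗[R] U) i = 0 := by
  induction hU with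
  | of_subsingleton => exact mlen_eq_zero_iff.2 fun v _ _ => ⟨0, zero_mem _, Subsingleton.elim _ _⟩
  | @of_simple_quotient U _ _ N hsimp _ ih =>
    obtain ⟨I, hI, ⟨e⟩⟩ := isSimpleModule_iff_quot_maximal.1 hsimp
    obtain rfl := eq_maximalIdeal hI
    obtain ⟨h1, h2, h3⟩ := lT_exact (T := TT L) (FF L) N.subtype_injective N.mkQ_surjective
      (LinearMap.exact_subtype_mkQ N)
    have h4 := AddFun.mlen_mid (T := TT L) (isMC_kos' fun j => qT L j ^ s) h1 h2 h3 i
    have h5 := (AddFun.mhm_equiv (δ := M.La) (isMC_kos' fun j => qT L j ^ s)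
      (AlgebraTensorModule.congr (LinearEquiv.refl (TT L) (FF L)) e) i).2.2
    rw [ih, h5, AddFun.mlen_kos_of_regular (AddFun.val_quot_pow_regular (δ := M.La) reg_q
      ((M.ma _).2 (cl_J₁ M).1) hs).1 hi, add_zero] at h4
    exact le_antisymm h4 zero_le

theorem meul_q (M : Mu L) {U : Type u} [AddCommGroup U] [Module R U]
    (hU : InA (⊥ : Ideal R) U) {s : ℕ} (hs : 0 < s) :
    M.La.MFin (kos fun j => qT L j ^ s) Finset.card (FF L ⊗[R] U) ∧
      M.La.meul (kos fun j => qT L j ^ s) Finset.card (FF L ⊗[R] U) =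
        M.La.val (HT L (Ideal.span (Set.range fun j => qT L j ^ s)) U) :=
  AddFun.meul_kos_of_exact
    (fun _ hi => mlen_q M (Module.length_ne_top_iff.1 (inA_bot_iff.1 hU)) hs hi)
    ((M.ma _).2 (cl_HT_q_pow hU s))

/-- The sequence `(F, t)` has no higher Koszul homology on `FF ⊗ U` for `U` of finite length
(regular for `U = k` by `Level.reg_tensor`; induction with `mlen_mid`), and the Euler
characteristic is additive in `U` (`exists_genFun` with `I = ⊥`, `val_eq_length_mul_residue`,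
`kos_pow`). -/
theorem val_HT_q (M : Mu L) (U : Type u) [AddCommGroup U] [Module R U]
    (hU : Module.length R U ≠ ⊤) {s : ℕ} (hs : 0 < s) :
    M.La.val (HT L (Ideal.span (Set.range fun j => qT L j ^ s)) U) =
      (s : ℝ) ^ (a + 1) * (Module.length R U).toNat *
        M.La.val (HT L (Ideal.span (Set.range (qT L))) (R ⧸ maximalIdeal R)) := by
  have h1 : ∀ (U : Type u) [AddCommGroup U] [Module R U], InA (⊥ : Ideal R) U →
      M.La.MFin (kos (qT L)) Finset.card (FF L ⊗[R] U) ∧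
      M.La.meul (kos (qT L)) Finset.card (FF L ⊗[R] U) =
        M.La.val (HT L (Ideal.span (Set.range (qT L))) U) := fun U _ _ hU => by
    have := meul_q M hU one_pos
    rwa [show (fun j => qT L j ^ 1) = qT L from funext fun j => pow_one _] at this
  obtain ⟨δ, hm, hv, -⟩ := exists_genFun (I := ⊥) (FF L) M.La (isMC_kos' (qT L))
    fun U _ _ hU => (h1 U hU).1
  have hA := inA_bot_iff.2 hU
  have hk : InA (⊥ : Ideal R) (R ⧸ maximalIdeal R) := inA_quot_iff.2 ⟨1, by simp⟩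
  have := hA.1
  have h2 := val_eq_length_mul_residue ((hm _).2 hk) hU
  rw [hv, hv, (h1 _ hk).2] at h2
  rw [← (meul_q M hA hs).2, (AddFun.kos_pow _ (h1 U hA).1 hs).2, h2, Fintype.card_fin, mul_assoc]

/-- Lower bound for the zeroth homology: for `t = K s` the ideal `(y ^ t)` lies in
`(q ^ s) + ann U`, `U = R / (J, h ^ s)`, and `l(U) ≥ s ^ b`. -/
theorem lower_H0 (hN : 0 < N₀) (M : Mu L) {J : Ideal R} (hJ : InA S.I (R ⧸ J))
    (hd : (b : WithBot ℕ∞) ≤ ringKrullDim (R ⧸ J)) : ∃ K : ℕ, 0 < K ∧ ∀ s : ℕ, 0 < s →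
      (s : ℝ) ^ d * M.La.val (HT L (Ideal.span (Set.range (yT L))) (R ⧸ S.J)) ≤
        M.La.val (HT L (Ideal.span (Set.range fun j => yT L j ^ (K * s))) (R ⧸ J)) := by
  obtain ⟨N₁, hN₁⟩ := inA_quot_iff.1 hJ
  have hsop : IsSop (R ⧸ J) (List.ofFn S.h) := isSop_quotient_iff.2 ⟨fun r hr => by
    obtain ⟨j, rfl⟩ := List.mem_ofFn.1 hr
    exact S.hm j, N₁, by rwa [ofList_ofFn, sup_comm]⟩
  have hpos := mult_pos_of_supportDim hsop (by
    rwa [Module.supportDim_quotient_eq_ringKrullDim, List.length_ofFn])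
  refine ⟨N₀ * (a + 2 + N₁ * (b + 2)) + N₁ * (b + 2) + 1, Nat.succ_pos _, fun s hs => ?_⟩
  let U := (R ⧸ J) ⧸ (Ideal.ofList ((List.ofFn S.h).map (· ^ s)) • ⊤ : Submodule R (R ⧸ J))
  have hU : Module.length R U ≠ ⊤ := (hsop.pow hs).length_ne_top
  have hlen : (s : ℝ) ^ b ≤ (Module.length R U).toNat := by
    have h1 := mult_le_length (hsop.pow hs)
    rw [mult_pow hsop hs, List.length_ofFn] at h1
    have h2 : (s : ℤ) ^ b ≤ (Module.length R U).toNat :=
      (le_mul_of_one_le_right (by positivity) hpos).trans h1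
    exact_mod_cast h2
  have hann : maximalIdeal R ^ (N₁ * (b * s + 1 + 1)) ≤ Module.annihilator R U := by
    rw [pow_mul]
    refine (Ideal.pow_right_mono hN₁ _).trans (sup_pow_le (m := b * s + 1) (n := 1) ?_ ?_ le_rfl)
    · refine (span_pow_le _ s).trans fun r hr => Module.mem_annihilator.2 fun x => ?_
      obtain ⟨x, rfl⟩ := Submodule.Quotient.mk_surjective _ x
      rw [← Submodule.Quotient.mk_smul, Submodule.Quotient.mk_eq_zero, List.map_ofFn, ofList_ofFn]
      exact Submodule.smul_mem_smul hr trivial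
    · rw [pow_one]
      refine fun r hr => Module.mem_annihilator.2 fun x => ?_
      obtain ⟨x, rfl⟩ := Submodule.Quotient.mk_surjective _ x
      rw [← Submodule.Quotient.mk_smul,
        Module.mem_annihilator.1 (Ideal.annihilator_quotient.ge hr) x]
      rfl
  have hann' : (maximalIdeal R).map (algebraMap R (TT L)) ^ (N₁ * (b * s + 1 + 1)) ≤
      Ideal.span (Set.range fun j => qT L j ^ s) ⊔
        (Module.annihilator R U).map (algebraMap R (TT L)) := by
    rw [← Ideal.map_pow]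
    exact (Ideal.map_mono hann).trans le_sup_right
  obtain ⟨φ, hφ⟩ := exists_surj (T := TT L) (FF L) (U := U) (Submodule.mkQ _)
    (Submodule.mkQ_surjective _) (𝔞 := Ideal.span (Set.range fun j =>
      yT L j ^ ((N₀ * (a + 2 + N₁ * (b + 2)) + N₁ * (b + 2) + 1) * s)))
    (𝔟 := Ideal.span (Set.range fun j => qT L j ^ s)) (Ideal.span_le.2 (by
      rintro _ ⟨i, rfl⟩
      have e1 := sup_pow_le ((span_pow_le (qT L) s).trans le_sup_left) hann' le_rfl
        (Ideal.pow_mem_pow (x_pow_mem (L := L) i) _)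
      have hx : S.x i ∈ maximalIdeal R :=
        S.span_x ▸ Ideal.subset_span (List.mem_ofFn.2 ⟨i, rfl⟩)
      have e2 := hann' (Ideal.pow_mem_pow
        (neg_mem (Ideal.mem_map_of_mem (algebraMap R (TT L)) hx)) _)
      rw [← pow_mul] at e1
      have e3 := Ideal.add_pow_mem_of_pow_mem_of_le _ e1 e2
        (k := (N₀ * (a + 2 + N₁ * (b + 2)) + N₁ * (b + 2) + 1) * s) (by
          have h1 : N₁ * (b * s + 1 + 1) ≤ N₁ * (b + 2) * s := by
            rw [mul_assoc]
            exact Nat.mul_le_mul_left _ (by nlinarith)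
          have h2 : (a + 1) * s + 1 + N₁ * (b * s + 1 + 1) ≤ (a + 2 + N₁ * (b + 2)) * s := by
            nlinarith
          have h3 := Nat.mul_le_mul_left N₀ h2
          nlinarith)
      rwa [add_neg_cancel_right] at e3))
  have hc := (M.ma _).2 (cl_HT_y hJ (span_pow_le (yT L)
    ((N₀ * (a + 2 + N₁ * (b + 2)) + N₁ * (b + 2) + 1) * s)))
  refine le_trans ?_ (M.na.val_le_of_surj φ hφ hc)
  have e : (s : ℝ) ^ d = s ^ (a + 1) * s ^ b := by rw [← pow_add, S.dim]
  rw [val_HT_q M U hU hs, (cl_J₁ M).2, e]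
  exact mul_le_mul_of_nonneg_right (mul_le_mul_of_nonneg_left hlen (by positivity))
    (M.na _ ((M.ma _).2 cl_J₀))
end A

section B
variable {S : Setup p d a (b + 1) R} {N₀ : ℕ} {L : ∀ k, Level S N₀ k}

/-- Upper bound for a complete intersection of dimension `b`: the `d - 1` elements `F`, `t`, `g`
(`g ⊆ I` parameters of `R / c`) form a regular sequence `q` on `FF ⊗ R / c`, and `q ^ (K t)` acts
through `(y ^ t)`; `mhm_depth`, `mhm_of_mem`, `val_quot_pow_regular`, `cl_HT_q`. -/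
theorem upper_ci (M : Mu L) {c : List R} (hc : ∀ r ∈ c, r ∈ maximalIdeal R)
    (hl : c.length = a + 2) (hI : InA S.I (R ⧸ Ideal.ofList c))
    (hd : ringKrullDim (R ⧸ Ideal.ofList c) ≤ b) : ∃ K : ℝ, 0 ≤ K ∧ ∀ t : ℕ, 0 < t → ∀ i : ℤ,
      M.L1.mhm (kos fun j => yT L j ^ t) Finset.card (FF L ⊗[R] (R ⧸ Ideal.ofList c)) i ∧
      M.L1.mhv (kos fun j => yT L j ^ t) Finset.card (FF L ⊗[R] (R ⧸ Ideal.ofList c)) i ≤
        K * t ^ (a + 1 + b) := by
  obtain ⟨N, hN⟩ := inA_quot_iff.1 hI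
  obtain ⟨g, hg, hgd⟩ := exists_sop_in (N := Unit) S.I (fun _ => Ideal.ofList c) (fun _ => 0) b
    (fun _ => by rwa [zero_add]) fun _ => dim_le_zero_iff.2 ⟨N, by rwa [sup_comm]⟩
  obtain ⟨N', hN'⟩ := dim_le_zero_iff.1 (hgd ())
  let q : Fin (a + 1 + b) → TT L := Fin.append (qT L) fun j => algebraMap R (TT L) (g j)
  have hq : ∀ j, ∃ r ∈ maximalIdeal R,
      q j - algebraMap R (TT L) r ∈ Ideal.span (Set.range (yT L)) := fun j => by
    refine Fin.addCases (fun j => ?_) (fun j => ?_) j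
    · simpa only [q, Fin.append_left] using qT_sub j
    · exact ⟨g j, S.ciData.le (hg j), by simp [q]⟩
  have hreg : RingTheory.Sequence.IsWeaklyRegular (FF L ⊗[R] (R ⧸ Ideal.ofList c))
      (List.ofFn q) := by
    refine reg_FF hc (fun j k => ?_) (by have := S.dim; omega) fun k => ?_
    · refine Fin.addCases (fun j => ?_) (fun j => ?_) j
      · simpa [q] using qT_mem j k
      · simpa [q] using map_nonunit (algebraMap R (L k).A) _ (S.ciData.le (hg j))
    · obtain ⟨n, hn⟩ := (L k).J₁_primary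
      refine ⟨n * (N' + 1), ?_⟩
      rw [pow_mul]
      refine (Ideal.pow_right_mono hn _).trans ?_
      rw [Level.J₁, sup_assoc, ← range_qT]
      refine sup_pow_le (m := N') (n := 1) ?_ ?_ le_rfl
      · rw [← Ideal.map_pow]
        refine (Ideal.map_mono hN').trans ?_
        rw [Ideal.map_sup]
        refine sup_le_sup_left ?_ _
        rw [Ideal.map_le_iff_le_comap, Ideal.span_le]
        rintro _ ⟨j, rfl⟩
        exact Ideal.subset_span ⟨Fin.natAdd _ j, by simp [q]⟩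
      · rw [pow_one]
        refine le_sup_of_le_right (Ideal.span_mono ?_)
        rintro _ ⟨j, rfl⟩
        exact ⟨Fin.castAdd _ j, by simp [q]⟩
  have hmem : M.L1.mem (HT L (Ideal.span (Set.range q)) (R ⧸ Ideal.ofList c)) := by
    refine (M.m1 _).2 (cl_HT_q (N := 1 + N') (sup_pow_le ?_ ?_ le_rfl))
    · rw [pow_one]
      refine le_sup_of_le_left (Ideal.span_mono ?_)
      rintro _ ⟨j, rfl⟩
      exact ⟨Fin.castAdd _ j, by simp [q]⟩
    · rw [← Ideal.map_pow, Ideal.annihilator_quotient]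
      refine (Ideal.map_mono hN').trans ?_
      rw [Ideal.map_sup, sup_comm]
      refine sup_le_sup_right ?_ _
      rw [Ideal.map_le_iff_le_comap, Ideal.span_le]
      rintro _ ⟨j, rfl⟩
      exact Ideal.subset_span ⟨Fin.natAdd _ j, by simp [q]⟩
  have hq' : ∀ j, q j ^ (N + 1) ∈ Ideal.span (Set.range (yT L)) ⊔
      (Ideal.ofList c).map (algebraMap R (TT L)) := fun j => by
    obtain ⟨r, hr, h⟩ := hq j
    have h1 : algebraMap R (TT L) r ^ N ∈ Ideal.span (Set.range (yT L)) ⊔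
        (Ideal.ofList c).map (algebraMap R (TT L)) := by
      have := Ideal.mem_map_of_mem (algebraMap R (TT L)) (hN (Ideal.pow_mem_pow hr N))
      rw [Ideal.map_sup, map_pow] at this
      have hle := sup_le_sup_right (map_I_le (L := L))
        ((Ideal.ofList c).map (algebraMap R (TT L)))
      exact hle this
    have := Ideal.add_pow_mem_of_pow_mem_of_le _ (m := 1)
      (by rw [pow_one]; exact Ideal.mem_sup_left h) h1 (k := N + 1) (by omega)
    rwa [sub_add_cancel] at this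
  refine ⟨Fintype.card (Finset (Fin d)) * ((((N + 1) * (d + 2) : ℕ) : ℝ) ^ (a + 1 + b) *
    M.L1.val (HT L (Ideal.span (Set.range q)) (R ⧸ Ideal.ofList c))),
    mul_nonneg (Nat.cast_nonneg _) (mul_nonneg (by positivity) (M.n1 _ hmem)), fun t ht i => ?_⟩
  obtain ⟨r1, r2, r3⟩ := AddFun.val_quot_pow_regular hreg hmem
    (t := (N + 1) * (d + 2) * t) (by positivity)
  have hd := (AddFun.mhm_depth (δ := M.L1) (isMC_kos' fun j => yT L j ^ t) _ r1 (fun r hr => by
    obtain ⟨j, rfl⟩ := List.mem_ofFn.1 hr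
    have h1 := sup_pow_le (K := Ideal.span (Set.range fun j => yT L j ^ t) ⊔
      (Ideal.ofList c).map (algebraMap R (TT L))) ((span_pow_le (yT L) t).trans le_sup_left)
      (n := 1) (by rw [pow_one]; exact le_sup_right) (k := (d + 2) * t) (by nlinarith)
      (Ideal.pow_mem_pow (hq' j) _)
    rw [← pow_mul, ← mul_assoc] at h1
    obtain ⟨r', hr', e, he, h2⟩ := Submodule.mem_sup.1 h1
    refine ⟨r', nullHtp_kos _ hr', fun v => ?_⟩
    have he' : e ∈ (Module.annihilator R (R ⧸ Ideal.ofList c)).map (algebraMap R (TT L)) := by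
      rwa [Ideal.annihilator_quotient]
    rw [← h2, add_smul, MP.smul_eq_zero (FF L) he', add_zero])
    i).2
  rw [ofList_ofFn] at hd
  have h3 := AddFun.mhm_of_mem (isMC_kos' fun j => yT L j ^ t) r2
    (i + (List.ofFn fun j => q j ^ ((N + 1) * (d + 2) * t)).length)
  refine ⟨(hd h3.1).1, ((hd h3.1).2 M.n1).trans ((h3.2 M.n1).trans (le_of_eq ?_))⟩
  rw [r3, Nat.cast_mul _ t, mul_pow]
  ring

/-- Use `0 → R / c → R / (c : z') × R / (c : w') → R / ((c : z') + (c : w')) → 0`; the first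
module has no higher homology, the last one is a module over `R / (c, z' + w')`
(`upper_ci`, `syzygy_bound`). -/
theorem upper_H (M : Mu L) {c : List R} (hc : ∀ r ∈ c, r ∈ maximalIdeal R)
    (hl : c.length = a + 1) (hI : InA S.I (R ⧸ Ideal.ofList c)) {z' w' : R}
    (hm : z' + w' ∈ maximalIdeal R) (hzw : z' * w' ∈ Ideal.ofList c)
    (hr : ∀ r, (z' + w') * r ∈ Ideal.ofList c → r ∈ Ideal.ofList c) :
    ∃ K : ℝ, ∀ t : ℕ, 0 < t → ∀ i : ℕ, 0 < i →
      M.L1.mhv (kos fun j => yT L j ^ t) Finset.card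
        (FF L ⊗[R] (R ⧸ (Ideal.ofList c).colon {z'})) i ≤ K * t ^ (a + 1 + b) := by
  obtain ⟨N, hN⟩ := inA_quot_iff.1 hI
  have hdim : ringKrullDim (R ⧸ Ideal.ofList c) ≤ (b + 1 : ℕ) := by
    have := dim_le_of_isSop (I := Ideal.ofList c) (y := List.ofFn S.h)
      (isSop_quotient_iff.2 ⟨fun r hr => by
        obtain ⟨j, rfl⟩ := List.mem_ofFn.1 hr
        exact S.hm j, N, by rwa [ofList_ofFn, sup_comm]⟩)
    rwa [List.length_ofFn] at this
  have e1 : Ideal.ofList (c ++ [z' + w']) = Ideal.ofList c ⊔ Ideal.span {z' + w'} := by simp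
  obtain ⟨K₀, hK₀, h₀⟩ := upper_ci M (c := c ++ [z' + w']) (fun r hr => by
      rcases List.mem_append.1 hr with h | h
      · exact hc r h
      · rwa [List.mem_singleton.1 h]) (by simp [hl])
    (inA_quot_iff.2 ⟨N, hN.trans (sup_le_sup_left (e1 ▸ le_sup_left) _)⟩)
    (e1 ▸ dim_sup_le_of_regular hdim hr)
  have l1 : ∀ z : R, Ideal.ofList c ≤ (Ideal.ofList c).colon {z} := fun z t ht =>
    Submodule.mem_colon_singleton.2 (Ideal.mul_mem_right z _ ht)
  obtain ⟨K₁, hK₁, h₁⟩ := syzygy_bound (T := TT L) (FF L) (Ideal.ofList (c ++ [z' + w']))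
    (R ⧸ ((Ideal.ofList c).colon {z'} ⊔ (Ideal.ofList c).colon {w'})) (by
      rw [Ideal.annihilator_quotient, e1, sup_le_iff, Ideal.span_singleton_le_iff_mem, add_comm]
      exact ⟨(l1 _).trans le_sup_left, Submodule.add_mem_sup
        (Submodule.mem_colon_singleton.2 (by rwa [smul_eq_mul, mul_comm]))
        (Submodule.mem_colon_singleton.2 hzw)⟩) d
  obtain ⟨f, g, hf, hg, hfg⟩ := crt_exact (l1 z') (l1 w') fun r ⟨h1, h2⟩ => hr r (by
    rw [mul_comm, mul_add]
    exact add_mem (Submodule.mem_colon_singleton.1 h1) (Submodule.mem_colon_singleton.1 h2))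
  obtain ⟨x1, x2, x3⟩ := lT_exact (T := TT L) (FF L) hf hg hfg
  refine ⟨K₁ * K₀, fun t ht i hi => ?_⟩
  have hD := isMC_kos' fun j => yT L j ^ t
  by_cases hid : i ≤ d
  · obtain ⟨m3, b3⟩ := h₁ M.L1 _ _ hD (fun j => (h₀ t ht j).1) i (by exact_mod_cast hid)
    have z1 := AddFun.mhm_of_mlen_eq_zero (δ := M.L1) (AddFun.mlen_kos_of_regular (T := TT L)
      (AddFun.val_quot_pow_regular (δ := M.L1) (reg_y hc hl hI)
        ((M.m1 _).2 (cl_HT_y hI (N := 1) (pow_one _).le)) ht).1 (i := i) (by omega))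
    obtain ⟨m2, b2⟩ := AddFun.mhm_mid hD x1 x2 x3 z1.1 m3
    have e := AddFun.mhm_equiv (δ := M.L1) hD (prodRight R (TT L) (FF L)
      (R ⧸ (Ideal.ofList c).colon {z'}) (R ⧸ (Ideal.ofList c).colon {w'})) i
    have pr := AddFun.mhm_prod (δ := M.L1) hD (V₁ := FF L ⊗[R] (R ⧸ (Ideal.ofList c).colon {z'}))
      (V₂ := FF L ⊗[R] (R ⧸ (Ideal.ofList c).colon {w'})) i
    have n2 : 0 ≤ M.L1.mhv (kos fun j => yT L j ^ t) Finset.card
        (FF L ⊗[R] (R ⧸ (Ideal.ofList c).colon {w'})) i := M.n1 _ (pr.1.1 (e.1.1 m2)).2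
    have b3' := b3 M.n1 _ (by positivity) fun j => (h₀ t ht j).2
    have b2' := b2 M.n1
    rw [z1.2, e.2.1 m2, pr.2 (e.1.1 m2)] at b2'
    rw [mul_assoc]
    linarith
  · rw [(AddFun.mhm_of_mlen_eq_zero (mlen_eq_zero_of_forall_ne fun s => by
      have := s.card_le_univ
      rw [Fintype.card_fin] at this
      omega)).2]
    positivity

/-- `kos_pow`, `meul_eq_sum`, `mhm_kos_zero`, `0 ≤ La ≤ L1`. -/
theorem mu_pos (hN : 0 < N₀) (M : Mu L)
    (hl0 : 0 < M.La.val (HT L (Ideal.span (Set.range (yT L))) (R ⧸ S.J))) {c : List R}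
    (hc : ∀ r ∈ c, r ∈ maximalIdeal R) (hl : c.length = a + 1)
    (hI : InA S.I (R ⧸ Ideal.ofList c)) {z' w' : R} (hm : z' + w' ∈ maximalIdeal R)
    (hzw : z' * w' ∈ Ideal.ofList c)
    (hr : ∀ r, (z' + w') * r ∈ Ideal.ofList c → r ∈ Ideal.ofList c)
    (hd : ((b + 1 : ℕ) : WithBot ℕ∞) ≤ ringKrullDim (R ⧸ (Ideal.ofList c).colon {z'})) :
    0 < M.La.meul (kos (yT L)) Finset.card (FF L ⊗[R] (R ⧸ (Ideal.ofList c).colon {z'})) := by
  have hJ : InA S.I (R ⧸ (Ideal.ofList c).colon {z'}) := by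
    obtain ⟨N, hN⟩ := inA_quot_iff.1 hI
    exact inA_quot_iff.2 ⟨N, hN.trans (sup_le_sup_left (fun t ht =>
      Submodule.mem_colon_singleton.2 (Ideal.mul_mem_right z' _ ht)) _)⟩
  obtain ⟨K, hK⟩ := upper_H M hc hl hI hm hzw hr
  obtain ⟨K₂, hK₂, h₂⟩ := lower_H0 hN M hJ hd
  set μ := M.La.meul (kos (yT L)) Finset.card (FF L ⊗[R] (R ⧸ (Ideal.ofList c).colon {z'}))
  set l := M.La.val (HT L (Ideal.span (Set.range (yT L))) (R ⧸ S.J))
  have key : ∀ s : ℕ, 0 < s → (s : ℝ) ^ d * l - d * (K * ((K₂ * s : ℕ) : ℝ) ^ (a + 1 + b)) ≤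
      ((K₂ * s : ℕ) : ℝ) ^ d * μ := fun s hs => by
    have ht : 0 < K₂ * s := Nat.mul_pos hK₂ hs
    have k1 := AddFun.kos_pow _ (mfin_yT M.La M.ma hJ) ht
    have k2 := AddFun.mfin_iff_mhm.1 (AddFun.kos_pow _ (mfin_yT M.L1 M.m1 hJ) ht).1
    rw [Fintype.card_fin] at k1
    rw [← k1.2, AddFun.meul_eq_sum (n := d) fun s => by simpa using s.card_le_univ,
      Finset.sum_range_succ', pow_zero, one_mul, Nat.cast_zero,
      (AddFun.mhm_kos_zero _).2.1 ((M.ma _).2 (cl_HT_y hJ (span_pow_le (yT L) _)))]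
    have k3 : ∀ i ∈ Finset.range d, -(K * ((K₂ * s : ℕ) : ℝ) ^ (a + 1 + b)) ≤
        (-1 : ℝ) ^ (i + 1) * M.La.mhv (kos fun j => yT L j ^ (K₂ * s)) Finset.card
          (FF L ⊗[R] (R ⧸ (Ideal.ofList c).colon {z'})) (i + 1 : ℕ) := fun i _ => by
      have u1 := hK _ ht (i + 1) i.succ_pos
      have c1 := (M.m1 _).1 (k2 (i + 1 : ℕ))
      have u2 := M.na _ ((M.ma _).2 c1)
      have u3 := M.nb _ ((M.mb _).2 c1)
      have u4 := M.sum _ (k2 (i + 1 : ℕ))
      unfold AddFun.mhv AddFun.hv AddFun.rv at u1 ⊢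
      rcases neg_one_pow_eq_or ℝ (i + 1) with h | h <;> rw [h] <;> linarith
    have k4 := Finset.card_nsmul_le_sum _ _ _ k3
    rw [Finset.card_range, nsmul_eq_mul] at k4
    linarith [h₂ s hs]
  by_contra hneg
  rw [not_lt] at hneg
  obtain ⟨s, hs⟩ := exists_nat_gt (max 0 (d * K * (K₂ : ℝ) ^ (a + 1 + b) / l))
  have hs0 : (0 : ℝ) < s := (le_max_left _ _).trans_lt hs
  have h1 := (key s (by exact_mod_cast hs0)).trans
    (mul_nonpos_of_nonneg_of_nonpos (by positivity) hneg)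
  have h2 := (div_lt_iff₀ hl0).1 ((le_max_right _ _).trans_lt hs)
  have h3 : (s : ℝ) ^ d = s ^ (a + 1 + b) * s := by
    rw [← pow_succ, add_assoc (a + 1), S.dim]
  have h4 : (0 : ℝ) < (s : ℝ) ^ (a + 1 + b) := by positivity
  rw [h3, Nat.cast_mul, mul_pow] at h1
  nlinarith
end B

end Vale.Agent.P177
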