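import Vale.Agent.P177.MuMem

/-! P177 module MuPosAux: ideals of the product ring and maps between tensor products. -/

namespace Vale.Agent.P177.MP

open Vale.Agent.P202 IsLocalRing TensorProduct

universe u

theorem ofList_ofFn {R : Type*} [CommRing R] {n : ℕ} (h : Fin n → R) :
    Ideal.ofList (List.ofFn h) = Ideal.span (Set.range h) := by
  unfold Ideal.ofList
  congr 1
  ext r
  simp [List.mem_ofFn]

theorem span_pow_le {B : Type*} [CommRing B] {n : ℕ} (b : Fin n → B) (t : ℕ) :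
    Ideal.span (Set.range b) ^ (n * t + 1) ≤ Ideal.span (Set.range fun j => b j ^ t) := by
  have : ∀ s : Finset (Fin n), Ideal.span (b '' s) ^ (s.card * t + 1) ≤
      Ideal.span (Set.range fun j => b j ^ t) := by
    intro s
    induction s using Finset.induction_on with
    | empty => simp
    | insert j s hj ih =>
      rw [Finset.card_insert_of_notMem hj, Finset.coe_insert, Set.image_insert_eq,
        Ideal.span_insert, show (s.card + 1) * t + 1 = t + (s.card * t + 1) by ring]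
      refine Ideal.sup_pow_add_le_pow_sup_pow.trans (sup_le ?_ ih)
      rw [Ideal.span_singleton_pow, Ideal.span_singleton_le_iff_mem]
      exact Ideal.subset_span ⟨j, rfl⟩
  simpa using this Finset.univ

theorem sup_pow_le {B : Type*} [CommRing B] {I J K : Ideal B} {m n : ℕ} (h1 : I ^ m ≤ K)
    (h2 : J ^ n ≤ K) {k : ℕ} (hk : m + n ≤ k) : (I ⊔ J) ^ k ≤ K :=
  (Ideal.pow_le_pow_right hk).trans (Ideal.sup_pow_add_le_pow_sup_pow.trans (sup_le h1 h2))

section T
variable {R T : Type u} [CommRing R] [CommRing T] [Algebra R T] (𝔉 : Type u) [AddCommGroup 𝔉]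
  [Module R 𝔉] [Module T 𝔉] [IsScalarTower R T 𝔉] {V U X : Type u} [AddCommGroup V] [Module R V]
  [AddCommGroup U] [Module R U] [AddCommGroup X] [Module R X]

theorem smul_eq_zero {θ : T} (h : θ ∈ (Module.annihilator R V).map (algebraMap R T))
    (x : 𝔉 ⊗[R] V) : θ • x = 0 := by
  induction h using Submodule.span_induction with
  | mem y hy =>
    obtain ⟨r, hr, rfl⟩ := hy
    rw [algebraMap_smul]
    induction x using TensorProduct.induction_on with
    | zero => simp
    | tmul f v => rw [← tmul_smul, Module.mem_annihilator.1 hr, tmul_zero]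
    | add x y hx hy => rw [smul_add, hx, hy, add_zero]
  | zero => simp
  | add y z _ _ hy hz => rw [add_smul, hy, hz, add_zero]
  | smul c y _ hy => rw [smul_eq_mul, mul_smul, hy, smul_zero]

theorem exists_surj (g : V →ₗ[R] U) (hg : Function.Surjective g) {𝔞 𝔟 : Ideal T}
    (h : 𝔞 ≤ 𝔟 ⊔ (Module.annihilator R U).map (algebraMap R T)) :
    ∃ φ : ((𝔉 ⊗[R] V) ⧸ (𝔞 • ⊤ : Submodule T (𝔉 ⊗[R] V))) →ₗ[T]
      ((𝔉 ⊗[R] U) ⧸ (𝔟 • ⊤ : Submodule T (𝔉 ⊗[R] U))), Function.Surjective φ := by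
  refine ⟨Submodule.mapQ _ _ (AlgebraTensorModule.lTensor T 𝔉 g) (Submodule.smul_le.2
    fun r hr x _ => ?_), fun y => ?_⟩
  · obtain ⟨b, hb, c, hc, rfl⟩ := Submodule.mem_sup.1 (h hr)
    rw [Submodule.mem_comap, map_smul, add_smul, smul_eq_zero 𝔉 hc, add_zero]
    exact Submodule.smul_mem_smul hb trivial
  · obtain ⟨y, rfl⟩ := Submodule.Quotient.mk_surjective _ y
    obtain ⟨x, rfl⟩ := LinearMap.lTensor_surjective 𝔉 hg y
    exact ⟨Submodule.Quotient.mk x, rfl⟩

theorem lT_exact [Module.Flat R 𝔉] {f : V →ₗ[R] U} {g : U →ₗ[R] X} (hf : Function.Injective f)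
    (hg : Function.Surjective g) (h : Function.Exact f g) :
    Function.Injective (AlgebraTensorModule.lTensor T 𝔉 f) ∧
      Function.Surjective (AlgebraTensorModule.lTensor T 𝔉 g) ∧
      Function.Exact (AlgebraTensorModule.lTensor T 𝔉 f) (AlgebraTensorModule.lTensor T 𝔉 g) :=
  ⟨Module.Flat.lTensor_preserves_injective_linearMap f hf, LinearMap.lTensor_surjective 𝔉 hg,
    lTensor_exact 𝔉 h hg⟩
end T

theorem crt_exact {R : Type u} [CommRing R] {I K K' : Ideal R} (h : I ≤ K) (h' : I ≤ K')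
    (hi : K ⊓ K' ≤ I) : ∃ (f : (R ⧸ I) →ₗ[R] (R ⧸ K) × (R ⧸ K'))
      (g : ((R ⧸ K) × (R ⧸ K')) →ₗ[R] R ⧸ (K ⊔ K')),
      Function.Injective f ∧ Function.Surjective g ∧ Function.Exact f g := by
  refine ⟨(Submodule.factor h).prod (Submodule.factor h'),
    (Submodule.factor le_sup_left).coprod (-Submodule.factor le_sup_right), ?_, ?_, ?_⟩
  · rw [injective_iff_map_eq_zero]
    intro x hx
    obtain ⟨x, rfl⟩ := Submodule.Quotient.mk_surjective _ x
    have h1 : (Submodule.Quotient.mk x : R ⧸ K) = 0 := congrArg Prod.fst hx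
    have h2 : (Submodule.Quotient.mk x : R ⧸ K') = 0 := congrArg Prod.snd hx
    rw [Submodule.Quotient.mk_eq_zero] at h1 h2 ⊢
    exact hi ⟨h1, h2⟩
  · intro y
    obtain ⟨y, rfl⟩ := Submodule.Quotient.mk_surjective _ y
    exact ⟨(Submodule.Quotient.mk y, 0), by
      rw [LinearMap.coprod_apply, map_zero, add_zero]
      rfl⟩
  · rintro ⟨x, y⟩
    obtain ⟨x, rfl⟩ := Submodule.Quotient.mk_surjective _ x
    obtain ⟨y, rfl⟩ := Submodule.Quotient.mk_surjective _ y
    have e : ((Submodule.factor (le_sup_left : K ≤ K ⊔ K')).coprod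
        (-Submodule.factor (le_sup_right : K' ≤ K ⊔ K')))
        (Submodule.Quotient.mk x, Submodule.Quotient.mk y) = Submodule.Quotient.mk (x - y) := by
      rw [sub_eq_add_neg]
      rfl
    rw [e, Submodule.Quotient.mk_eq_zero]
    constructor
    · intro hm
      obtain ⟨u, hu, v, hv, e⟩ := Submodule.mem_sup.1 hm
      refine ⟨Submodule.Quotient.mk (x - u), Prod.ext ?_ ?_⟩
      · exact (Submodule.Quotient.eq _).2 (by simpa using hu)
      · refine (Submodule.Quotient.eq _).2 ?_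
        change x - u - y ∈ K'
        rwa [show x - u - y = v by linear_combination -e]
    · rintro ⟨r, hr⟩
      obtain ⟨r, rfl⟩ := Submodule.Quotient.mk_surjective _ r
      have h1 : r - x ∈ K := (Submodule.Quotient.eq _).1 (congrArg Prod.fst hr)
      have h2 : r - y ∈ K' := (Submodule.Quotient.eq _).1 (congrArg Prod.snd hr)
      rw [show x - y = r - y - (r - x) by ring]
      exact sub_mem (Ideal.mem_sup_right h2) (Ideal.mem_sup_left h1)

variable {p d a b : ℕ} {R : Type u} [CommRing R] [IsLocalRing R] [IsNoetherianRing R]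
  {S : Setup p d a b R} {N₀ : ℕ} {L : ∀ k, Level S N₀ k}

omit [IsNoetherianRing R] in
theorem range_qT (k : ℕ) : Ideal.span (Set.range fun j => qT L j k) =
    Ideal.span {(L k).F} ⊔ Ideal.span (Set.range (L k).t) := by
  have : (fun j => qT L j k) = Fin.cons (L k).F (L k).t := by
    funext j
    refine Fin.cases rfl (fun _ => rfl) j
  rw [this, Fin.range_cons, Ideal.span_insert]

theorem qT_mem (j : Fin (a + 1)) (k : ℕ) : qT L j k ∈ maximalIdeal (L k).A :=
  Fin.cases (L k).F_mem (L k).t_mem j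

omit [IsNoetherianRing R] in
theorem mem_Y {x : TT L} : x ∈ Ideal.span (Set.range (yT L)) ↔ ∀ k, x k ∈ (L k).Y :=
  LU.mem_span_pi (fun k => (L k).y) x

omit [IsNoetherianRing R] in
theorem map_I_le : S.I.map (algebraMap R (TT L)) ≤ Ideal.span (Set.range (yT L)) := by
  rw [Ideal.map_le_iff_le_comap, Setup.I, Ideal.span_le]
  rintro _ ⟨j, rfl⟩
  exact mem_Y.2 fun k => (L k).hI j

omit [IsNoetherianRing R] in
theorem qT_sub (j : Fin (a + 1)) : ∃ r ∈ maximalIdeal R,
    qT L j - algebraMap R (TT L) r ∈ Ideal.span (Set.range (yT L)) := by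
  refine Fin.cases ⟨0, zero_mem _, mem_Y.2 fun k => ?_⟩
    (fun l => ⟨S.s l, S.sm l, mem_Y.2 fun k => (L k).ht l⟩) j
  rw [map_zero, sub_zero]
  exact (L k).hF

omit [IsNoetherianRing R] in
theorem x_pow_mem (i : Fin d) : (yT L i + algebraMap R (TT L) (S.x i)) ^ N₀ ∈
    Ideal.span (Set.range (qT L)) ⊔ (maximalIdeal R).map (algebraMap R (TT L)) := by
  have h := (LU.mem_span_pi (fun k => (Fin.cons (p : (L k).A) (fun j => qT L j k) :
      Fin (a + 1 + 1) → (L k).A)) ((yT L i + algebraMap R (TT L) (S.x i)) ^ N₀)).2 fun k => by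
    rw [Fin.range_cons, Ideal.span_insert, range_qT, ← sup_assoc, ← Ideal.span_insert]
    exact (L k).hx i
  refine Ideal.span_le.2 ?_ h
  rintro _ ⟨j, rfl⟩
  refine Fin.cases (Ideal.mem_sup_right ?_)
    (fun l => Ideal.mem_sup_left (Ideal.subset_span ⟨l, rfl⟩)) j
  have : (p : TT L) ∈ (maximalIdeal R).map (algebraMap R (TT L)) := by
    simpa using Ideal.mem_map_of_mem (algebraMap R (TT L)) S.pm
  exact this

theorem reg_FF {n : ℕ} {c : List R} (hc : ∀ r ∈ c, r ∈ maximalIdeal R) {q : Fin n → TT L}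
    (hq : ∀ j k, q j k ∈ maximalIdeal (L k).A) (hl : c.length + n = a + 1 + d)
    (hN : ∀ k, ∃ N : ℕ, maximalIdeal (L k).A ^ N ≤
      (Ideal.ofList c).map (algebraMap R (L k).A) ⊔ Ideal.span (Set.range fun j => q j k)) :
    RingTheory.Sequence.IsWeaklyRegular (FF L ⊗[R] (R ⧸ Ideal.ofList c)) (List.ofFn q) := by
  refine isWeaklyRegular_FS fun k => ?_
  rw [List.map_ofFn]
  refine (L k).reg_tensor hc (fun r hr => ?_) (by simpa using hl) ?_
  · obtain ⟨j, rfl⟩ := List.mem_ofFn.1 hr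
    exact hq j k
  · rw [ofList_ofFn]
    exact hN k

theorem reg_q : RingTheory.Sequence.IsWeaklyRegular (FF L ⊗[R] (R ⧸ maximalIdeal R))
    (List.ofFn (qT L)) := by
  have := reg_FF (L := L) (c := List.ofFn S.x) (fun r hr => S.span_x ▸ Ideal.subset_span hr)
    qT_mem (by simp [add_comm]) fun k => by
      rw [S.span_x, range_qT, ← sup_assoc]
      exact (L k).J₁_primary
  rwa [S.span_x] at this

theorem reg_y {c : List R} (hc : ∀ r ∈ c, r ∈ maximalIdeal R) (hl : c.length = a + 1)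
    (hI : InA S.I (R ⧸ Ideal.ofList c)) :
    RingTheory.Sequence.IsWeaklyRegular (FF L ⊗[R] (R ⧸ Ideal.ofList c)) (List.ofFn (yT L)) := by
  refine reg_FF hc (fun j k => (L k).ym j) (by rw [hl]) fun k => ?_
  obtain ⟨N, hN⟩ := (L k).J₀_primary
  obtain ⟨N', hN'⟩ := inA_quot_iff.1 hI
  have hJ : S.J ≤ maximalIdeal R := sup_le (sup_le S.ciData.le
    ((Ideal.span_singleton_le_iff_mem _).2 S.pm))
    (Ideal.span_le.2 (Set.range_subset_iff.2 S.sm))
  refine ⟨N * (1 + N'), ?_⟩
  rw [pow_mul]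
  refine (Ideal.pow_right_mono hN _).trans (sup_pow_le (m := 1) (n := N') ?_ ?_ le_rfl)
  · rw [pow_one]
    exact le_sup_right
  · rw [← Ideal.map_pow]
    refine (Ideal.map_mono ((Ideal.pow_right_mono hJ _).trans hN')).trans ?_
    rw [Ideal.map_sup, sup_comm]
    refine sup_le_sup_left ?_ _
    rw [Ideal.map_le_iff_le_comap, Setup.I, Ideal.span_le]
    rintro _ ⟨j, rfl⟩
    exact (L k).hI j

end Vale.Agent.P177.MP
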