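import Vale.Agent.P177.Gen
import Vale.Agent.P177.Hev

/-! P177: auxiliary lemmas on strands. -/

set_option linter.unusedSectionVars false

namespace Vale.Agent.P177.StA

open Vale.Agent.P202 Polynomial

universe u

variable {R : Type u} [CommRing R] {δ : AddFun R} {ι ι' : Type} [Fintype ι] [Fintype ι']
  {dg w : ι → ℕ} {dg' w' : ι' → ℕ} {D : Matrix ι ι R[X]} {D' : Matrix ι' ι' R[X]}
  {v v' : R[X]} {e e' n : ℕ}

theorem mem_lt {f : R[X]} {N : ℕ} : f ∈ degreeLT R N ↔ (f ≠ 0 → f.natDegree + 1 ≤ N) := by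
  rw [mem_degreeLT]
  by_cases h : f = 0
  · simp [h]
  · rw [← natDegree_lt_iff_degree_lt h]
    exact ⟨fun a _ => a, fun a => a h⟩

theorem mul_mem_lt {f g : R[X]} {N M : ℕ} (hf : f ≠ 0 → f.natDegree + N ≤ M)
    (hg : g ∈ degreeLT R N) : f * g ∈ degreeLT R M := by
  refine mem_lt.2 fun h => ?_
  have h1 := hf (left_ne_zero_of_mul h)
  have h2 := mem_lt.1 hg (right_ne_zero_of_mul h)
  have h3 : (f * g).natDegree ≤ f.natDegree + g.natDegree := natDegree_mul_le
  omega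

theorem mem_st {i : ℤ} {f : ι → R[X]} : f ∈ stFam dg w n i ↔
    ∀ a, ((dg a : ℤ) ≠ i → f a = 0) ∧ f a ∈ degreeLT R (n + w a) := by
  simp only [stFam, Submodule.mem_inf, mem_fam, Submodule.mem_top, implies_true, true_and,
    Submodule.mem_pi, Set.mem_univ, true_imp_iff]
  exact forall_and.symm

theorem mem_v {i : ℤ} {f : ι → R[X]} :
    f ∈ vFam dg w v n i ↔ ∃ g ∈ stFam dg w n i, v • g = f := Iff.rfl

theorem mem_v' {i : ℤ} {f : ι → R[X]} : f ∈ vFam dg w v n i ↔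
    ∀ a, ((dg a : ℤ) ≠ i → f a = 0) ∧ ∃ g ∈ degreeLT R (n + w a), v * g = f a := by
  classical
  rw [mem_v]
  constructor
  · rintro ⟨g, hg, rfl⟩ a
    exact ⟨fun h => by rw [Pi.smul_apply, (mem_st.1 hg a).1 h, smul_zero],
      g a, (mem_st.1 hg a).2, rfl⟩
  · intro h
    choose g hg hg' using fun a => (h a).2
    refine ⟨fun a => if (dg a : ℤ) = i then g a else 0, mem_st.2 fun a => ⟨fun ha => if_neg ha, ?_⟩,
      funext fun a => ?_⟩
    · split_ifs
      · exact hg a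
      · exact zero_mem _
    · rw [Pi.smul_apply, smul_eq_mul]
      split_ifs with ha
      · exact hg' a
      · rw [mul_zero, (h a).1 ha]

theorem mv_st {F : Matrix ι' ι R[X]} {j : ℤ} (hF : IsHomR F dg' dg j) (hw : Wt w' w F) {i : ℤ}
    {f : ι → R[X]} (hf : f ∈ stFam dg w n i) : F.mulVec f ∈ stFam dg' w' n (i - j) := by
  refine mem_st.2 fun a => ⟨fun ha => Finset.sum_eq_zero fun b _ => ?_,
    sum_mem fun b _ => mul_mem_lt (f := F a b) (fun h => by have := hw a b h; omega)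
      (mem_st.1 hf b).2⟩
  by_cases h : F a b = 0
  · exact mul_eq_zero_of_left h _
  · exact mul_eq_zero_of_right _ ((mem_st.1 hf b).1 (by have := hF a b h; omega))

theorem mv_v {F : Matrix ι' ι R[X]} {j : ℤ} (hF : IsHomR F dg' dg j) (hw : Wt w' w F) {i : ℤ}
    {f : ι → R[X]} (hf : f ∈ vFam dg w v n i) : F.mulVec f ∈ vFam dg' w' v n (i - j) := by
  obtain ⟨g, hg, rfl⟩ := mem_v.1 hf
  exact mem_v.2 ⟨_, mv_st hF hw hg, (Matrix.mulVec_smul _ _ _).symm⟩

theorem fam_st (hD : IsMC D (zd dg)) (hw : Wt w w D) : IsFam (cx D dg R[X]) (stFam dg w n) :=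
  fun _ _ hx => by rw [cx_eq_mulVec]; exact mv_st hD.homog hw hx

theorem fam_v (hD : IsMC D (zd dg)) (hw : Wt w w D) : IsFam (cx D dg R[X]) (vFam dg w v n) :=
  fun _ _ hx => by rw [cx_eq_mulVec]; exact mv_v hD.homog hw hx

theorem dd (hD : IsMC D (zd dg)) (x : ι → R[X]) : cx D dg R[X] (cx D dg R[X] x) = 0 := by
  rw [cx_eq_mulVec, cx_eq_mulVec, Matrix.mulVec_mulVec, hD.sq, Matrix.zero_mulVec]

theorem v_le (he : v.natDegree ≤ e) (i : ℤ) : vFam dg w v n i ≤ stFam dg w (n + e) i := by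
  intro f hf
  refine mem_st.2 fun a => ⟨(mem_v'.1 hf a).1, ?_⟩
  obtain ⟨g, hg, h⟩ := (mem_v'.1 hf a).2
  exact h ▸ mul_mem_lt (fun _ => by omega) hg

theorem pair (hD : IsMC D (zd dg)) (hw : Wt w w D) (he : v.natDegree ≤ e) :
    IsPair (cx D dg R[X]) (stFam dg w (n + e)) (vFam dg w v n) :=
  ⟨dd hD, fam_st hD hw, fam_v hD hw, v_le he⟩

section Div
variable {R' : Type u} [CommRing R'] [Algebra R R'] (x s : R')

/-- Homogeneous evaluation of polynomials of degree `< N`. -/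
noncomputable def hvL (N : ℕ) : R[X] →ₗ[R] R' where
  toFun f := if 1 ≤ N then hev (algebraMap R R') x s (N - 1) f else 0
  map_add' f g := by
    split_ifs
    · exact hev_add _ _ _ _ _ _
    · exact (add_zero _).symm
  map_smul' r f := by
    split_ifs
    · rw [smul_eq_C_mul, hev_C_mul, RingHom.id_apply, Algebra.smul_def]
    · exact (smul_zero _).symm

theorem hvL_succ (N : ℕ) (f : R[X]) : hvL x s (N + 1) f = hev (algebraMap R R') x s N f := by
  show (if 1 ≤ N + 1 then hev (algebraMap R R') x s (N + 1 - 1) f else 0) = _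
  rw [if_pos (Nat.le_add_left 1 N), Nat.add_sub_cancel]

theorem hevR_hvL {N : ℕ} {f : R[X]} (hf : f ∈ degreeLT R N) :
    HevR (algebraMap R R') x s N 1 f (hvL x s N f) := ⟨mem_lt.1 hf, rfl⟩

theorem div_iso (hD : IsMC D (zd dg)) (hw : Wt w w D) (he : v.natDegree ≤ e)
    (h0 : hev (algebraMap R R') x s e v = 0)
    (hs : ∀ N y, ∃ f ∈ degreeLT R (N + e), hvL x s (N + e) f = y)
    (hk : ∀ N, ∀ f ∈ degreeLT R (N + e), hvL x s (N + e) f = 0 →
      ∃ g ∈ degreeLT R N, v * g = f) (n : ℕ) :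
    (δ.IFin D dg w v e n ↔ δ.MFin (grM (algebraMap R R') x s w w D) dg R') ∧
      (δ.IFin D dg w v e n →
        δ.Iv D dg w v e n = δ.meul (grM (algebraMap R R') x s w w D) dg R') := by
  classical
  have ee : ∀ a, n + e + w a = n + w a + e := fun a => Nat.add_right_comm _ _ _
  have key : PairIso (cx D dg R[X]) (stFam dg w (n + e)) (vFam dg w v n)
      (cx (grM (algebraMap R R') x s w w D) dg R') (fam dg (⊤ : Submodule R R')) (fam dg ⊥)
      (LinearMap.pi fun a => hvL x s (n + w a + e) ∘ₗ LinearMap.proj a) 1 0 := by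
    refine ⟨fun i f hf => ?_, fun i f hf => ?_, fun i y hy => ?_, fun i f hf h => ?_,
      fun i f hf => ?_⟩
    · refine mem_fam.2 fun a => ⟨fun _ => trivial, fun ha => ?_⟩
      show hvL x s _ (f a) = 0
      rw [(mem_st.1 hf a).1 (by omega), map_zero]
    · rw [fam_bot, Submodule.mem_bot]
      funext a
      obtain ⟨g, hg, h⟩ := (mem_v'.1 hf a).2
      show hvL x s _ (f a) = 0
      have h1 : HevR (algebraMap R R') x s e 0 v 0 := ⟨fun _ => he, by simpa using h0⟩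
      have h2 := (h1.mul (hevR_hvL x s hg)).shift (a' := n + w a + e) (b' := 1) (by omega)
      rw [h, zero_mul] at h2
      exact h2.2
    · choose f hf hf' using fun a => hs (n + w a) (y a)
      refine ⟨fun a => if (dg a : ℤ) = i then f a else 0,
        mem_st.2 fun a => ⟨fun ha => if_neg ha, ?_⟩, ?_⟩
      · split_ifs
        · exact ee a ▸ hf a
        · exact zero_mem _
      · rw [fam_bot, Submodule.mem_bot]
        funext a
        show y a - hvL x s _ (if (dg a : ℤ) = i then f a else 0) = 0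
        split_ifs with ha
        · rw [hf', sub_self]
        · rw [map_zero, (mem_fam.1 hy a).2 (by omega), sub_self]
    · rw [fam_bot, Submodule.mem_bot] at h
      exact mem_v'.2 fun a => ⟨(mem_st.1 hf a).1,
        hk _ _ (ee a ▸ (mem_st.1 hf a).2) (congrFun h a)⟩
    · rw [fam_bot, Submodule.mem_bot, one_smul, sub_eq_zero, cx_eq_mulVec, cx_eq_mulVec]
      funext a
      exact (HevR.sum (a := n + w a + e) (b := 1) Finset.univ fun b _ =>
        ((hw.hevR (algebraMap R R') x s a b).mul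
          (hevR_hvL x s (ee b ▸ (mem_st.1 hf b).2))).shift (by omega)).2
  have h := δ.finH_eul_of_pairIso key (pair hD hw he) (isPair_top_bot (isMC_grM _ x s hD hw))
  refine ⟨h.1, fun hf => ?_⟩
  have := h.2 hf
  rw [sgn_zero, Int.cast_one, one_mul] at this
  exact this.symm

end Div

theorem lt_succ {f : R[X]} {N : ℕ} : f ∈ degreeLT R (N + 1) ↔ f.natDegree ≤ N := by
  rw [mem_lt]
  by_cases h : f = 0
  · simp [h]
  · exact ⟨fun a => by have := a h; omega, fun a _ => by omega⟩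

theorem iv_one (hD : IsMC D (zd dg)) (hw : Wt w w D) (n : ℕ) :
    (δ.IFin D dg w 1 1 n ↔ δ.MFin (leadM w D) dg R) ∧
      (δ.IFin D dg w 1 1 n → δ.Iv D dg w 1 1 n = δ.meul (leadM w D) dg R) := by
  refine div_iso (R' := R) 1 0 hD hw (by simp) (by rw [hev_lead, coeff_one]; simp)
    (fun N y => ⟨monomial N y, lt_succ.2 (natDegree_monomial_le _), ?_⟩) (fun N f hf h => ?_) n
  · rw [hvL_succ, hev_lead, coeff_monomial_same]; rfl
  · rw [hvL_succ, hev_lead] at h
    refine ⟨f, mem_lt.2 fun h0 => ?_, one_mul f⟩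
    refine lt_of_le_of_ne (lt_succ.1 hf) fun e => h0 (leadingCoeff_eq_zero.1 ?_)
    rw [leadingCoeff, e]; exact h

theorem iv_X (hD : IsMC D (zd dg)) (hw : Wt w w D) (n : ℕ) :
    (δ.IFin D dg w X 1 n ↔ δ.MFin (ev0M D) dg R) ∧
      (δ.IFin D dg w X 1 n → δ.Iv D dg w X 1 n = δ.meul (ev0M D) dg R) := by
  have e0 : ev0M D = grM (algebraMap R R) 0 1 w w D := (grM_one _ _ hw).symm
  rw [e0]
  refine div_iso (R' := R) 0 1 hD hw natDegree_X_le (by rw [hev_one _ _ natDegree_X_le, eval₂_X])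
    (fun N y => ⟨C y, lt_succ.2 (by simp), ?_⟩) (fun N f hf h => ?_) n
  · rw [hvL_succ, hev_C, one_pow, mul_one]; rfl
  · rw [hvL_succ, hev_one _ _ (lt_succ.1 hf), eval₂_at_zero] at h
    have h1 : X * f.divX = f := by
      have := X_mul_divX_add f
      rwa [show f.coeff 0 = 0 from h, C_0, add_zero] at this
    refine ⟨f.divX, mem_lt.2 fun h0 => ?_, h1⟩
    have := Nontrivial.of_polynomial_ne h0
    have h2 := natDegree_X_mul h0
    rw [h1] at h2
    have := lt_succ.1 hf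
    omega

theorem iv_mul [IsDomain R] (hD : IsMC D (zd dg)) (hw : Wt w w D)
    (hv : v ≠ 0) (he : v.natDegree ≤ e) (he' : v'.natDegree ≤ e')
    (h : δ.IFin D dg w v e (n + e')) (h' : δ.IFin D dg w v' e' n) :
    δ.IFin D dg w (v * v') (e + e') n ∧
      δ.Iv D dg w (v * v') (e + e') n = δ.Iv D dg w v e (n + e') + δ.Iv D dg w v' e' n := by
  have p2 : IsPair (cx D dg R[X]) (vFam dg w v (n + e')) (vFam dg w (v * v') n) := by
    refine ⟨dd hD, fam_v hD hw, fam_v hD hw, fun i f hf => ?_⟩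
    obtain ⟨g, hg, rfl⟩ := mem_v.1 hf
    exact mem_v.2 ⟨v' • g, v_le he' i (mem_v.2 ⟨g, hg, rfl⟩), (mul_smul _ _ _).symm⟩
  have key : PairIso (cx D dg R[X]) (stFam dg w (n + e')) (vFam dg w v' n)
      (cx D dg R[X]) (vFam dg w v (n + e')) (vFam dg w (v * v') n)
      ((LinearMap.lsmul R[X] (ι → R[X]) v).restrictScalars R) 1 0 := by
    refine ⟨fun i f hf => ?_, fun i f hf => ?_, fun i y hy => ?_, fun i f _ h => ?_,
      fun i f _ => ?_⟩
    · rw [add_zero]; exact mem_v.2 ⟨f, hf, rfl⟩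
    · obtain ⟨g, hg, rfl⟩ := mem_v.1 hf
      rw [add_zero]; exact mem_v.2 ⟨g, hg, mul_smul _ _ _⟩
    · rw [add_zero] at hy
      obtain ⟨g, hg, rfl⟩ := mem_v.1 hy
      exact ⟨g, hg, (sub_self (v • g)).symm ▸ zero_mem _⟩
    · rw [add_zero] at h
      obtain ⟨g, hg, e⟩ := mem_v.1 h
      refine mem_v.2 ⟨g, hg, smul_right_injective _ hv ?_⟩
      exact (mul_smul _ _ _).symm.trans e
    · have : v • cx D dg R[X] f - (1 : ℤˣ) • cx D dg R[X] (v • f) = 0 := by
        rw [one_smul, map_smul, sub_self]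
      exact this ▸ zero_mem _
  have k := δ.finH_eul_of_pairIso key (pair hD hw he') p2
  have k2 := k.2 h'
  rw [sgn_zero, Int.cast_one, one_mul] at k2
  have e1 : n + (e + e') = n + e' + e := by omega
  unfold AddFun.IFin AddFun.Iv
  rw [e1, ← k2]
  exact ⟨AddFun.FinH.mid (pair hD hw he) p2 h (k.1.1 h'),
    AddFun.eul_add (pair hD hw he) p2 h (k.1.1 h')⟩

section Cone
variable {F : Matrix ι' ι R[X]} {P Q : ℤ → Submodule R (ι → R[X])}
  {P' Q' : ℤ → Submodule R (ι' → R[X])}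

/-- The sum of two families, the first one shifted. -/
noncomputable def sm (P : ℤ → Submodule R (ι → R[X])) (P' : ℤ → Submodule R (ι' → R[X])) :
    ℤ → Submodule R (ι ⊕ ι' → R[X]) := fun i =>
  (P (i - 1)).comap (LinearMap.funLeft R R[X] Sum.inl) ⊓
    (P' i).comap (LinearMap.funLeft R R[X] Sum.inr)

theorem mem_sm {i : ℤ} {f : ι ⊕ ι' → R[X]} :
    f ∈ sm P P' i ↔ f ∘ Sum.inl ∈ P (i - 1) ∧ f ∘ Sum.inr ∈ P' i := Iff.rfl

theorem st_cone : stFam (coneDg dg dg') (Sum.elim w w') n =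
    sm (R := R) (stFam dg w n) (stFam dg' w' n) := by
  funext i
  ext f
  rw [mem_sm, mem_st, mem_st, mem_st, Sum.forall]
  refine and_congr (forall_congr' fun a => and_congr (imp_congr ?_ Iff.rfl) Iff.rfl) Iff.rfl
  show ((dg a + 1 : ℕ) : ℤ) ≠ i ↔ _
  omega

theorem v_cone : vFam (coneDg dg dg') (Sum.elim w w') v n =
    sm (vFam dg w v n) (vFam dg' w' v n) := by
  funext i
  ext f
  rw [mem_sm, mem_v', mem_v', mem_v', Sum.forall]
  refine and_congr (forall_congr' fun a => and_congr (imp_congr ?_ Iff.rfl) Iff.rfl) Iff.rfl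
  show ((dg a + 1 : ℕ) : ℤ) ≠ i ↔ _
  omega

theorem cone_l (f : ι ⊕ ι' → R[X]) :
    cx (coneM D D' F) (coneDg dg dg') R[X] f ∘ Sum.inl = -cx D dg R[X] (f ∘ Sum.inl) := by
  rw [cx_eq_mulVec, cx_eq_mulVec, coneM, Matrix.fromBlocks_mulVec, Sum.elim_comp_inl,
    Matrix.zero_mulVec, add_zero, Matrix.neg_mulVec]

theorem cone_r (f : ι ⊕ ι' → R[X]) :
    cx (coneM D D' F) (coneDg dg dg') R[X] f ∘ Sum.inr =
      F.mulVec (f ∘ Sum.inl) + cx D' dg' R[X] (f ∘ Sum.inr) := by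
  rw [cx_eq_mulVec, cx_eq_mulVec, coneM, Matrix.fromBlocks_mulVec, Sum.elim_comp_inr]

theorem fam_sm (h : IsFam (cx D dg R[X]) P) (h' : IsFam (cx D' dg' R[X]) P')
    (hF : ∀ i, ∀ f ∈ P i, F.mulVec f ∈ P' i) :
    IsFam (cx (coneM D D' F) (coneDg dg dg') R[X]) (sm P P') := fun i f hf => by
  rw [mem_sm, cone_l, cone_r]
  exact ⟨neg_mem (h _ _ hf.1), add_mem (hF _ _ hf.1) (h' _ _ hf.2)⟩

theorem iso_l : PairIso (cx (coneM D D' F) (coneDg dg dg') R[X]) (sm P P') (sm Q P')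
    (cx D dg R[X]) P Q (LinearMap.funLeft R R[X] Sum.inl) (-1) (-1) := by
  refine ⟨fun i f hf => hf.1, fun i f hf => hf.1,
    fun i y hy => ⟨Sum.elim y 0, ⟨hy, (P' i).zero_mem⟩, ?_⟩, fun i f hf h => ⟨h, hf.2⟩,
    fun i f _ => ?_⟩
  · exact (sub_self y).symm ▸ zero_mem _
  · have : cx (coneM D D' F) (coneDg dg dg') R[X] f ∘ Sum.inl -
        (-1 : ℤˣ) • cx D dg R[X] (f ∘ Sum.inl) = 0 := by
      rw [cone_l, Units.neg_smul, one_smul, sub_self]
    exact this ▸ zero_mem _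

theorem iso_r (hF : ∀ i, ∀ f ∈ Q i, F.mulVec f ∈ Q' i) :
    PairIso (cx (coneM D D' F) (coneDg dg dg') R[X]) (sm Q P') (sm Q Q')
      (cx D' dg' R[X]) P' Q' (LinearMap.funLeft R R[X] Sum.inr) 1 0 := by
  refine ⟨fun i f hf => ?_, fun i f hf => ?_,
    fun i y hy => ⟨Sum.elim 0 y, ⟨(Q (i - 1)).zero_mem, ?_⟩, ?_⟩, fun i f hf h => ⟨hf.1, ?_⟩,
    fun i f hf => ?_⟩
  · rw [add_zero]; exact hf.2
  · rw [add_zero]; exact hf.2
  · rw [add_zero] at hy; exact hy
  · exact (sub_self y).symm ▸ zero_mem _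
  · rw [add_zero] at h; exact h
  · have : cx (coneM D D' F) (coneDg dg dg') R[X] f ∘ Sum.inr -
        (1 : ℤˣ) • cx D' dg' R[X] (f ∘ Sum.inr) = F.mulVec (f ∘ Sum.inl) := by
      rw [cone_r, one_smul, add_sub_cancel_right]
    rw [add_zero]
    exact this ▸ hF _ _ hf.1

theorem iv_cone [DecidableEq ι] [DecidableEq ι'] (hD : IsMC D (zd dg)) (hw : Wt w w D)
    (hD' : IsMC D' (zd dg')) (hw' : Wt w' w' D') (hF : IsHomR F dg' dg 0) (hc : F * D = D' * F)
    (hk : Wt w' w F) (he : v.natDegree ≤ e) (h : δ.IFin D dg w v e n)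
    (h' : δ.IFin D' dg' w' v e n) :
    δ.Iv (coneM D D' F) (coneDg dg dg') (Sum.elim w w') v e n =
      δ.Iv D' dg' w' v e n - δ.Iv D dg w v e n := by
  have f1 : ∀ i, ∀ f ∈ stFam dg w (n + e) i, F.mulVec f ∈ stFam dg' w' (n + e) i :=
    fun i f hf => by simpa using mv_st hF hk hf
  have f3 : ∀ i, ∀ f ∈ vFam dg w v n i, F.mulVec f ∈ vFam dg' w' v n i :=
    fun i f hf => by simpa using mv_v hF hk hf
  have d0 := dd (isMC_coneM hD hD' hF hc)
  have m := fam_sm (F := F) (fam_v (v := v) (n := n) hD hw) (fam_st (n := n + e) hD' hw')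
    fun i f hf => v_le he i (f3 i f hf)
  have p1 : IsPair _ _ _ := ⟨d0, fam_sm (fam_st hD hw) (fam_st hD' hw') f1, m,
    fun i f hf => ⟨v_le he _ hf.1, hf.2⟩⟩
  have p2 : IsPair _ _ _ := ⟨d0, m, fam_sm (fam_v hD hw) (fam_v hD' hw') f3,
    fun i f hf => ⟨hf.1, v_le he _ hf.2⟩⟩
  have k1 := δ.finH_eul_of_pairIso iso_l p1 (pair hD hw he)
  have k2 := δ.finH_eul_of_pairIso (iso_r f3) p2 (pair hD' hw' he)
  have e1 := k1.2 (k1.1.2 h)
  have e2 := k2.2 (k2.1.2 h')
  have s1 : sgn (-1) = -1 := by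
    have := sgn_succ (-1)
    rw [neg_add_cancel, sgn_zero] at this
    omega
  rw [s1] at e1
  rw [sgn_zero] at e2
  unfold AddFun.Iv
  rw [st_cone, v_cone, AddFun.eul_add p1 p2 (k1.1.2 h) (k2.1.2 h'), e1, e2]
  push_cast
  ring

end Cone

section Alg
variable {R' : Type*} [CommRing R'] (φ : R →+* R') (x s : R')

theorem hevR_pow {φ : R →+* R'} {x s : R'} {f : R[X]} {g : R'} (h : HevR φ x s 1 0 f g) (k : ℕ) :
    HevR φ x s k 0 (f ^ k) (g ^ k) := by
  induction k with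
  | zero => rw [pow_zero, pow_zero]; exact HevR.one
  | succ k ih => rw [pow_succ, pow_succ]; exact ih.mul h

theorem hevR_comp {p q : R[X]} (hp : p.natDegree ≤ 1) (hq : q.natDegree ≤ 1) (M : ℕ) (f : R[X]) :
    (hev C p q M f).natDegree ≤ M ∧
      hev φ x s M (hev C p q M f) = hev φ (hev φ x s 1 p) (hev φ x s 1 q) M f := by
  have h1 : HevR φ x s 1 0 p (hev φ x s 1 p) := ⟨fun _ => hp, rfl⟩
  have h2 : HevR φ x s 1 0 q (hev φ x s 1 q) := ⟨fun _ => hq, rfl⟩
  have h : HevR φ x s M 0 (hev C p q M f) (hev φ (hev φ x s 1 p) (hev φ x s 1 q) M f) :=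
    HevR.sum _ fun i hi => (((HevR.const (a := 0) (f.coeff i)).mul (hevR_pow h1 i)).mul
      (hevR_pow h2 (M - i))).shift (by have := Finset.mem_range.1 hi; omega)
  refine ⟨?_, h.2⟩
  by_cases h0 : hev C p q M f = 0
  · rw [h0]; exact Nat.zero_le _
  · exact h.1 h0

theorem hev_lin (p : R[X]) : hev φ x s 1 p = φ (p.coeff 0) * s + φ (p.coeff 1) * x := by
  simp [hev, Finset.sum_range_succ]

theorem deg_a (l : R) : (1 + C l * X : R[X]).natDegree ≤ 1 := by compute_degree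

theorem deg_b (l : R) : (X - C l : R[X]).natDegree ≤ 1 := natDegree_X_sub_C_le l

theorem inv_a (l : R) {M : ℕ} {f : R[X]} (hf : f.natDegree ≤ M) :
    hev C 1 (X - C l) M (hev C (1 + C l * X) X M f) = f := by
  rw [(hevR_comp _ _ _ (deg_a l) natDegree_X_le M f).2, hev_lin, hev_lin]
  simp [coeff_one, hev_one _ _ hf]

theorem inv_b (l : R) {M : ℕ} {f : R[X]} (hf : f.natDegree ≤ M) :
    hev C (1 + C l * X) X M (hev C 1 (X - C l) M f) = f := by
  rw [(hevR_comp _ _ _ (by simp) (deg_b l) M f).2, hev_lin, hev_lin]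
  simp [coeff_one, hev_one _ _ hf]

theorem lead_a (l : R) (he : v.natDegree ≤ e) :
    (hev C (1 + C l * X) X e v).coeff e = v.eval l := by
  have h := (hevR_comp (RingHom.id R) 1 0 (deg_a l) natDegree_X_le e v).2
  rw [hev_lead, hev_lin, hev_lin] at h
  simpa [coeff_one, hev_one _ _ he] using h

theorem exists_alg [Nontrivial R] (he : v.natDegree ≤ e) {l : R} (hl : IsUnit (v.eval l)) :
    ∃ (R' : Type u) (_ : CommRing R') (_ : Algebra R R') (_ : Module.Finite R R')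
      (_ : Module.Free R R') (x s : R'), Ideal.span {x, s} = ⊤ ∧
      hev (algebraMap R R') x s e v = 0 ∧
      (∀ N y, ∃ f ∈ degreeLT R (N + e), hvL x s (N + e) f = y) ∧
      ∀ N, ∀ f ∈ degreeLT R (N + e), hvL x s (N + e) f = 0 → ∃ g ∈ degreeLT R N, v * g = f := by
  obtain ⟨c, hc⟩ := hl.exists_left_inv
  obtain ⟨u, hu⟩ : ∃ u, u = hev C (1 + C l * X) X e (C c * v) := ⟨_, rfl⟩
  have he' : (C c * v).natDegree ≤ e := (natDegree_C_mul_le c v).trans he
  have u1 : u.natDegree ≤ e :=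
    hu ▸ (hevR_comp (RingHom.id R) 0 0 (deg_a l) natDegree_X_le e _).1
  have u2 : u.coeff e = 1 := by rw [hu, lead_a l he', eval_mul, eval_C, hc]
  have um : u.Monic := monic_of_natDegree_le_of_coeff_eq_one e u1 u2
  have u3 : u.natDegree = e := natDegree_eq_of_le_of_coeff_ne_zero u1 (u2 ▸ one_ne_zero)
  have mk : ∀ M f, hev (algebraMap R (AdjoinRoot u)) (AdjoinRoot.mk u (1 + C l * X))
      (AdjoinRoot.mk u X) M f = AdjoinRoot.mk u (hev C (1 + C l * X) X M f) :=
    fun M f => (map_hev C _ _ (AdjoinRoot.mk u) M f).symm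
  refine ⟨AdjoinRoot u, inferInstance, inferInstance, um.finite_adjoinRoot, um.free_adjoinRoot,
    AdjoinRoot.mk u (1 + C l * X), AdjoinRoot.mk u X, ?_, ?_, fun N y => ?_, fun N f hf h => ?_⟩
  · rw [Ideal.eq_top_iff_one, Ideal.mem_span_pair]
    refine ⟨1, -AdjoinRoot.mk u (C l), ?_⟩
    rw [map_add, map_mul, map_one]; ring
  · have : v = C (v.eval l) * (C c * v) := by rw [← mul_assoc, ← C_mul, mul_comm _ c, hc, C_1, one_mul]
    rw [this, hev_C_mul, mk, ← hu, AdjoinRoot.mk_self, mul_zero]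
  · obtain ⟨g, rfl⟩ := AdjoinRoot.mk_surjective y
    have g1 : AdjoinRoot.mk u (g %ₘ u) = AdjoinRoot.mk u g :=
      AdjoinRoot.mk_eq_mk.2 (dvd_modByMonic_sub g u)
    have g2 := degree_modByMonic_lt g um
    by_cases g0 : g %ₘ u = 0
    · exact ⟨0, zero_mem _, by rw [map_zero, ← g1, g0, map_zero]⟩
    have g3 := natDegree_lt_natDegree g0 g2
    obtain ⟨M, hM⟩ : ∃ M, N + e = M + 1 := ⟨N + e - 1, by omega⟩
    rw [hM]
    refine ⟨hev C 1 (X - C l) M (g %ₘ u),
      lt_succ.2 (hevR_comp (RingHom.id R) 0 0 (by simp) (deg_b l) M _).1, ?_⟩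
    rw [hvL_succ, mk, inv_b l (by omega), g1]
  · by_cases f0 : f = 0
    · exact ⟨0, zero_mem _, by rw [mul_zero, f0]⟩
    have f1 := mem_lt.1 hf f0
    obtain ⟨M, hM⟩ : ∃ M, N + e = M + 1 := ⟨N + e - 1, by omega⟩
    rw [hM, hvL_succ, mk, AdjoinRoot.mk_eq_zero] at h
    obtain ⟨g, hg⟩ := h
    have f2 := inv_a l (f := f) (M := M) (by omega)
    have f3 := (hevR_comp (RingHom.id R) 0 0 (deg_a l) natDegree_X_le M f).1
    rw [hg] at f2 f3
    have g0 : g ≠ 0 := fun h => f0 (by rw [← f2, h, mul_zero, hev_zero])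
    rw [um.natDegree_mul' g0, u3] at f3
    obtain ⟨N', rfl⟩ : ∃ N', N = N' + 1 := ⟨N - 1, by omega⟩
    rw [show M = e + N' by omega, hev_mul _ _ _ u1 (by omega), hu, inv_a l he'] at f2
    refine ⟨C c * hev C 1 (X - C l) N' g, lt_succ.2 ((natDegree_C_mul_le _ _).trans
      (hevR_comp (RingHom.id R) 0 0 (by simp) (deg_b l) N' g).1), ?_⟩
    rw [← f2]; ring

end Alg

theorem grM_shift {R' : Type*} [CommRing R'] (φ : R →+* R') (x s : R') (k : ℕ) :
    grM φ x s (fun b => w b + k) (fun b => w b + k) D = grM φ x s w w D := by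
  ext a b
  simp only [grM, Nat.add_le_add_iff_right, Nat.add_sub_add_right]

theorem wt_shift (hw : Wt w w D) (k : ℕ) : Wt (fun b => w b + k) (fun b => w b + k) D :=
  fun a b h => by have := hw a b h; simp only; omega

theorem st_shift (k : ℕ) : stFam (R := R) dg (fun b => w b + k) n = stFam dg w (n + k) := by
  funext i
  ext f
  simp only [mem_st, add_comm (w _) k, add_assoc]

theorem wt_cone {F : Matrix ι' ι R[X]} (hw : Wt w w D) (hw' : Wt w' w' D') (hk : Wt w' w F) :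
    Wt (Sum.elim w w') (Sum.elim w w') (coneM D D' F) := by
  rintro (a | a) (b | b) h
  · have := hw a b fun e => h (by simp [coneM, e])
    simpa [coneM] using this
  · exact absurd rfl h
  · exact hk a b h
  · exact hw' a b h

theorem grM_cone {R' : Type*} [CommRing R'] (φ : R →+* R') (x s : R') (F : Matrix ι' ι R[X]) :
    grM φ x s (Sum.elim w w') (Sum.elim w w') (coneM D D' F) =
      coneM (grM φ x s w w D) (grM φ x s w' w' D') (grM φ x s w' w F) := by
  ext (a | a) (b | b)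
  · simp only [grM, coneM, Matrix.fromBlocks_apply₁₁, Matrix.neg_apply, Sum.elim_inl, hev_neg]
    split_ifs
    · rfl
    · exact neg_zero.symm
  · simp [grM, coneM, hev_zero]
  · rfl
  · rfl

end Vale.Agent.P177.StA
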