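import Vale.Agent.P177.Loc
import Vale.Agent.P177.Hev

/-! P177: auxiliary lemmas for section B of `Strand.lean`. -/

namespace Vale.Agent.P177.SB

open Vale.Agent.P202 IsLocalRing Polynomial

universe u

section RMap
variable {R S M : Type*} [CommRing R] [CommRing S] [Algebra R S] [AddCommGroup M] [Module R M]
  [Module S M] [IsScalarTower R S M]

/-- The map `P / Q → P' / Q'` for `R`-submodules `P, Q` and `S`-submodules `P', Q'`. -/
def rmap {P Q : Submodule R M} {P' Q' : Submodule S M} (hP : ∀ x ∈ P, x ∈ P')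
    (hQ : ∀ x ∈ Q, x ∈ Q') : P.map Q.mkQ →ₗ[R] P'.map Q'.mkQ where
  toFun y := ⟨Q.liftQ (Q'.mkQ.restrictScalars R)
    (fun x hx => (Submodule.Quotient.mk_eq_zero Q').2 (hQ x hx)) y.1, by
      obtain ⟨_, x, hx, rfl⟩ := y
      exact ⟨x, hP x hx, rfl⟩⟩
  map_add' _ _ := Subtype.ext (map_add _ _ _)
  map_smul' _ _ := Subtype.ext (map_smul _ _ _)
end RMap

variable {R : Type u} [CommRing R] {ι : Type} {dg w : ι → ℕ}

theorem mem_st {n : ℕ} {i : ℤ} {y : ι → R[X]} : y ∈ stFam dg w n i ↔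
    (∀ a, (dg a : ℤ) ≠ i → y a = 0) ∧ ∀ b, (y b).degree < ((n + w b : ℕ) : WithBot ℕ) := by
  unfold stFam
  rw [Submodule.mem_inf, mem_fam, Submodule.mem_pi]
  refine and_congr ⟨fun h a => (h a).2, fun h a => ⟨fun _ => trivial, h a⟩⟩ ?_
  exact ⟨fun h b => mem_degreeLT.1 (h b trivial), fun h b _ => mem_degreeLT.2 (h b)⟩

theorem mem_top {i : ℤ} {y : ι → R[X]} : y ∈ fam dg (⊤ : Submodule R[X] R[X]) i ↔
    ∀ a, (dg a : ℤ) ≠ i → y a = 0 := by
  rw [mem_fam]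
  exact ⟨fun h a => (h a).2, fun h a => ⟨fun _ => trivial, h a⟩⟩

theorem st_mono {n m : ℕ} (h : n ≤ m) {i : ℤ} {y : ι → R[X]} (hy : y ∈ stFam dg w n i) :
    y ∈ stFam dg w m i := by
  rw [mem_st] at hy ⊢
  exact ⟨hy.1, fun b => (hy.2 b).trans_le (by exact_mod_cast Nat.add_le_add_right h _)⟩

theorem deg_mul_lt {f g : R[X]} {e k m : ℕ} (hf : f.natDegree ≤ e) (hg : g.degree < k)
    (h : e + k ≤ m) : (f * g).degree < m := by
  by_cases h0 : g = 0
  · rw [h0, mul_zero, degree_zero]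
    exact WithBot.bot_lt_coe _
  have h1 : g.natDegree < k := (natDegree_lt_iff_degree_lt h0).2 hg
  refine degree_le_natDegree.trans_lt ?_
  have := natDegree_mul_le (p := f) (q := g)
  exact_mod_cast (by omega : (f * g).natDegree < m)

theorem st_smul {v : R[X]} {e n : ℕ} (he : v.natDegree ≤ e) {i : ℤ} {y : ι → R[X]}
    (hy : y ∈ stFam dg w n i) : v • y ∈ stFam dg w (n + e) i := by
  rw [mem_st] at hy ⊢
  refine ⟨fun a ha => by rw [Pi.smul_apply, hy.1 a ha, smul_zero], fun b => ?_⟩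
  exact deg_mul_lt he (hy.2 b) (by omega)

theorem vFam_one (n : ℕ) : vFam dg w (1 : R[X]) n = stFam dg w n := by
  funext i
  ext y
  simp [vFam]

variable [Fintype ι] {D : Matrix ι ι R[X]}

theorem st_exists (w : ι → ℕ) (n : ℕ) {i : ℤ} {y : ι → R[X]}
    (hy : y ∈ fam dg (⊤ : Submodule R[X] R[X]) i) : ∃ k, y ∈ stFam dg w (n + k) i := by
  refine ⟨(Finset.univ.sup fun b => (y b).natDegree) + 1, mem_st.2 ⟨mem_top.1 hy, fun b => ?_⟩⟩
  have : (y b).natDegree ≤ Finset.univ.sup fun b => (y b).natDegree :=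
    Finset.le_sup (f := fun b => (y b).natDegree) (Finset.mem_univ b)
  refine degree_le_natDegree.trans_lt ?_
  exact_mod_cast (by omega : (y b).natDegree <
    n + ((Finset.univ.sup fun b => (y b).natDegree) + 1) + w b)

theorem st_pair (hD : IsMC D (zd dg)) (hw : Wt w w D) (n : ℕ) :
    IsPair (cx D dg R[X]) (stFam dg w n) fun _ => ⊥ := by
  have h := isPair_top_bot (T := R[X]) (V := R[X]) hD
  refine ⟨h.dd, fun i y hy => ?_, fun i y hy => ?_, fun _ => bot_le⟩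
  · rw [mem_st] at hy ⊢
    refine ⟨mem_top.1 (h.top i y (mem_top.2 hy.1)), fun a => ?_⟩
    rw [cx_apply, ← mem_degreeLT]
    refine Submodule.sum_mem _ fun b _ => ?_
    by_cases h0 : D a b = 0
    · rw [h0, zero_smul]
      exact zero_mem _
    · have := hw a b h0
      exact mem_degreeLT.2 (deg_mul_lt le_rfl (hy.2 b) (by omega))
  · rw [Submodule.mem_bot] at hy ⊢
    rw [hy, map_zero]

theorem st_bot {n : ℕ} {i : ℤ} (hi : i ∉ Finset.univ.image fun a => (dg a : ℤ)) :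
    stFam (R := R) dg w n i = ⊥ := by
  refine le_bot_iff.1 fun y hy => ?_
  rw [Submodule.mem_bot]
  funext a
  exact (mem_st.1 hy).1 a fun h => hi (Finset.mem_image.2 ⟨a, Finset.mem_univ a, h⟩)

theorem fin_of_le [IsNoetherianRing R] {n : ℕ} {i : ℤ} {P : Submodule R (ι → R[X])}
    (hP : P ≤ stFam dg w n i) (Q : Submodule R (ι → R[X])) : Module.Finite R (P.map Q.mkQ) := by
  have h1 : (Submodule.pi Set.univ fun b => degreeLT R (n + w b)).FG :=
    Submodule.fg_pi fun b => Module.Finite.iff_fg.1 inferInstance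
  have h2 : P.FG := Submodule.FG.of_le h1 (hP.trans inf_le_right)
  exact Module.Finite.iff_fg.2 (h2.map _)

/-- Homology of the `n`-th strand. -/
noncomputable abbrev HV (D : Matrix ι ι R[X]) (dg w : ι → ℕ) (n : ℕ) (i : ℤ) :=
  (cyc (cx D dg R[X]) (stFam dg w n) (fun _ => ⊥) i).map
    (bdy (cx D dg R[X]) (stFam dg w n) (fun _ => ⊥) i).mkQ

/-- Homology of the whole complex. -/
noncomputable abbrev HW (D : Matrix ι ι R[X]) (dg : ι → ℕ) (i : ℤ) :=
  (cyc (cx D dg R[X]) (fam dg (⊤ : Submodule R[X] R[X])) (fam dg ⊥) i).map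
    (bdy (cx D dg R[X]) (fam dg (⊤ : Submodule R[X] R[X])) (fam dg ⊥) i).mkQ

theorem mem_cycW {i : ℤ} {y : ι → R[X]} :
    y ∈ cyc (cx D dg R[X]) (fam dg (⊤ : Submodule R[X] R[X])) (fam dg ⊥) i ↔
      y ∈ fam dg (⊤ : Submodule R[X] R[X]) i ∧ cx D dg R[X] y = 0 := by
  rw [mem_cyc, fam_bot, Submodule.mem_bot]

theorem mem_bdyW {i : ℤ} {y : ι → R[X]} :
    y ∈ bdy (cx D dg R[X]) (fam dg (⊤ : Submodule R[X] R[X])) (fam dg ⊥) i ↔
      ∃ u ∈ fam dg (⊤ : Submodule R[X] R[X]) (i + 1), y = cx D dg R[X] u := by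
  simp only [mem_bdy, fam_bot, Submodule.mem_bot, sub_eq_zero]

theorem mem_cycV {n : ℕ} {i : ℤ} {y : ι → R[X]} :
    y ∈ cyc (cx D dg R[X]) (stFam dg w n) (fun _ => ⊥) i ↔
      y ∈ stFam dg w n i ∧ cx D dg R[X] y = 0 := by
  rw [mem_cyc, Submodule.mem_bot]

theorem mem_bdyV {n : ℕ} {i : ℤ} {y : ι → R[X]} :
    y ∈ bdy (cx D dg R[X]) (stFam dg w n) (fun _ => ⊥) i ↔
      ∃ u ∈ stFam dg w n (i + 1), y = cx D dg R[X] u := by
  simp only [mem_bdy, Submodule.mem_bot, sub_eq_zero]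

/-- The map from the homology of a strand to the homology of the whole complex. -/
noncomputable def jm (D : Matrix ι ι R[X]) (dg w : ι → ℕ) (n : ℕ) (i : ℤ) :
    HV D dg w n i →ₗ[R] HW D dg i :=
  rmap (fun _ hx => mem_cycW.2 ⟨mem_top.2 (mem_st.1 (mem_cycV.1 hx).1).1, (mem_cycV.1 hx).2⟩)
    fun _ hx => by
      obtain ⟨u, hu, e⟩ := mem_bdyV.1 hx
      exact mem_bdyW.2 ⟨u, mem_top.2 (mem_st.1 hu).1, e⟩

theorem ker_aux (hD : IsMC D (zd dg)) {q : Ideal R} (hq : q.IsPrime)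
    (hs : ∀ (m : ℕ) (i : ℤ), ∃ t, t ∉ q ∧ ∀ z ∈ stFam dg w (m + 1) i,
      cx D dg R[X] z ∈ stFam dg w m (i - 1) →
      ∃ y ∈ stFam dg w (m + 1) (i + 1), t • z - cx D dg R[X] y ∈ stFam dg w m i)
    (n : ℕ) (i : ℤ) (k : ℕ) : ∀ u ∈ stFam dg w (n + k) (i + 1), cx D dg R[X] u ∈ stFam dg w n i →
      ∃ t, t ∉ q ∧ ∃ u' ∈ stFam dg w n (i + 1), t • cx D dg R[X] u = cx D dg R[X] u' := by
  have h := isPair_top_bot (T := R[X]) (V := R[X]) hD
  induction k with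
  | zero => exact fun u hu _ => ⟨1, (Ideal.ne_top_iff_one q).1 hq.ne_top, u, hu, one_smul _ _⟩
  | succ k ih =>
    intro u hu hd
    obtain ⟨t, ht, h1⟩ := hs (n + k) (i + 1)
    obtain ⟨y, -, hy⟩ := h1 u hu (by
      rw [add_sub_cancel_right]
      exact st_mono (Nat.le_add_right n k) hd)
    have e : cx D dg R[X] (t • u - cx D dg R[X] y) = t • cx D dg R[X] u := by
      rw [map_sub, h.dd, sub_zero, LinearMap.map_smul_of_tower]
    obtain ⟨t', ht', u', hu', e'⟩ := ih _ hy (by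
      rw [e]
      exact Submodule.smul_mem _ _ hd)
    refine ⟨t' * t, fun hm => (hq.mem_or_mem hm).elim ht' ht, u', hu', ?_⟩
    rw [mul_smul, ← e, e']

theorem coker_aux (hD : IsMC D (zd dg)) {q : Ideal R} (hq : q.IsPrime)
    (hs : ∀ (m : ℕ) (i : ℤ), ∃ t, t ∉ q ∧ ∀ z ∈ stFam dg w (m + 1) i,
      cx D dg R[X] z ∈ stFam dg w m (i - 1) →
      ∃ y ∈ stFam dg w (m + 1) (i + 1), t • z - cx D dg R[X] y ∈ stFam dg w m i)
    (n : ℕ) (i : ℤ) (k : ℕ) : ∀ z ∈ stFam dg w (n + k) i, cx D dg R[X] z = 0 →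
      ∃ t, t ∉ q ∧ ∃ z' ∈ stFam dg w n i, cx D dg R[X] z' = 0 ∧
        ∃ u ∈ fam dg (⊤ : Submodule R[X] R[X]) (i + 1), t • z - z' = cx D dg R[X] u := by
  have h := isPair_top_bot (T := R[X]) (V := R[X]) hD
  induction k with
  | zero =>
    exact fun z hz hd => ⟨1, (Ideal.ne_top_iff_one q).1 hq.ne_top, z, hz, hd, 0, zero_mem _,
      by rw [one_smul, sub_self, map_zero]⟩
  | succ k ih =>
    intro z hz hd
    obtain ⟨t, ht, h1⟩ := hs (n + k) i
    obtain ⟨y, hy0, hy⟩ := h1 z hz (by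
      rw [hd]
      exact zero_mem _)
    obtain ⟨t', ht', z', hz', hd', u, hu, e⟩ := ih _ hy (by
      rw [map_sub, h.dd, sub_zero, LinearMap.map_smul_of_tower, hd, smul_zero])
    refine ⟨t' * t, fun hm => (hq.mem_or_mem hm).elim ht' ht, z', hz', hd', u + t' • y,
      add_mem hu (Submodule.smul_of_tower_mem _ _ (mem_top.2 (mem_st.1 hy0).1)), ?_⟩
    rw [map_add, ← e, LinearMap.map_smul_of_tower, smul_sub, mul_smul]
    abel

variable [IsLocalRing R] [IsNoetherianRing R] {I : Ideal R} {δ : AddFun R}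

theorem step (hm : ∀ (V : Type u) [AddCommGroup V] [Module R V], δ.mem V ↔ InA I V)
    (hinf : ∀ m, δ.IFin D dg w 1 1 m) {x : PrimeSpectrum R} (hx : UPt I x) (m : ℕ) (i : ℤ) :
    ∃ t, t ∉ x.asIdeal ∧ ∀ z ∈ stFam dg w (m + 1) i, cx D dg R[X] z ∈ stFam dg w m (i - 1) →
      ∃ y ∈ stFam dg w (m + 1) (i + 1), t • z - cx D dg R[X] y ∈ stFam dg w m i := by
  have h1 := (hinf m).hm i
  rw [vFam_one] at h1
  have h2 := (hm _).1 h1
  have := h2.1
  obtain ⟨t, ht, ha⟩ := inA_iff_local.1 h2 x hx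
  refine ⟨t, ht, fun z hz hd => ?_⟩
  have h3 := Module.mem_annihilator.1 ha ⟨_, z, mem_cyc.2 ⟨hz, hd⟩, rfl⟩
  have h4 : (bdy (cx D dg R[X]) (stFam dg w (m + 1)) (stFam dg w m) i).mkQ (t • z) = 0 := by
    rw [map_smul]
    exact congrArg Subtype.val h3
  exact mem_bdy.1 ((Submodule.Quotient.mk_eq_zero _).1 h4)

theorem uiso (hm : ∀ (V : Type u) [AddCommGroup V] [Module R V], δ.mem V ↔ InA I V)
    (hD : IsMC D (zd dg)) (hinf : ∀ m, δ.IFin D dg w 1 1 m) (n : ℕ) (i : ℤ) :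
    UIso I (jm D dg w n i) := by
  intro x hx
  have hs := step hm hinf hx
  constructor
  · rintro ⟨_, z, hz, rfl⟩ h0
    obtain ⟨u, hu, rfl⟩ := mem_bdyW.1
      ((Submodule.Quotient.mk_eq_zero _).1 (congrArg Subtype.val h0))
    obtain ⟨k, hk⟩ := st_exists w n hu
    obtain ⟨t, ht, u', hu', e⟩ := ker_aux hD x.isPrime hs n i k u hk (mem_cycV.1 hz).1
    refine ⟨t, ht, Subtype.ext ?_⟩
    change t • Submodule.mkQ _ _ = 0
    rw [← map_smul]
    exact (Submodule.Quotient.mk_eq_zero _).2 (mem_bdyV.2 ⟨u', hu', e⟩)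
  · rintro ⟨_, z, hz, rfl⟩
    obtain ⟨k, hk⟩ := st_exists w n (mem_cycW.1 hz).1
    obtain ⟨t, ht, z', hz', hd', u, hu, e⟩ :=
      coker_aux hD x.isPrime hs n i k z hk (mem_cycW.1 hz).2
    refine ⟨t, ht, ⟨_, z', mem_cycV.2 ⟨hz', hd'⟩, rfl⟩, Subtype.ext ?_⟩
    change Submodule.Quotient.mk z' = Submodule.Quotient.mk (t • z)
    exact ((Submodule.Quotient.eq _).2 (mem_bdyW.2 ⟨u, hu, e⟩)).symm

/-- Multiplication by `v`. -/
noncomputable abbrev mulv (ι : Type) (v : R[X]) : (ι → R[X]) →ₗ[R] (ι → R[X]) :=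
  (LinearMap.lsmul R[X] (ι → R[X]) v).restrictScalars R

omit [IsLocalRing R] [IsNoetherianRing R] in
theorem mul_cyc {v : R[X]} {e : ℕ} (he : v.natDegree ≤ e) (n : ℕ) (i : ℤ) :
    ∀ x ∈ cyc (cx D dg R[X]) (stFam dg w n) (fun _ => ⊥) i,
      mulv ι v x ∈ cyc (cx D dg R[X]) (stFam dg w (n + e)) (fun _ => ⊥) i := fun x hx => by
  rw [mem_cycV] at hx ⊢
  refine ⟨st_smul he hx.1, ?_⟩
  change cx D dg R[X] (v • x) = 0
  rw [map_smul, hx.2, smul_zero]

omit [IsLocalRing R] [IsNoetherianRing R] in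
theorem mul_bdy {v : R[X]} {e : ℕ} (he : v.natDegree ≤ e) (n : ℕ) (i : ℤ) :
    ∀ x ∈ bdy (cx D dg R[X]) (stFam dg w n) (fun _ => ⊥) i,
      mulv ι v x ∈ bdy (cx D dg R[X]) (stFam dg w (n + e)) (fun _ => ⊥) i := fun x hx => by
  obtain ⟨u, hu, rfl⟩ := mem_bdyV.1 hx
  exact mem_bdyV.2 ⟨v • u, st_smul he hu, (map_smul (cx D dg R[X]) v u).symm⟩

/-- Multiplication by `v` on the homology of the strands. -/
noncomputable def hmul (D : Matrix ι ι R[X]) (dg w : ι → ℕ) {v : R[X]} {e : ℕ}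
    (he : v.natDegree ≤ e) (n : ℕ) (i : ℤ) : HV D dg w n i →ₗ[R] HV D dg w (n + e) i :=
  qmap (mulv ι v) (mul_cyc he n i) (mul_bdy he n i)

omit [IsLocalRing R] [IsNoetherianRing R] in
theorem jm_hmul {v : R[X]} {e : ℕ} (he : v.natDegree ≤ e) (n : ℕ) (i : ℤ) (y : HV D dg w n i) :
    jm D dg w (n + e) i (hmul D dg w he n i y) = v • jm D dg w n i y := by
  obtain ⟨_, x, hx, rfl⟩ := y
  rfl

omit [IsLocalRing R] [IsNoetherianRing R] in
theorem not_ann_le [DecidableEq ι] {x : PrimeSpectrum R[X]} (h : NullAt D dg x) (i : ℤ) :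
    ¬ Module.annihilator R[X] (HW D dg i) ≤ x.asIdeal := by
  obtain ⟨g, hg, hn⟩ := h
  refine fun hle => hg (hle (Module.mem_annihilator.2 ?_))
  rintro ⟨_, y, hy, rfl⟩
  refine Subtype.ext ?_
  change g • Submodule.mkQ _ y = 0
  rw [← map_smul]
  exact (Submodule.Quotient.mk_eq_zero _).2 (hn.smul_mem_bdy (T := R[X]) i y hy)

instance (n : ℕ) (i : ℤ) : Module.Finite R (HV D dg w n i) := fin_of_le inf_le_left _

variable [IsDomain R]

omit [Fintype ι] [IsLocalRing R] [IsNoetherianRing R] in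
theorem mulv_inj {v : R[X]} (hv : v ≠ 0) : Function.Injective (mulv ι v) := fun x y h => by
  funext a
  exact mul_left_cancel₀ hv (congrFun h a)

theorem ifin [DecidableEq ι]
    (hm : ∀ (V : Type u) [AddCommGroup V] [Module R V], δ.mem V ↔ InA I V)
    (hD : IsMC D (zd dg)) (hw : Wt w w D) (hinf : ∀ m, δ.IFin D dg w 1 1 m)
    {Z : Set (PrimeSpectrum R[X])} (hn : ∀ x, XPt I x → x ∉ Z → NullAt D dg x) {v : R[X]} {e : ℕ}
    (hv : v ≠ 0) (he : v.natDegree ≤ e) (hZ : ∀ x ∈ Z, v ∉ x.asIdeal) (n : ℕ) :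
    δ.IFin D dg w v e n := by
  refine AddFun.finH_coker_of_indOKP (mulv ι v) (st_pair hD hw n) (st_pair hD hw (n + e))
    (fun i x hx => st_smul he hx) (fun x => (map_smul (cx D dg R[X]) v x).symm) (mulv_inj hv)
    (Finset.univ.image fun a => (dg a : ℤ)) (fun i hi => ⟨st_bot hi, st_bot hi⟩) fun i => ?_
  refine (AddFun.indP_eq_ind_qmap (mulv ι v) (mul_cyc he n i) (mul_bdy he n i)).1.2 ?_
  refine indOK_of_uIso hm (uiso hm hD hinf n i) (uiso hm hD hinf (n + e) i) (jm_hmul he n i)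
    fun x hx ha => hZ x ?_
  by_contra hxZ
  exact not_ann_le (hn x hx hxZ) i ha

omit [IsLocalRing R] [IsNoetherianRing R] in
theorem iv_eq_sum (hD : IsMC D (zd dg)) (hw : Wt w w D) {v : R[X]} {e n : ℕ} (hv : v ≠ 0)
    (he : v.natDegree ≤ e) (h : δ.IFin D dg w v e n) : δ.Iv D dg w v e n =
      ∑ i ∈ Finset.univ.image fun a => (dg a : ℤ), (sgn i : ℝ) * δ.ind (hmul D dg w he n i) := by
  have hk : δ.FinH (cx D dg R[X]) (fun i => stFam dg w n i ⊓ LinearMap.ker (mulv ι v))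
      (fun _ => ⊥) ∧
      δ.eul (cx D dg R[X]) (fun i => stFam dg w n i ⊓ LinearMap.ker (mulv ι v)) (fun _ => ⊥) = 0 :=
    AddFun.finH_of_exact fun i => by
      refine inf_le_left.trans (inf_le_right.trans ?_)
      rw [LinearMap.ker_eq_bot.2 (mulv_inj hv)]
      exact bot_le
  obtain ⟨h1, h2⟩ := AddFun.eul_ind (mulv ι v) (st_pair hD hw n) (st_pair hD hw (n + e))
    (fun i x hx => st_smul he hx) (fun x => (map_smul (cx D dg R[X]) v x).symm)
    (Finset.univ.image fun a => (dg a : ℤ)) (fun i hi => ⟨st_bot hi, st_bot hi⟩) hk.1 h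
  rw [hk.2, sub_zero] at h2
  refine h2.trans (Finset.sum_congr rfl fun i _ => ?_)
  rw [(AddFun.indP_eq_ind_qmap (mulv ι v) (mul_cyc he n i) (mul_bdy he n i)).2 (h1 i)]
  rfl

theorem iv_loc [DecidableEq ι] {a p : ℕ} (hK : KHyp a p I δ)
    (hD : IsMC D (zd dg)) (hw : Wt w w D) (hinf : ∀ m, δ.IFin D dg w 1 1 m)
    {Z : Set (PrimeSpectrum R[X])} (hn : ∀ x, XPt I x → x ∉ Z → NullAt D dg x) (hf : Z.Finite)
    {v v' : R[X]} {e : ℕ} (hv : v ≠ 0) (he : v.natDegree ≤ e) (hZ : ∀ x ∈ Z, v ∉ x.asIdeal)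
    (hv' : v' ≠ 0) (he' : v'.natDegree ≤ e) (hZ' : ∀ x ∈ Z, v' ∉ x.asIdeal)
    (hvv : ∀ x ∈ Z, v - v' ∈ x.asIdeal) (n : ℕ) : δ.Iv D dg w v e n = δ.Iv D dg w v' e n := by
  rw [iv_eq_sum hD hw hv he (ifin hK.mem_iff hD hw hinf hn hv he hZ n),
    iv_eq_sum hD hw hv' he' (ifin hK.mem_iff hD hw hinf hn hv' he' hZ' n)]
  refine Finset.sum_congr rfl fun i _ => ?_
  rw [ind_eq_of_uIso hK (uiso hK.mem_iff hD hinf n i) (uiso hK.mem_iff hD hinf (n + e) i)
    (jm_hmul he n i) (jm_hmul he' n i) hf (fun x hx ha => ?_) hZ hvv]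
  by_contra hxZ
  exact not_ann_le (hn x hx hxZ) i ha

end Vale.Agent.P177.SB
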