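import Vale.Agent.P177.Loc
import Vale.Agent.P177.Hev
import Vale.Agent.P177.StrandAuxB
import Vale.Agent.P177.StrandAuxA

/-! P177 module Strand: restriction of a family of complexes over the projective line to a
divisor. -/

namespace Vale.Agent.P177

open Vale.Agent.P202 IsLocalRing Polynomial

universe u

variable {R : Type u} [CommRing R] [IsLocalRing R] [IsNoetherianRing R] {I : Ideal R}
  {δ : AddFun R} {a p : ℕ} {ι ι' : Type} [Fintype ι] [DecidableEq ι] [Fintype ι']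
  [DecidableEq ι'] {dg w : ι → ℕ} {dg' w' : ι' → ℕ} {D : Matrix ι ι R[X]}
  {D' : Matrix ι' ι' R[X]} {Z Z' : Set (PrimeSpectrum R[X])}

/-- A weighted complex that is contractible at infinity and off `Z`. -/
structure NullOff (I : Ideal R) (dg w : ι → ℕ) (D : Matrix ι ι R[X])
    (Z : Set (PrimeSpectrum R[X])) : Prop where
  mc : IsMC D (zd dg)
  wt : Wt w w D
  inf : ∀ x, UPt I x → NullAt (leadM w D) dg x
  null : ∀ x, XPt I x → x ∉ Z → NullAt D dg x

/-- A nonzero polynomial of formal degree `e` that does not vanish on `Z`. -/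
structure Av (Z : Set (PrimeSpectrum R[X])) (e : ℕ) (v : R[X]) : Prop where
  ne : v ≠ 0
  deg : v.natDegree ≤ e
  av : ∀ x ∈ Z, v ∉ x.asIdeal

section A
theorem mfin_of_nullAt (hm : ∀ (V : Type u) [AddCommGroup V] [Module R V], δ.mem V ↔ InA I V)
    {E : Matrix ι ι R} (hE : IsMC E (zd dg)) (h : ∀ x, UPt I x → NullAt E dg x) :
    δ.MFin E dg R := by
  refine mfin_iff.2 fun i => (hm _).2 (inA_iff_local.2 fun x hx => ?_)
  obtain ⟨g, hg, hn⟩ := h x hx
  refine ⟨g, hg, Module.mem_annihilator.2 ?_⟩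
  rintro ⟨_, y, hy, rfl⟩
  exact Subtype.ext ((Submodule.Quotient.mk_eq_zero _).2 (hn.smul_mem_bdy i y hy))

theorem iv_one (hD : IsMC D (zd dg)) (hw : Wt w w D) (n : ℕ) :
    (δ.IFin D dg w 1 1 n ↔ δ.MFin (leadM w D) dg R) ∧
      (δ.IFin D dg w 1 1 n → δ.Iv D dg w 1 1 n = δ.meul (leadM w D) dg R) :=
  StA.iv_one hD hw n

theorem iv_X (hD : IsMC D (zd dg)) (hw : Wt w w D) (n : ℕ) :
    (δ.IFin D dg w X 1 n ↔ δ.MFin (ev0M D) dg R) ∧
      (δ.IFin D dg w X 1 n → δ.Iv D dg w X 1 n = δ.meul (ev0M D) dg R) :=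
  StA.iv_X hD hw n

theorem iv_mul_aux [IsDomain R] (hD : IsMC D (zd dg)) (hw : Wt w w D) {v v' : R[X]} {e e' n : ℕ}
    (hv : v ≠ 0) (he : v.natDegree ≤ e) (he' : v'.natDegree ≤ e')
    (h : δ.IFin D dg w v e (n + e')) (h' : δ.IFin D dg w v' e' n) :
    δ.IFin D dg w (v * v') (e + e') n ∧
      δ.Iv D dg w (v * v') (e + e') n = δ.Iv D dg w v e (n + e') + δ.Iv D dg w v' e' n :=
  StA.iv_mul hD hw hv he he' h h'

theorem exists_wt_shift (F : Matrix ι' ι R[X]) (w : ι → ℕ) (w' : ι' → ℕ) :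
    ∃ k, Wt (fun b => w' b + k) w F :=
  ⟨Finset.univ.sup fun z : ι' × ι => (F z.1 z.2).natDegree + w z.2, fun a b _ =>
    (Finset.le_sup (f := fun z : ι' × ι => (F z.1 z.2).natDegree + w z.2)
      (Finset.mem_univ (a, b))).trans (Nat.le_add_left _ _)⟩

theorem iv_cone [IsDomain R] (hD : IsMC D (zd dg)) (hw : Wt w w D) (hD' : IsMC D' (zd dg'))
    (hw' : Wt w' w' D') {F : Matrix ι' ι R[X]} (hF : IsHomR F dg' dg 0) (hc : F * D = D' * F)
    {k : ℕ} (hk : Wt (fun b => w' b + k) w F) {v : R[X]} {e n : ℕ} (hv : v ≠ 0)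
    (he : v.natDegree ≤ e) (h : δ.IFin D dg w v e n) (h' : δ.IFin D' dg' w' v e (n + k)) :
    δ.Iv (coneM D D' F) (coneDg dg dg') (Sum.elim w fun b => w' b + k) v e n =
      δ.Iv D' dg' w' v e (n + k) - δ.Iv D dg w v e n := by
  have e1 : stFam (R := R) dg' (fun b => w' b + k) (n + e) = stFam dg' w' (n + k + e) := by
    rw [StA.st_shift, Nat.add_right_comm]
  have e2 : vFam dg' (fun b => w' b + k) v n = vFam dg' w' v (n + k) := by
    unfold vFam
    rw [StA.st_shift]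
  rw [StA.iv_cone hD hw hD' (StA.wt_shift hw' k) hF hc hk he h
    (by unfold AddFun.IFin; rw [e1, e2]; exact h')]
  unfold AddFun.Iv
  rw [e1, e2]

theorem nullOff_cone (h : NullOff I dg w D Z) (h' : NullOff I dg' w' D' Z')
    {F : Matrix ι' ι R[X]} (hF : IsHomR F dg' dg 0) (hc : F * D = D' * F) {k : ℕ}
    (hk : Wt (fun b => w' b + k) w F) {x₀ : PrimeSpectrum R[X]}
    (hx : NullAt (coneM D D' F) (coneDg dg dg') x₀) :
    NullOff I (coneDg dg dg') (Sum.elim w fun b => w' b + k) (coneM D D' F)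
      ((Z ∪ Z') \ {x₀}) := by
  have hw' := StA.wt_shift h'.wt k
  refine ⟨isMC_coneM h.mc h'.mc hF hc, StA.wt_cone h.wt hw' hk, fun x hx => ?_,
    fun x hx hZ => ?_⟩
  · unfold leadM
    rw [StA.grM_cone]
    refine nullAt_cone (isMC_grM _ _ _ h.mc h.wt) (isMC_grM _ _ _ h'.mc hw')
      (fun a b hab => hF a b fun h0 => hab ((hk.hevR _ _ _ a b).eq_zero h0)) ?_ (h.inf x hx) ?_
    · rw [← grM_mul _ _ _ hk h.wt, ← grM_mul _ _ _ hw' hk, hc]
    · rw [StA.grM_shift]; exact h'.inf x hx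
  · by_cases h0 : x = x₀
    · exact h0 ▸ ‹_›
    · exact nullAt_cone h.mc h'.mc hF hc (h.null x hx fun hz => hZ ⟨Or.inl hz, h0⟩)
        (h'.null x hx fun hz => hZ ⟨Or.inr hz, h0⟩)

/-- The divisor of a polynomial with a unit value is finite and free: take
`R' = R[s] / (hev C (1 + l s) s e v)` (leading coefficient `v(l)`), `x = 1 + l s`, and map a
polynomial of degree `< N` to `hev _ x s (N - 1) f`. -/
theorem exists_divisor_algebra {v : R[X]} {e : ℕ} (he : v.natDegree ≤ e) {l : R}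
    (hl : IsUnit (v.eval l)) :
    ∃ (R' : Type u) (_ : CommRing R') (_ : Algebra R R') (_ : Module.Finite R R')
      (_ : Module.Free R R') (x s : R'), Ideal.span {x, s} = ⊤ ∧
      hev (algebraMap R R') x s e v = 0 ∧
      ∀ (δ : AddFun R) {κ : Type} [Fintype κ] (E : Matrix κ κ R[X]) (eg ew : κ → ℕ) (n : ℕ),
        IsMC E (zd eg) → Wt ew ew E → δ.MFin (grM (algebraMap R R') x s ew ew E) eg R' →
        δ.Iv E eg ew v e n = δ.meul (grM (algebraMap R R') x s ew ew E) eg R' := by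
  obtain ⟨R', i1, i2, i3, i4, x, s, h1, h2, h3, h4⟩ := StA.exists_alg he hl
  refine ⟨R', i1, i2, i3, i4, x, s, h1, h2, fun δ κ _ E eg ew n hE hw hf => ?_⟩
  have h := StA.div_iso (δ := δ) x s hE hw he h2 h3 h4 n
  exact h.2 (h.1.2 hf)
end A

section B
variable [IsDomain R]

omit [IsDomain R] in
theorem NullOff.mfin_inf (hm : ∀ (V : Type u) [AddCommGroup V] [Module R V], δ.mem V ↔ InA I V)
    (h : NullOff I dg w D Z) : δ.MFin (leadM w D) dg R :=
  mfin_of_nullAt hm (isMC_grM (RingHom.id R) 1 0 h.mc h.wt) h.inf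

omit [IsDomain R] in
theorem NullOff.ifin_one (hm : ∀ (V : Type u) [AddCommGroup V] [Module R V], δ.mem V ↔ InA I V)
    (h : NullOff I dg w D Z) (m : ℕ) : δ.IFin D dg w 1 1 m :=
  (iv_one h.mc h.wt m).1.2 (h.mfin_inf hm)

/-- Let `V n` be the `i`-th homology of the `n`-th strand and `W` the `i`-th homology of the whole
complex over `R[X]`. The map `V n → W` is a `UIso` because consecutive strands differ by the
fibre at infinity (`iv_one`), whose homology is killed by an element outside the given prime.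
Then use `indOK_of_uIso`, `indP_eq_ind_qmap`, `finH_coker_of_indOKP`. -/
theorem NullOff.ifin (hm : ∀ (V : Type u) [AddCommGroup V] [Module R V], δ.mem V ↔ InA I V)
    (h : NullOff I dg w D Z) {v : R[X]} {e : ℕ} (hv : Av Z e v) (n : ℕ) :
    δ.IFin D dg w v e n :=
  SB.ifin hm h.mc h.wt (h.ifin_one hm) h.null hv.ne hv.deg hv.av n

theorem NullOff.iv_indep (hm : ∀ (V : Type u) [AddCommGroup V] [Module R V], δ.mem V ↔ InA I V)
    (h : NullOff I dg w D Z) {v : R[X]} {e : ℕ} (hv : Av Z e v) (n : ℕ) :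
    δ.Iv D dg w v e n = δ.Iv D dg w v e 0 := by
  induction n with
  | zero => rfl
  | succ n ih =>
    have h1 : (1 : R[X]).natDegree ≤ 1 := by simp
    have e1 := (iv_mul_aux h.mc h.wt hv.ne hv.deg h1 (h.ifin hm hv (n + 1)) (h.ifin_one hm n)).2
    have e2 := (iv_mul_aux h.mc h.wt one_ne_zero h1 hv.deg (h.ifin_one hm (n + e))
      (h.ifin hm hv n)).2
    rw [mul_one, (iv_one h.mc h.wt n).2 (h.ifin_one hm n)] at e1
    rw [one_mul, add_comm 1 e, (iv_one h.mc h.wt (n + e)).2 (h.ifin_one hm (n + e))] at e2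
    linarith

theorem NullOff.iv_mul (hm : ∀ (V : Type u) [AddCommGroup V] [Module R V], δ.mem V ↔ InA I V)
    (h : NullOff I dg w D Z) {v v' : R[X]} {e e' : ℕ} (hv : Av Z e v) (hv' : Av Z e' v') :
    δ.Iv D dg w (v * v') (e + e') 0 = δ.Iv D dg w v e 0 + δ.Iv D dg w v' e' 0 := by
  rw [(iv_mul_aux h.mc h.wt hv.ne hv.deg hv'.deg (h.ifin hm hv (0 + e')) (h.ifin hm hv' 0)).2,
    h.iv_indep hm hv]

/-- `eul_ind` and `ind_eq_of_uIso` in every degree. -/
theorem NullOff.iv_loc (hK : KHyp a p I δ) (h : NullOff I dg w D Z) (hZ : Z.Finite)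
    {v v' : R[X]} {e : ℕ} (hv : Av Z e v) (hv' : Av Z e v')
    (hvv : ∀ x ∈ Z, v - v' ∈ x.asIdeal) : δ.Iv D dg w v e 0 = δ.Iv D dg w v' e 0 :=
  SB.iv_loc hK h.mc h.wt (h.ifin_one hK.mem_iff) h.null hZ hv.ne hv.deg hv.av hv'.ne hv'.deg
    hv'.av hvv 0
end B

end Vale.Agent.P177
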