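import Vale.Agent.P177.Defs

/-! P177 module TDef: the derived exterior power of a matrix complex (Dold-Kan construction,
compound matrices, normalisation). Definitions only. -/

namespace Vale.Agent.P177

/-- Basis of the simplicial module: a monotone surjection `[m] → [dg b]` and a basis vector. -/
structure SJ (m : ℕ) {B : Type} (dg : B → ℕ) : Type where
  η : Fin (m + 1) → Fin (m + 1)
  b : B
  mono : Monotone η
  rng : ∀ v : ℕ, (∃ i, (η i : ℕ) = v) ↔ v ≤ dg b

theorem SJ.ext' {m : ℕ} {B : Type} {dg : B → ℕ} {x y : SJ m dg} (h1 : x.η = y.η)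
    (h2 : x.b = y.b) : x = y := by
  cases x; cases y; simp only at h1 h2; subst h1; subst h2; rfl

instance {m : ℕ} {B : Type} [Finite B] {dg : B → ℕ} : Finite (SJ m dg) :=
  Finite.of_injective (fun x : SJ m dg => (x.η, x.b)) fun _ _ h =>
    SJ.ext' (congrArg Prod.fst h) (congrArg Prod.snd h)
noncomputable instance {m : ℕ} {B : Type} [Finite B] {dg : B → ℕ} : Fintype (SJ m dg) :=
  Fintype.ofFinite _
noncomputable instance {m : ℕ} {B : Type} {dg : B → ℕ} : DecidableEq (SJ m dg) :=
  Classical.decEq _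

section Ops
variable {A : Type*} [CommRing A] (m : ℕ) {B B' : Type} [Fintype B] [Fintype B']
  (dg : B → ℕ) (dg' : B' → ℕ)

/-- The operator `(η, b) ↦ ⟨lam η, Y b⟩`, where `⟨λ, y⟩` is `(λ, y)` if `λ` is onto `[0, deg y]`,
is `(λ - 1, D' y)` if `λ` is onto `[1, deg y]`, and is zero otherwise. -/
noncomputable def brM (D' : Matrix B' B' A)
    (lam : (Fin (m + 1) → Fin (m + 1)) → Fin (m + 1) → ℕ) (Y : Matrix B' B A) :
    Matrix (SJ m dg') (SJ m dg) A := fun x' x =>
  (if ∀ i, (x'.η i : ℕ) = lam x.η i then Y x'.b x.b else 0) +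
    (if ∀ i, (x'.η i : ℕ) + 1 = lam x.η i then (D' * Y) x'.b x.b else 0)

/-- The simplicial operator of `θ` composed with the chain map `F`. -/
noncomputable def pull (D' : Matrix B' B' A) (θ : Fin (m + 1) → Fin (m + 1)) (F : Matrix B' B A) :
    Matrix (SJ m dg') (SJ m dg) A := brM m dg dg' D' (fun η i => η (θ i)) F

/-- The simplicial homotopy attached to a chain homotopy `S` starting at `F`. -/
noncomputable def hop (D : Matrix B B A) (D' : Matrix B' B' A) (θ : Fin (m + 1) → Fin (m + 1))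
    (ε : Fin (m + 1) → ℕ) (F S : Matrix B' B A) : Matrix (SJ m dg') (SJ m dg) A :=
  pull m dg dg' D' θ F - brM m dg dg' D' (fun η i => ε i * (η (θ i) + 1)) S -
    brM m dg dg' D' (fun η i => ε i * η (θ i)) (S * D)
end Ops

/-- Subsets of cardinality `c`. -/
abbrev PS (c : ℕ) (J : Type) : Type := {S : Finset J // S.card = c}

/-- An enumeration of a subset of cardinality `c`. -/
noncomputable def enum {c : ℕ} {J : Type} (S : PS c J) : Fin c → J :=
  fun i => ((S.1.equivFinOfCardEq S.2).symm i : J)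

/-- The `c`-th compound matrix. -/
noncomputable def cmp {A : Type*} [CommRing A] (c : ℕ) {J J' : Type} (X : Matrix J' J A) :
    Matrix (PS c J') (PS c J) A := fun S' S => (X.submatrix (enum S') (enum S)).det

/-- `η` jumps at the position `j`. -/
def Jmp {m : ℕ} (η : Fin (m + 1) → Fin (m + 1)) (j : ℕ) : Prop :=
  ∃ i i' : Fin (m + 1), (i : ℕ) + 1 = j ∧ (i' : ℕ) = j ∧ η i ≠ η i'

/-- The set `S` is a nondegenerate simplex of dimension `q`. -/
def NonDeg {m c : ℕ} {B : Type} {dg : B → ℕ} (q : ℕ) (S : PS c (SJ m dg)) : Prop :=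
  ∀ j : ℕ, (∃ x ∈ S.1, Jmp x.η j) ↔ 1 ≤ j ∧ j ≤ q

/-- Basis of the normalised complex. -/
structure TI (c m : ℕ) {B : Type} (dg : B → ℕ) : Type where
  q : Fin (m + 1)
  S : PS c (SJ m dg)
  nd : NonDeg q S

theorem TI.ext' {c m : ℕ} {B : Type} {dg : B → ℕ} {x y : TI c m dg} (h1 : x.q = y.q)
    (h2 : x.S = y.S) : x = y := by
  cases x; cases y; simp only at h1 h2; subst h1; subst h2; rfl

instance {c m : ℕ} {B : Type} [Finite B] {dg : B → ℕ} : Finite (TI c m dg) :=
  Finite.of_injective (fun x : TI c m dg => (x.q, x.S)) fun _ _ h =>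
    TI.ext' (congrArg Prod.fst h) (congrArg Prod.snd h)
noncomputable instance {c m : ℕ} {B : Type} [Finite B] {dg : B → ℕ} : Fintype (TI c m dg) :=
  Fintype.ofFinite _
noncomputable instance {c m : ℕ} {B : Type} {dg : B → ℕ} : DecidableEq (TI c m dg) :=
  Classical.decEq _

/-- Degrees of the normalised complex. -/
def tdg (c m : ℕ) {B : Type} (dg : B → ℕ) : TI c m dg → ℕ := fun y => y.q
/-- Weights of the normalised complex. -/
def twt (c m : ℕ) {B : Type} (dg : B → ℕ) (w : B → ℕ) : TI c m dg → ℕ :=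
  fun y => ∑ x ∈ y.S.1, w x.b

/-- Truncation to `[m]`. -/
def clampF (m v : ℕ) : Fin (m + 1) := ⟨min v m, Nat.lt_succ_of_le (min_le_right _ _)⟩
/-- The `i`-th face map `[q - 1] → [q]`, extended to `[m]`. -/
def fc (m q i : ℕ) (v : Fin (m + 1)) : Fin (m + 1) :=
  clampF m (if min (v : ℕ) (q - 1) < i then min (v : ℕ) (q - 1) else min (v : ℕ) (q - 1) + 1)
/-- The `j`-th degeneracy map `[q + 1] → [q]`, extended to `[m]`. -/
def dgn (m q j : ℕ) (v : Fin (m + 1)) : Fin (m + 1) :=
  clampF m (if min (v : ℕ) (q + 1) ≤ j then min (v : ℕ) (q + 1) else min (v : ℕ) (q + 1) - 1)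
/-- The map `[m] → [1]` with threshold `j`. -/
def eps (m j : ℕ) (v : Fin (m + 1)) : ℕ := if j < (v : ℕ) then 1 else 0

section T
variable {A : Type*} [CommRing A] (c m : ℕ) {B B' : Type} [Fintype B] [Fintype B']
  [DecidableEq B] (dg : B → ℕ) (dg' : B' → ℕ)

/-- The differential of the derived exterior power. -/
noncomputable def tmat (D : Matrix B B A) : Matrix (TI c m dg) (TI c m dg) A := fun y' y =>
  if (y.q : ℕ) = y'.q + 1 then
    ∑ i ∈ Finset.range (y.q + 1), (-1) ^ i * cmp c (pull m dg dg D (fc m y.q i) 1) y'.S y.S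
  else 0

/-- The derived exterior power of a chain map. -/
noncomputable def tmap (D' : Matrix B' B' A) (F : Matrix B' B A) :
    Matrix (TI c m dg') (TI c m dg) A := fun y' y =>
  if y.q = y'.q then cmp c (pull m dg dg' D' id F) y'.S y.S else 0

/-- The derived exterior power of a chain homotopy. -/
noncomputable def thom (D : Matrix B B A) (D' : Matrix B' B' A) (F S : Matrix B' B A) :
    Matrix (TI c m dg') (TI c m dg) A := fun y' y =>
  if (y'.q : ℕ) = y.q + 1 then
    ∑ j ∈ Finset.range (y.q + 1),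
      (-1) ^ j * cmp c (hop m dg dg' D D' (dgn m y.q j) (eps m j) F S) y'.S y.S
  else 0
end T

end Vale.Agent.P177
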