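import Vale.Agent.P177.TMain
import Vale.Agent.P177.Min

/-! P177 module THtp: homotopy invariance of the derived exterior power. -/

namespace Vale.Agent.P177

open Vale.Agent.P202

universe u

section
variable {A : Type*} [CommRing A] {c m : ℕ} {B B' : Type} [Fintype B] [Fintype B']
  [DecidableEq B] [DecidableEq B'] {dg : B → ℕ} {dg' : B' → ℕ}
  {D : Matrix B B A} {D' : Matrix B' B' A}

theorem isHomR_thom (F S : Matrix B' B A) :
    IsHomR (thom c m dg dg' D D' F S) (tdg c m dg') (tdg c m dg) (-1) := fun a b h => by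
  have e : (a.q : ℕ) = b.q + 1 := by_contra fun e => h (TA.thom_ne e)
  show ((b.q : ℕ) : ℤ) = (a.q : ℕ) + -1
  omega

/-- The simplicial homotopy gives a chain homotopy on the normalised complexes. -/
theorem thom_spec (hD : IsMC D (zd dg)) (hD' : IsMC D' (zd dg')) {F S : Matrix B' B A}
    (hF : IsHomR F dg' dg 0) (hS : IsHomR S dg' dg (-1)) (hc : F * D = D' * F) {n : ℕ}
    (hn : ∀ b, dg b ≤ n) (hm : n * c < m) :
    tmat c m dg' D' * thom c m dg dg' D D' F S + thom c m dg dg' D D' F S * tmat c m dg D =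
      tmap c m dg dg' D' (F - D' * S - S * D) - tmap c m dg dg' D' F := by
  ext y'' y
  rw [Matrix.add_apply, Matrix.sub_apply]
  by_cases h : (y.q : ℕ) = y''.q
  · have hy : (y.q : ℕ) + 1 ≤ m := (tdg_le hn y).trans_lt hm
    rw [TA.tmap_eq h, TA.tmap_eq h, ← TA.dF_hF hD hD' hF hS hc hy fun x hx => TA.small y hx,
      TA.mul_res _ _ y'' y hy (TA.dF c m dg' D' (y.q + 1)) (TA.hF c m dg dg' D D' F S (y.q + 1))
      y''.S y.S (fun y' e => by rw [TA.tmat_eq (by omega) e, TA.thom_eq e e])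
      (fun y' e => by rw [TA.thom_ne e, mul_zero])
      (fun T k hk e => TA.dF_deg hy hk e fun j hj => (TA.hj_iff y'' j).2 (by omega))
      fun T k hk e => TA.hF_big hk e]
    congr 1
    rcases Nat.eq_zero_or_eq_succ_pred y.q with h0 | h0
    · rw [h0, TA.hF, Finset.sum_range_zero, Matrix.zero_mul, Matrix.mul_apply]
      exact Finset.sum_eq_zero fun y' _ => by rw [TA.tmat_ne (y := y) (by omega), mul_zero]
    · obtain ⟨p, hp⟩ : ∃ p, (y.q : ℕ) = p + 1 := ⟨_, h0⟩
      rw [hp]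
      exact TA.mul_res _ _ y'' y (q := p) (by omega) _ _ y''.S y.S
        (fun y' e => by rw [TA.thom_eq (by omega) (h.symm.trans hp), TA.tmat_eq (by omega) hp])
        (fun y' e => by rw [TA.tmat_ne (y := y) (by omega), mul_zero])
        (fun T k hk e => TA.hF_deg (by omega) hk e fun j hj => (TA.hj_iff y'' j).2 (by omega))
        fun T k hk e => TA.dF_big hk e
  · rw [TA.tmap_ne h, TA.tmap_ne h, Matrix.mul_apply, Matrix.mul_apply, Finset.sum_eq_zero,
      Finset.sum_eq_zero, add_zero, sub_zero]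
    · intro y' _
      by_cases e : (y''.q : ℕ) = y'.q + 1
      · rw [TA.tmat_ne (y := y) (by omega), mul_zero]
      · rw [TA.thom_ne e, zero_mul]
    · intro y' _
      by_cases e : (y'.q : ℕ) = y''.q + 1
      · rw [TA.thom_ne (y := y) (by omega), mul_zero]
      · rw [TA.tmat_ne e, zero_mul]

theorem TA.htp_one (hD : IsMC D (zd dg)) {F H : Matrix B B A} (hF : IsHomR F dg dg 0)
    (hH : IsHomR H dg dg (-1)) (hc : F * D = D * F) (h : F - 1 = D * H + H * D) {n : ℕ}
    (hn : ∀ b, dg b ≤ n) (hm : n * c < m) : tmap c m dg dg D F - 1 =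
      tmat c m dg D * -thom c m dg dg D D F H + -thom c m dg dg D D F H * tmat c m dg D := by
  have e : F - D * H - H * D = 1 := by rw [sub_sub, ← h, sub_sub_cancel]
  rw [Matrix.mul_neg, Matrix.neg_mul, ← neg_add, thom_spec hD hD hF hH hc hn hm, e, tmap_one,
    neg_sub]

theorem MHEq.tmat (hD : IsMC D (zd dg)) (hD' : IsMC D' (zd dg')) (h : MHEq D dg D' dg') {n : ℕ}
    (hn : ∀ b, dg b ≤ n) (hn' : ∀ b, dg' b ≤ n) (hm : n * c < m) :
    MHEq (tmat c m dg D) (tdg c m dg) (tmat c m dg' D') (tdg c m dg') := by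
  obtain ⟨F, G, H, H', hF, hG, hH, hH', h1, h2, h3, h4⟩ := h
  refine ⟨tmap c m dg dg' D' F, tmap c m dg' dg D G, -thom c m dg dg D D (G * F) H,
    -thom c m dg' dg' D' D' (F * G) H', isHomR_tmap F, isHomR_tmap G, (isHomR_thom _ _).neg',
    (isHomR_thom _ _).neg', tmap_chain hD hD' hF h1, tmap_chain hD' hD hG h2, ?_, ?_⟩
  · rw [tmap_mul hD' hD hG hF h2]
    refine TA.htp_one hD (hG.mul' hF rfl) hH ?_ h3 hn hm
    rw [Matrix.mul_assoc, h1, ← Matrix.mul_assoc, h2, Matrix.mul_assoc]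
  · rw [tmap_mul hD hD' hF hG h1]
    refine TA.htp_one hD' (hF.mul' hG rfl) hH' ?_ h4 hn' hm
    rw [Matrix.mul_assoc, h2, ← Matrix.mul_assoc, h1, Matrix.mul_assoc]

theorem nullHtp_tmat (hD : IsMC D (zd dg)) {r : ℕ} (hr : r < c)
    (h : MHEq D dg (0 : Matrix (Fin r) (Fin r) A) fun _ => 0) {n : ℕ} (hn : ∀ b, dg b ≤ n)
    (hm : n * c < m) : NullHtp (tmat c m dg D) (tdg c m dg) 1 := by
  have := isEmpty_TI (c := c) (m := m) (dg := fun _ : Fin r => 0) (fun _ => rfl)
    (by rwa [Fintype.card_fin])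
  exact NullHtp.of_mheq (h.tmat hD isMC_zero hn (fun _ => n.zero_le) hm) (nullHtp_of_isEmpty 1)
end

/-- The derived exterior power of a good complex of virtual rank `c - 1` is locally
contractible. -/
theorem nullAt_tmat {A : Type u} [CommRing A] {c m : ℕ} {B : Type} [Fintype B] [DecidableEq B]
    {dg : B → ℕ} {D : Matrix B B A} (hD : IsMC D (zd dg)) (hc : sAlt dg 0 + 1 = c)
    {x : PrimeSpectrum A} (h : GoodAt D dg x 1) {n : ℕ} (hn : ∀ b, dg b ≤ n) (hm : n * c < m) :
    NullAt (tmat c m dg D) (tdg c m dg) x := by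
  have hL := isMC_map hD (algebraMap A (Localization.AtPrime x.asIdeal))
  have h0 : 0 ≤ sAlt dg 0 := by
    obtain ⟨κ, _, _, e, E, hE, -, hq, hk⟩ := exists_min hL
    rw [hq.sAlt_zero hL hE]
    refine Finset.sum_nonneg fun b _ => ?_
    have h1 : dg (e b) = 0 := by
      by_contra h2
      have h3 := hk (dg (e b))
      rw [hk_localization hD, h _ (by omega), eq_comm, Nat.cast_eq_zero, Finset.card_eq_zero] at h3
      exact Finset.filter_eq_empty_iff.1 h3 (Finset.mem_univ b) rfl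
    rw [Function.comp_apply, h1, if_pos le_rfl]
    exact zero_le_one
  obtain ⟨r, hr⟩ := Int.eq_ofNat_of_zero_le h0
  rw [nullAt_iff, tmat_map]
  exact nullHtp_tmat hL (by omega) (mheq_zero_of_good hD h hr) hn hm

end Vale.Agent.P177
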