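import Vale.Agent.P177.Hop
import Vale.Agent.P177.MC

/-! P177 module TMainAux: faces, degeneracies and the unnormalised operators. -/

namespace Vale.Agent.P177.TA

open Vale.Agent.P202 Finset

variable {A : Type*} [CommRing A]

theorem alt_dd (G : ℕ → ℕ → A) (n : ℕ) (h : ∀ i j, i ≤ j → j < n → G j i = G i (j + 1)) :
    ∑ j ∈ range n, ∑ i ∈ range (n + 1), (-1) ^ (j + i) * G j i = 0 := by
  induction n with
  | zero => exact sum_range_zero _
  | succ n ih =>
    have e0 := ih fun i j h1 h2 => h i j h1 (h2.trans n.lt_succ_self)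
    have e1 : ∑ j ∈ range (n + 1), (-1) ^ (j + (n + 1)) * G j (n + 1) =
        -∑ i ∈ range (n + 1), (-1) ^ (n + i) * G n i := by
      rw [← sum_neg_distrib]
      refine sum_congr rfl fun i hi => ?_
      rw [h i n (Nat.lt_succ_iff.1 (mem_range.1 hi)) n.lt_succ_self]
      ring
    simp only [sum_range_succ _ (n + 1), sum_add_distrib]
    rw [e1, sum_range_succ _ n, e0]
    ring

theorem alt_htp (G H : ℕ → ℕ → A) (q : ℕ) (h1 : ∀ i j, i ≤ j → j < q → G i (j + 1) = H j i)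
    (h2 : ∀ i j, j < i → i ≤ q → G (i + 1) j = H j i)
    (h3 : ∀ j < q, G (j + 1) j = G (j + 1) (j + 1)) :
    ∑ i ∈ range (q + 1 + 1), ∑ j ∈ range (q + 1), (-1) ^ (i + j) * G i j +
      ∑ j ∈ range q, ∑ i ∈ range (q + 1), (-1) ^ (j + i) * H j i = G 0 0 - G (q + 1) q := by
  induction q with
  | zero =>
    simp only [sum_range_succ, sum_range_zero]
    ring
  | succ q ih =>
    have e0 := ih (fun i j a b => h1 i j a (b.trans q.lt_succ_self))
      (fun i j a b => h2 i j a (b.trans q.le_succ)) fun j a => h3 j (a.trans q.lt_succ_self)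
    have e1 : ∑ i ∈ range (q + 1), (-1) ^ (i + (q + 1)) * G i (q + 1) =
        -∑ i ∈ range (q + 1), (-1) ^ (q + i) * H q i := by
      rw [← sum_neg_distrib]
      refine sum_congr rfl fun i hi => ?_
      rw [h1 i q (Nat.lt_succ_iff.1 (mem_range.1 hi)) q.lt_succ_self]
      ring
    have e2 : ∑ j ∈ range (q + 1), (-1) ^ (q + 1 + 1 + j) * G (q + 1 + 1) j =
        -∑ j ∈ range (q + 1), (-1) ^ (j + (q + 1)) * H j (q + 1) := by
      rw [← sum_neg_distrib]
      refine sum_congr rfl fun j hj => ?_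
      rw [h2 (q + 1) j (mem_range.1 hj) le_rfl]
      ring
    have e3 : (-1 : A) ^ (q + 1 + (q + 1)) = 1 := Even.neg_one_pow ⟨_, rfl⟩
    have e4 : (-1 : A) ^ (q + 1 + 1 + (q + 1)) = -1 := Odd.neg_one_pow ⟨q + 1, by ring⟩
    have e5 := h3 q q.lt_succ_self
    have e6 : ∑ i ∈ range (q + 1 + 1 + 1), ∑ j ∈ range (q + 1 + 1), (-1) ^ (i + j) * G i j =
        ∑ i ∈ range (q + 1 + 1), ∑ j ∈ range (q + 1), (-1) ^ (i + j) * G i j +
        (∑ i ∈ range (q + 1), (-1) ^ (i + (q + 1)) * G i (q + 1) +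
          (-1) ^ (q + 1 + (q + 1)) * G (q + 1) (q + 1)) +
        (∑ j ∈ range (q + 1), (-1) ^ (q + 1 + 1 + j) * G (q + 1 + 1) j +
          (-1) ^ (q + 1 + 1 + (q + 1)) * G (q + 1 + 1) (q + 1)) := by
      rw [← sum_range_succ (fun i => (-1 : A) ^ (i + (q + 1)) * G i (q + 1)), ← sum_add_distrib,
        ← sum_range_succ (fun j => (-1 : A) ^ (q + 1 + 1 + j) * G (q + 1 + 1) j),
        sum_range_succ (fun i => ∑ j ∈ range (q + 1 + 1), (-1 : A) ^ (i + j) * G i j)]
      exact congrArg (· + _) (sum_congr rfl fun i _ => sum_range_succ _ _)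
    have e7 : ∑ j ∈ range (q + 1), ∑ i ∈ range (q + 1 + 1), (-1) ^ (j + i) * H j i =
        ∑ j ∈ range q, ∑ i ∈ range (q + 1), (-1) ^ (j + i) * H j i +
        ∑ i ∈ range (q + 1), (-1) ^ (q + i) * H q i +
        ∑ j ∈ range (q + 1), (-1) ^ (j + (q + 1)) * H j (q + 1) := by
      rw [← sum_range_succ (fun j => ∑ i ∈ range (q + 1), (-1 : A) ^ (j + i) * H j i),
        ← sum_add_distrib]
      exact sum_congr rfl fun i _ => sum_range_succ _ _
    rw [e6, e7, e1, e2, e3, e4, ← e5]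
    linear_combination e0

theorem alt_mul {J J' J'' : Type} [Fintype J'] (X : ℕ → Matrix J'' J' A) (Y : ℕ → Matrix J' J A)
    (a b : ℕ) (s : J'') (t : J) :
    ((∑ i ∈ range a, (-1 : A) ^ i • X i) * ∑ j ∈ range b, (-1 : A) ^ j • Y j) s t =
      ∑ i ∈ range a, ∑ j ∈ range b, (-1) ^ (i + j) * (X i * Y j) s t := by
  rw [Matrix.sum_mul, Matrix.sum_apply]
  refine sum_congr rfl fun i _ => ?_
  rw [Matrix.mul_sum, Matrix.sum_apply]
  refine sum_congr rfl fun j _ => ?_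
  rw [Matrix.smul_mul, Matrix.mul_smul, smul_smul, Matrix.smul_apply, smul_eq_mul, pow_add]

theorem cl_val (m v : ℕ) : (clampF m v : ℕ) = min v m := rfl
theorem fc_val (m q i : ℕ) (v : Fin (m + 1)) : (fc m q i v : ℕ) =
    min (min (v : ℕ) (q - 1) + 1 - min 1 (i - min (v : ℕ) (q - 1))) m := by
  rw [fc, cl_val]
  split_ifs <;> omega
theorem dgn_val (m q j : ℕ) (v : Fin (m + 1)) : (dgn m q j v : ℕ) =
    min (min (v : ℕ) (q + 1) - min 1 (min (v : ℕ) (q + 1) - j)) m := by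
  rw [dgn, cl_val]
  split_ifs <;> omega
theorem eps_val (m j : ℕ) (v : Fin (m + 1)) : eps m j v = min 1 ((v : ℕ) - j) := by
  rw [eps]
  split_ifs <;> omega

theorem fc_spec {m q : ℕ} (h : q + 1 ≤ m) (i : ℕ) (v : Fin (m + 1)) :
    min (v : ℕ) q < i ∧ (fc m (q + 1) i v : ℕ) = min (v : ℕ) q ∨
      i ≤ min (v : ℕ) q ∧ (fc m (q + 1) i v : ℕ) = min (v : ℕ) q + 1 := by
  rw [fc, cl_val, Nat.add_sub_cancel]
  split_ifs <;> omega
theorem dgn_spec {m q : ℕ} (h : q + 1 ≤ m) (j : ℕ) (v : Fin (m + 1)) :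
    min (v : ℕ) (q + 1) ≤ j ∧ (dgn m q j v : ℕ) = min (v : ℕ) (q + 1) ∨
      j < min (v : ℕ) (q + 1) ∧ (dgn m q j v : ℕ) + 1 = min (v : ℕ) (q + 1) := by
  rw [dgn, cl_val]
  split_ifs <;> omega
theorem eps_spec (m j : ℕ) (v : Fin (m + 1)) :
    j < v ∧ eps m j v = 1 ∨ (v : ℕ) ≤ j ∧ eps m j v = 0 := by
  rw [eps]
  split_ifs <;> omega

theorem fc_fc {m q i j : ℕ} (h : q + 1 + 1 ≤ m) (h1 : i ≤ j) (v : Fin (m + 1)) :
    fc m (q + 1 + 1) i (fc m (q + 1) j v) = fc m (q + 1 + 1) (j + 1) (fc m (q + 1) i v) := by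
  have a1 := fc_spec (Nat.le_of_succ_le h) j v
  have a2 := fc_spec (Nat.le_of_succ_le h) i v
  have a3 := fc_spec h i (fc m (q + 1) j v)
  have a4 := fc_spec h (j + 1) (fc m (q + 1) i v)
  exact Fin.ext (by omega)

theorem dgn_fc_lt {m q i j : ℕ} (h : q + 1 + 1 ≤ m) (h1 : i ≤ j) (h2 : j < q + 1)
    (v : Fin (m + 1)) :
    dgn m (q + 1) (j + 1) (fc m (q + 1 + 1) i v) = fc m (q + 1) i (dgn m q j v) ∧
      eps m (j + 1) (fc m (q + 1 + 1) i v) = eps m j v := by
  have a1 := fc_spec h i v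
  constructor
  · have a2 := dgn_spec (Nat.le_of_succ_le h) j v
    have a3 := dgn_spec h (j + 1) (fc m (q + 1 + 1) i v)
    have a4 := fc_spec (Nat.le_of_succ_le h) i (dgn m q j v)
    exact Fin.ext (by omega)
  · have a2 := eps_spec m j v
    have a3 := eps_spec m (j + 1) (fc m (q + 1 + 1) i v)
    omega

theorem dgn_fc_gt {m q i j : ℕ} (h : q + 1 + 1 ≤ m) (h1 : j < i) (h2 : i ≤ q + 1)
    (v : Fin (m + 1)) :
    dgn m (q + 1) j (fc m (q + 1 + 1) (i + 1) v) = fc m (q + 1) i (dgn m q j v) ∧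
      eps m j (fc m (q + 1 + 1) (i + 1) v) = eps m j v := by
  have a1 := fc_spec h (i + 1) v
  constructor
  · have a2 := dgn_spec (Nat.le_of_succ_le h) j v
    have a3 := dgn_spec h j (fc m (q + 1 + 1) (i + 1) v)
    have a4 := fc_spec (Nat.le_of_succ_le h) i (dgn m q j v)
    exact Fin.ext (by omega)
  · have a2 := eps_spec m j v
    have a3 := eps_spec m j (fc m (q + 1 + 1) (i + 1) v)
    omega

theorem dgn_fc {m q i j : ℕ} (h : q + 1 ≤ m) (h1 : i = j ∨ i = j + 1) (h2 : j ≤ q)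
    (v : Fin (m + 1)) : dgn m q j (fc m (q + 1) i v) = clampF m (min v q) := by
  have a1 := fc_spec h i v
  have a2 := dgn_spec h j (fc m (q + 1) i v)
  have a3 := cl_val m (min v q)
  exact Fin.ext (by omega)

theorem eps_fc {m q j : ℕ} (h : q + 1 ≤ m) (v : Fin (m + 1)) :
    eps m j (fc m (q + 1) (j + 1) v) = eps m (j + 1) (fc m (q + 1) (j + 1) v) ∧
      eps m 0 (fc m (q + 1) 0 v) = 1 ∧ eps m q (fc m (q + 1) (q + 1) v) = 0 := by
  refine ⟨?_, ?_, ?_⟩
  · have a1 := fc_spec h (j + 1) v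
    have a2 := eps_spec m j (fc m (q + 1) (j + 1) v)
    have a3 := eps_spec m (j + 1) (fc m (q + 1) (j + 1) v)
    omega
  · have a1 := fc_spec h 0 v
    have a2 := eps_spec m 0 (fc m (q + 1) 0 v)
    omega
  · have a1 := fc_spec h (q + 1) v
    have a2 := eps_spec m q (fc m (q + 1) (q + 1) v)
    omega

theorem fc_mono (m q i : ℕ) : Monotone (fc m q i) := fun a b h => by
  have : (a : ℕ) ≤ b := h
  show (fc m q i a : ℕ) ≤ fc m q i b
  rw [fc, fc, cl_val, cl_val]
  split_ifs <;> omega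

theorem dgn_mono (m q j : ℕ) : Monotone (dgn m q j) := fun a b h => by
  have : (a : ℕ) ≤ b := h
  show (dgn m q j a : ℕ) ≤ dgn m q j b
  rw [dgn, dgn, cl_val, cl_val]
  split_ifs <;> omega

theorem isEps_eps (m j : ℕ) : IsEps (eps m j) := by
  refine ⟨fun a b h => ?_, fun i => ?_⟩
  · have : (a : ℕ) ≤ b := h
    simp only [eps_val]
    omega
  · simp only [eps_val]
    omega

variable {c m : ℕ} {B B' B'' : Type} {dg : B → ℕ} {dg' : B' → ℕ} {dg'' : B'' → ℕ}

/-- Some simplex of the set jumps between the positions `k` and `k + 1`. -/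
def HJ (S : PS c (SJ m dg)) (k : ℕ) : Prop :=
  ∃ x ∈ S.1, x.η (clampF m k) ≠ x.η (clampF m (k + 1))

theorem not_hj {S : PS c (SJ m dg)} {k : ℕ} (h : ¬HJ S k) {x : SJ m dg} (hx : x ∈ S.1)
    {a b : Fin (m + 1)} (ha : (a : ℕ) = min k m) (hb : (b : ℕ) = min (k + 1) m) :
    x.η a = x.η b := by
  rw [show a = clampF m k from Fin.ext ha, show b = clampF m (k + 1) from Fin.ext hb]
  by_contra e
  exact h ⟨x, hx, e⟩

theorem jmp_iff {η : Fin (m + 1) → Fin (m + 1)} {k : ℕ} :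
    Jmp η (k + 1) ↔ η (clampF m k) ≠ η (clampF m (k + 1)) := by
  constructor
  · rintro ⟨i, i', h1, h2, h3⟩
    have := i'.2
    rwa [show clampF m k = i from Fin.ext (by rw [cl_val]; omega),
      show clampF m (k + 1) = i' from Fin.ext (by rw [cl_val]; omega)]
  · intro h
    have hk : k + 1 ≤ m := by
      by_contra e
      exact h (congrArg η (Fin.ext (by rw [cl_val, cl_val]; omega)))
    exact ⟨_, _, by rw [cl_val]; omega, by rw [cl_val]; omega, h⟩

theorem nd_iff {q : ℕ} {S : PS c (SJ m dg)} : NonDeg q S ↔ ∀ k, HJ S k ↔ k < q := by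
  constructor
  · intro h k
    have := h (k + 1)
    simp only [jmp_iff] at this
    exact this.trans (by omega)
  · intro h j
    cases j with
    | zero =>
      refine iff_of_false ?_ (by omega)
      rintro ⟨x, -, i, i', h1, -⟩
      omega
    | succ k =>
      simp only [jmp_iff]
      exact (h k).trans (by omega)

theorem hj_iff (y : TI c m dg) (k : ℕ) : HJ y.S k ↔ k < y.q := nd_iff.1 y.nd k

theorem q_le (y : TI c m dg) : (y.q : ℕ) ≤ m := Nat.lt_succ_iff.1 y.q.2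

/-- The simplices of a nondegenerate set are constant from the dimension on. -/
theorem small (y : TI c m dg) {x : SJ m dg} (hx : x ∈ y.S.1) (v : Fin (m + 1)) :
    x.η (clampF m (min v y.q)) = x.η v := by
  have key : ∀ k, x.η (clampF m y.q) = x.η (clampF m (y.q + k)) := fun k => by
    induction k with
    | zero => rfl
    | succ k ih =>
      exact ih.trans (not_hj (fun e => by have := (hj_iff y (y.q + k)).1 e; omega) hx rfl rfl)
  have hv := v.2
  rcases le_total (v : ℕ) y.q with h | h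
  · exact congrArg _ (Fin.ext (by rw [cl_val]; omega))
  · rw [min_eq_right h, key (v - y.q)]
    exact congrArg _ (Fin.ext (by rw [cl_val]; omega))

variable [Fintype B] [Fintype B'] [Fintype B''] [DecidableEq B] [DecidableEq B']
  {D : Matrix B B A} {D' : Matrix B' B' A} {D'' : Matrix B'' B'' A}

omit [DecidableEq B] [DecidableEq B'] [Fintype B] in
/-- A sum over the middle index of the normalised complex as a sum over all sets. -/
theorem mul_res {ι κ : Type} (X : Matrix ι (TI c m dg') A) (Y : Matrix (TI c m dg') κ A)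
    (s : ι) (t : κ) {q : ℕ} (hq : q ≤ m) {ι' κ' : Type} (X' : Matrix ι' (PS c (SJ m dg')) A)
    (Y' : Matrix (PS c (SJ m dg')) κ' A) (s' : ι') (t' : κ')
    (h : ∀ y : TI c m dg', (y.q : ℕ) = q → X s y * Y y t = X' s' y.S * Y' y.S t')
    (h0 : ∀ y : TI c m dg', (y.q : ℕ) ≠ q → X s y * Y y t = 0)
    (hdeg : ∀ S, ∀ k < q, ¬HJ S k → X' s' S = 0) (hbig : ∀ S k, q ≤ k → HJ S k → Y' S t' = 0) :
    (X * Y) s t = (X' * Y') s' t' := by
  classical
  rw [Matrix.mul_apply, Matrix.mul_apply,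
    ← sum_filter_of_ne (p := fun y : TI c m dg' => (y.q : ℕ) = q) fun y _ e =>
      by_contra fun e' => e (h0 y e')]
  refine sum_of_injOn TI.S (fun y hy y' hy' e => TI.ext' (Fin.ext ?_) e) (fun _ _ => mem_univ _)
    (fun S _ hS => ?_) fun y hy => h y (mem_filter.1 hy).2
  · exact (mem_filter.1 hy).2.trans (mem_filter.1 hy').2.symm
  · have h1 : ¬∀ k, HJ S k ↔ k < q := fun e => hS
      ⟨⟨⟨q, Nat.lt_succ_of_le hq⟩, S, nd_iff.2 e⟩, mem_filter.2 ⟨mem_univ _, rfl⟩, rfl⟩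
    obtain ⟨k, hk⟩ := not_forall.1 h1
    by_cases h2 : k < q
    · rw [hdeg S k h2 fun e => hk (iff_of_true e h2), zero_mul]
    · rw [hbig S k (not_lt.1 h2) (by_contra fun e => hk (iff_of_false e h2)), mul_zero]

variable {F H : Matrix B' B A} {θ θ' : Fin (m + 1) → Fin (m + 1)} {ε : Fin (m + 1) → ℕ}
  {S' : PS c (SJ m dg')} {S : PS c (SJ m dg)} {k q : ℕ}

theorem row (h : HJ S' k) (hθ : ∀ x ∈ S.1, x.η (θ (clampF m k)) = x.η (θ (clampF m (k + 1))))
    (hε : ε (clampF m k) = ε (clampF m (k + 1))) :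
    cmp c (hop m dg dg' D D' θ ε F H) S' S = 0 := by
  obtain ⟨x', h1, h2⟩ := h
  exact cmp_eq_zero_of_row h1 fun x hx => hop_row_zero (hθ x hx) hε h2

theorem rowp (h : HJ S' k) (hθ : ∀ x ∈ S.1, x.η (θ (clampF m k)) = x.η (θ (clampF m (k + 1)))) :
    cmp c (pull m dg dg' D' θ F) S' S = 0 := by
  rw [← hop_S_zero (D := 0) θ fun _ => 0]
  exact row h hθ rfl

theorem col (h : ∀ x ∈ S.1, ∀ i, x.η (θ i) = x.η (θ' i)) :
    cmp c (hop m dg dg' D D' θ ε F H) S' S = cmp c (hop m dg dg' D D' θ' ε F H) S' S :=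
  cmp_congr fun _ _ x hx => hop_col_congr (h x hx)

theorem colp (h : ∀ x ∈ S.1, ∀ i, x.η (θ i) = x.η (θ' i)) :
    cmp c (pull m dg dg' D' θ F) S' S = cmp c (pull m dg dg' D' θ' F) S' S := by
  rw [← hop_S_zero (D := 0) θ fun _ => 0, ← hop_S_zero (D := 0) θ' fun _ => 0]
  exact col h

theorem pid_zero (h : HJ S' k) (h' : ¬HJ S k) : cmp c (pull m dg dg' D' id F) S' S = 0 :=
  rowp h fun _ hx => not_hj h' hx rfl rfl

/-- The unnormalised differential. -/
noncomputable def dF (c m : ℕ) (dg : B → ℕ) (D : Matrix B B A) (q : ℕ) :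
    Matrix (PS c (SJ m dg)) (PS c (SJ m dg)) A :=
  ∑ i ∈ range (q + 1), (-1 : A) ^ i • cmp c (pull m dg dg D (fc m q i) 1)

theorem dF_apply (T' T : PS c (SJ m dg)) : dF c m dg D q T' T =
    ∑ i ∈ range (q + 1), (-1) ^ i * cmp c (pull m dg dg D (fc m q i) 1) T' T := by
  simp only [dF, Matrix.sum_apply, Matrix.smul_apply, smul_eq_mul]

theorem tmat_eq {y' y : TI c m dg} (h : (y.q : ℕ) = y'.q + 1) (hq : (y.q : ℕ) = q) :
    tmat c m dg D y' y = dF c m dg D q y'.S y.S := by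
  rw [dF_apply, ← hq]
  exact if_pos h

theorem tmat_ne {y' y : TI c m dg} (h : (y.q : ℕ) ≠ y'.q + 1) : tmat c m dg D y' y = 0 :=
  if_neg h

theorem dF_big {T' T : PS c (SJ m dg)} (hk : q ≤ k) (h : HJ T' k) :
    dF c m dg D (q + 1) T' T = 0 := by
  rw [dF_apply]
  refine sum_eq_zero fun i _ => mul_eq_zero_of_right _
    (rowp h fun x _ => congrArg _ (Fin.ext ?_))
  simp only [fc_val, cl_val]
  omega

theorem dF_deg {T' T : PS c (SJ m dg)} (hm : q + 1 ≤ m) (hk : k < q + 1) (h : ¬HJ T k)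
    (h' : ∀ j < q, HJ T' j) : dF c m dg D (q + 1) T' T = 0 := by
  rw [dF_apply, sum_eq_add_of_mem k (k + 1) (mem_range.2 (by omega)) (mem_range.2 (by omega))
    (by omega), colp (θ' := fc m (q + 1) (k + 1))]
  · ring
  · intro x hx v
    by_cases hv : min (v : ℕ) q = k
    · refine (not_hj h hx ?_ ?_).symm <;>
      · simp only [fc_val]
        omega
    · refine congrArg _ (Fin.ext ?_)
      simp only [fc_val]
      omega
  · intro i hi hne
    have hi' := mem_range.1 hi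
    refine mul_eq_zero_of_right _ ?_
    rcases lt_or_ge i k with h1 | h1
    · refine rowp (h' (k - 1) (by omega)) fun x hx => not_hj h hx ?_ ?_ <;>
      · simp only [fc_val, cl_val]
        omega
    · refine rowp (h' k (by omega)) fun x hx => not_hj h hx ?_ ?_ <;>
      · simp only [fc_val, cl_val]
        omega

theorem dF_dF (hD : IsMC D (zd dg)) (hm : q + 1 + 1 ≤ m) (T' T : PS c (SJ m dg)) :
    (dF c m dg D (q + 1) * dF c m dg D (q + 1 + 1)) T' T = 0 := by
  rw [dF, dF, alt_mul]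
  refine alt_dd _ _ fun i j h1 h2 => ?_
  have hc : (1 : Matrix B B A) * D = D * 1 := by rw [one_mul, mul_one]
  rw [← cmp_mul, ← cmp_mul, pull_mul hD hD .one' .one' hc (fc_mono _ _ _) (fc_mono _ _ _),
    pull_mul hD hD .one' .one' hc (fc_mono _ _ _) (fc_mono _ _ _)]
  exact colp fun x _ v => congrArg _ (fc_fc hm h1 v)

theorem pid_dF (hD : IsMC D (zd dg)) (hD' : IsMC D' (zd dg')) (hF : IsHomR F dg' dg 0)
    (hc : F * D = D' * F) : cmp c (pull m dg dg' D' id F) * dF c m dg D q =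
      dF c m dg' D' q * cmp c (pull m dg dg' D' id F) := by
  rw [dF, dF, Matrix.mul_sum, Matrix.sum_mul]
  refine sum_congr rfl fun i _ => ?_
  rw [Matrix.mul_smul, Matrix.smul_mul, ← cmp_mul, ← cmp_mul,
    pull_mul hD hD' hF .one' hc (fc_mono _ _ _) monotone_id,
    pull_mul hD' hD' .one' hF (by rw [one_mul, mul_one]) monotone_id (fc_mono _ _ _),
    Matrix.mul_one, Matrix.one_mul]
  rfl

/-- The unnormalised homotopy. -/
noncomputable def hF (c m : ℕ) (dg : B → ℕ) (dg' : B' → ℕ) (D : Matrix B B A)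
    (D' : Matrix B' B' A) (F H : Matrix B' B A) (q : ℕ) :
    Matrix (PS c (SJ m dg')) (PS c (SJ m dg)) A :=
  ∑ j ∈ range q, (-1 : A) ^ j • cmp c (hop m dg dg' D D' (dgn m (q - 1) j) (eps m j) F H)

omit [DecidableEq B] [DecidableEq B'] in
theorem hF_apply : hF c m dg dg' D D' F H q S' S = ∑ j ∈ range q,
    (-1) ^ j * cmp c (hop m dg dg' D D' (dgn m (q - 1) j) (eps m j) F H) S' S := by
  simp only [hF, Matrix.sum_apply, Matrix.smul_apply, smul_eq_mul]

omit [DecidableEq B] [DecidableEq B'] in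
theorem thom_eq {y' : TI c m dg'} {y : TI c m dg} (h : (y'.q : ℕ) = y.q + 1)
    (hq : (y'.q : ℕ) = q) :
    thom c m dg dg' D D' F H y' y = hF c m dg dg' D D' F H q y'.S y.S := by
  rw [hF_apply, ← hq, h]
  exact if_pos h

omit [DecidableEq B] [DecidableEq B'] in
theorem thom_ne {y' : TI c m dg'} {y : TI c m dg} (h : (y'.q : ℕ) ≠ y.q + 1) :
    thom c m dg dg' D D' F H y' y = 0 := if_neg h

theorem hF_big (hk : q ≤ k) (h : HJ S' k) : hF c m dg dg' D D' F H q S' S = 0 := by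
  rw [hF_apply]
  refine sum_eq_zero fun j hj => mul_eq_zero_of_right _
    (row h (fun x _ => congrArg _ (Fin.ext ?_)) ?_)
  · have := mem_range.1 hj
    simp only [dgn_val, cl_val]
    omega
  · have := mem_range.1 hj
    simp only [eps_val, cl_val]
    omega

theorem hF_deg (hm : q + 1 ≤ m) (hk : k < q) (h : ¬HJ S k) (h' : ∀ j < q + 1, HJ S' j) :
    hF c m dg dg' D D' F H (q + 1) S' S = 0 := by
  rw [hF_apply]
  refine sum_eq_zero fun j hj => mul_eq_zero_of_right _ ?_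
  have := mem_range.1 hj
  rcases lt_or_ge k j with h1 | h1
  · refine row (h' k (by omega)) (fun x hx => not_hj h hx ?_ ?_) ?_ <;>
    · simp only [dgn_val, eps_val, cl_val]
      omega
  · refine row (h' (k + 1) (by omega)) (fun x hx => not_hj h hx ?_ ?_) ?_ <;>
    · simp only [dgn_val, eps_val, cl_val]
      omega

/-- The homotopy identity before normalisation. -/
theorem dF_hF (hD : IsMC D (zd dg)) (hD' : IsMC D' (zd dg')) (hF0 : IsHomR F dg' dg 0)
    (hH : IsHomR H dg' dg (-1)) (hc : F * D = D' * F) (hm : q + 1 ≤ m)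
    (hS : ∀ x ∈ S.1, ∀ v : Fin (m + 1), x.η (clampF m (min v q)) = x.η v) :
    (dF c m dg' D' (q + 1) * hF c m dg dg' D D' F H (q + 1)) S' S +
      (hF c m dg dg' D D' F H q * dF c m dg D q) S' S =
      cmp c (pull m dg dg' D' id (F - D' * H - H * D)) S' S -
        cmp c (pull m dg dg' D' id F) S' S := by
  have e1 : ∀ i j, cmp c (pull m dg' dg' D' (fc m (q + 1) i) 1) *
      cmp c (hop m dg dg' D D' (dgn m (q + 1 - 1) j) (eps m j) F H) = cmp c (hop m dg dg' D D'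
        (dgn m q j ∘ fc m (q + 1) i) (eps m j ∘ fc m (q + 1) i) F H) := fun i j => by
    rw [← cmp_mul, pull_mul_hop hD hD' hF0 hH (dgn_mono _ _ _) (fc_mono _ _ _) (isEps_eps _ _)]
    rfl
  have e2 : ∀ j i, cmp c (hop m dg dg' D D' (dgn m (q - 1) j) (eps m j) F H) *
      cmp c (pull m dg dg D (fc m q i) 1) =
      cmp c (hop m dg dg' D D' (fc m q i ∘ dgn m (q - 1) j) (eps m j) F H) := fun i j => by
    rw [← cmp_mul, hop_mul_pull hD hD' hF0 hH hc (dgn_mono _ _ _) (fc_mono _ _ _) (isEps_eps _ _)]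
  have e3 : ∀ {θ θ' : Fin (m + 1) → Fin (m + 1)} {ε ε' : Fin (m + 1) → ℕ},
      (∀ v, θ v = θ' v) → (∀ v, ε v = ε' v) →
      cmp c (hop m dg dg' D D' θ ε F H) S' S = cmp c (hop m dg dg' D D' θ' ε' F H) S' S := by
    intro θ θ' ε ε' h1 h2
    rw [show θ = θ' from funext h1, show ε = ε' from funext h2]
  rw [dF, hF, hF, dF, alt_mul, alt_mul]
  simp only [e1, e2]
  rw [alt_htp, ← hop_eps_one hD hD' hH monotone_id, ← hop_eps_zero hD hD' hH id,
    ← col (θ := fun v => clampF m (min v q)) (θ' := id) hS,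
    ← col (θ := fun v => clampF m (min v q)) (θ' := id) hS]
  · exact congrArg₂ (· - ·)
      (e3 (dgn_fc hm (Or.inl rfl) q.zero_le) fun v => (eps_fc (j := 0) hm v).2.1)
      (e3 (dgn_fc hm (Or.inr rfl) le_rfl) fun v => (eps_fc (j := 0) hm v).2.2)
  · intro i j h1 h2
    obtain ⟨p, rfl⟩ : ∃ p, q = p + 1 := ⟨q - 1, by omega⟩
    exact e3 (fun v => (dgn_fc_lt hm h1 h2 v).1) fun v => (dgn_fc_lt hm h1 h2 v).2
  · intro i j h1 h2
    obtain ⟨p, rfl⟩ : ∃ p, q = p + 1 := ⟨q - 1, by omega⟩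
    exact e3 (fun v => (dgn_fc_gt hm h1 h2 v).1) fun v => (dgn_fc_gt hm h1 h2 v).2
  · intro j h1
    exact e3 (fun v => (dgn_fc hm (Or.inr rfl) h1.le v).trans (dgn_fc hm (Or.inl rfl) h1 v).symm)
      fun v => (eps_fc hm v).1

end Vale.Agent.P177.TA
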