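import Vale.Agent.P177.Hop
import Vale.Agent.P177.MC
import Vale.Agent.P177.TMainAux

/-! P177 module TMain: the derived exterior power is a homotopy invariant functor. -/

namespace Vale.Agent.P177

open Vale.Agent.P202

variable {A : Type*} [CommRing A] {c m : ℕ} {B B' B'' : Type} [Fintype B] [Fintype B']
  [Fintype B''] [DecidableEq B] [DecidableEq B'] [DecidableEq B''] {dg : B → ℕ} {dg' : B' → ℕ}
  {dg'' : B'' → ℕ} {D : Matrix B B A} {D' : Matrix B' B' A} {D'' : Matrix B'' B'' A}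

omit [Fintype B] [DecidableEq B] [DecidableEq B'] in
theorem TA.tmap_eq {F : Matrix B' B A} {y' : TI c m dg'} {y : TI c m dg} (h : (y.q : ℕ) = y'.q) :
    tmap c m dg dg' D' F y' y = cmp c (pull m dg dg' D' id F) y'.S y.S := if_pos (Fin.ext h)

omit [Fintype B] [DecidableEq B] [DecidableEq B'] in
theorem TA.tmap_ne {F : Matrix B' B A} {y' : TI c m dg'} {y : TI c m dg} (h : (y.q : ℕ) ≠ y'.q) :
    tmap c m dg dg' D' F y' y = 0 := if_neg fun e => h (congrArg _ e)

theorem tmat_map {A' : Type*} [CommRing A'] (f : A →+* A') :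
    (tmat c m dg D).map f = tmat c m dg (D.map f) := by
  ext y' y
  rw [Matrix.map_apply]
  by_cases h : (y.q : ℕ) = y'.q + 1
  · rw [TA.tmat_eq h rfl, TA.tmat_eq h rfl, TA.dF_apply, TA.dF_apply, map_sum]
    refine Finset.sum_congr rfl fun i _ => ?_
    rw [map_mul, map_pow, map_neg, map_one, ← Matrix.map_one f f.map_zero f.map_one, ← pull_map,
      ← cmp_map, Matrix.map_apply]
  · rw [TA.tmat_ne h, TA.tmat_ne h, map_zero]

theorem isMC_tmat (hD : IsMC D (zd dg)) : IsMC (tmat c m dg D) (zd (tdg c m dg)) := by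
  refine ⟨?_, fun a b h => ?_⟩
  · ext y'' y
    have hy := TA.q_le y
    by_cases h : (y.q : ℕ) = y''.q + 1 + 1
    · rw [TA.mul_res _ _ y'' y (q := y''.q + 1) (by omega) (TA.dF c m dg D (y''.q + 1))
        (TA.dF c m dg D (y''.q + 1 + 1)) y''.S y.S
        (fun y' e => by rw [TA.tmat_eq e e, TA.tmat_eq (by omega) h])
        (fun y' e => by rw [TA.tmat_ne e, zero_mul])
        (fun S k hk e => TA.dF_deg (by omega) hk e fun j hj => (TA.hj_iff y'' j).2 hj)
        fun S k hk e => TA.dF_big hk e]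
      exact TA.dF_dF hD (by omega) _ _
    · rw [Matrix.mul_apply]
      refine Finset.sum_eq_zero fun y' _ => ?_
      by_cases e : (y'.q : ℕ) = y''.q + 1
      · rw [TA.tmat_ne (y := y) (by omega), mul_zero]
      · rw [TA.tmat_ne e, zero_mul]
  · have e : (b.q : ℕ) = a.q + 1 := by_contra fun e => h (TA.tmat_ne e)
    show ((b.q : ℕ) : ℤ) = (a.q : ℕ) + 1
    omega

theorem isHomR_tmap (F : Matrix B' B A) :
    IsHomR (tmap c m dg dg' D' F) (tdg c m dg') (tdg c m dg) 0 := fun a b h => by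
  have e : (b.q : ℕ) = a.q := by_contra fun e => h (TA.tmap_ne e)
  show ((b.q : ℕ) : ℤ) = (a.q : ℕ) + 0
  omega

theorem TA.tmap_diag (w : B → A) : tmap c m dg dg D (Matrix.diagonal w) =
    Matrix.diagonal fun y => ∏ x ∈ y.S.1, w x.b := by
  ext y' y
  by_cases h : (y.q : ℕ) = y'.q
  · rw [TA.tmap_eq h, pull_id_diagonal, cmp_diagonal, Matrix.diagonal_apply, Matrix.diagonal_apply]
    exact if_congr ⟨TI.ext' (Fin.ext h.symm), congrArg _⟩ rfl rfl
  · rw [TA.tmap_ne h, Matrix.diagonal_apply_ne _ fun e => h (by rw [e])]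

theorem tmap_one : tmap c m dg dg D 1 = 1 := by
  rw [← Matrix.diagonal_one, TA.tmap_diag]
  simp only [Finset.prod_const_one, Matrix.diagonal_one]

theorem tmap_diagonal (z : A) (w : B → ℕ) :
    tmap c m dg dg D (Matrix.diagonal fun b => z ^ w b) =
      Matrix.diagonal fun y => z ^ twt c m dg w y := by
  rw [TA.tmap_diag]
  simp only [Finset.prod_pow_eq_pow_sum, twt]

theorem tmap_mul (hD' : IsMC D' (zd dg')) (hD'' : IsMC D'' (zd dg'')) {F' : Matrix B'' B' A}
    {F : Matrix B' B A} (hF' : IsHomR F' dg'' dg' 0) (hF : IsHomR F dg' dg 0)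
    (hc : F' * D' = D'' * F') :
    tmap c m dg' dg'' D'' F' * tmap c m dg dg' D' F = tmap c m dg dg'' D'' (F' * F) := by
  ext y'' y
  by_cases h : (y.q : ℕ) = y''.q
  · rw [TA.mul_res _ _ y'' y (TA.q_le y'') (cmp c (pull m dg' dg'' D'' id F'))
      (cmp c (pull m dg dg' D' id F)) y''.S y.S
      (fun y' e => by rw [TA.tmap_eq e, TA.tmap_eq (h.trans e.symm)])
      (fun y' e => by rw [TA.tmap_ne e, zero_mul])
      (fun S k hk e => TA.pid_zero ((TA.hj_iff y'' k).2 hk) e)
      (fun S k hk e => TA.pid_zero e fun e' => by have := (TA.hj_iff y k).1 e'; omega),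
      ← cmp_mul, pull_mul hD' hD'' hF' hF hc monotone_id monotone_id, TA.tmap_eq h]
    rfl
  · rw [Matrix.mul_apply, TA.tmap_ne h]
    refine Finset.sum_eq_zero fun y' _ => ?_
    by_cases e : (y'.q : ℕ) = y''.q
    · rw [TA.tmap_ne (y := y) (by omega), mul_zero]
    · rw [TA.tmap_ne e, zero_mul]

theorem tmap_chain (hD : IsMC D (zd dg)) (hD' : IsMC D' (zd dg')) {F : Matrix B' B A}
    (hF : IsHomR F dg' dg 0) (hc : F * D = D' * F) :
    tmap c m dg dg' D' F * tmat c m dg D = tmat c m dg' D' * tmap c m dg dg' D' F := by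
  ext y'' y
  have hy := TA.q_le y
  by_cases h : (y.q : ℕ) = y''.q + 1
  · rw [TA.mul_res _ _ y'' y (TA.q_le y'') (cmp c (pull m dg dg' D' id F))
      (TA.dF c m dg D (y''.q + 1)) y''.S y.S
      (fun y' e => by rw [TA.tmap_eq e, TA.tmat_eq (by omega) h])
      (fun y' e => by rw [TA.tmap_ne e, zero_mul])
      (fun S k hk e => TA.pid_zero ((TA.hj_iff y'' k).2 hk) e)
      (fun S k hk e => TA.dF_big hk e),
      TA.mul_res _ _ y'' y (q := y''.q + 1) (by omega) (TA.dF c m dg' D' (y''.q + 1))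
      (cmp c (pull m dg dg' D' id F)) y''.S y.S
      (fun y' e => by rw [TA.tmat_eq e e, TA.tmap_eq (h.trans e.symm)])
      (fun y' e => by rw [TA.tmat_ne e, zero_mul])
      (fun S k hk e => TA.dF_deg (by omega) hk e fun j hj => (TA.hj_iff y'' j).2 hj)
      (fun S k hk e => TA.pid_zero e fun e' => by have := (TA.hj_iff y k).1 e'; omega),
      TA.pid_dF hD hD' hF hc]
  · rw [Matrix.mul_apply, Matrix.mul_apply, Finset.sum_eq_zero, Finset.sum_eq_zero]
    · intro y' _
      by_cases e : (y'.q : ℕ) = y''.q + 1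
      · rw [TA.tmap_ne (y := y) (by omega), mul_zero]
      · rw [TA.tmat_ne e, zero_mul]
    · intro y' _
      by_cases e : (y'.q : ℕ) = y''.q
      · rw [TA.tmat_ne (y := y) (by omega), mul_zero]
      · rw [TA.tmap_ne e, zero_mul]

theorem tdg_le {n : ℕ} (hn : ∀ b, dg b ≤ n) (y : TI c m dg) : tdg c m dg y ≤ n * c := by
  have key : ∀ k ≤ (y.q : ℕ), k ≤ ∑ x ∈ y.S.1, (x.η (clampF m k) : ℕ) := fun k hk => by
    induction k with
    | zero => exact Nat.zero_le _
    | succ k ih =>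
      obtain ⟨x, hx, e⟩ := (TA.hj_iff y k).2 hk
      have h1 : clampF m k ≤ clampF m (k + 1) := min_le_min_right m k.le_succ
      exact Nat.succ_le_of_lt ((ih (Nat.le_of_succ_le hk)).trans_lt
        (Finset.sum_lt_sum (fun z _ => z.mono h1) ⟨x, hx, (x.mono h1).lt_of_ne e⟩))
  refine (key _ le_rfl).trans ((Finset.sum_le_card_nsmul _ _ n fun x _ =>
    ((x.rng _).1 ⟨_, rfl⟩).trans (hn _)).trans ?_)
  rw [y.S.2, smul_eq_mul, mul_comm]

theorem isEmpty_TI (h0 : ∀ b, dg b = 0) (hc : Fintype.card B < c) : IsEmpty (TI c m dg) := by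
  refine ⟨fun y => hc.not_ge ?_⟩
  have key : ∀ (x : SJ m dg) i, (x.η i : ℕ) = 0 := fun x i =>
    Nat.le_zero.1 (((x.rng _).1 ⟨i, rfl⟩).trans (h0 _).le)
  rw [← y.S.2]
  exact (Finset.card_le_univ _).trans (Fintype.card_le_of_injective SJ.b fun x x' e =>
    SJ.ext' (funext fun i => Fin.ext ((key x i).trans (key x' i).symm)) e)

end Vale.Agent.P177
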