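import Vale.Agent.P177.THtp

/-! P177: auxiliary lemmas for the universal filtered null-homotopies. -/

namespace Vale.Agent.P177.UD

open Vale.Agent.P202 Polynomial

universe u

variable {A : Type u} [CommRing A] {c m n : ℕ}

/-- The substitution `X_j ↦ x_j t`. -/
noncomputable def psi (x : Fin c → A) : MvPolynomial (Fin c) ℤ →+* A[X] :=
  MvPolynomial.eval₂Hom (Int.castRingHom A[X]) fun j => X * C (x j)

theorem psi_X (x : Fin c → A) (j : Fin c) : psi x (MvPolynomial.X j) = X * C (x j) :=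
  MvPolynomial.eval₂Hom_X' _ _ j

theorem psi_mem (x : Fin c → A) (f : MvPolynomial (Fin c) ℤ) :
    psi x f ∈ reesAlgebra (Ideal.span (Set.range x)) := by
  induction f using MvPolynomial.induction_on with
  | C a =>
    rw [eq_intCast MvPolynomial.C a, map_intCast]
    exact intCast_mem _ a
  | add p q hp hq =>
    rw [map_add]
    exact add_mem hp hq
  | mul_X p j hp =>
    rw [map_mul, psi_X]
    refine mul_mem hp ?_
    rw [X_mul_C, C_mul_X_eq_monomial]
    exact reesAlgebra.monomial_mem.2 (by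
      rw [pow_one]
      exact Ideal.subset_span ⟨j, rfl⟩)

theorem coeff_mem (x : Fin c → A) (f : MvPolynomial (Fin c) ℤ) (i j : ℕ) :
    (X ^ i * psi x f).coeff j ∈ Ideal.span (Set.range x) ^ (j - i) := by
  rw [coeff_X_pow_mul']
  split_ifs
  · exact psi_mem x f _
  · exact zero_mem _

theorem diag_rel {R : Type*} [CommRing R] {B : Type} [Fintype B] [DecidableEq B] {dg : B → ℕ}
    {D : Matrix B B R} (hD : IsMC D (zd dg)) (t : R) :
    (Matrix.diagonal fun b => t ^ dg b) * (t • D) = D * Matrix.diagonal fun b => t ^ dg b := by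
  ext a b
  rw [Matrix.diagonal_mul, Matrix.mul_diagonal, Matrix.smul_apply, smul_eq_mul]
  by_cases h : D a b = 0
  · rw [h, mul_zero, mul_zero, zero_mul]
  · have h1 := hD.homog a b h
    have h2 : dg b = dg a + 1 := by
      simp only [zd] at h1
      omega
    rw [h2]
    ring

theorem isHomR_diag {R : Type*} [CommRing R] {B : Type} [Fintype B] [DecidableEq B] {dg : B → ℕ}
    (w : B → R) : IsHomR (Matrix.diagonal w) dg dg 0 := by
  intro a b h
  by_cases hab : a = b
  · rw [hab, add_zero]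
  · exact absurd (Matrix.diagonal_apply_ne w hab) h

theorem main {B : Type} [Fintype B] [DecidableEq B] {dg : B → ℕ} (x : Fin c → A)
    {D0 : Matrix B B (MvPolynomial (Fin c) ℤ)} {D : Matrix B B A} (hD0 : IsMC D0 (zd dg))
    (hD : IsMC D (zd dg)) (hrel : D0.map (psi x) = (X : A[X]) • D.map C)
    (hnull : ∀ i, ∃ k : ℕ, NullHtp (tmat c m dg D0) (tdg c m dg) (MvPolynomial.X i ^ k)) :
    (∀ a b, tmat c m dg D a b ∈
      Ideal.span (Set.range x) ^ (twt c m dg dg b + 0 - twt c m dg dg a)) ∧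
    ∃ k : ℕ, ∀ i, ∃ H, IsHomR H (tdg c m dg) (tdg c m dg) (-1) ∧
      (∀ a b, H a b ∈ Ideal.span (Set.range x) ^ (twt c m dg dg b + k - twt c m dg dg a)) ∧
      tmat c m dg D * H + H * tmat c m dg D = x i ^ k • 1 := by
  have h1 := tmap_chain (c := c) (m := m) (isMC_map hD0 (psi x)) (isMC_map hD (C : A →+* A[X]))
    (isHomR_diag fun b => (X : A[X]) ^ dg b) (by
      rw [hrel]
      exact diag_rel (isMC_map hD (C : A →+* A[X])) X)
  rw [tmap_diagonal, ← tmat_map, ← tmat_map] at h1
  have h2 : ∀ a b, X ^ twt c m dg dg a * psi x (tmat c m dg D0 a b) =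
      C (tmat c m dg D a b) * X ^ twt c m dg dg b := by
    intro a b
    have h3 := congrFun (congrFun h1 a) b
    rwa [Matrix.diagonal_mul, Matrix.mul_diagonal, Matrix.map_apply, Matrix.map_apply] at h3
  generalize twt c m dg dg = W at h2 ⊢
  generalize tmat c m dg D = T at h2 ⊢
  generalize tmat c m dg D0 = T0 at h2 hnull
  generalize tdg c m dg = e at hnull ⊢
  refine ⟨fun a b => ?_, ?_⟩
  · have h3 := coeff_mem x (T0 a b) (W a) (W b)
    rwa [h2, coeff_C_mul_X_pow, if_pos rfl] at h3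
  choose k hk using hnull
  refine ⟨∑ i, k i, fun i => ?_⟩
  have hle : k i ≤ ∑ i, k i := Finset.single_le_sum (fun j _ => Nat.zero_le (k j))
    (Finset.mem_univ i)
  obtain ⟨H, hH, hH'⟩ := (hk i).mul (MvPolynomial.X i ^ (∑ i, k i - k i))
  rw [← pow_add, Nat.sub_add_cancel hle] at hH'
  generalize ∑ i, k i = K at hH'
  refine ⟨Matrix.of fun a b => (X ^ W a * psi x (H a b)).coeff (W b + K),
    fun a b h => hH a b fun h0 => h ?_, fun a b => coeff_mem x _ _ _, ?_⟩
  · rw [Matrix.of_apply, h0, map_zero, mul_zero, coeff_zero]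
  · ext a b
    have h3 := congrArg (fun f => (X ^ W a * psi x f).coeff (W b + K))
      (congrFun (congrFun hH' a) b)
    simp only [Matrix.add_apply, Matrix.mul_apply, map_add, map_sum, map_mul, mul_add,
      Finset.mul_sum, coeff_add, finsetSum_coeff] at h3
    rw [Matrix.add_apply, Matrix.mul_apply, Matrix.mul_apply]
    simp only [Matrix.of_apply]
    have h4 : ∀ y, (X ^ W a * (psi x (T0 a y) * psi x (H y b))).coeff (W b + K) =
        T a y * (X ^ W y * psi x (H y b)).coeff (W b + K) := by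
      intro y
      rw [← mul_assoc, h2, mul_assoc, coeff_C_mul]
    have h5 : ∀ y, (X ^ W a * (psi x (H a y) * psi x (T0 y b))).coeff (W b + K) =
        (X ^ W a * psi x (H a y)).coeff (W y + K) * T y b := by
      intro y
      have h6 : X ^ W y * (X ^ W a * (psi x (H a y) * psi x (T0 y b))) =
          X ^ W b * (X ^ W a * psi x (H a y) * C (T y b)) := by
        linear_combination (X ^ W a * psi x (H a y)) * h2 y b
      rw [← coeff_X_pow_mul _ (W y), h6, show W b + K + W y = W y + K + W b by omega,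
        coeff_X_pow_mul, coeff_mul_C]
    simp only [h4, h5] at h3
    rw [h3, Matrix.smul_apply, Matrix.smul_apply, smul_eq_mul, smul_eq_mul]
    by_cases hab : a = b
    · subst hab
      rw [Matrix.one_apply_eq, Matrix.one_apply_eq, mul_one, mul_one, map_pow, psi_X, mul_pow,
        ← mul_assoc, ← pow_add, ← C_pow, X_pow_mul, coeff_C_mul_X_pow, if_pos rfl]
    · rw [Matrix.one_apply_ne hab, Matrix.one_apply_ne hab, mul_zero, mul_zero, map_zero, mul_zero,
        coeff_zero]

theorem null_of_loc {B : Type} [Fintype B] [DecidableEq B] {dg : B → ℕ}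
    {R : Type} [CommRing R] {D0 : Matrix B B R} (hD0 : IsMC D0 (zd dg)) (g : R) {r : ℕ}
    (hr : r < c) (h : MHEq (D0.map (algebraMap R (Localization.Away g))) dg
      (0 : Matrix (Fin r) (Fin r) (Localization.Away g)) fun _ => 0)
    (hn : ∀ b, dg b ≤ n) (hm : n * c < m) :
    ∃ k : ℕ, NullHtp (tmat c m dg D0) (tdg c m dg) (g ^ k) := by
  have h1 := nullHtp_tmat (isMC_map hD0 _) hr h hn hm
  rw [← tmat_map] at h1
  obtain ⟨_, ⟨k, rfl⟩, h2⟩ :=
    exists_nullHtp_of_localization (Submonoid.powers g) (Localization.Away g) h1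
  exact ⟨k, h2⟩

theorem kos_smul {R : Type*} [CommRing R] (t : R) (y : Fin c → R) :
    kos (fun j => t * y j) = t • kos y := by
  ext S S'
  rw [Matrix.smul_apply, smul_eq_mul, kos, kos, Finset.mul_sum]
  refine Finset.sum_congr rfl fun j _ => ?_
  split_ifs
  · rw [mul_smul_comm]
  · rw [mul_zero]

theorem kpM_smul {R : Type*} [CommRing R] (t : R) (y : Fin c → R) :
    kpM (fun j => t * y j) = t • kpM y := by
  rw [kpM, kpM, Matrix.fromBlocks_smul, kos_smul, smul_zero, smul_zero, smul_zero]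

theorem twoM_smul {R : Type*} [CommRing R] (t : R) (y : Fin c → R) :
    twoM (fun j => t * y j) = t • twoM y := by
  ext a b
  rw [Matrix.smul_apply, smul_eq_mul]
  rcases a with _ | a <;> rcases b with _ | b <;> simp only [twoM, mul_zero]

theorem mheq_kpM {R : Type*} [CommRing R] (y : Fin c → R) {i : Fin c} (hi : IsUnit (y i)) :
    MHEq (kpM y) (kpDg c) (0 : Matrix (Fin (c - 1)) (Fin (c - 1)) R) fun _ => 0 :=
  mheq_fromBlocks_null' (nullHtp_kos y ((Ideal.eq_top_iff_one _).1
    (Ideal.eq_top_of_isUnit_mem _ (Ideal.subset_span ⟨i, rfl⟩) hi)))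

theorem mheq_two {R : Type u} [CommRing R] (y : Fin c → R) {i : Fin c} (hi : IsUnit (y i)) :
    ∃ r < c, MHEq (twoM y) (twoDg c) (0 : Matrix (Fin r) (Fin r) R) fun _ => 0 := by
  obtain ⟨E, hE, h⟩ := mheq_cancel (isMC_twoM y) (a₀ := some i) (b₀ := none) hi
  have h0 : (fun a : {a // a ≠ some i ∧ a ≠ none} => twoDg c a.1) = fun _ => 0 := by
    funext ⟨a, ha⟩
    rcases a with _ | a
    · exact absurd rfl ha.2
    · rfl
  rw [h0] at hE h
  have hE0 : E = 0 := by
    ext a b
    by_contra h1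
    have h2 := hE.homog a b h1
    simp only [zd] at h2
    omega
  subst hE0
  refine ⟨_, ?_, h.trans (mheq_reindex (Fintype.equivFin _).symm)⟩
  refine (Fintype.card_lt_of_injective_of_notMem
    (fun a : {a // a ≠ some i ∧ a ≠ none} => a.1.getD i) ?_ (b := i) ?_).trans_eq
    (Fintype.card_fin c)
  · rintro ⟨_ | a, ha⟩ ⟨_ | b, hb⟩ hab
    · rfl
    · exact absurd rfl ha.2
    · exact absurd rfl hb.2
    · exact Subtype.ext (congrArg some hab)
  · rintro ⟨⟨_ | a, ha⟩, h1⟩
    · exact ha.2 rfl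
    · exact ha.1 (congrArg some h1)

theorem kp_main (x : Fin c → A) (hc : 0 < c) (hn : c ≤ n) (hm : n * c < m) :
    (∀ a b, tmat c m (kpDg c) (kpM x) a b ∈ Ideal.span (Set.range x) ^
      (twt c m (kpDg c) (kpDg c) b + 0 - twt c m (kpDg c) (kpDg c) a)) ∧
    ∃ k : ℕ, ∀ i, ∃ H, IsHomR H (tdg c m (kpDg c)) (tdg c m (kpDg c)) (-1) ∧
      (∀ a b, H a b ∈ Ideal.span (Set.range x) ^
        (twt c m (kpDg c) (kpDg c) b + k - twt c m (kpDg c) (kpDg c) a)) ∧
      tmat c m (kpDg c) (kpM x) * H + H * tmat c m (kpDg c) (kpM x) = x i ^ k • 1 := by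
  refine main x (isMC_kpM MvPolynomial.X) (isMC_kpM x) ?_ fun i => ?_
  · rw [kpM_map, kpM_map, ← kpM_smul]
    simp only [psi_X]
  · refine null_of_loc (n := n) (isMC_kpM _) _ (Nat.sub_lt hc one_pos) ?_ ?_ hm
    · rw [kpM_map]
      exact mheq_kpM _ (i := i) (IsLocalization.Away.algebraMap_isUnit _)
    · rintro (S | j)
      · exact ((Finset.card_le_univ S).trans_eq (Fintype.card_fin c)).trans hn
      · exact Nat.zero_le n

theorem two_main (x : Fin c → A) (hn : 1 ≤ n) (hm : n * c < m) :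
    (∀ a b, tmat c m (twoDg c) (twoM x) a b ∈ Ideal.span (Set.range x) ^
      (twt c m (twoDg c) (twoDg c) b + 0 - twt c m (twoDg c) (twoDg c) a)) ∧
    ∃ k : ℕ, ∀ i, ∃ H, IsHomR H (tdg c m (twoDg c)) (tdg c m (twoDg c)) (-1) ∧
      (∀ a b, H a b ∈ Ideal.span (Set.range x) ^
        (twt c m (twoDg c) (twoDg c) b + k - twt c m (twoDg c) (twoDg c) a)) ∧
      tmat c m (twoDg c) (twoM x) * H + H * tmat c m (twoDg c) (twoM x) = x i ^ k • 1 := by
  refine main x (isMC_twoM MvPolynomial.X) (isMC_twoM x) ?_ fun i => ?_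
  · rw [twoM_map, twoM_map, ← twoM_smul]
    simp only [psi_X]
  · obtain ⟨r, hr, h⟩ := mheq_two (fun j => algebraMap (MvPolynomial (Fin c) ℤ)
      (Localization.Away (MvPolynomial.X i : MvPolynomial (Fin c) ℤ)) (MvPolynomial.X j)) (i := i)
      (IsLocalization.Away.algebraMap_isUnit _)
    refine null_of_loc (n := n) (isMC_twoM _) _ hr ?_ ?_ hm
    · rw [twoM_map]
      exact h
    · rintro (_ | j)
      · exact hn
      · exact Nat.zero_le n

theorem mul_mem_pow {J : Ideal A} {a z : A} {p q r : ℕ} (ha : a ∈ J ^ p) (hz : z ∈ J ^ q)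
    (h : r ≤ p + q) : a * z ∈ J ^ r := by
  refine Ideal.pow_le_pow_right h ?_
  rw [pow_add]
  exact Ideal.mul_mem_mul ha hz

end Vale.Agent.P177.UD
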