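import Vale.Agent.P177.Core
import Vale.Agent.P202.CM

/-! P177: auxiliary lemmas for Serre's filtration argument. -/

namespace Vale.Agent.P177.UnS

open Vale.Agent.P202

universe u

section Alg
variable {A : Type u} [CommRing A] {ι : Type} [Fintype ι] [DecidableEq ι] {c : ℕ}

theorem mem_smul_top (I : Ideal A) (v : ι → A) :
    v ∈ (I • ⊤ : Submodule A (ι → A)) ↔ ∀ b, v b ∈ I := by
  constructor
  · intro hv
    refine Submodule.smul_induction_on hv (fun r hr w _ S => ?_) fun w w' hw hw' S => ?_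
    · exact I.mul_mem_right _ hr
    · exact I.add_mem (hw S) (hw' S)
  · intro hv
    rw [pi_eq_sum_univ' v]
    exact Submodule.sum_mem _ fun S _ => Submodule.smul_mem_smul (hv S) Submodule.mem_top

/-- The filtration of the cycles. -/
def cycF (J : Ideal A) (W : ι → ℕ) (D : Matrix ι ι A) : J.Filtration (ι → A) where
  N n := (Submodule.pi Set.univ fun b => J ^ (n - W b)) ⊓ LinearMap.ker D.mulVecLin
  mono n v hv := ⟨fun b hb => Ideal.pow_le_pow_right (by omega) (hv.1 b hb), hv.2⟩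
  smul_le n := Submodule.smul_le.2 fun r hr v hv => ⟨fun b hb => by
    have h1 : r * v b ∈ J ^ (n - W b + 1) := by
      rw [pow_succ']
      exact Ideal.mul_mem_mul hr (hv.1 b hb)
    exact Ideal.pow_le_pow_right (by omega) h1, Submodule.smul_mem _ r hv.2⟩

theorem cycF_stable [IsNoetherianRing A] (J : Ideal A) (W : ι → ℕ) (D : Matrix ι ι A) :
    (cycF J W D).Stable := by
  let G : J.Filtration (ι → A) :=
    { N := fun n => J ^ (n - ∑ b, W b) • ⊤
      mono := fun n => Submodule.smul_mono_left (Ideal.pow_le_pow_right (by omega))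
      smul_le := fun n => by
        rw [smul_smul, ← pow_succ']
        exact Submodule.smul_mono_left (Ideal.pow_le_pow_right (by omega)) }
  have hG : G.Stable := ⟨∑ b, W b, fun n hn => by
    simp only [G]
    rw [smul_smul, ← pow_succ', show n + 1 - ∑ b, W b = n - ∑ b, W b + 1 by omega]⟩
  refine hG.of_le fun n v hv => (mem_smul_top _ _).2 fun b => ?_
  have h1 : W b ≤ ∑ b, W b := Finset.single_le_sum (fun _ _ => Nat.zero_le _) (Finset.mem_univ b)
  exact Ideal.pow_le_pow_right (by omega) (hv.1 b trivial)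

omit [Fintype ι] [DecidableEq ι] in
theorem pow_induction (x : Fin c → A) (k : ℕ) {P : Submodule A A}
    (h : ∀ i, ∀ s ∈ Ideal.span (Set.range x) ^ (c * k + 1 - k), k ≤ c * k + 1 → x i ^ k * s ∈ P) :
    Ideal.span (Set.range x) ^ (c * k + 1) ≤ P := by
  classical
  intro y hy
  obtain ⟨f, hf, rfl⟩ := exists_homog_eval_eq x _ hy
  rw [f.as_sum, map_sum]
  refine Submodule.sum_mem _ fun m hm => ?_
  have h1 : m.degree = c * k + 1 := by
    exact_mod_cast mem_homog.1 hf m (MvPolynomial.mem_support_iff.1 hm)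
  obtain ⟨i, hi⟩ : ∃ i, k ≤ m i := by
    by_contra! h2
    have h3 : ∑ i, m i ≤ ∑ _i : Fin c, k := Finset.sum_le_sum fun i _ => (h2 i).le
    rw [← Finsupp.degree_eq_sum, Finset.sum_const, Finset.card_univ, Fintype.card_fin,
      smul_eq_mul] at h3
    omega
  obtain ⟨m', rfl⟩ := exists_add_of_le (Finsupp.single_le_iff.2 hi)
  rw [map_add, Finsupp.degree_single] at h1
  have h2 := eval_mem_pow_of_homog x
    (monomial_mem_homog m' (f.coeff (Finsupp.single i k + m')))
  rw [MvPolynomial.monomial_single_add, map_mul, map_pow, MvPolynomial.eval_X]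
  exact h i _ (by rwa [show c * k + 1 - k = m'.degree by omega]) (by omega)

theorem exact_deep [IsNoetherianRing A] (x : Fin c → A) {D : Matrix ι ι A} {W : ι → ℕ} {k : ℕ}
    (hH : ∀ i, ∃ H : Matrix ι ι A, (∀ a b n, ∀ z ∈ Ideal.span (Set.range x) ^ (n - W b),
      H a b * z ∈ Ideal.span (Set.range x) ^ (n + k - W a)) ∧
      D * H + H * D = x i ^ k • (1 : Matrix ι ι A)) :
    ∃ N₀ : ℕ, ∀ N ≥ N₀, ∀ v : ι → A, (∀ b, v b ∈ Ideal.span (Set.range x) ^ (N - W b)) →
      D.mulVec v = 0 →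
      ∃ w : ι → A, (∀ b, w b ∈ Ideal.span (Set.range x) ^ (N - W b)) ∧ D.mulVec w = v := by
  set J := Ideal.span (Set.range x) with hJ
  obtain ⟨n₀, h₀⟩ := (cycF_stable J W D).exists_pow_smul_eq_of_ge
  refine ⟨n₀ + (c * k + 1), fun N hN v hv hd => ?_⟩
  obtain ⟨n, rfl⟩ : ∃ n, N = n + (c * k + 1) := ⟨N - (c * k + 1), by omega⟩
  have h1 : v ∈ (cycF J W D).N (n + (c * k + 1)) := ⟨fun b _ => hv b, hd⟩
  rw [h₀ _ (by omega), show n + (c * k + 1) - n₀ = (c * k + 1) + (n - n₀) by omega, pow_add,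
    mul_smul, ← h₀ n (by omega)] at h1
  have h2 : v ∈ (Submodule.pi Set.univ fun b => J ^ (n + (c * k + 1) - W b)).map D.mulVecLin := by
    refine Submodule.smul_le.2 (fun r hr z hz => ?_) h1
    refine pow_induction x k (P := Submodule.comap (LinearMap.toSpanSingleton A _ z)
      ((Submodule.pi Set.univ fun b => J ^ (n + (c * k + 1) - W b)).map D.mulVecLin))
      (fun i s hs hk => ?_) hr
    obtain ⟨H, h3, h4⟩ := hH i
    refine ⟨s • H.mulVec z, fun a _ => ?_, ?_⟩
    · have h5 : H.mulVec z a ∈ J ^ (n + k - W a) :=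
        Ideal.sum_mem _ fun b _ => h3 a b n _ (hz.1 b trivial)
      have h6 := Ideal.mul_mem_mul hs h5
      rw [← pow_add] at h6
      exact Ideal.pow_le_pow_right (by omega) h6
    · have h5 : D.mulVec z = 0 := hz.2
      have h6 := congrArg (fun M : Matrix ι ι A => M.mulVec z) h4
      simp only [Matrix.add_mulVec, ← Matrix.mulVec_mulVec, h5, Matrix.mulVec_zero, add_zero,
        Matrix.smul_mulVec, Matrix.one_mulVec] at h6
      rw [map_smul, Matrix.mulVecLin_apply, h6, LinearMap.toSpanSingleton_apply, smul_smul,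
        mul_comm]
  obtain ⟨w, h3, h4⟩ := h2
  exact ⟨w, fun b => h3 b trivial, h4⟩

end Alg

section Fun
variable {T : Type u} [CommRing T] {δ : AddFun T} {A : Type u} [CommRing A] [Algebra T A]
  {ι : Type} [Fintype ι] {c : ℕ}

theorem rm_top_ideal (I : Ideal A) :
    (δ.rm ⊤ (I.restrictScalars T) ↔ δ.mem (A ⧸ I)) ∧
      (δ.mem (A ⧸ I) → δ.rv ⊤ (I.restrictScalars T) = δ.val (A ⧸ I)) :=
  δ.rm_iff_of_surj ((Ideal.Quotient.mkₐ T I).toLinearMap ∘ₗ (⊤ : Submodule T A).subtype)
    (fun y => by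
      obtain ⟨a, rfl⟩ := Ideal.Quotient.mk_surjective y
      exact ⟨⟨a, trivial⟩, rfl⟩)
    fun _ => Ideal.Quotient.eq_zero_iff_mem

theorem isTotPair_conc {D : Matrix ι ι A} {deg : ι → ℤ} (hD : IsMC D deg)
    {F F' : ι → Submodule T A} (hle : ∀ a, F' a ≤ F a)
    (h : ∀ a b, ∀ z ∈ F b, D a b * z ∈ F a) (h' : ∀ a b, ∀ z ∈ F' b, D a b * z ∈ F' a) :
    IsTotPair D deg (0 : A →ₗ[A] A) (fun a => conc (F a)) (fun a => conc (F' a)) := by
  refine ⟨hD.homog, fun a b x => by rw [hD.sq, Matrix.zero_apply, zero_smul], fun _ => rfl,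
    fun a => ⟨fun _ => rfl, isFam_conc _, isFam_conc _, fun i x hx => ?_⟩,
    fun a b i x hx => ?_, fun a b i x hx => ?_⟩
  · rw [br_mem_conc] at hx ⊢
    exact ⟨hle a hx.1, hx.2⟩
  · rw [br_mem_conc] at hx ⊢
    exact ⟨h a b x hx.1, fun hi => by rw [hx.2 hi, smul_zero]⟩
  · rw [br_mem_conc] at hx ⊢
    exact ⟨h' a b x hx.1, fun hi => by rw [hx.2 hi, smul_zero]⟩

theorem cyc_le_bdy {D : Matrix ι ι A} {dg : ι → ℕ} (hD : IsMC D (zd dg))
    {F : ι → Submodule T A} (h : ∀ v : ι → A, (∀ b, v b ∈ F b) → D.mulVec v = 0 →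
      ∃ w : ι → A, (∀ b, w b ∈ F b) ∧ D.mulVec w = v) (i : ℤ) :
    cyc (cx D dg A) (totFam (zd dg) fun a => conc (F a)) (fam dg ⊥) i ≤
      bdy (cx D dg A) (totFam (zd dg) fun a => conc (F a)) (fam dg ⊥) i := by
  intro v hv
  obtain ⟨h1, h2⟩ := mem_cyc.1 hv
  rw [fam_bot, Submodule.mem_bot, cx_eq_mulVec] at h2
  simp only [mem_totFam, br_mem_conc] at h1
  obtain ⟨w, h3, h4⟩ := h v (fun b => (h1 b).1) h2
  refine mem_bdy.2 ⟨fun b => if zd dg b = i + 1 then w b else 0, mem_totFam.2 fun b => ?_, ?_⟩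
  · rw [br_mem_conc]
    split_ifs with hb
    · exact ⟨h3 b, fun h5 => absurd (by rw [hb, sub_self]) h5⟩
    · exact ⟨zero_mem _, fun _ => rfl⟩
  · rw [fam_bot, Submodule.mem_bot, cx_eq_mulVec, sub_eq_zero]
    funext a
    by_cases ha : zd dg a = i
    · rw [← h4]
      refine Finset.sum_congr rfl fun b _ => ?_
      by_cases hb : D a b = 0
      · simp only [hb, zero_mul]
      · simp only [hD.homog a b hb, ha, if_true]
    · rw [(h1 a).2 fun h5 => ha (sub_eq_zero.1 h5).symm]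
      refine (Finset.sum_eq_zero fun b _ => ?_).symm
      by_cases hb : D a b = 0
      · simp only [hb, zero_mul]
      · simp only [hD.homog a b hb, add_left_inj, ha, if_false, mul_zero]

theorem rm_graded (x : Fin c → A) (hx : QuasiReg x)
    (hmem : δ.mem (A ⧸ Ideal.span (Set.range x))) (j : ℕ) :
    δ.rm ((Ideal.span (Set.range x) ^ j).restrictScalars T)
      ((Ideal.span (Set.range x) ^ (j + 1)).restrictScalars T) ∧
    δ.rv ((Ideal.span (Set.range x) ^ j).restrictScalars T)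
      ((Ideal.span (Set.range x) ^ (j + 1)).restrictScalars T) =
      ((c + j - 1).choose j : ℝ) * δ.val (A ⧸ Ideal.span (Set.range x)) := by
  classical
  set J := Ideal.span (Set.range x) with hJ
  let S := (Finset.univ : Finset (Fin c)).finsuppAntidiag j
  have hS : ∀ m, m ∈ S ↔ m.degree = j := fun m => by
    simp [S, Finset.mem_finsuppAntidiag, Finsupp.degree_eq_sum]
  let ψ : (S → A) →ₗ[A] MvPolynomial (Fin c) A :=
    Fintype.linearCombination A fun m : S => MvPolynomial.monomial m.1 1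
  have hψ : ∀ v, ψ v = ∑ m : S, MvPolynomial.monomial m.1 (v m) := fun v => by
    simp only [ψ, Fintype.linearCombination_apply, MvPolynomial.smul_monomial, smul_eq_mul, mul_one]
  have h1 : ∀ v (m : S), (ψ v).coeff m.1 = v m := fun v m => by
    rw [hψ, MvPolynomial.coeff_sum, Finset.sum_eq_single m]
    · rw [MvPolynomial.coeff_monomial, if_pos rfl]
    · intro m' _ hm
      rw [MvPolynomial.coeff_monomial, if_neg fun h => hm (Subtype.ext h)]
    · simp
  have h2 : ∀ v m, m ∉ S → (ψ v).coeff m = 0 := fun v m hm => by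
    rw [hψ, MvPolynomial.coeff_sum]
    exact Finset.sum_eq_zero fun m' _ => by
      rw [MvPolynomial.coeff_monomial, if_neg fun h : m'.1 = m => hm (h ▸ m'.2)]
  have h3 : ∀ v, ψ v ∈ homog A c j := fun v => mem_homog.2 fun m hm => by
    by_contra h
    exact hm (h2 v m fun h' => h (by exact_mod_cast (hS m).1 h'))
  obtain ⟨p1, p2⟩ := AddFun.rm_pi (δ := δ) (ι := S) (fun _ => ⊤) (fun _ => J.restrictScalars T)
    fun _ => (rm_top_ideal J).1.2 hmem
  obtain ⟨φ, hφ⟩ : ∃ φ : (S → A) →ₗ[T] A, ∀ v, φ v = MvPolynomial.eval x (ψ v) :=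
    ⟨((MvPolynomial.aeval x).toLinearMap ∘ₗ ψ).restrictScalars T, fun _ => rfl⟩
  obtain ⟨p3, p4⟩ := AddFun.rv_eq_of_map (δ := δ) φ
    (P := Submodule.pi Set.univ fun _ : S => ⊤)
    (Q := Submodule.pi Set.univ fun _ : S => J.restrictScalars T)
    (P' := (J ^ j).restrictScalars T) (Q' := (J ^ (j + 1)).restrictScalars T)
    (fun v _ => by rw [hφ]; exact eval_mem_pow_of_homog x (h3 v)) (fun v hv => by
      have h4 : ψ v ∈ homogIn c J j := mem_homogIn.2 ⟨h3 v, fun m => by
        by_cases hm : m ∈ S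
        · rw [h1 v ⟨m, hm⟩]
          exact hv.2 _ trivial
        · rw [h2 v m hm]
          exact zero_mem _⟩
      have h5 := CMAux.eval_mem x (CMAux.homogIn_iff.1 h4)
      rwa [Finset.coe_univ, Set.image_univ, ← pow_succ', ← hφ] at h5) (fun y hy => by
      obtain ⟨f, hf, rfl⟩ := exists_homog_eval_eq x j hy
      have h4 : ψ (fun m => f.coeff m.1) = f := by
        ext m
        by_cases hm : m ∈ S
        · exact h1 _ ⟨m, hm⟩
        · rw [h2 _ m hm]
          by_contra h5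
          exact hm ((hS m).2 (by exact_mod_cast mem_homog.1 hf m (Ne.symm h5)))
      refine ⟨fun m => f.coeff m.1, fun _ _ => trivial, ?_⟩
      rw [hφ, h4, sub_self]
      exact zero_mem _) (fun v _ hv m _ => by
      rw [hφ] at hv
      have h4 := (mem_homogIn.1 (hx j (ψ v) (h3 v) hv)).2 m.1
      rwa [h1] at h4)
  refine ⟨p3.1 p1, ?_⟩
  rw [← p4 p1, p2, (rm_top_ideal J).2 hmem, Finset.sum_const, Finset.card_univ, Fintype.card_coe,
    Finset.card_finsuppAntidiag_nat_eq_choose, Finset.card_univ, Fintype.card_fin, nsmul_eq_mul]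

end Fun

end Vale.Agent.P177.UnS
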