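import Vale.Agent.P177.THtp
import Vale.Agent.P177.UnivAuxD
import Vale.Agent.P202.SerreS1
import Vale.Agent.P202.CM
import Vale.Agent.P177.UnivAuxS

/-! P177 module Univ: Euler characteristics of universal complexes (Serre's filtration
argument). -/

namespace Vale.Agent.P177

open Vale.Agent.P202 IsLocalRing

universe u

/-- The matrix respects the filtration by powers of `J` with the weights `W`, shifted by `k`. -/
def Filt {A : Type*} [CommRing A] {ι : Type} (J : Ideal A) (W : ι → ℕ) (k : ℕ)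
    (D : Matrix ι ι A) : Prop := ∀ a b n, ∀ z ∈ J ^ (n - W b), D a b * z ∈ J ^ (n + k - W a)

section Serre
variable {T : Type u} [CommRing T] {δ : AddFun T} {A : Type u} [CommRing A] [IsNoetherianRing A]
  [Algebra T A] {ι : Type} [Fintype ι] [DecidableEq ι] {D : Matrix ι ι A} {dg W : ι → ℕ} {c : ℕ}

/-- Serre's argument: the deep steps of the filtration are exact (Artin-Rees; compare
`P202/SerreS1.lean`, theorem `acyclic`). -/
theorem univ_eul (x : Fin c → A) (hD : IsMC D (zd dg))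
    (hF : Filt (Ideal.span (Set.range x)) W 0 D) {k : ℕ}
    (hH : ∀ i, ∃ H : Matrix ι ι A, IsHomR H dg dg (-1) ∧ Filt (Ideal.span (Set.range x)) W k H ∧
      D * H + H * D = x i ^ k • (1 : Matrix ι ι A))
    (hmem : ∀ j : ℕ, δ.mem (A ⧸ Ideal.span (Set.range x) ^ j)) :
    ∃ N₀ : ℕ, ∀ N ≥ N₀, δ.MFin D dg A ∧ δ.meul D dg A =
      ∑ b, (-1 : ℝ) ^ dg b * δ.val (A ⧸ Ideal.span (Set.range x) ^ (N - W b)) := by
  obtain ⟨N₀, h⟩ := UnS.exact_deep x (D := D) (W := W) (k := k) fun i =>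
    (hH i).imp fun H hH => hH.2
  refine ⟨N₀, fun N hN => ?_⟩
  let F : ι → Submodule T A := fun b => (Ideal.span (Set.range x) ^ (N - W b)).restrictScalars T
  have hc : ∀ a b, ∀ z ∈ F b, D a b * z ∈ F a := fun a b z hz => hF a b N z hz
  have p1 := UnS.isTotPair_conc hD (F := fun _ => ⊤) (F' := F) (fun _ => le_top)
    (fun _ _ _ _ => trivial) hc
  have p2 := UnS.isTotPair_conc hD (F := F) (F' := fun _ => ⊥) (fun _ => bot_le) hc
    fun _ _ z hz => by rw [(Submodule.mem_bot T).1 hz, mul_zero]; exact zero_mem _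
  have f0 := fun b => AddFun.finH_eul_conc (δ := δ) (B := A)
    ((UnS.rm_top_ideal (Ideal.span (Set.range x) ^ (N - W b))).1.2 (hmem _))
  obtain ⟨f1, e1⟩ := AddFun.finH_eul_tot (δ := δ) p1 fun b => (f0 b).1
  obtain ⟨f2, e2⟩ := AddFun.finH_of_exact (δ := δ) (UnS.cyc_le_bdy (F := F) hD (h N hN))
  refine ⟨AddFun.FinH.mid p1.isPair p2.isPair f1 f2, ?_⟩
  refine (AddFun.eul_add p1.isPair p2.isPair f1 f2).trans ?_
  rw [e1, e2, add_zero]
  refine Finset.sum_congr rfl fun b _ => ?_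
  rw [(f0 b).2, (UnS.rm_top_ideal _).2 (hmem _), zd, sgn_natCast]
  push_cast
  rfl

/-- Powers of a quasi-regular ideal. -/
theorem val_quot_pow (x : Fin c → A) (hc : 0 < c) (hx : QuasiReg x)
    (hmem : δ.mem (A ⧸ Ideal.span (Set.range x))) (j : ℕ) :
    δ.mem (A ⧸ Ideal.span (Set.range x) ^ j) ∧ δ.val (A ⧸ Ideal.span (Set.range x) ^ j) =
      ((j + c - 1).choose c : ℝ) * δ.val (A ⧸ Ideal.span (Set.range x)) := by
  have key : δ.rm ⊤ ((Ideal.span (Set.range x) ^ j).restrictScalars T) ∧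
      δ.rv ⊤ ((Ideal.span (Set.range x) ^ j).restrictScalars T) =
        ((j + c - 1).choose c : ℝ) * δ.val (A ⧸ Ideal.span (Set.range x)) := by
    induction j with
    | zero =>
      rw [Nat.choose_eq_zero_of_lt (by omega), Nat.cast_zero, zero_mul]
      exact δ.rm_of_le fun y _ => by simp
    | succ j ih =>
      obtain ⟨h1, h2⟩ := UnS.rm_graded x hx hmem j
      have h3 := AddFun.rm_trans ih.1 h1
      refine ⟨h3, ?_⟩
      rw [AddFun.rv_add (B := (Ideal.span (Set.range x) ^ j).restrictScalars T)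
        (fun y hy => Ideal.pow_le_pow_right (Nat.le_succ j) hy) le_top h3, ih.2, h2, ← add_mul]
      obtain ⟨c, rfl⟩ : ∃ c', c = c' + 1 := ⟨c - 1, by omega⟩
      rw [show j + 1 + (c + 1) - 1 = j + c + 1 by omega, show j + (c + 1) - 1 = j + c by omega,
        show c + 1 + j - 1 = j + c by omega, Nat.choose_succ_succ', Nat.choose_symm_add,
        Nat.cast_add, add_comm]
  have h := (UnS.rm_top_ideal _).1.1 key.1
  exact ⟨h, ((UnS.rm_top_ideal _).2 h).symm.trans key.2⟩
end Serre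

section Data
variable {A : Type u} [CommRing A] {c m n : ℕ}

/-- The universal filtered null-homotopies for the Koszul complex plus a free module
(work over `MvPolynomial (Fin c) ℤ`, invert a variable, clear denominators, take homogeneous
components, specialise). -/
theorem kp_data (x : Fin c → A) (hc : 0 < c) (hn : c ≤ n) (hm : n * c < m) :
    Filt (Ideal.span (Set.range x)) (twt c m (kpDg c) (kpDg c)) 0 (tmat c m (kpDg c) (kpM x)) ∧
    ∃ k : ℕ, ∀ i, ∃ H, IsHomR H (tdg c m (kpDg c)) (tdg c m (kpDg c)) (-1) ∧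
      Filt (Ideal.span (Set.range x)) (twt c m (kpDg c) (kpDg c)) k H ∧
      tmat c m (kpDg c) (kpM x) * H + H * tmat c m (kpDg c) (kpM x) = x i ^ k • 1 := by
  obtain ⟨h1, k, h2⟩ := UD.kp_main x hc hn hm
  refine ⟨fun a b N z hz => UD.mul_mem_pow (h1 a b) hz (by omega), k, fun i => ?_⟩
  obtain ⟨H, h3, h4, h5⟩ := h2 i
  exact ⟨H, h3, fun a b N z hz => UD.mul_mem_pow (h4 a b) hz (by omega), h5⟩

/-- The same for the two term complex. -/
theorem two_data (x : Fin c → A) (hc : 0 < c) (hn : 1 ≤ n) (hm : n * c < m) :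
    Filt (Ideal.span (Set.range x)) (twt c m (twoDg c) (twoDg c)) 0
      (tmat c m (twoDg c) (twoM x)) ∧
    ∃ k : ℕ, ∀ i, ∃ H, IsHomR H (tdg c m (twoDg c)) (tdg c m (twoDg c)) (-1) ∧
      Filt (Ideal.span (Set.range x)) (twt c m (twoDg c) (twoDg c)) k H ∧
      tmat c m (twoDg c) (twoM x) * H + H * tmat c m (twoDg c) (twoM x) = x i ^ k • 1 := by
  have _ := hc
  obtain ⟨h1, k, h2⟩ := UD.two_main x hn hm
  refine ⟨fun a b N z hz => UD.mul_mem_pow (h1 a b) hz (by omega), k, fun i => ?_⟩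
  obtain ⟨H, h3, h4, h5⟩ := h2 i
  exact ⟨H, h3, fun a b N z hz => UD.mul_mem_pow (h4 a b) hz (by omega), h5⟩
end Data

end Vale.Agent.P177
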